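import Mathlib

/-!
# Row 329 (S0587 De Giorgi in `ℝ⁸`, S0588 stable Allen-Cahn in `ℝ⁷`).  SHARED DEFINITIONS.   Head: helper35, deputy: helper20.

Everything is stated in the very words of the two frozen statements (pure Mathlib: `Laplacian.laplacian`, `fderiv`, `Real.tanh`,
`EuclideanSpace ℝ (Fin n)`), so that the exits plug into `S0587.lean` / `S0588.lean` by `exact`.
Every file of the row imports this file and works in `namespace Claimed.Agent.R329`, own prefix for own names.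
-/

set_option autoImplicit false
open MeasureTheory Metric Set Filter

namespace Claimed.Agent.R329

/-- the ambient space -/
abbrev DgE (n : ℕ) : Type := EuclideanSpace ℝ (Fin n)

/-- `u` is an entire `C²` solution of `Δ u = u³ - u` with values in `[-1, 1]`. -/
structure DgSol (n : ℕ) (u : DgE n → ℝ) : Prop where
  smooth : ContDiff ℝ 2 u
  range : ∀ x, u x ∈ Set.Icc (-1 : ℝ) 1
  pde : ∀ x, Laplacian.laplacian u x = u x ^ 3 - u x

/-- the second variation at `v`, in the words of S0588 -/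
noncomputable def dgQ (n : ℕ) (v φ : DgE n → ℝ) : ℝ :=
  ∫ x, (‖fderiv ℝ φ x‖ ^ 2 + (3 * v x ^ 2 - 1) * φ x ^ 2)

/-- stability, in the words of S0588 -/
def DgStable (n : ℕ) (v : DgE n → ℝ) : Prop :=
  ∀ φ : DgE n → ℝ, ContDiff ℝ 1 φ → HasCompactSupport φ →
    0 ≤ ∫ x, (‖fderiv ℝ φ x‖ ^ 2 + (3 * v x ^ 2 - 1) * φ x ^ 2)

/-- the planar transition layers, in the words of S0588 -/
def DgPlanar (n : ℕ) (v : DgE n → ℝ) : Prop :=
  ∃ a : DgE n, ‖a‖ = 1 ∧ ∃ b : ℝ, ∀ x, v x = Real.tanh ((inner ℝ a x - b) / Real.sqrt 2)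

/-- the conclusion of S0588 in dimension `n` -/
def DgRigid (n : ℕ) (v : DgE n → ℝ) : Prop :=
  (∀ x, v x = 1) ∨ (∀ x, v x = -1) ∨ DgPlanar n v

/-- the one-dimensional profile `g(s) = tanh (s / √2)` -/
noncomputable def dgG (s : ℝ) : ℝ := Real.tanh (s / Real.sqrt 2)

/-- the potential `W(s) = (1 - s²)² / 4` -/
noncomputable def dgW (s : ℝ) : ℝ := (1 - s ^ 2) ^ 2 / 4

/-- the energy density `|∇u|²/2 + W(u)` -/
noncomputable def dgDens (n : ℕ) (u : DgE n → ℝ) (x : DgE n) : ℝ :=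
  ‖fderiv ℝ u x‖ ^ 2 / 2 + dgW (u x)

/-- the energy in the ball `B_R(x₀)` -/
noncomputable def dgEn (n : ℕ) (u : DgE n → ℝ) (x₀ : DgE n) (R : ℝ) : ℝ :=
  ∫ x in ball x₀ R, dgDens n u x

/-- `u` is a function of `⟨a, x⟩` alone -/
def DgOneD (n : ℕ) (u : DgE n → ℝ) : Prop :=
  ∃ (a : DgE n) (h : ℝ → ℝ), ‖a‖ = 1 ∧ ∀ x, u x = h (inner ℝ a x)

/-- `u` is a global minimiser: it minimises the energy in every ball among `C¹` competitors which agree with `u` outside a compact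
subset of the ball (`φ` = the perturbation). -/
def DgMin (n : ℕ) (u : DgE n → ℝ) : Prop :=
  ∀ (R : ℝ) (φ : DgE n → ℝ), ContDiff ℝ 1 φ → HasCompactSupport φ → tsupport φ ⊆ ball 0 R →
    dgEn n u 0 R ≤ dgEn n (fun x => u x + φ x) 0 R

/-- bounded energy density: `E(u; B_R) ≤ C R^{n-1}` for all `R ≥ 1` -/
def DgFinDens (n : ℕ) (u : DgE n → ℝ) : Prop :=
  ∃ C : ℝ, ∀ R : ℝ, 1 ≤ R → dgEn n u 0 R ≤ C * R ^ (n - 1)

/-- the point `(x', t)` of `ℝ^{n+1}` -/
noncomputable def dgSnoc {n : ℕ} (x' : DgE n) (t : ℝ) : DgE (n + 1) :=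
  WithLp.toLp 2 (Fin.snoc (fun i => x' i) t : Fin (n + 1) → ℝ)

end Claimed.Agent.R329
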