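/-
Row 329 (S0587, S0588), post A3 (helper8; prefix `dgA3_`): REGULARITY WITH UNIFORM BOUNDS.

`dgA3_reg`: for every dimension and every `k` there is `C` such that EVERY `v ∈ C²(W, [-1,1])` with `Δ v = v³ - v` is `C^∞` and
`‖D^j v‖ ≤ C` on the whole space for `j ≤ k` (paper, Sec. 2, first paragraph: "interior elliptic estimates bootstrap `v` to a smooth
function with uniform bounds for every derivative of fixed order").

ROUTE.  (1) `Laplacian.laplacian = ellLap` (no hypothesis); (2) weak form by two integrations by parts; (3) `Lib/Ell.ell_cc_weak` with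
`A = id`, `F = 0`, `g = v³ - v`, `ϱ = 1`, `M = 1`: `|Dv| ≤ C`, `[Dv]_α ≤ C` on `ball x₁ θ`; (4) `Lib/Ell.ell_quasi_est` with `A(x,z,p) = p`,
`B(x,z,p) = z³ - z`.
-/
import Claimed.Agent.Lib.Ell.Api

set_option autoImplicit false

namespace Claimed.Agent.R329

open MeasureTheory Metric Filter Claimed.Agent.Lib.Ell
open scoped ContDiff RealInnerProductSpace Gradient Topology

variable {W : Type} [NormedAddCommGroup W] [InnerProductSpace ℝ W] [FiniteDimensional ℝ W]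

/-- Mathlib's Laplacian is the Laplacian of `Lib/Ell`. -/
theorem dgA3_lap_eq (u : W → ℝ) (x : W) : Laplacian.laplacian u x = ellLap u x := by
  rw [InnerProductSpace.laplacian_eq_iteratedFDeriv_stdOrthonormalBasis]
  simp [ellLap, ellTr, ellD2, iteratedFDeriv_two_apply]

/-- the inner product of two gradients in the standard basis. -/
theorem dgA3_inner_grad (u φ : W → ℝ) (x : W) :
    ⟪∇ u x, ∇ φ x⟫ = ∑ i, dd (stdOrthonormalBasis ℝ W i) u x * dd (stdOrthonormalBasis ℝ W i) φ x := by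
  rw [← (stdOrthonormalBasis ℝ W).sum_inner_mul_inner]
  refine Finset.sum_congr rfl fun i _ => ?_
  rw [ell_dd_eq_inner, ell_dd_eq_inner, real_inner_comm (∇ φ x)]

variable [MeasurableSpace W] [BorelSpace W]

/-- Green's identity: `∫ ⟪∇u, ∇φ⟫ = - ∫ Δu φ` for `u ∈ C²`, `φ ∈ C¹_c`. -/
theorem dgA3_green {u φ : W → ℝ} (hu : ContDiff ℝ 2 u) (hφ : ContDiff ℝ 1 φ) (hc : HasCompactSupport φ) :
    ∫ x, ⟪∇ u x, ∇ φ x⟫ = - ∫ x, ellLap u x * φ x := by
  have hU : IsOpen (Set.univ : Set W) := isOpen_univ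
  have huo : ContDiffOn ℝ 2 u Set.univ := hu.contDiffOn
  have hw : ∀ i, ContDiffOn ℝ 1 (dd (stdOrthonormalBasis ℝ W i) u) Set.univ := fun i =>
    ContDiffOn.ell_dd (n := 1) hU (by exact_mod_cast huo) _
  have hwc : ∀ i, Continuous (dd (stdOrthonormalBasis ℝ W i) u) := fun i =>
    continuousOn_univ.1 (hw i).continuousOn
  have hwwc : ∀ i, Continuous (dd (stdOrthonormalBasis ℝ W i) (dd (stdOrthonormalBasis ℝ W i) u)) := fun i =>
    continuousOn_univ.1 (ContDiffOn.ell_dd (n := 0) hU (by simpa using hw i) _).continuousOn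
  have hφc : ∀ h : W, Continuous (dd h φ) := fun h =>
    (hφ.continuous_fderiv one_ne_zero).clm_apply continuous_const
  have hφs : ∀ h : W, HasCompactSupport (dd h φ) := fun h => hc.fderiv_apply ℝ h
  have e1 : ∀ x, ⟪∇ u x, ∇ φ x⟫
      = ∑ i, dd (stdOrthonormalBasis ℝ W i) u x * dd (stdOrthonormalBasis ℝ W i) φ x := dgA3_inner_grad u φ
  have e2 : ∀ x, ellLap u x * φ x
      = ∑ i, dd (stdOrthonormalBasis ℝ W i) (dd (stdOrthonormalBasis ℝ W i) u) x * φ x := by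
    intro x
    rw [ell_lap_eq_sum_dd hU huo (Set.mem_univ x), Finset.sum_mul]
  simp only [e1, e2]
  rw [integral_finsetSum, integral_finsetSum, ← Finset.sum_neg_distrib]
  · refine Finset.sum_congr rfl fun i _ => ?_
    rw [ell_ibp_scalar hU (hw i) hφ hc (Set.subset_univ _), neg_neg]
  · intro i _
    exact ((hwwc i).mul hφ.continuous).integrable_of_hasCompactSupport hc.mul_left
  · intro i _
    exact ((hwc i).mul (hφc _)).integrable_of_hasCompactSupport (hφs _).mul_left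

/-- `|t³ - t| ≤ 1` on `[-1,1]`. -/
theorem dgA3_cubic_abs_le {t : ℝ} (ht : t ∈ Set.Icc (-1 : ℝ) 1) : |t ^ 3 - t| ≤ 1 := by
  obtain ⟨h1, h2⟩ := ht
  rw [abs_le]
  constructor <;> nlinarith [sq_nonneg t, sq_nonneg (t - 1), sq_nonneg (t + 1), mul_nonneg (sub_nonneg.2 h2) (by linarith : (0:ℝ) ≤ t + 1)]

omit [FiniteDimensional ℝ W] [MeasurableSpace W] [BorelSpace W] in
/-- the identity is an elliptic matrix. -/
theorem dgA3_ellMat_id : EllMat (1 : ℝ) 1 (ContinuousLinearMap.id ℝ W) := by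
  refine ⟨fun ξ η => rfl, fun ξ => ?_, ContinuousLinearMap.norm_id_le⟩
  rw [ContinuousLinearMap.id_apply, real_inner_self_eq_norm_sq, one_mul]

/-- the weak form of `Δ v = v³ - v` in the convention of `WeakDiv`. -/
theorem dgA3_weakDiv {v : W → ℝ} (hv : ContDiff ℝ 2 v) (hpde : ∀ x, Laplacian.laplacian v x = v x ^ 3 - v x) (U : Set W) :
    WeakDiv U (fun _ => ContinuousLinearMap.id ℝ W) 0 0 v 0 (fun x => v x ^ 3 - v x) := by
  intro φ hφ
  have h := dgA3_green hv (hφ.1.of_le (by simp)) hφ.2.1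
  simp only [ContinuousLinearMap.id_apply, Pi.zero_apply, inner_zero_left, integral_zero, zero_mul, zero_add, zero_sub]
  rw [h, ← integral_neg]
  refine integral_congr_ae (Eventually.of_forall fun x => ?_)
  simp only [← dgA3_lap_eq, hpde]
  ring

/-- the weak form of `Δ v = v³ - v` in the convention of `WeakQuasi`. -/
theorem dgA3_weakQuasi {v : W → ℝ} (hv : ContDiff ℝ 2 v) (hpde : ∀ x, Laplacian.laplacian v x = v x ^ 3 - v x) (U : Set W) :
    WeakQuasi U (fun ζ : W × ℝ × W => ζ.2.2) (fun ζ : W × ℝ × W => ζ.2.1 ^ 3 - ζ.2.1) v := by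
  intro φ hφ
  have h := dgA3_green hv (hφ.1.of_le (by simp)) hφ.2.1
  simp only
  rw [h, neg_add_eq_zero]
  refine integral_congr_ae (Eventually.of_forall fun x => ?_)
  simp only [← dgA3_lap_eq, hpde]

/-- **uniform `C^{1,1/2}` bound.** -/
theorem dgA3_c1a (W : Type) [NormedAddCommGroup W] [InnerProductSpace ℝ W] [FiniteDimensional ℝ W]
    [MeasurableSpace W] [BorelSpace W] :
    ∃ C θ : ℝ, 0 ≤ C ∧ 0 < θ ∧ θ ≤ 1 / 2 ∧ ∀ v : W → ℝ, ContDiff ℝ 2 v → (∀ x, v x ∈ Set.Icc (-1 : ℝ) 1) →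
      (∀ x, Laplacian.laplacian v x = v x ^ 3 - v x) → ∀ x₁ : W,
      BdOn C (ball x₁ θ) (fderiv ℝ v) ∧ HolOn (1 / 2) C (ball x₁ θ) (fderiv ℝ v) := by
  obtain ⟨C, θ, hC, hθ, hθ1, H⟩ := ell_cc_weak W (α := 1 / 2) (lam := 1) (Lam := 1) (by norm_num) (by norm_num)
    one_pos le_rfl
  refine ⟨C, θ, hC, hθ, hθ1, fun v hv hr hpde x₁ => ?_⟩
  have h := H (ContinuousLinearMap.id ℝ W) x₁ 1 1 v 0 (fun x => v x ^ 3 - v x) dgA3_ellMat_id one_pos zero_le_one
    (hv.of_le (by norm_num)).contDiffOn ((hv.continuous.pow 3).sub hv.continuous).continuousOn (dgA3_weakDiv hv hpde _)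
    (fun x _ => by rw [Real.norm_eq_abs, abs_le]; exact hr x)
    (fun x _ y _ => by simp; positivity)
    (fun x _ => by simpa using dgA3_cubic_abs_le (hr x))
  simpa using h

/-- the projection `(x,z,p) ↦ p`. -/
noncomputable def dgA3_prP (W : Type) [NormedAddCommGroup W] [InnerProductSpace ℝ W] : W × ℝ × W →L[ℝ] W :=
  (ContinuousLinearMap.snd ℝ ℝ W) ∘L (ContinuousLinearMap.snd ℝ W (ℝ × W))

/-- the projection `(x,z,p) ↦ z`. -/
noncomputable def dgA3_prZ (W : Type) [NormedAddCommGroup W] [InnerProductSpace ℝ W] : W × ℝ × W →L[ℝ] ℝ :=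
  (ContinuousLinearMap.fst ℝ ℝ W) ∘L (ContinuousLinearMap.snd ℝ W (ℝ × W))

omit [FiniteDimensional ℝ W] [MeasurableSpace W] [BorelSpace W] in
theorem dgA3_dpA (ζ : W × ℝ × W) : dpA (fun ζ : W × ℝ × W => ζ.2.2) ζ = ContinuousLinearMap.id ℝ W := by
  have e : (fun ζ : W × ℝ × W => ζ.2.2) = fun ζ => dgA3_prP W ζ := rfl
  rw [dpA, e, ContinuousLinearMap.fderiv]
  ext η
  simp [dgA3_prP]

/-- bounds of all derivatives of the structure functions, independent of the centre of the box. -/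
theorem dgA3_structure (W : Type) [NormedAddCommGroup W] [InnerProductSpace ℝ W] [FiniteDimensional ℝ W] (Kp : ℝ) :
    ∃ Λ : ℕ → ℝ, ∀ (x₀ : W) (R : ℝ), CbLe Λ (qbox x₀ R 2 Kp) (fun ζ : W × ℝ × W => ζ.2.2) ∧
      CbLe Λ (qbox x₀ R 2 Kp) (fun ζ : W × ℝ × W => ζ.2.1 ^ 3 - ζ.2.1) := by
  obtain ⟨Λb, hΛb⟩ := ell_cb_of_compact (X := ℝ) (Y := ℝ) (𝒪 := Set.univ) (S := Set.Icc (-2 : ℝ) 2) isOpen_univ isCompact_Icc
    (Set.subset_univ _) (f := fun z : ℝ => z ^ 3 - z) (by fun_prop)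
  have hb : CbLe Λb (Set.Ioo (-2 : ℝ) 2) (fun z : ℝ => z ^ 3 - z) := hΛb.mono Set.Ioo_subset_Icc_self fun _ => le_rfl
  refine ⟨fun j => max (if j = 0 then Kp else ‖dgA3_prP W‖) (Λb j * ‖dgA3_prZ W‖ ^ j), fun x₀ R => ⟨?_, ?_⟩⟩
  · have h := cbLe_clm (Ω := qbox x₀ R 2 Kp) (dgA3_prP W) (ρ := Kp) (fun ζ hζ => hζ.2.2.le)
    exact h.mono subset_rfl fun j => le_max_left _ _
  · have h := hb.comp_clm isOpen_Ioo (ell_qbox_isOpen x₀ R 2 Kp) (dgA3_prZ W)
      (fun ζ hζ => by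
        have := abs_lt.1 hζ.2.1
        exact ⟨this.1, this.2⟩)
    exact h.mono subset_rfl fun j => le_max_right _ _

/-- **A3. Regularity with uniform bounds.**  Every `C²` solution `v : W → [-1,1]` of `Δ v = v³ - v` is smooth, and its derivatives of order
`≤ k` are bounded by a constant which depends only on `W` and `k`. -/
theorem dgA3_reg_gen (W : Type) [NormedAddCommGroup W] [InnerProductSpace ℝ W] [FiniteDimensional ℝ W]
    [MeasurableSpace W] [BorelSpace W] (k : ℕ) :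
    ∃ C : ℝ, ∀ v : W → ℝ, ContDiff ℝ 2 v → (∀ x, v x ∈ Set.Icc (-1 : ℝ) 1) →
      (∀ x, Laplacian.laplacian v x = v x ^ 3 - v x) →
      ContDiff ℝ ∞ v ∧ ∀ j : ℕ, j ≤ k → ∀ x, ‖iteratedFDeriv ℝ j v x‖ ≤ C := by
  obtain ⟨C₁, θ, hC₁, hθ, -, H₁⟩ := dgA3_c1a W
  obtain ⟨Λ, hΛ⟩ := dgA3_structure W (C₁ + 1)
  obtain ⟨C, hC⟩ := ell_quasi_est W k (α := 1 / 2) (lam := 1) (K := C₁ + 1) (Kz := 2) (Kp := C₁ + 1) (r := θ / 2) (R := θ) Λ
    (by norm_num) (by norm_num) one_pos (by positivity) (by linarith)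
  refine ⟨C, fun v hv hr hpde => ?_⟩
  have HQ : ∀ x₀ : W, QuasiData (1 / 2) 1 Λ (C₁ + 1) 2 (C₁ + 1) x₀ θ (fun ζ : W × ℝ × W => ζ.2.2)
      (fun ζ : W × ℝ × W => ζ.2.1 ^ 3 - ζ.2.1) v := by
    intro x₀
    obtain ⟨hb, hh⟩ := H₁ v hv hr hpde x₀
    refine ⟨le_rfl, (hΛ x₀ θ).1, (hΛ x₀ θ).2, ?_, ?_, (hv.of_le (by norm_num)).contDiffOn, ?_, ?_, dgA3_weakQuasi hv hpde _⟩
    · intro ζ _ η η'
      rw [dgA3_dpA]; rfl
    · intro ζ _ η
      rw [dgA3_dpA, ContinuousLinearMap.id_apply, real_inner_self_eq_norm_sq, one_mul]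
    · intro x hx
      refine ⟨hx, ?_, ?_⟩
      · have := hr x
        exact lt_of_le_of_lt (abs_le.2 ⟨this.1, this.2⟩) (by norm_num)
      · show ‖∇ v x‖ < C₁ + 1
        rw [ell_norm_gradient]
        exact lt_of_le_of_lt (hb x hx) (by linarith)
    · exact hh.mono subset_rfl (by linarith)
  refine ⟨contDiff_iff_contDiffAt.2 fun x₀ => ?_, fun j hj x => ?_⟩
  · exact ((hC x₀ _ _ v (HQ x₀)).1).contDiffAt (ball_mem_nhds x₀ hθ)
  · exact (hC x _ _ v (HQ x)).2 j hj x (mem_ball_self (by positivity))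

/-- A3 on `EuclideanSpace ℝ (Fin n)`, in the form of the frozen statements. -/
theorem dgA3_reg (n k : ℕ) :
    ∃ C : ℝ, ∀ v : EuclideanSpace ℝ (Fin n) → ℝ, ContDiff ℝ 2 v → (∀ x, v x ∈ Set.Icc (-1 : ℝ) 1) →
      (∀ x, Laplacian.laplacian v x = v x ^ 3 - v x) →
      ContDiff ℝ ∞ v ∧ ∀ j : ℕ, j ≤ k → ∀ x, ‖iteratedFDeriv ℝ j v x‖ ≤ C :=
  dgA3_reg_gen (EuclideanSpace ℝ (Fin n)) k

/-! ### Corollaries in the forms used by the other posts -/

/-- smoothness alone. -/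
theorem dgA3_smooth {v : W → ℝ} (hv : ContDiff ℝ 2 v) (hr : ∀ x, v x ∈ Set.Icc (-1 : ℝ) 1)
    (hpde : ∀ x, Laplacian.laplacian v x = v x ^ 3 - v x) : ContDiff ℝ ∞ v := by
  obtain ⟨C, hC⟩ := dgA3_reg_gen W 0
  exact (hC v hv hr hpde).1

set_option maxSynthPendingDepth 3 in
/-- the bounds of the first three derivatives, written with `fderiv`; the constant is positive and depends only on the space. -/
theorem dgA3_c3 (W : Type) [NormedAddCommGroup W] [InnerProductSpace ℝ W] [FiniteDimensional ℝ W]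
    [MeasurableSpace W] [BorelSpace W] :
    ∃ C : ℝ, 0 < C ∧ ∀ v : W → ℝ, ContDiff ℝ 2 v → (∀ x, v x ∈ Set.Icc (-1 : ℝ) 1) →
      (∀ x, Laplacian.laplacian v x = v x ^ 3 - v x) →
      (∀ x, ‖fderiv ℝ v x‖ ≤ C) ∧ (∀ x, ‖fderiv ℝ (fderiv ℝ v) x‖ ≤ C) ∧
        ∀ x, ‖fderiv ℝ (fderiv ℝ (fderiv ℝ v)) x‖ ≤ C := by
  obtain ⟨C, hC⟩ := dgA3_reg_gen W 3
  refine ⟨max C 1, lt_of_lt_of_le one_pos (le_max_right _ _), fun v hv hr hpde => ?_⟩
  obtain ⟨-, hb⟩ := hC v hv hr hpde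
  refine ⟨fun x => ?_, fun x => ?_, fun x => ?_⟩
  · have := hb 1 (by norm_num) x
    rw [← norm_iteratedFDeriv_fderiv, norm_iteratedFDeriv_zero] at this
    exact this.trans (le_max_left _ _)
  · have := hb 2 (by norm_num) x
    rw [← norm_iteratedFDeriv_fderiv, ← norm_iteratedFDeriv_fderiv, norm_iteratedFDeriv_zero] at this
    exact this.trans (le_max_left _ _)
  · have := hb 3 (by norm_num) x
    rw [← norm_iteratedFDeriv_fderiv, ← norm_iteratedFDeriv_fderiv, ← norm_iteratedFDeriv_fderiv,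
      norm_iteratedFDeriv_zero] at this
    exact this.trans (le_max_left _ _)

set_option maxSynthPendingDepth 3 in
/-- uniform Lipschitz bounds of `v`, `Dv`, `D²v`. -/
theorem dgA3_lip (W : Type) [NormedAddCommGroup W] [InnerProductSpace ℝ W] [FiniteDimensional ℝ W]
    [MeasurableSpace W] [BorelSpace W] :
    ∃ C : ℝ, 0 < C ∧ ∀ v : W → ℝ, ContDiff ℝ 2 v → (∀ x, v x ∈ Set.Icc (-1 : ℝ) 1) →
      (∀ x, Laplacian.laplacian v x = v x ^ 3 - v x) →
      (∀ x y, ‖v x - v y‖ ≤ C * ‖x - y‖) ∧ (∀ x y, ‖fderiv ℝ v x - fderiv ℝ v y‖ ≤ C * ‖x - y‖) ∧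
        ∀ x y, ‖fderiv ℝ (fderiv ℝ v) x - fderiv ℝ (fderiv ℝ v) y‖ ≤ C * ‖x - y‖ := by
  obtain ⟨C, hC0, hC⟩ := dgA3_c3 W
  refine ⟨C, hC0, fun v hv hr hpde => ?_⟩
  obtain ⟨h1, h2, h3⟩ := hC v hv hr hpde
  have hs := dgA3_smooth hv hr hpde
  have d0 : Differentiable ℝ v := hs.differentiable (by simp)
  have s1 : ContDiff ℝ ∞ (fderiv ℝ v) := hs.fderiv_right (m := ∞) (by simp)
  have d1 : Differentiable ℝ (fderiv ℝ v) := s1.differentiable (by simp)
  have s2 : ContDiff ℝ ∞ (fderiv ℝ (fderiv ℝ v)) := s1.fderiv_right (m := ∞) (by simp)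
  have d2 : Differentiable ℝ (fderiv ℝ (fderiv ℝ v)) := s2.differentiable (by simp)
  refine ⟨fun x y => ?_, fun x y => ?_, fun x y => ?_⟩
  · exact Convex.norm_image_sub_le_of_norm_fderiv_le (fun z _ => d0 z) (fun z _ => h1 z) convex_univ
      (Set.mem_univ y) (Set.mem_univ x)
  · exact Convex.norm_image_sub_le_of_norm_fderiv_le (fun z _ => d1 z) (fun z _ => h2 z) convex_univ
      (Set.mem_univ y) (Set.mem_univ x)
  · exact Convex.norm_image_sub_le_of_norm_fderiv_le (fun z _ => d2 z) (fun z _ => h3 z) convex_univ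
      (Set.mem_univ y) (Set.mem_univ x)

/-- **the linearised equation**: every directional derivative `w = ∂_h v` of a solution is smooth and solves `Δ w = (3 v² - 1) w`. -/
theorem dgA3_linearised {v : W → ℝ} (hv : ContDiff ℝ 2 v) (hr : ∀ x, v x ∈ Set.Icc (-1 : ℝ) 1)
    (hpde : ∀ x, Laplacian.laplacian v x = v x ^ 3 - v x) (h : W) :
    ContDiff ℝ ∞ (fun x => fderiv ℝ v x h) ∧
      ∀ x, Laplacian.laplacian (fun x => fderiv ℝ v x h) x = (3 * v x ^ 2 - 1) * fderiv ℝ v x h := by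
  have hs := dgA3_smooth hv hr hpde
  refine ⟨(hs.fderiv_right (m := ∞) (by simp)).clm_apply contDiff_const, fun x => ?_⟩
  have e : ellLap v = fun y => v y ^ 3 - v y := funext fun y => by rw [← dgA3_lap_eq, hpde]
  have h3 : ContDiffOn ℝ 3 v Set.univ := (hs.of_le (by norm_cast)).contDiffOn
  have := ell_lap_dd isOpen_univ h3 (Set.mem_univ x) h
  rw [dgA3_lap_eq]
  change ellLap (dd h v) x = _
  rw [this, e, dd]
  have dv : HasFDerivAt v (fderiv ℝ v x) x := (hs.differentiable (by simp) x).hasFDerivAt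
  have h4 : HasFDerivAt (fun y => v y ^ 3 - v y) ((3 • v x ^ (3 - 1)) • fderiv ℝ v x - fderiv ℝ v x) x :=
    (dv.pow 3).sub dv
  rw [h4.fderiv]
  simp
  ring

end Claimed.Agent.R329
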