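/-
Row 329 (De Giorgi in dimension eight), pen helper258, prefix `dg258_`.

MODICA'S GRADIENT BOUND  `|∇v|² ≤ (1 - v²)² / 2`  for bounded entire solutions of `Δ v = v³ - v`,
by an elementary POINTWISE proof (no compactness of translates, no strong maximum principle, no flow):

* `Q = |∇v|²/2 - W(v) + ε e^{K v}`; wherever `∇v ≠ 0`
  `|∇v|² ΔQ ≥ |∇Q|² + 2 H'(v) ∇v·∇Q + |∇v|² ε K e^{Kv} (K |∇v|² - W'(v))`,   `H = W - ε e^{K t}`;
* `Q` is bounded above, so `Q - η |x - x₀|²` has a maximum point `x₁`, where `Q(x₁) ≥ Q(x₀)`,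
  `∇Q = 2η (x₁ - x₀)`, `|∇Q| ≤ 2 √(η A)`, `ΔQ ≤ 2 n η`;
* if `P(x₀) = p₀ > 0`, `K = 2/p₀`, `ε e^{K} = p₀/2`, then `|∇v(x₁)|² ≥ p₀` and
  `ε K e^{-K} ≤ 2 n η + 8 √(η A / p₀)` for every `η > 0`: absurd.

Consequences: the dichotomy `v ≡ 1`, `v ≡ -1` or `|v| < 1` (Modica + Gronwall on lines).
-/
import Claimed.Agent.R329.Defs
import Claimed.Agent.R329.Reg

set_option autoImplicit false

namespace Claimed.Agent.R329

open Claimed.Agent.Lib.Ell
open Metric Filter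
open scoped ContDiff RealInnerProductSpace Gradient Topology

universe u

variable {W : Type u} [NormedAddCommGroup W] [InnerProductSpace ℝ W] [FiniteDimensional ℝ W]

/-! ### calculus of the directional derivative `dd h g = fun x => fderiv ℝ g x h` -/

omit [FiniteDimensional ℝ W] in
theorem dg258_dd_contDiff {g : W → ℝ} {k : ℕ} (hg : ContDiff ℝ ((k + 1 : ℕ) : ℕ∞) g) (h : W) :
    ContDiff ℝ (k : ℕ∞) (dd h g) :=
  (hg.fderiv_right (m := (k : ℕ∞)) (by norm_cast)).clm_apply contDiff_const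

omit [FiniteDimensional ℝ W] in
theorem dg258_dd_mul {f g : W → ℝ} (hf : Differentiable ℝ f) (hg : Differentiable ℝ g) (h : W) :
    dd h (fun y => f y * g y) = fun y => dd h f y * g y + f y * dd h g y := by
  funext y
  simp only [dd]
  rw [fderiv_fun_mul (hf y) (hg y)]
  simp only [add_apply, smul_apply, smul_eq_mul]
  ring

omit [FiniteDimensional ℝ W] in
theorem dg258_dd_comp {H H' : ℝ → ℝ} (hH : ∀ t, HasDerivAt H (H' t) t) {f : W → ℝ}
    (hf : Differentiable ℝ f) (h : W) :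
    dd h (fun y => H (f y)) = fun y => H' (f y) * dd h f y := by
  funext y
  have h1 : HasFDerivAt (fun y => H (f y)) (H' (f y) • fderiv ℝ f y) y :=
    (hH (f y)).comp_hasFDerivAt y (hf y).hasFDerivAt
  simp only [dd]
  rw [h1.fderiv]
  simp

omit [FiniteDimensional ℝ W] in
theorem dg258_dd_sum {ι : Type} (s : Finset ι) {f : ι → W → ℝ} (hf : ∀ i ∈ s, Differentiable ℝ (f i))
    (h : W) : dd h (fun y => ∑ i ∈ s, f i y) = fun y => ∑ i ∈ s, dd h (f i) y := by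
  funext y
  simp only [dd]
  rw [fderiv_fun_sum fun i hi => hf i hi y]
  simp

omit [FiniteDimensional ℝ W] in
theorem dg258_dd_sub {f g : W → ℝ} (hf : Differentiable ℝ f) (hg : Differentiable ℝ g) (h : W) :
    dd h (fun y => f y - g y) = fun y => dd h f y - dd h g y := by
  funext y
  simp only [dd]
  rw [fderiv_fun_sub (hf y) (hg y)]
  simp

omit [FiniteDimensional ℝ W] in
theorem dg258_dd_const_mul (c : ℝ) {f : W → ℝ} (hf : Differentiable ℝ f) (h : W) :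
    dd h (fun y => c * f y) = fun y => c * dd h f y := by
  funext y
  simp only [dd]
  rw [fderiv_const_mul (hf y)]
  simp

omit [FiniteDimensional ℝ W] in
theorem dg258_dd_normSq (x₀ h : W) :
    dd h (fun y => ‖y - x₀‖ ^ 2) = fun y => 2 * ⟪y - x₀, h⟫ := by
  funext y
  have h1 : HasFDerivAt (fun y : W => ‖y - x₀‖ ^ 2)
      (2 • (innerSL ℝ (y - x₀)).comp (ContinuousLinearMap.id ℝ W)) y :=
    ((hasFDerivAt_id y).sub_const x₀).norm_sq
  simp only [dd]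
  rw [h1.fderiv]
  simp [inner_sub_left]

omit [FiniteDimensional ℝ W] in
theorem dg258_dd_inner (x₀ h k : W) :
    dd k (fun y => ⟪y - x₀, h⟫) = fun _ => ⟪k, h⟫ := by
  funext y
  have h1 : HasFDerivAt (fun y : W => ⟪y - x₀, h⟫) _ y :=
    ((hasFDerivAt_id y).sub_const x₀).inner ℝ (hasFDerivAt_const h y)
  simp only [dd]
  rw [h1.fderiv]
  simp

/-- `|∇v|²` as the sum of the squares of the partial derivatives. -/
noncomputable def dg258_G2 (v : W → ℝ) (x : W) : ℝ :=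
  ∑ i, dd (stdOrthonormalBasis ℝ W i) v x * dd (stdOrthonormalBasis ℝ W i) v x

theorem dg258_G2_eq (v : W → ℝ) (x : W) : dg258_G2 v x = ‖fderiv ℝ v x‖ ^ 2 := by
  rw [← ell_norm_gradient, ← (stdOrthonormalBasis ℝ W).sum_sq_norm_inner_right (∇ v x)]
  refine Finset.sum_congr rfl fun i _ => ?_
  rw [ell_dd_eq_inner, Real.norm_eq_abs, sq_abs, real_inner_comm]
  ring

theorem dg258_G2_nonneg (v : W → ℝ) (x : W) : 0 ≤ dg258_G2 v x := by
  rw [dg258_G2_eq]; positivity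

/-- bridge with Mathlib's Laplacian. -/
theorem dg258_ellLap_eq (v : W → ℝ) (x : W) : ellLap v x = Laplacian.laplacian v x := by
  rw [InnerProductSpace.laplacian_eq_iteratedFDeriv_stdOrthonormalBasis]
  simp only [ellLap, ellTr, ellD2, ContinuousLinearMap.id_apply]
  refine Finset.sum_congr rfl fun i _ => ?_
  rw [iteratedFDeriv_two_apply]
  simp

/-! ### an approximate maximum point of a function bounded above -/

theorem dg258_approx_max {Q : W → ℝ} (hQ : ContDiff ℝ 2 Q) {A : ℝ} (hA : ∀ x, Q x ≤ A) (x₀ : W)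
    {η : ℝ} (hη : 0 < η) :
    ∃ x₁, Q x₀ ≤ Q x₁ ∧ η * ‖x₁ - x₀‖ ^ 2 ≤ A - Q x₀ ∧ (∀ h, dd h Q x₁ = 2 * η * ⟪x₁ - x₀, h⟫) ∧
      ∀ h, dd h (dd h Q) x₁ ≤ 2 * η * ‖h‖ ^ 2 := by
  set N : W → ℝ := fun y => ‖y - x₀‖ ^ 2 with hN
  have hNc : ContDiff ℝ 2 N := (contDiff_id.sub contDiff_const).norm_sq ℝ
  set Φ : W → ℝ := fun y => Q y - η * N y with hΦ
  have hΦc : ContDiff ℝ 2 Φ := hQ.sub (contDiff_const.mul hNc)
  have hΦ0 : Φ x₀ = Q x₀ := by simp [hΦ, hN]
  obtain ⟨x₁, hx₁⟩ : ∃ x₁, ∀ y, Φ y ≤ Φ x₁ := by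
    refine hΦc.continuous.exists_forall_ge' x₀ ?_
    have hc := (isCompact_closedBall x₀ (Real.sqrt ((A - Q x₀) / η))).compl_mem_cocompact
    filter_upwards [hc] with y hy
    rw [Set.mem_compl_iff, mem_closedBall, not_le, dist_eq_norm] at hy
    have h1 : (A - Q x₀) / η < ‖y - x₀‖ ^ 2 := by
      have := Real.lt_sq_of_sqrt_lt hy
      exact this
    rw [div_lt_iff₀ hη] at h1
    rw [hΦ0]
    have := hA y
    simp only [hΦ, hN]
    nlinarith
  have h0 := hx₁ x₀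
  rw [hΦ0] at h0
  have hNn : 0 ≤ η * N x₁ := by positivity
  have hloc : IsLocalMax Φ x₁ := Filter.Eventually.of_forall hx₁
  have hQd : Differentiable ℝ Q := hQ.differentiable (by norm_num)
  have hNd : Differentiable ℝ N := hNc.differentiable (by norm_num)
  have hdΦ : ∀ h, dd h Φ = fun y => dd h Q y - η * (2 * ⟪y - x₀, h⟫) := by
    intro h
    rw [hΦ, dg258_dd_sub hQd (hNd.const_mul η), dg258_dd_const_mul η hNd, hN, dg258_dd_normSq]
  refine ⟨x₁, ?_, ?_, ?_, ?_⟩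
  · simp only [hΦ] at h0; linarith
  · have := hA x₁
    simp only [hΦ, hN] at h0 hNn
    linarith
  · intro h
    have h1 : dd h Φ x₁ = 0 := by
      simp only [dd]; rw [hloc.fderiv_eq_zero]; simp
    rw [hdΦ] at h1
    linarith
  · intro h
    have h1 := ell_d2_nonpos_of_isLocalMax hΦc.contDiffAt hloc h
    rw [ell_d2_apply isOpen_univ hΦc.contDiffOn (Set.mem_univ _), hdΦ] at h1
    have hQ1 : Differentiable ℝ (dd h Q) :=
      (dg258_dd_contDiff (k := 1) (by exact_mod_cast hQ) h).differentiable (by norm_num)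
    have hI : Differentiable ℝ (fun y : W => ⟪y - x₀, h⟫) :=
      (differentiable_id.sub_const x₀).inner ℝ (differentiable_const h)
    rw [dg258_dd_sub hQ1 ((hI.const_mul 2).const_mul η), dg258_dd_const_mul η (hI.const_mul 2),
      dg258_dd_const_mul 2 hI, dg258_dd_inner, real_inner_self_eq_norm_sq] at h1
    linarith

/-! ### Laplacian calculus -/

theorem dg258_lap_sub {f g : W → ℝ} (hf : ContDiff ℝ 2 f) (hg : ContDiff ℝ 2 g) (x : W) :
    ellLap (fun y => f y - g y) x = ellLap f x - ellLap g x := by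
  have hfd : Differentiable ℝ f := hf.differentiable (by norm_num)
  have hgd : Differentiable ℝ g := hg.differentiable (by norm_num)
  have hf1 : ∀ h, Differentiable ℝ (dd h f) := fun h =>
    (dg258_dd_contDiff (k := 1) (by exact_mod_cast hf) h).differentiable (by norm_num)
  have hg1 : ∀ h, Differentiable ℝ (dd h g) := fun h =>
    (dg258_dd_contDiff (k := 1) (by exact_mod_cast hg) h).differentiable (by norm_num)
  rw [ell_lap_eq_sum_dd isOpen_univ (hf.sub hg).contDiffOn (Set.mem_univ x),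
    ell_lap_eq_sum_dd isOpen_univ hf.contDiffOn (Set.mem_univ x),
    ell_lap_eq_sum_dd isOpen_univ hg.contDiffOn (Set.mem_univ x), ← Finset.sum_sub_distrib]
  refine Finset.sum_congr rfl fun i _ => ?_
  rw [dg258_dd_sub hfd hgd, dg258_dd_sub (hf1 _) (hg1 _)]

theorem dg258_lap_const_mul (c : ℝ) {f : W → ℝ} (hf : ContDiff ℝ 2 f) (x : W) :
    ellLap (fun y => c * f y) x = c * ellLap f x := by
  have hfd : Differentiable ℝ f := hf.differentiable (by norm_num)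
  have hf1 : ∀ h, Differentiable ℝ (dd h f) := fun h =>
    (dg258_dd_contDiff (k := 1) (by exact_mod_cast hf) h).differentiable (by norm_num)
  rw [ell_lap_eq_sum_dd isOpen_univ (contDiff_const.mul hf).contDiffOn (Set.mem_univ x),
    ell_lap_eq_sum_dd isOpen_univ hf.contDiffOn (Set.mem_univ x), Finset.mul_sum]
  refine Finset.sum_congr rfl fun i _ => ?_
  rw [dg258_dd_const_mul c hfd, dg258_dd_const_mul c (hf1 _)]

/-- chain rule: `Δ (H ∘ f) = H'(f) Δ f + H''(f) |∇f|²`. -/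
theorem dg258_lap_comp {H H' H'' : ℝ → ℝ} (hHc : ContDiff ℝ 2 H) (hH : ∀ t, HasDerivAt H (H' t) t)
    (hH' : ∀ t, HasDerivAt H' (H'' t) t) {f : W → ℝ} (hf : ContDiff ℝ 2 f) (x : W) :
    ellLap (fun y => H (f y)) x = H' (f x) * ellLap f x + H'' (f x) * dg258_G2 f x := by
  have hfd : Differentiable ℝ f := hf.differentiable (by norm_num)
  have hf1 : ∀ h, Differentiable ℝ (dd h f) := fun h =>
    (dg258_dd_contDiff (k := 1) (by exact_mod_cast hf) h).differentiable (by norm_num)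
  have hH'd : Differentiable ℝ (fun y => H' (f y)) := fun y =>
    ((hH' (f y)).differentiableAt).comp y (hfd y)
  have hcomp : ContDiff ℝ 2 (fun y => H (f y)) := hHc.comp hf
  rw [ell_lap_eq_sum_dd isOpen_univ hcomp.contDiffOn (Set.mem_univ x),
    ell_lap_eq_sum_dd isOpen_univ hf.contDiffOn (Set.mem_univ x), dg258_G2, Finset.mul_sum,
    Finset.mul_sum, ← Finset.sum_add_distrib]
  refine Finset.sum_congr rfl fun i _ => ?_
  rw [dg258_dd_comp hH hfd, dg258_dd_mul hH'd (hf1 _), dg258_dd_comp hH' hfd]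
  ring

theorem dg258_dd_G2 {v : W → ℝ} (hv : ContDiff ℝ 2 v) (h : W) :
    dd h (dg258_G2 v) = fun y => 2 * ∑ i, dd (stdOrthonormalBasis ℝ W i) v y *
      dd h (dd (stdOrthonormalBasis ℝ W i) v) y := by
  have hd : ∀ k, Differentiable ℝ (dd k v) := fun k =>
    (dg258_dd_contDiff (k := 1) (by exact_mod_cast hv) k).differentiable (by norm_num)
  have h0 : dg258_G2 v = fun y => ∑ i, dd (stdOrthonormalBasis ℝ W i) v y *
      dd (stdOrthonormalBasis ℝ W i) v y := rfl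
  have h1 := dg258_dd_sum Finset.univ (f := fun i y => dd (stdOrthonormalBasis ℝ W i) v y *
      dd (stdOrthonormalBasis ℝ W i) v y) (fun i _ => (hd _).mul (hd _)) h
  beta_reduce at h1
  rw [h0, h1]
  funext y
  rw [Finset.mul_sum]
  refine Finset.sum_congr rfl fun i _ => ?_
  rw [dg258_dd_mul (hd _) (hd _)]
  ring

theorem dg258_dd_dd_G2 {v : W → ℝ} (hv : ContDiff ℝ 3 v) (h : W) :
    dd h (dd h (dg258_G2 v)) = fun y => 2 * ∑ i, (dd h (dd (stdOrthonormalBasis ℝ W i) v) y *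
      dd h (dd (stdOrthonormalBasis ℝ W i) v) y +
      dd (stdOrthonormalBasis ℝ W i) v y * dd h (dd h (dd (stdOrthonormalBasis ℝ W i) v)) y) := by
  have hc1 : ∀ k, ContDiff ℝ 2 (dd k v) := fun k => dg258_dd_contDiff (k := 2) (by exact_mod_cast hv) k
  have hd : ∀ k, Differentiable ℝ (dd k v) := fun k => (hc1 k).differentiable (by norm_num)
  have hd2 : ∀ k l, Differentiable ℝ (dd l (dd k v)) := fun k l =>
    (dg258_dd_contDiff (k := 1) (by exact_mod_cast hc1 k) l).differentiable (by norm_num)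
  rw [dg258_dd_G2 (hv.of_le (by norm_num))]
  have hs : Differentiable ℝ (fun y => ∑ i, dd (stdOrthonormalBasis ℝ W i) v y *
      dd h (dd (stdOrthonormalBasis ℝ W i) v) y) :=
    Differentiable.fun_sum fun i _ => (hd _).mul (hd2 _ _)
  rw [dg258_dd_const_mul 2 hs]
  have h1 := dg258_dd_sum Finset.univ (f := fun i y => dd (stdOrthonormalBasis ℝ W i) v y *
      dd h (dd (stdOrthonormalBasis ℝ W i) v) y) (fun i _ => (hd _).mul (hd2 _ _)) h
  beta_reduce at h1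
  rw [h1]
  funext y
  congr 1
  refine Finset.sum_congr rfl fun i _ => ?_
  rw [dg258_dd_mul (hd _) (hd2 _ _)]

/-- `|∇²v|²`. -/
noncomputable def dg258_Hs (v : W → ℝ) (x : W) : ℝ :=
  ∑ j, ∑ i, dd (stdOrthonormalBasis ℝ W j) (dd (stdOrthonormalBasis ℝ W i) v) x *
    dd (stdOrthonormalBasis ℝ W j) (dd (stdOrthonormalBasis ℝ W i) v) x

theorem dg258_G2_contDiff {v : W → ℝ} {k : ℕ} (hv : ContDiff ℝ ((k + 1 : ℕ) : ℕ∞) v) :
    ContDiff ℝ (k : ℕ∞) (dg258_G2 v) :=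
  ContDiff.sum fun _ _ => (dg258_dd_contDiff hv _).mul (dg258_dd_contDiff hv _)

/-- BOCHNER: `Δ |∇v|² = 2 |∇²v|² + 2 ∇v · ∇ Δv`. -/
theorem dg258_bochner {v : W → ℝ} (hv : ContDiff ℝ 3 v) (x : W) :
    ellLap (dg258_G2 v) x = 2 * dg258_Hs v x +
      2 * ∑ i, dd (stdOrthonormalBasis ℝ W i) v x * dd (stdOrthonormalBasis ℝ W i) (ellLap v) x := by
  have hc1 : ∀ k, ContDiff ℝ 2 (dd k v) := fun k => dg258_dd_contDiff (k := 2) (by exact_mod_cast hv) k
  have hG : ContDiff ℝ 2 (dg258_G2 v) := dg258_G2_contDiff (k := 2) (by exact_mod_cast hv)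
  rw [ell_lap_eq_sum_dd isOpen_univ hG.contDiffOn (Set.mem_univ x)]
  simp only [dg258_dd_dd_G2 hv]
  rw [← Finset.mul_sum]
  simp only [Finset.sum_add_distrib]
  rw [mul_add, dg258_Hs]
  congr 2
  rw [Finset.sum_comm]
  refine Finset.sum_congr rfl fun i _ => ?_
  rw [← Finset.mul_sum, ← ell_lap_dd isOpen_univ hv.contDiffOn (Set.mem_univ x),
    ell_lap_eq_sum_dd isOpen_univ (hc1 _).contDiffOn (Set.mem_univ x)]

/-! ### the P-function -/

/-- the P-function `|∇v|²/2 - H(v)`. -/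
noncomputable def dg258_Q (H : ℝ → ℝ) (v : W → ℝ) (x : W) : ℝ := (1 / 2) * dg258_G2 v x - H (v x)

theorem dg258_Q_contDiff {H : ℝ → ℝ} (hHc : ContDiff ℝ 2 H) {v : W → ℝ} (hv : ContDiff ℝ 3 v) :
    ContDiff ℝ 2 (dg258_Q H v) :=
  (contDiff_const.mul (dg258_G2_contDiff (k := 2) (by exact_mod_cast hv))).sub
    (hHc.comp (hv.of_le (by norm_num)))

theorem dg258_dd_Q {H H' : ℝ → ℝ} (hH : ∀ t, HasDerivAt H (H' t) t) {v : W → ℝ}
    (hv : ContDiff ℝ 2 v) (h : W) (x : W) :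
    dd h (dg258_Q H v) x = (∑ i, dd (stdOrthonormalBasis ℝ W i) v x *
      dd h (dd (stdOrthonormalBasis ℝ W i) v) x) - H' (v x) * dd h v x := by
  have hvd : Differentiable ℝ v := hv.differentiable (by norm_num)
  have hG : Differentiable ℝ (dg258_G2 v) :=
    (dg258_G2_contDiff (k := 1) (by exact_mod_cast hv)).differentiable (by norm_num)
  have hHv : Differentiable ℝ (fun y => H (v y)) := fun y =>
    ((hH (v y)).differentiableAt).comp y (hvd y)
  have h0 : dg258_Q H v = fun y => (1 / 2) * dg258_G2 v y - H (v y) := rfl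
  rw [h0, dg258_dd_sub (hG.const_mul _) hHv, dg258_dd_const_mul _ hG, dg258_dd_G2 hv,
    dg258_dd_comp hH hvd]
  ring

theorem dg258_lap_Q {F F' H H' H'' : ℝ → ℝ} (hF : ∀ t, HasDerivAt F (F' t) t)
    (hHc : ContDiff ℝ 2 H) (hH : ∀ t, HasDerivAt H (H' t) t) (hH' : ∀ t, HasDerivAt H' (H'' t) t)
    {v : W → ℝ} (hv : ContDiff ℝ 3 v) (hpde : ∀ x, ellLap v x = F (v x)) (x : W) :
    ellLap (dg258_Q H v) x = dg258_Hs v x + (F' (v x) - H'' (v x)) * dg258_G2 v x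
      - H' (v x) * F (v x) := by
  have hv2 : ContDiff ℝ 2 v := hv.of_le (by norm_num)
  have hvd : Differentiable ℝ v := hv.differentiable (by norm_num)
  have hG : ContDiff ℝ 2 (dg258_G2 v) := dg258_G2_contDiff (k := 2) (by exact_mod_cast hv)
  have hHv : ContDiff ℝ 2 (fun y => H (v y)) := hHc.comp hv2
  have h0 : dg258_Q H v = fun y => (1 / 2) * dg258_G2 v y - H (v y) := rfl
  have hl : ellLap v = fun y => F (v y) := funext hpde
  rw [h0, dg258_lap_sub (contDiff_const.mul hG) hHv, dg258_lap_const_mul _ hG, dg258_bochner hv,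
    dg258_lap_comp hHc hH hH' hv2, hpde, hl]
  simp only [dg258_dd_comp hF hvd]
  have h1 : ∑ i, dd (stdOrthonormalBasis ℝ W i) v x * (F' (v x) * dd (stdOrthonormalBasis ℝ W i) v x)
      = F' (v x) * dg258_G2 v x := by
    rw [dg258_G2, Finset.mul_sum]
    exact Finset.sum_congr rfl fun i _ => by ring
  rw [h1]
  ring

/-- the differential inequality of the P-function, multiplied by `|∇v|²`. -/
theorem dg258_key {F F' H H' H'' : ℝ → ℝ} (hF : ∀ t, HasDerivAt F (F' t) t)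
    (hHc : ContDiff ℝ 2 H) (hH : ∀ t, HasDerivAt H (H' t) t) (hH' : ∀ t, HasDerivAt H' (H'' t) t)
    {v : W → ℝ} (hv : ContDiff ℝ 3 v) (hpde : ∀ x, ellLap v x = F (v x)) (x : W) :
    (∑ j, dd (stdOrthonormalBasis ℝ W j) (dg258_Q H v) x * dd (stdOrthonormalBasis ℝ W j) (dg258_Q H v) x)
      + 2 * H' (v x) * (∑ j, dd (stdOrthonormalBasis ℝ W j) (dg258_Q H v) x *
          dd (stdOrthonormalBasis ℝ W j) v x)
      + dg258_G2 v x * (H' (v x) ^ 2 - H' (v x) * F (v x) + (F' (v x) - H'' (v x)) * dg258_G2 v x)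
      ≤ dg258_G2 v x * ellLap (dg258_Q H v) x := by
  have hv2 : ContDiff ℝ 2 v := hv.of_le (by norm_num)
  rw [dg258_lap_Q hF hHc hH hH' hv hpde]
  set e := stdOrthonormalBasis ℝ W with he
  set s : Fin (Module.finrank ℝ W) → ℝ := fun j => ∑ i, dd (e i) v x * dd (e j) (dd (e i) v) x with hs
  have hg : ∀ j, dd (e j) (dg258_Q H v) x = s j - H' (v x) * dd (e j) v x := fun j =>
    dg258_dd_Q hH hv2 (e j) x
  have hcs : ∑ j, s j * s j ≤ dg258_G2 v x * dg258_Hs v x := by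
    rw [dg258_G2, dg258_Hs, Finset.mul_sum]
    refine Finset.sum_le_sum fun j _ => ?_
    have := Finset.sum_mul_sq_le_sq_mul_sq Finset.univ (fun i => dd (e i) v x)
      (fun i => dd (e j) (dd (e i) v) x)
    simp only [pow_two] at this
    exact this
  have hexp : ∑ j, s j * s j = (∑ j, dd (e j) (dg258_Q H v) x * dd (e j) (dg258_Q H v) x)
      + 2 * H' (v x) * (∑ j, dd (e j) (dg258_Q H v) x * dd (e j) v x)
      + H' (v x) ^ 2 * dg258_G2 v x := by
    rw [dg258_G2, Finset.mul_sum, Finset.mul_sum, ← Finset.sum_add_distrib, ← Finset.sum_add_distrib]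
    refine Finset.sum_congr rfl fun j _ => ?_
    rw [hg j]
    ring
  nlinarith [hcs, hexp]

/-! ### Modica's gradient bound -/

theorem dg258_le_zero_of_forall {a B : ℝ} (h : ∀ η : ℝ, 0 < η → a ≤ η * B) : a ≤ 0 := by
  by_contra hcon
  rw [not_le] at hcon
  have h1 := h 1 one_pos
  have hB : 0 < B := by linarith
  have h2 := h (a / (2 * B)) (by positivity)
  have h3 : a / (2 * B) * B = a / 2 := by field_simp
  rw [h3] at h2
  linarith

theorem dg258_F_abs_le {t : ℝ} (h1 : -1 ≤ t) (h2 : t ≤ 1) : |t ^ 3 - t| ≤ 1 := by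
  have h3 : t ^ 3 - t = t * (t ^ 2 - 1) := by ring
  rw [h3, abs_mul]
  have h4 : |t| ≤ 1 := abs_le.2 ⟨h1, h2⟩
  have h5 : |t ^ 2 - 1| ≤ 1 := by
    rw [abs_le]; constructor <;> nlinarith
  calc |t| * |t ^ 2 - 1| ≤ 1 * 1 := mul_le_mul h4 h5 (abs_nonneg _) (by norm_num)
    _ = 1 := by norm_num

theorem dg258_hasDerivAt_exp (K t : ℝ) :
    HasDerivAt (fun t => Real.exp (K * t)) (K * Real.exp (K * t)) t := by
  have := ((hasDerivAt_id' t).const_mul K).exp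
  simp only [mul_one] at this
  rw [mul_comm] at this
  exact this

theorem dg258_hasDerivAt_F (t : ℝ) : HasDerivAt (fun t : ℝ => t ^ 3 - t) (3 * t ^ 2 - 1) t := by
  have := ((hasDerivAt_id' t).fun_pow 3).fun_sub (hasDerivAt_id' t)
  simpa using this

theorem dg258_hasDerivAt_H (ε K t : ℝ) :
    HasDerivAt (fun t : ℝ => (1 - t ^ 2) ^ 2 / 4 - ε * Real.exp (K * t))
      (t ^ 3 - t - ε * K * Real.exp (K * t)) t := by
  have h1 : HasDerivAt (fun t : ℝ => 1 - t ^ 2) (-(2 * t)) t := by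
    have := ((hasDerivAt_id' t).fun_pow 2).const_sub 1
    simpa using this
  have := ((h1.fun_pow 2).div_const 4).fun_sub ((dg258_hasDerivAt_exp K t).const_mul ε)
  refine this.congr_deriv ?_
  norm_num
  ring

theorem dg258_hasDerivAt_H' (ε K t : ℝ) :
    HasDerivAt (fun t : ℝ => t ^ 3 - t - ε * K * Real.exp (K * t))
      (3 * t ^ 2 - 1 - ε * K ^ 2 * Real.exp (K * t)) t := by
  have := (dg258_hasDerivAt_F t).fun_sub ((dg258_hasDerivAt_exp K t).const_mul (ε * K))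
  refine this.congr_deriv ?_
  ring

/-- the perturbed potential `H = W - ε e^{K t}` and its two derivatives. -/
noncomputable def dg258_H (ε K t : ℝ) : ℝ := (1 - t ^ 2) ^ 2 / 4 - ε * Real.exp (K * t)

noncomputable def dg258_H1 (ε K t : ℝ) : ℝ := t ^ 3 - t - ε * K * Real.exp (K * t)

noncomputable def dg258_H2 (ε K t : ℝ) : ℝ := 3 * t ^ 2 - 1 - ε * K ^ 2 * Real.exp (K * t)

theorem dg258_H_contDiff (ε K : ℝ) : ContDiff ℝ 2 (dg258_H ε K) := by
  unfold dg258_H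
  fun_prop

/-- real arithmetic: the zero order term of the differential inequality is `≥ c₀`. -/
theorem dg258_bracket {t E K G c₀ : ℝ} (h1 : -1 ≤ t) (h2 : t ≤ 1) (hc₀ : 0 < c₀) (hE : c₀ ≤ E)
    (hKG : 2 ≤ K * G) :
    c₀ ≤ (t ^ 3 - t - E) ^ 2 - (t ^ 3 - t - E) * (t ^ 3 - t) + K * E * G := by
  have h3 : (t ^ 3 - t - E) ^ 2 - (t ^ 3 - t - E) * (t ^ 3 - t) + K * E * G
      = E * (K * G - (t ^ 3 - t) + E) := by ring
  rw [h3]
  have h5 := (abs_le.1 (dg258_F_abs_le h1 h2)).2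
  have h6 : 0 < E := lt_of_lt_of_le hc₀ hE
  have h7 : 1 ≤ K * G - (t ^ 3 - t) + E := by linarith
  calc c₀ ≤ E := hE
    _ = E * 1 := by ring
    _ ≤ _ := mul_le_mul_of_nonneg_left h7 h6.le

/-- real arithmetic: the end of the argument at the approximate maximum point. -/
theorem dg258_endgame {G p₀ c₀ η n A S2 S1 Hp br lap : ℝ} (hp₀ : 0 < p₀) (hc₀ : 0 < c₀) (hη : 0 < η)
    (hA : 0 < A) (hGp : p₀ ≤ G) (hbr : c₀ ≤ br) (hkey : S2 + 2 * Hp * S1 + G * br ≤ G * lap)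
    (hlap : lap ≤ 2 * η * n) (hS2n : 0 ≤ S2) (hS2le : S2 ≤ 4 * η * A) (hHp : Hp ^ 2 ≤ 4)
    (hyoung : 0 ≤ (2 / c₀) * Hp ^ 2 * S2 + 2 * Hp * S1 + (c₀ / 2) * G) :
    p₀ * c₀ / 2 ≤ η * (2 * n * p₀ + 32 * A / c₀) := by
  have hG0 : 0 < G := lt_of_lt_of_le hp₀ hGp
  have h1 : G * c₀ ≤ G * br := mul_le_mul_of_nonneg_left hbr hG0.le
  have h2 : G * lap ≤ G * (2 * η * n) := mul_le_mul_of_nonneg_left hlap hG0.le
  have h3 : (2 / c₀) * Hp ^ 2 * S2 ≤ 32 * η * A / c₀ := by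
    have h0 : 0 ≤ 2 / c₀ := by positivity
    have h4 : Hp ^ 2 * S2 ≤ 4 * (4 * η * A) := mul_le_mul hHp hS2le hS2n (by norm_num)
    calc (2 / c₀) * Hp ^ 2 * S2 = (2 / c₀) * (Hp ^ 2 * S2) := by ring
      _ ≤ (2 / c₀) * (4 * (4 * η * A)) := mul_le_mul_of_nonneg_left h4 h0
      _ = _ := by ring
  have h5 : G * (c₀ / 2 - 2 * η * n) ≤ 32 * η * A / c₀ := by
    have : G * (c₀ / 2 - 2 * η * n) = G * c₀ - (c₀ / 2) * G - G * (2 * η * n) := by ring
    rw [this]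
    linarith
  have h6 : p₀ * (c₀ / 2 - 2 * η * n) ≤ 32 * η * A / c₀ := by
    rcases le_total 0 (c₀ / 2 - 2 * η * n) with h | h
    · exact (mul_le_mul_of_nonneg_right hGp h).trans h5
    · have h7 : p₀ * (c₀ / 2 - 2 * η * n) ≤ 0 := mul_nonpos_of_nonneg_of_nonpos hp₀.le h
      have h8 : 0 ≤ 32 * η * A / c₀ := by positivity
      linarith
  have h9 : η * (2 * n * p₀ + 32 * A / c₀) = p₀ * (2 * η * n) + 32 * η * A / c₀ := by ring
  rw [h9]
  linarith

theorem dg258_modica_step {v : W → ℝ} (hv : ContDiff ℝ 3 v) (hb : ∀ x, |v x| ≤ 1) {L : ℝ}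
    (hL : ∀ x, ‖fderiv ℝ v x‖ ≤ L) (hpde : ∀ x, ellLap v x = v x ^ 3 - v x) (x₀ : W)
    {p₀ K ε : ℝ} (hp₀ : 0 < p₀) (hKp : K * p₀ = 2) (hε : 0 < ε) (hεK : ε * Real.exp K = p₀ / 2)
    (hQ0 : p₀ ≤ dg258_Q (dg258_H ε K) v x₀) {η : ℝ} (hη : 0 < η) :
    p₀ * (ε * K * Real.exp (-K)) / 2 ≤ η * (2 * (Module.finrank ℝ W : ℝ) * p₀
      + 32 * (L ^ 2 / 2 + p₀ / 2) / (ε * K * Real.exp (-K))) := by
  have hK : 0 < K := by
    by_contra hcon
    rw [not_lt] at hcon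
    have := mul_nonpos_of_nonpos_of_nonneg hcon hp₀.le
    linarith
  have hc₀ : 0 < ε * K * Real.exp (-K) := by positivity
  have hHc := dg258_H_contDiff ε K
  have hQc : ContDiff ℝ 2 (dg258_Q (dg258_H ε K) v) := dg258_Q_contDiff hHc hv
  have hexple : ∀ x, ε * Real.exp (K * v x) ≤ p₀ / 2 := fun x => by
    rw [← hεK]
    refine mul_le_mul_of_nonneg_left (Real.exp_le_exp.2 ?_) hε.le
    have := (abs_le.1 (hb x)).2
    nlinarith
  have hL0 : 0 ≤ L := (norm_nonneg _).trans (hL x₀)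
  have hApos : 0 < L ^ 2 / 2 + p₀ / 2 := by positivity
  have hQA : ∀ x, dg258_Q (dg258_H ε K) v x ≤ L ^ 2 / 2 + p₀ / 2 := fun x => by
    have h1 : dg258_G2 v x ≤ L ^ 2 := by
      rw [dg258_G2_eq]; exact pow_le_pow_left₀ (norm_nonneg _) (hL x) 2
    have h2 := hexple x
    have h3 : 0 ≤ (1 - v x ^ 2) ^ 2 / 4 := by positivity
    simp only [dg258_Q, dg258_H]
    linarith
  obtain ⟨x₁, ha, hbb, hc, hd⟩ := dg258_approx_max hQc hQA x₀ hη
  have ht1 : v x₁ ≤ 1 := (abs_le.1 (hb x₁)).2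
  have ht2 : -1 ≤ v x₁ := (abs_le.1 (hb x₁)).1
  have hGp : p₀ ≤ dg258_G2 v x₁ := by
    have h1 := hexple x₁
    have h3 : 0 ≤ (1 - v x₁ ^ 2) ^ 2 / 4 := by positivity
    have h4 : dg258_Q (dg258_H ε K) v x₁
      = (1 / 2) * dg258_G2 v x₁ - ((1 - v x₁ ^ 2) ^ 2 / 4 - ε * Real.exp (K * v x₁)) := rfl
    linarith
  have hE1 : ε * K * Real.exp (K * v x₁) ≤ 1 := by
    have h1 := hexple x₁
    calc ε * K * Real.exp (K * v x₁) = K * (ε * Real.exp (K * v x₁)) := by ring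
      _ ≤ K * (p₀ / 2) := mul_le_mul_of_nonneg_left h1 hK.le
      _ = 1 := by linarith
  have hE0 : ε * K * Real.exp (-K) ≤ ε * K * Real.exp (K * v x₁) := by
    refine mul_le_mul_of_nonneg_left (Real.exp_le_exp.2 ?_) (by positivity)
    nlinarith
  have hH'sq : dg258_H1 ε K (v x₁) ^ 2 ≤ 4 := by
    have h1 := abs_le.1 (dg258_F_abs_le ht2 ht1)
    have h2 : 0 < ε * K * Real.exp (K * v x₁) := by positivity
    have h3 : |dg258_H1 ε K (v x₁)| ≤ 2 := by
      rw [abs_le]; unfold dg258_H1; constructor <;> linarith [h1.1, h1.2]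
    calc dg258_H1 ε K (v x₁) ^ 2 = |dg258_H1 ε K (v x₁)| ^ 2 := (sq_abs _).symm
      _ ≤ 2 ^ 2 := pow_le_pow_left₀ (abs_nonneg _) h3 2
      _ = 4 := by norm_num
  have hbr : ε * K * Real.exp (-K) ≤ dg258_H1 ε K (v x₁) ^ 2 - dg258_H1 ε K (v x₁) * (v x₁ ^ 3 - v x₁)
      + ((3 * v x₁ ^ 2 - 1) - dg258_H2 ε K (v x₁)) * dg258_G2 v x₁ := by
    have h4 : 2 ≤ K * dg258_G2 v x₁ := by rw [← hKp]; exact mul_le_mul_of_nonneg_left hGp hK.le
    have := dg258_bracket ht2 ht1 hc₀ hE0 h4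
    have h5 : (3 * v x₁ ^ 2 - 1) - dg258_H2 ε K (v x₁) = K * (ε * K * Real.exp (K * v x₁)) := by
      unfold dg258_H2; ring
    rw [h5]
    exact this
  have hkey := dg258_key (F := fun t => t ^ 3 - t) (F' := fun t => 3 * t ^ 2 - 1)
    (H := dg258_H ε K) (H' := dg258_H1 ε K) (H'' := dg258_H2 ε K) dg258_hasDerivAt_F hHc
    (dg258_hasDerivAt_H ε K) (dg258_hasDerivAt_H' ε K) hv hpde x₁
  beta_reduce at hkey
  have hS2n : 0 ≤ ∑ j, dd (stdOrthonormalBasis ℝ W j) (dg258_Q (dg258_H ε K) v) x₁ *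
      dd (stdOrthonormalBasis ℝ W j) (dg258_Q (dg258_H ε K) v) x₁ :=
    Finset.sum_nonneg fun j _ => mul_self_nonneg _
  have hS2le : ∑ j, dd (stdOrthonormalBasis ℝ W j) (dg258_Q (dg258_H ε K) v) x₁ *
      dd (stdOrthonormalBasis ℝ W j) (dg258_Q (dg258_H ε K) v) x₁ ≤ 4 * η * (L ^ 2 / 2 + p₀ / 2) := by
    have h1 : ∑ j, dd (stdOrthonormalBasis ℝ W j) (dg258_Q (dg258_H ε K) v) x₁ *
      dd (stdOrthonormalBasis ℝ W j) (dg258_Q (dg258_H ε K) v) x₁ = 4 * η ^ 2 * ‖x₁ - x₀‖ ^ 2 := by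
      rw [← (stdOrthonormalBasis ℝ W).sum_sq_norm_inner_right (x₁ - x₀), Finset.mul_sum]
      refine Finset.sum_congr rfl fun j _ => ?_
      rw [hc, Real.norm_eq_abs, sq_abs, real_inner_comm]
      ring
    rw [h1]
    have h2 : η * ‖x₁ - x₀‖ ^ 2 ≤ L ^ 2 / 2 + p₀ / 2 := by linarith
    calc 4 * η ^ 2 * ‖x₁ - x₀‖ ^ 2 = 4 * η * (η * ‖x₁ - x₀‖ ^ 2) := by ring
      _ ≤ _ := mul_le_mul_of_nonneg_left h2 (by positivity)
  have hyoung : 0 ≤ (2 / (ε * K * Real.exp (-K))) * dg258_H1 ε K (v x₁) ^ 2 *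
        (∑ j, dd (stdOrthonormalBasis ℝ W j) (dg258_Q (dg258_H ε K) v) x₁ *
          dd (stdOrthonormalBasis ℝ W j) (dg258_Q (dg258_H ε K) v) x₁)
      + 2 * dg258_H1 ε K (v x₁) * (∑ j, dd (stdOrthonormalBasis ℝ W j) (dg258_Q (dg258_H ε K) v) x₁ *
          dd (stdOrthonormalBasis ℝ W j) v x₁)
      + ((ε * K * Real.exp (-K)) / 2) * dg258_G2 v x₁ := by
    rw [dg258_G2, Finset.mul_sum, Finset.mul_sum, Finset.mul_sum,
      ← Finset.sum_add_distrib, ← Finset.sum_add_distrib]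
    refine Finset.sum_nonneg fun j _ => ?_
    generalize dd (stdOrthonormalBasis ℝ W j) (dg258_Q (dg258_H ε K) v) x₁ = a
    generalize dd (stdOrthonormalBasis ℝ W j) v x₁ = b
    generalize dg258_H1 ε K (v x₁) = h
    generalize ε * K * Real.exp (-K) = c at hc₀
    have : 2 / c * h ^ 2 * (a * a) + 2 * h * (a * b) + c / 2 * (b * b)
        = (2 / c) * (h * a + (c / 2) * b) ^ 2 := by
      field_simp
      ring
    rw [this]
    positivity
  have hlap : ellLap (dg258_Q (dg258_H ε K) v) x₁ ≤ 2 * η * (Module.finrank ℝ W : ℝ) := by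
    rw [ell_lap_eq_sum_dd isOpen_univ hQc.contDiffOn (Set.mem_univ x₁)]
    calc ∑ i, dd (stdOrthonormalBasis ℝ W i) (dd (stdOrthonormalBasis ℝ W i) (dg258_Q (dg258_H ε K) v)) x₁
        ≤ ∑ _i : Fin (Module.finrank ℝ W), 2 * η := by
          refine Finset.sum_le_sum fun i _ => ?_
          have := hd (stdOrthonormalBasis ℝ W i)
          rw [(stdOrthonormalBasis ℝ W).orthonormal.1 i] at this
          linarith
      _ = 2 * η * (Module.finrank ℝ W : ℝ) := by simp; ring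
  exact dg258_endgame hp₀ hc₀ hη hApos hGp hbr hkey hlap hS2n hS2le hH'sq hyoung

theorem dg258_modica_ell {v : W → ℝ} (hv : ContDiff ℝ 3 v) (hb : ∀ x, |v x| ≤ 1) {L : ℝ}
    (hL : ∀ x, ‖fderiv ℝ v x‖ ≤ L) (hpde : ∀ x, ellLap v x = v x ^ 3 - v x) (x₀ : W) :
    ‖fderiv ℝ v x₀‖ ^ 2 ≤ (1 - v x₀ ^ 2) ^ 2 / 2 := by
  by_contra hcon
  rw [not_le] at hcon
  obtain ⟨p₀, hp₀⟩ : ∃ p₀ : ℝ, p₀ = (1 / 2) * dg258_G2 v x₀ - (1 - v x₀ ^ 2) ^ 2 / 4 := ⟨_, rfl⟩
  have hp₀pos : 0 < p₀ := by rw [hp₀, dg258_G2_eq]; linarith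
  obtain ⟨K, hK⟩ : ∃ K : ℝ, K = 2 / p₀ := ⟨_, rfl⟩
  have hKpos : 0 < K := by rw [hK]; positivity
  have hKp : K * p₀ = 2 := by rw [hK]; field_simp
  obtain ⟨ε, hε⟩ : ∃ ε : ℝ, ε = (p₀ / 2) * Real.exp (-K) := ⟨_, rfl⟩
  have hεpos : 0 < ε := by rw [hε]; positivity
  have hεK : ε * Real.exp K = p₀ / 2 := by
    rw [hε, mul_assoc, ← Real.exp_add]; simp
  have hQ0 : p₀ ≤ dg258_Q (dg258_H ε K) v x₀ := by
    have : 0 < ε * Real.exp (K * v x₀) := by positivity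
    simp only [dg258_Q, dg258_H, hp₀]
    linarith
  have := dg258_le_zero_of_forall fun η hη =>
    dg258_modica_step hv hb hL hpde x₀ hp₀pos hKp hεpos hεK hQ0 hη
  have h2 : 0 < p₀ * (ε * K * Real.exp (-K)) / 2 := by positivity
  linarith

/-- MODICA'S GRADIENT BOUND, in Mathlib's terms. -/
theorem dg258_modica {v : W → ℝ} (hv : ContDiff ℝ 3 v) (hb : ∀ x, |v x| ≤ 1) {L : ℝ}
    (hL : ∀ x, ‖fderiv ℝ v x‖ ≤ L) (hpde : ∀ x, Laplacian.laplacian v x = v x ^ 3 - v x) (x : W) :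
    ‖fderiv ℝ v x‖ ^ 2 ≤ (1 - v x ^ 2) ^ 2 / 2 :=
  dg258_modica_ell hv hb hL (fun y => by rw [dg258_ellLap_eq, hpde]) x

/-! ## EXITS -/

/-- **A5. MODICA'S GRADIENT BOUND** `|∇u|²/2 ≤ W(u)` for every `C²` solution with values in `[-1,1]`, every dimension. -/
theorem dg258_exit_modica {n : ℕ} {u : DgE n → ℝ} (hu : DgSol n u) (x : DgE n) :
    ‖fderiv ℝ u x‖ ^ 2 / 2 ≤ dgW (u x) := by
  obtain ⟨C, -, hC⟩ := dgA3_c3 (DgE n)
  have hs : ContDiff ℝ ∞ u := dgA3_smooth hu.smooth hu.range hu.pde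
  have h1 := dg258_modica (hs.of_le (by norm_cast)) (fun y => abs_le.2 ⟨(hu.range y).1, (hu.range y).2⟩)
    (hC u hu.smooth hu.range hu.pde).1 hu.pde x
  unfold dgW
  linarith

/-- the same, as a bound of the norm: `|∇u| ≤ (1 - u²)/√2`. -/
theorem dg258_exit_modica_norm {n : ℕ} {u : DgE n → ℝ} (hu : DgSol n u) (x : DgE n) :
    ‖fderiv ℝ u x‖ ≤ (1 - u x ^ 2) / Real.sqrt 2 := by
  have h1 := dg258_exit_modica hu x
  unfold dgW at h1
  have h2 : 0 ≤ 1 - u x ^ 2 := by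
    have := hu.range x
    nlinarith [this.1, this.2]
  have h3 : (0 : ℝ) < Real.sqrt 2 := by positivity
  rw [le_div_iff₀ h3]
  refine abs_le_of_sq_le_sq' ?_ h2 |>.2
  rw [mul_pow, Real.sq_sqrt (by norm_num)]
  linarith

end Claimed.Agent.R329
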