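import Claimed.Agent.R329.Defs

/-!
# Row 329, post B1 (pen: helper58): the calibration.  Wells and planar profiles are global minimisers.

Paper, end of the proof of Lemma 3.1 (`lem:monotone-ends`): with `Φ' = √(2W)`,
`|∇w|²/2 + W(w) ≥ √(2W(w)) ∂_e w = ∂_e Φ(w)`, with equality for `w = g(e·x - c)`, and the integral of the right-hand side
depends only on the values of `w` near the boundary.

* `dgB1_IsMin n u`: `u` minimises the energy in every ball among the competitors `u + φ`, `φ` Lipschitz with compact support in the ball;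
* `dgB1_IsMin.dgMin`: this implies `DgMin` of `Defs.lean` (`C¹` perturbations, balls centred at `0`);
* `dgB1_isMin_of_rigid`: wells and planar profiles are minimisers, in every dimension;
* `dgB1_rigid_ext`: the extension of a well / planar profile of `ℝⁿ` to `ℝⁿ⁺¹`, independent of the last variable, is a well / planar profile;
* `dgB1_K3`: contract K3 of the hub.
-/

set_option autoImplicit false

open MeasureTheory Metric Set Filter Topology
open scoped NNReal

namespace Claimed.Agent.R329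

noncomputable section

/-- `u` minimises the energy in every ball among the competitors `u + φ`, `φ` Lipschitz with compact support in the ball. -/
def dgB1_IsMin (n : ℕ) (u : DgE n → ℝ) : Prop :=
  ∀ (x₀ : DgE n) (R : ℝ) (φ : DgE n → ℝ) (C : ℝ≥0), LipschitzWith C φ → HasCompactSupport φ →
    tsupport φ ⊆ ball x₀ R → dgEn n u x₀ R ≤ dgEn n (fun x => u x + φ x) x₀ R

theorem dgB1_IsMin.dgMin {n : ℕ} {u : DgE n → ℝ} (h : dgB1_IsMin n u) : DgMin n u := by
  intro R φ hφ hc hs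
  obtain ⟨C, hC⟩ := hφ.lipschitzWith_of_hasCompactSupport hc one_ne_zero
  exact h 0 R φ C hC hc hs

theorem dgB1_dens_nonneg (n : ℕ) (u : DgE n → ℝ) (x : DgE n) : 0 ≤ dgDens n u x := by
  unfold dgDens dgW
  positivity

theorem dgB1_en_nonneg (n : ℕ) (u : DgE n → ℝ) (x₀ : DgE n) (R : ℝ) : 0 ≤ dgEn n u x₀ R :=
  integral_nonneg fun x => dgB1_dens_nonneg n u x

/-- The wells have zero energy. -/
theorem dgB1_en_const {n : ℕ} {c : ℝ} (hc : c ^ 2 = 1) (x₀ : DgE n) (R : ℝ) :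
    dgEn n (fun _ => c) x₀ R = 0 := by
  unfold dgEn dgDens dgW
  simp [hc]

theorem dgB1_isMin_const {n : ℕ} {c : ℝ} (hc : c ^ 2 = 1) : dgB1_IsMin n fun _ => c := by
  intro x₀ R φ C _ _ _
  rw [dgB1_en_const hc]
  exact dgB1_en_nonneg _ _ _ _

/-! ## The planar profile -/

theorem dgB1_hasDerivAt_tanh (t : ℝ) : HasDerivAt Real.tanh (1 - Real.tanh t ^ 2) t := by
  have hc : Real.cosh t ≠ 0 := (Real.cosh_pos t).ne'
  have h := (Real.hasDerivAt_sinh t).div (Real.hasDerivAt_cosh t) hc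
  have e : Real.tanh = fun x => Real.sinh x / Real.cosh x := funext Real.tanh_eq_sinh_div_cosh
  rw [e]
  have e2 : 1 - (Real.sinh t / Real.cosh t) ^ 2 =
      (Real.cosh t * Real.cosh t - Real.sinh t * Real.sinh t) / Real.cosh t ^ 2 := by
    field_simp
  rw [e2]
  exact h

/-- the planar profile -/
def dgB1_pl {n : ℕ} (a : DgE n) (b : ℝ) (x : DgE n) : ℝ := Real.tanh ((inner ℝ a x - b) / Real.sqrt 2)

theorem dgB1_pl_hasFDerivAt {n : ℕ} (a : DgE n) (b : ℝ) (x : DgE n) :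
    HasFDerivAt (dgB1_pl a b) (((1 - dgB1_pl a b x ^ 2) / Real.sqrt 2) • innerSL ℝ a) x := by
  have h1 : HasFDerivAt (fun y : DgE n => (inner ℝ a y - b) / Real.sqrt 2)
      ((Real.sqrt 2)⁻¹ • innerSL ℝ a) x := by
    have h := (((innerSL ℝ a).hasFDerivAt (x := x)).sub_const b).const_smul (Real.sqrt 2)⁻¹
    refine h.congr_of_eventuallyEq (Eventually.of_forall fun y => ?_)
    simp [div_eq_inv_mul]
  have h2 := (dgB1_hasDerivAt_tanh ((inner ℝ a x - b) / Real.sqrt 2)).comp_hasFDerivAt x h1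
  have e : ((1 - dgB1_pl a b x ^ 2) / Real.sqrt 2) • innerSL ℝ a =
      (1 - Real.tanh ((inner ℝ a x - b) / Real.sqrt 2) ^ 2) • (Real.sqrt 2)⁻¹ • innerSL ℝ a := by
    rw [smul_smul, div_eq_mul_inv]
    rfl
  rw [e]
  exact h2

/-- the calibration density `√(2W(f)) ∂_a f` (without absolute value: `(1 - f²)/√2 · ∂_a f`) -/
def dgB1_cal {n : ℕ} (a : DgE n) (f : DgE n → ℝ) (x : DgE n) : ℝ :=
  (1 - f x ^ 2) / Real.sqrt 2 * fderiv ℝ f x a

theorem dgB1_cal_le_dens {n : ℕ} {a : DgE n} (ha : ‖a‖ = 1) (f : DgE n → ℝ) (x : DgE n) :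
    dgB1_cal a f x ≤ dgDens n f x := by
  unfold dgB1_cal dgDens dgW
  have h1 : |fderiv ℝ f x a| ≤ ‖fderiv ℝ f x‖ := by
    have := (fderiv ℝ f x).le_opNorm a
    rwa [ha, mul_one, Real.norm_eq_abs] at this
  set p := fderiv ℝ f x a
  set P := ‖fderiv ℝ f x‖
  set y := (1 - f x ^ 2) / Real.sqrt 2 with hydef
  have hy : y ^ 2 = (1 - f x ^ 2) ^ 2 / 2 := by
    rw [hydef, div_pow, Real.sq_sqrt (by norm_num)]
  have h2 : p ^ 2 ≤ P ^ 2 := by
    rw [← sq_abs p]
    exact pow_le_pow_left₀ (abs_nonneg _) h1 2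
  nlinarith [sq_nonneg (y - p)]

theorem dgB1_cal_pl {n : ℕ} {a : DgE n} (ha : ‖a‖ = 1) (b : ℝ) (x : DgE n) :
    dgB1_cal a (dgB1_pl a b) x = dgDens n (dgB1_pl a b) x := by
  unfold dgB1_cal dgDens dgW
  rw [(dgB1_pl_hasFDerivAt a b x).fderiv, norm_smul, innerSL_apply_norm, ha, mul_one]
  simp only [smul_apply, innerSL_apply_apply, real_inner_self_eq_norm_sq, ha, smul_eq_mul,
    Real.norm_eq_abs, sq_abs, one_pow, mul_one]
  set v := dgB1_pl a b x
  have hs : Real.sqrt 2 ^ 2 = 2 := Real.sq_sqrt (by norm_num)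
  have hs0 : Real.sqrt 2 ≠ 0 := by positivity
  rw [div_pow, hs]
  field_simp
  nlinarith [hs]

/-! ## The integral of the calibration depends only on the values near the boundary -/

/-- the primitive `Φ(t) = (t - t³/3)/√2` of `(1 - t²)/√2` -/
def dgB1_Phi (t : ℝ) : ℝ := (t - t ^ 3 / 3) / Real.sqrt 2

theorem dgB1_Phi_hasDerivAt (t : ℝ) : HasDerivAt dgB1_Phi ((1 - t ^ 2) / Real.sqrt 2) t := by
  unfold dgB1_Phi
  have h := ((hasDerivAt_id' t).sub (((hasDerivAt_id' t).pow 3).div_const 3)).div_const (Real.sqrt 2)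
  refine h.congr_deriv ?_
  norm_num

theorem dgB1_Phi_lipschitzOn (M : ℝ) :
    LipschitzOnWith (Real.toNNReal ((1 + M ^ 2) / Real.sqrt 2)) dgB1_Phi (Icc (-M) M) := by
  refine Convex.lipschitzOnWith_of_nnnorm_deriv_le (fun x _ => (dgB1_Phi_hasDerivAt x).differentiableAt)
    (fun x hx => ?_) (convex_Icc _ _)
  rw [(dgB1_Phi_hasDerivAt x).deriv, ← NNReal.coe_le_coe, coe_nnnorm,
    Real.coe_toNNReal _ (by positivity), Real.norm_eq_abs, abs_div, abs_of_pos (by positivity : 0 < Real.sqrt 2)]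
  gcongr
  have h1 : x ^ 2 ≤ M ^ 2 := sq_le_sq' hx.1 hx.2
  rw [abs_le]
  constructor <;> nlinarith [sq_nonneg x]

theorem dgB1_Phi_comp_lipschitz {n : ℕ} {f : DgE n → ℝ} {C : ℝ≥0} (hf : LipschitzWith C f) {M : ℝ}
    (hM : ∀ x, |f x| ≤ M) :
    LipschitzWith (Real.toNNReal ((1 + M ^ 2) / Real.sqrt 2) * C) (fun x => dgB1_Phi (f x)) :=
  lipschitzOnWith_univ.1 ((dgB1_Phi_lipschitzOn M).comp (lipschitzOnWith_univ.2 hf)
    fun x _ => abs_le.1 (hM x))

theorem dgB1_cal_integrableOn {n : ℕ} (a : DgE n) {f : DgE n → ℝ} {C : ℝ≥0} (hf : LipschitzWith C f) {M : ℝ}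
    (hM : ∀ x, |f x| ≤ M) (x₀ : DgE n) (R : ℝ) : IntegrableOn (dgB1_cal a f) (ball x₀ R) := by
  have hmeas : Measurable (dgB1_cal a f) := by
    unfold dgB1_cal
    exact (((measurable_const.sub (hf.continuous.measurable.pow_const 2)).div_const _)).mul
      (measurable_fderiv_apply_const ℝ f a)
  refine Measure.integrableOn_of_bounded (M := (1 + M ^ 2) / Real.sqrt 2 * (C * ‖a‖)) measure_ball_lt_top.ne
    hmeas.aestronglyMeasurable (ae_of_all _ fun x => ?_)
  unfold dgB1_cal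
  rw [norm_mul]
  have h1 : ‖fderiv ℝ f x a‖ ≤ C * ‖a‖ :=
    ((fderiv ℝ f x).le_opNorm a).trans (by gcongr; exact norm_fderiv_le_of_lipschitz ℝ hf)
  have h2 : ‖(1 - f x ^ 2) / Real.sqrt 2‖ ≤ (1 + M ^ 2) / Real.sqrt 2 := by
    rw [Real.norm_eq_abs, abs_div, abs_of_pos (by positivity : 0 < Real.sqrt 2)]
    gcongr
    have h3 : f x ^ 2 ≤ M ^ 2 := sq_le_sq' (abs_le.1 (hM x)).1 (abs_le.1 (hM x)).2
    rw [abs_le]
    constructor <;> nlinarith [sq_nonneg (f x)]
  exact mul_le_mul h2 h1 (norm_nonneg _) (by positivity)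

theorem dgB1_dens_integrableOn {n : ℕ} {f : DgE n → ℝ} {C : ℝ≥0} (hf : LipschitzWith C f) {M : ℝ}
    (hM : ∀ x, |f x| ≤ M) (x₀ : DgE n) (R : ℝ) : IntegrableOn (dgDens n f) (ball x₀ R) := by
  have hmeas : Measurable (dgDens n f) := by
    unfold dgDens dgW
    exact (((measurable_fderiv ℝ f).norm.pow_const 2).div_const 2).add
      (((measurable_const.sub (hf.continuous.measurable.pow_const 2)).pow_const 2).div_const 4)
  refine Measure.integrableOn_of_bounded (M := (C : ℝ) ^ 2 / 2 + (1 + M ^ 2) ^ 2 / 4) measure_ball_lt_top.ne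
    hmeas.aestronglyMeasurable (ae_of_all _ fun x => ?_)
  rw [Real.norm_of_nonneg (dgB1_dens_nonneg n f x)]
  unfold dgDens dgW
  have h1 : ‖fderiv ℝ f x‖ ≤ C := norm_fderiv_le_of_lipschitz ℝ hf
  have h3 : f x ^ 2 ≤ M ^ 2 := sq_le_sq' (abs_le.1 (hM x)).1 (abs_le.1 (hM x)).2
  have h4 : (1 - f x ^ 2) ^ 2 ≤ (1 + M ^ 2) ^ 2 := by
    apply sq_le_sq'
    · nlinarith [sq_nonneg (f x)]
    · nlinarith [sq_nonneg (f x)]
  gcongr

/-- The integral of a directional derivative of a compactly supported Lipschitz function vanishes. -/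
theorem dgB1_integral_lineDeriv_eq_zero {n : ℕ} {ψ : DgE n → ℝ} {C : ℝ≥0} (hψ : LipschitzWith C ψ)
    (hc : HasCompactSupport ψ) (a : DgE n) : ∫ x, lineDeriv ℝ ψ x a = 0 := by
  have h := LipschitzWith.integral_lineDeriv_mul_eq (μ := (volume : Measure (DgE n)))
    (f := fun _ => (1 : ℝ)) (g := ψ) (C := 0) (LipschitzWith.const (1 : ℝ)) hψ hc (-a)
  simp only [neg_neg, mul_one] at h
  rw [← h]
  simp [lineDeriv]

/-- **The calibration is a null Lagrangian**: its integral over a ball does not change under a Lipschitz perturbation with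
compact support in the ball. -/
theorem dgB1_integral_cal_eq {n : ℕ} (a : DgE n) {v φ : DgE n → ℝ} {C D : ℝ≥0} (hv : LipschitzWith C v)
    (hvd : Differentiable ℝ v) {M : ℝ} (hvM : ∀ x, |v x| ≤ M) (hφ : LipschitzWith D φ) (hc : HasCompactSupport φ)
    {x₀ : DgE n} {R : ℝ} (hs : tsupport φ ⊆ ball x₀ R) :
    ∫ x in ball x₀ R, dgB1_cal a (fun x => v x + φ x) x = ∫ x in ball x₀ R, dgB1_cal a v x := by
  obtain ⟨M', hM'⟩ := hφ.continuous.bounded_above_of_compact_support hc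
  have hwM : ∀ x, |v x + φ x| ≤ M + M' := fun x =>
    (abs_add_le _ _).trans (add_le_add (hvM x) (by simpa using hM' x))
  have hw : LipschitzWith (C + D) fun x => v x + φ x := hv.add hφ
  set ψ : DgE n → ℝ := fun x => dgB1_Phi (v x + φ x) - dgB1_Phi (v x) with hψdef
  have hψL := (dgB1_Phi_comp_lipschitz hw hwM).sub (dgB1_Phi_comp_lipschitz hv hvM)
  have hψc : HasCompactSupport ψ := by
    refine hc.mono fun x hx => ?_
    by_contra h0
    have h0' : φ x = 0 := by simpa using h0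
    exact hx (by simp [hψdef, h0'])
  have h0 := dgB1_integral_lineDeriv_eq_zero hψL hψc a
  have hae : ∀ᵐ x, lineDeriv ℝ ψ x a = dgB1_cal a (fun x => v x + φ x) x - dgB1_cal a v x := by
    filter_upwards [hφ.ae_differentiableAt (μ := (volume : Measure (DgE n)))] with x hx
    have h1 : HasFDerivAt (fun x => v x + φ x) (fderiv ℝ (fun x => v x + φ x) x) x :=
      ((hvd x).add hx).hasFDerivAt
    have h2 := (dgB1_Phi_hasDerivAt (v x + φ x)).comp_hasFDerivAt x h1
    have h3 := (dgB1_Phi_hasDerivAt (v x)).comp_hasFDerivAt x (hvd x).hasFDerivAt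
    have h4 := ((h2.sub h3).hasLineDerivAt a).lineDeriv
    rw [show ψ = (dgB1_Phi ∘ fun x => v x + φ x) - (dgB1_Phi ∘ v) from rfl, h4]
    simp [dgB1_cal]
  have hout : ∀ x, x ∉ ball x₀ R → dgB1_cal a (fun x => v x + φ x) x - dgB1_cal a v x = 0 := by
    intro x hx
    have hx' : x ∉ tsupport φ := fun h => hx (hs h)
    have he : (fun x => v x + φ x) =ᶠ[𝓝 x] v := by
      filter_upwards [notMem_tsupport_iff_eventuallyEq.1 hx'] with y hy
      simp [hy]
    unfold dgB1_cal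
    have he' : v x + φ x = v x := he.eq_of_nhds
    rw [he.fderiv_eq]
    simp only [he', sub_self]
  have h5 : ∫ x in ball x₀ R, (dgB1_cal a (fun x => v x + φ x) x - dgB1_cal a v x) = 0 := by
    rw [setIntegral_eq_integral_of_forall_compl_eq_zero hout, ← integral_congr_ae hae, h0]
  rw [integral_sub (dgB1_cal_integrableOn a hw hwM x₀ R) (dgB1_cal_integrableOn a hv hvM x₀ R)] at h5
  linarith

theorem dgB1_pl_abs_le {n : ℕ} (a : DgE n) (b : ℝ) (x : DgE n) : |dgB1_pl a b x| ≤ 1 := by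
  unfold dgB1_pl
  exact abs_le.2 ⟨(Real.neg_one_lt_tanh _).le, (Real.tanh_lt_one _).le⟩

theorem dgB1_pl_lipschitz {n : ℕ} {a : DgE n} (ha : ‖a‖ = 1) (b : ℝ) : LipschitzWith 1 (dgB1_pl a b) := by
  refine lipschitzWith_of_nnnorm_fderiv_le (fun x => (dgB1_pl_hasFDerivAt a b x).differentiableAt) fun x => ?_
  rw [(dgB1_pl_hasFDerivAt a b x).fderiv, ← NNReal.coe_le_coe, coe_nnnorm, norm_smul, innerSL_apply_norm, ha,
    mul_one, NNReal.coe_one, Real.norm_eq_abs, abs_div, abs_of_pos (by positivity : 0 < Real.sqrt 2)]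
  have h1 : dgB1_pl a b x ^ 2 ≤ 1 := by
    have := dgB1_pl_abs_le a b x
    rw [← sq_abs]
    exact pow_le_one₀ (abs_nonneg _) this
  have h2 : |1 - dgB1_pl a b x ^ 2| ≤ 1 := by
    rw [abs_le]
    constructor <;> nlinarith [sq_nonneg (dgB1_pl a b x)]
  have h3 : (1 : ℝ) ≤ Real.sqrt 2 := by
    rw [show (1 : ℝ) = Real.sqrt 1 by simp]
    exact Real.sqrt_le_sqrt (by norm_num)
  rw [div_le_one (by positivity)]
  exact h2.trans h3

/-- **Planar profiles are minimisers** (calibration). -/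
theorem dgB1_isMin_pl {n : ℕ} {a : DgE n} (ha : ‖a‖ = 1) (b : ℝ) : dgB1_IsMin n (dgB1_pl a b) := by
  intro x₀ R φ D hφ hc hs
  have hv := dgB1_pl_lipschitz ha b
  have hvd : Differentiable ℝ (dgB1_pl a b) := fun x => (dgB1_pl_hasFDerivAt a b x).differentiableAt
  obtain ⟨M', hM'⟩ := hφ.continuous.bounded_above_of_compact_support hc
  have hwM : ∀ x, |dgB1_pl a b x + φ x| ≤ 1 + M' := fun x =>
    (abs_add_le _ _).trans (add_le_add (dgB1_pl_abs_le a b x) (by simpa using hM' x))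
  have hw : LipschitzWith (1 + D) fun x => dgB1_pl a b x + φ x := hv.add hφ
  calc dgEn n (dgB1_pl a b) x₀ R = ∫ x in ball x₀ R, dgB1_cal a (dgB1_pl a b) x := by
        unfold dgEn
        exact integral_congr_ae (ae_of_all _ fun x => (dgB1_cal_pl ha b x).symm)
    _ = ∫ x in ball x₀ R, dgB1_cal a (fun x => dgB1_pl a b x + φ x) x :=
        (dgB1_integral_cal_eq a hv hvd (dgB1_pl_abs_le a b) hφ hc hs).symm
    _ ≤ dgEn n (fun x => dgB1_pl a b x + φ x) x₀ R :=
        setIntegral_mono (dgB1_cal_integrableOn a hw hwM x₀ R) (dgB1_dens_integrableOn hw hwM x₀ R)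
          fun x => dgB1_cal_le_dens ha _ x

/-- **Wells and planar profiles are minimisers in the Lipschitz class, in every dimension.** -/
theorem dgB1_isMin_of_rigid {n : ℕ} {v : DgE n → ℝ} (hv : DgRigid n v) : dgB1_IsMin n v := by
  rcases hv with h | h | ⟨a, ha, b, h⟩
  · rw [show v = fun _ => (1 : ℝ) from funext h]
    exact dgB1_isMin_const (by norm_num)
  · rw [show v = fun _ => (-1 : ℝ) from funext h]
    exact dgB1_isMin_const (by norm_num)
  · rw [show v = dgB1_pl a b from funext h]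
    exact dgB1_isMin_pl ha b

/-! ## Extension by one variable -/

/-- The extension of a well / planar profile of `ℝⁿ` to `ℝⁿ⁺¹`, independent of the last variable, is a well / planar profile. -/
theorem dgB1_rigid_ext {n : ℕ} {v : DgE n → ℝ} (hv : DgRigid n v) :
    DgRigid (n + 1) fun x : DgE (n + 1) => v (WithLp.toLp 2 fun i : Fin n => x i.castSucc) := by
  rcases hv with h | h | ⟨a, ha, b, h⟩
  · exact Or.inl fun x => h _
  · exact Or.inr (Or.inl fun x => h _)
  · refine Or.inr (Or.inr ⟨dgSnoc a 0, ?_, b, fun x => ?_⟩)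
    · rw [EuclideanSpace.norm_eq] at ha ⊢
      rw [← ha]
      congr 1
      rw [Fin.sum_univ_castSucc]
      simp [dgSnoc]
    · show v (WithLp.toLp 2 fun i => x i.castSucc) = _
      rw [h]
      congr 3
      simp only [PiLp.inner_apply]
      rw [Fin.sum_univ_castSucc]
      simp [dgSnoc]

/-! ## EXITS -/

/-- EXIT 1: wells and planar profiles minimise in every ball among Lipschitz competitors. -/
theorem dgB1_exit_lip {n : ℕ} {v : DgE n → ℝ} (hv : DgRigid n v) (x₀ : DgE n) (R : ℝ) (φ : DgE n → ℝ) (C : ℝ≥0)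
    (hφ : LipschitzWith C φ) (hc : HasCompactSupport φ) (hs : tsupport φ ⊆ ball x₀ R) :
    dgEn n v x₀ R ≤ dgEn n (fun x => v x + φ x) x₀ R :=
  dgB1_isMin_of_rigid hv x₀ R φ C hφ hc hs

/-- EXIT 2: the same in the words of `DgMin`. -/
theorem dgB1_exit_min {n : ℕ} {v : DgE n → ℝ} (hv : DgRigid n v) : DgMin n v :=
  (dgB1_isMin_of_rigid hv).dgMin

/-- EXIT 3: the extension by one variable, Lipschitz class. -/
theorem dgB1_exit_ext_lip {n : ℕ} {v : DgE n → ℝ} (hv : DgRigid n v) :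
    dgB1_IsMin (n + 1) fun x : DgE (n + 1) => v (WithLp.toLp 2 fun i : Fin n => x i.castSucc) :=
  dgB1_isMin_of_rigid (dgB1_rigid_ext hv)

/-- EXIT 4 = contract **K3** of the hub (`dgInit x = WithLp.toLp 2 fun i : Fin n => x i.castSucc`). -/
theorem dgB1_K3 {v : DgE 7 → ℝ} (hv : DgRigid 7 v) :
    DgMin 8 fun x : DgE 8 => v (WithLp.toLp 2 fun i : Fin 7 => x i.castSucc) :=
  (dgB1_exit_ext_lip hv).dgMin

end

end Claimed.Agent.R329
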