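/-
Row 329 (De Giorgi in dimension eight), base layer.  Pen: helper78.  Prefix `dg8_`.

* coordinates: `‖L‖² = ∑ (L eᵢ)²`, `Δ f = ∑ ∂ᵢ∂ᵢ f`;
* the ground state substitution `∫ |∇(qη)|² = ∫ q² |∇η|² - ∫ q Δq η²` (`q ∈ C²`, `η ∈ C¹_c`);
* the `q`-test of a stable solution (`q = 1 - v²`):
  `∫ (q³ - 2 q |∇v|²) η² ≤ ∫ q² |∇η|²`   (paper, (1.9) `eq:intro-defect-test`).
-/
import Mathlib

set_option autoImplicit false

open MeasureTheory Set Filter Topology

namespace Claimed.Agent.R329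

variable {n : ℕ}

/-- The `i`-th partial derivative. -/
noncomputable def dg8D (i : Fin n) (f : EuclideanSpace ℝ (Fin n) → ℝ)
    (x : EuclideanSpace ℝ (Fin n)) : ℝ :=
  fderiv ℝ f x (EuclideanSpace.single i 1)

theorem dg8_norm_sq_clm (L : EuclideanSpace ℝ (Fin n) →L[ℝ] ℝ) :
    ‖L‖ ^ 2 = ∑ i, (L (EuclideanSpace.single i 1)) ^ 2 := by
  set a := (InnerProductSpace.toDual ℝ (EuclideanSpace ℝ (Fin n))).symm L with ha
  have h1 : ‖a‖ = ‖L‖ := by simp [ha]
  rw [← h1, EuclideanSpace.norm_sq_eq]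
  refine Finset.sum_congr rfl fun i _ => ?_
  have h2 : L (EuclideanSpace.single i 1) = a i := by
    have := InnerProductSpace.toDual_symm_apply (𝕜 := ℝ) (x := EuclideanSpace.single i (1 : ℝ)) (y := L)
    rw [← this, ← ha]
    simp [EuclideanSpace.inner_single_right]
  rw [h2, Real.norm_eq_abs, sq_abs]

theorem dg8_norm_fderiv_sq (f : EuclideanSpace ℝ (Fin n) → ℝ) (x : EuclideanSpace ℝ (Fin n)) :
    ‖fderiv ℝ f x‖ ^ 2 = ∑ i, dg8D i f x ^ 2 :=
  dg8_norm_sq_clm _

theorem dg8_laplacian_eq (f : EuclideanSpace ℝ (Fin n) → ℝ) (x : EuclideanSpace ℝ (Fin n)) :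
    Laplacian.laplacian f x =
      ∑ i, fderiv ℝ (fderiv ℝ f) x (EuclideanSpace.single i 1) (EuclideanSpace.single i 1) := by
  rw [InnerProductSpace.laplacian_eq_iteratedFDeriv_orthonormalBasis f
    (EuclideanSpace.basisFun (Fin n) ℝ)]
  refine Finset.sum_congr rfl fun i _ => ?_
  rw [iteratedFDeriv_two_apply]
  simp

theorem dg8_contDiff_D {f : EuclideanSpace ℝ (Fin n) → ℝ} {k : ℕ} (hf : ContDiff ℝ (k + 1) f)
    (i : Fin n) : ContDiff ℝ k (dg8D i f) := by
  have h : ContDiff ℝ k (fderiv ℝ f) := hf.fderiv_right (by norm_cast)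
  exact h.clm_apply contDiff_const

theorem dg8_DD_eq {f : EuclideanSpace ℝ (Fin n) → ℝ} (hf : ContDiff ℝ 2 f) (i : Fin n)
    (x : EuclideanSpace ℝ (Fin n)) :
    dg8D i (dg8D i f) x =
      fderiv ℝ (fderiv ℝ f) x (EuclideanSpace.single i 1) (EuclideanSpace.single i 1) := by
  have h : ContDiff ℝ 1 (fderiv ℝ f) := hf.fderiv_right (by norm_cast)
  have hd : DifferentiableAt ℝ (fderiv ℝ f) x := (h.differentiable (by norm_num)) x
  unfold dg8D
  rw [fderiv_clm_apply hd (differentiableAt_const _)]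
  simp

theorem dg8_laplacian_eq_sum_DD {f : EuclideanSpace ℝ (Fin n) → ℝ} (hf : ContDiff ℝ 2 f)
    (x : EuclideanSpace ℝ (Fin n)) :
    Laplacian.laplacian f x = ∑ i, dg8D i (dg8D i f) x := by
  rw [dg8_laplacian_eq]
  exact Finset.sum_congr rfl fun i _ => (dg8_DD_eq hf i x).symm


/-! ### Product rules for the partial derivatives -/

theorem dg8_D_mul {f g : EuclideanSpace ℝ (Fin n) → ℝ} {x : EuclideanSpace ℝ (Fin n)}
    (hf : DifferentiableAt ℝ f x) (hg : DifferentiableAt ℝ g x) (i : Fin n) :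
    dg8D i (fun y => f y * g y) x = dg8D i f x * g x + f x * dg8D i g x := by
  unfold dg8D
  rw [fderiv_fun_mul hf hg]
  simp [mul_comm]
  ring

theorem dg8_D_sq {f : EuclideanSpace ℝ (Fin n) → ℝ} {x : EuclideanSpace ℝ (Fin n)}
    (hf : DifferentiableAt ℝ f x) (i : Fin n) :
    dg8D i (fun y => f y ^ 2) x = 2 * f x * dg8D i f x := by
  have : (fun y => f y ^ 2) = fun y => f y * f y := by funext y; ring
  rw [this, dg8_D_mul hf hf]
  ring

theorem dg8_hasCompactSupport_D {f : EuclideanSpace ℝ (Fin n) → ℝ} (hf : HasCompactSupport f)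
    (i : Fin n) : HasCompactSupport (dg8D i f) := by
  have h := hf.fderiv (𝕜 := ℝ)
  exact h.comp_left (g := fun L : EuclideanSpace ℝ (Fin n) →L[ℝ] ℝ =>
    L (EuclideanSpace.single i 1)) (by simp)

/-- One coordinate of the ground state substitution. -/
theorem dg8_ground_coord {q η : EuclideanSpace ℝ (Fin n) → ℝ} (hq : ContDiff ℝ 2 q)
    (hη : ContDiff ℝ 1 η) (hηc : HasCompactSupport η) (i : Fin n) :
    ∫ x, dg8D i (fun y => q y * η y) x ^ 2 =
      (∫ x, q x ^ 2 * dg8D i η x ^ 2) - ∫ x, q x * dg8D i (dg8D i q) x * η x ^ 2 := by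
  have hq1 : ContDiff ℝ 1 (dg8D i q) := dg8_contDiff_D (k := 1) (by exact_mod_cast hq) i
  have hη0 : Continuous (dg8D i η) := (dg8_contDiff_D (k := 0) (by exact_mod_cast hη) i).continuous
  have hq2 : Continuous (dg8D i (dg8D i q)) :=
    (dg8_contDiff_D (k := 0) (by exact_mod_cast hq1) i).continuous
  have hqc : Continuous q := hq.continuous
  have hηcont : Continuous η := hη.continuous
  have hqd : Differentiable ℝ q := hq.differentiable (by norm_num)
  have hηd : Differentiable ℝ η := hη.differentiable (by norm_num)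
  have hq1d : Differentiable ℝ (dg8D i q) := hq1.differentiable (by norm_num)
  have hDηc : HasCompactSupport (dg8D i η) := dg8_hasCompactSupport_D hηc i
  -- integration by parts
  have hibp : ∫ x, (q x * dg8D i q x) * dg8D i (fun y => η y ^ 2) x =
      - ∫ x, dg8D i (fun y => q y * dg8D i q y) x * η x ^ 2 := by
    have hη2c : HasCompactSupport (fun y => η y ^ 2) := by
      have : (fun y => η y ^ 2) = fun y => η y * η y := by funext y; ring
      rw [this]; exact hηc.mul_left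
    have e1 : ∀ x, dg8D i (fun y => η y ^ 2) x = 2 * η x * dg8D i η x := fun x => dg8_D_sq (hηd x) i
    have e2 : ∀ x, dg8D i (fun y => q y * dg8D i q y) x =
        dg8D i q x * dg8D i q x + q x * dg8D i (dg8D i q) x := fun x => dg8_D_mul (hqd x) (hq1d x) i
    refine integral_mul_fderiv_eq_neg_fderiv_mul_of_integrable (μ := volume)
      (f := fun y => q y * dg8D i q y) (g := fun y => η y ^ 2)
      (v := EuclideanSpace.single i (1 : ℝ)) ?_ ?_ ?_ ?_ ?_
    · have : (fun x => fderiv ℝ (fun y => q y * dg8D i q y) x (EuclideanSpace.single i 1) * η x ^ 2)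
          = fun x => (dg8D i q x * dg8D i q x + q x * dg8D i (dg8D i q) x) * η x ^ 2 := by
        funext x; rw [← e2 x]; rfl
      rw [this]
      refine Continuous.integrable_of_hasCompactSupport (by fun_prop) ?_
      exact hη2c.mul_left
    · have : (fun x => (q x * dg8D i q x) * fderiv ℝ (fun y => η y ^ 2) x (EuclideanSpace.single i 1))
          = fun x => (q x * dg8D i q x) * (2 * η x * dg8D i η x) := by
        funext x; rw [← e1 x]; rfl
      rw [this]
      refine Continuous.integrable_of_hasCompactSupport (by fun_prop) ?_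
      exact (hDηc.mul_left).mul_left
    · refine Continuous.integrable_of_hasCompactSupport (by fun_prop) ?_
      exact hη2c.mul_left
    · intro x _
      exact (hqd x).mul (hq1d x)
    · intro x _
      exact (hηd x).pow 2
  -- pointwise expansion
  have hpt : ∀ x, dg8D i (fun y => q y * η y) x ^ 2 =
      q x ^ 2 * dg8D i η x ^ 2 + (q x * dg8D i q x) * dg8D i (fun y => η y ^ 2) x
        + dg8D i q x ^ 2 * η x ^ 2 := by
    intro x
    rw [dg8_D_mul (hqd x) (hηd x), dg8_D_sq (hηd x)]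
    ring
  have hpt2 : ∀ x, dg8D i (fun y => q y * dg8D i q y) x * η x ^ 2 =
      dg8D i q x ^ 2 * η x ^ 2 + q x * dg8D i (dg8D i q) x * η x ^ 2 := by
    intro x
    rw [dg8_D_mul (hqd x) (hq1d x)]
    ring
  have hη2c : HasCompactSupport (fun y => η y ^ 2) := by
    have : (fun y => η y ^ 2) = fun y => η y * η y := by funext y; ring
    rw [this]; exact hηc.mul_left
  have i1 : Integrable (fun x => q x ^ 2 * dg8D i η x ^ 2) := by
    refine Continuous.integrable_of_hasCompactSupport (by fun_prop) ?_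
    have : (fun y => dg8D i η y ^ 2) = fun y => dg8D i η y * dg8D i η y := by funext y; ring
    have h2 : HasCompactSupport (fun y => dg8D i η y ^ 2) := by rw [this]; exact hDηc.mul_left
    exact h2.mul_left
  have i2 : Integrable (fun x => (q x * dg8D i q x) * dg8D i (fun y => η y ^ 2) x) := by
    have : (fun x => (q x * dg8D i q x) * dg8D i (fun y => η y ^ 2) x)
        = fun x => (q x * dg8D i q x) * (2 * η x * dg8D i η x) := by
      funext x; rw [dg8_D_sq (hηd x)]
    rw [this]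
    refine Continuous.integrable_of_hasCompactSupport (by fun_prop) ?_
    exact (hDηc.mul_left).mul_left
  have i3 : Integrable (fun x => dg8D i q x ^ 2 * η x ^ 2) :=
    Continuous.integrable_of_hasCompactSupport (by fun_prop) hη2c.mul_left
  have i4 : Integrable (fun x => q x * dg8D i (dg8D i q) x * η x ^ 2) :=
    Continuous.integrable_of_hasCompactSupport (by fun_prop) hη2c.mul_left
  calc ∫ x, dg8D i (fun y => q y * η y) x ^ 2
      = ∫ x, (q x ^ 2 * dg8D i η x ^ 2 + (q x * dg8D i q x) * dg8D i (fun y => η y ^ 2) x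
        + dg8D i q x ^ 2 * η x ^ 2) := integral_congr_ae (Eventually.of_forall hpt)
    _ = (∫ x, q x ^ 2 * dg8D i η x ^ 2) + (∫ x, (q x * dg8D i q x) * dg8D i (fun y => η y ^ 2) x)
        + ∫ x, dg8D i q x ^ 2 * η x ^ 2 := by
        have h12 : Integrable (fun x => q x ^ 2 * dg8D i η x ^ 2 +
            (q x * dg8D i q x) * dg8D i (fun y => η y ^ 2) x) := i1.add i2
        rw [integral_add h12 i3, integral_add i1 i2]
    _ = (∫ x, q x ^ 2 * dg8D i η x ^ 2) - (∫ x, dg8D i (fun y => q y * dg8D i q y) x * η x ^ 2)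
        + ∫ x, dg8D i q x ^ 2 * η x ^ 2 := by rw [hibp]; ring
    _ = (∫ x, q x ^ 2 * dg8D i η x ^ 2) - ((∫ x, dg8D i q x ^ 2 * η x ^ 2) +
          ∫ x, q x * dg8D i (dg8D i q) x * η x ^ 2) + ∫ x, dg8D i q x ^ 2 * η x ^ 2 := by
        rw [integral_congr_ae (Eventually.of_forall hpt2), integral_add i3 i4]
    _ = _ := by ring


theorem dg8_continuous_norm_fderiv_sq {f : EuclideanSpace ℝ (Fin n) → ℝ} (hf : ContDiff ℝ 1 f) :
    Continuous fun x => ‖fderiv ℝ f x‖ ^ 2 :=
  ((hf.continuous_fderiv (by norm_num)).norm).pow 2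

theorem dg8_hasCompactSupport_norm_fderiv_sq {f : EuclideanSpace ℝ (Fin n) → ℝ}
    (hf : HasCompactSupport f) : HasCompactSupport fun x => ‖fderiv ℝ f x‖ ^ 2 :=
  (hf.fderiv (𝕜 := ℝ)).comp_left (g := fun L : EuclideanSpace ℝ (Fin n) →L[ℝ] ℝ => ‖L‖ ^ 2)
    (by simp)

/-- **Ground state substitution**: `∫ |∇(qη)|² = ∫ q² |∇η|² - ∫ q Δq η²`. -/
theorem dg8_ground {q η : EuclideanSpace ℝ (Fin n) → ℝ} (hq : ContDiff ℝ 2 q)
    (hη : ContDiff ℝ 1 η) (hηc : HasCompactSupport η) :
    ∫ x, ‖fderiv ℝ (fun y => q y * η y) x‖ ^ 2 =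
      (∫ x, q x ^ 2 * ‖fderiv ℝ η x‖ ^ 2) - ∫ x, q x * Laplacian.laplacian q x * η x ^ 2 := by
  have hqc : Continuous q := hq.continuous
  have hηcont : Continuous η := hη.continuous
  have hq1 : ∀ i, ContDiff ℝ 1 (dg8D i q) := fun i => dg8_contDiff_D (k := 1) (by exact_mod_cast hq) i
  have hη0 : ∀ i, Continuous (dg8D i η) :=
    fun i => (dg8_contDiff_D (k := 0) (by exact_mod_cast hη) i).continuous
  have hq2 : ∀ i, Continuous (dg8D i (dg8D i q)) :=
    fun i => (dg8_contDiff_D (k := 0) (by exact_mod_cast hq1 i) i).continuous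
  have hη2c : HasCompactSupport (fun y => η y ^ 2) := by
    have : (fun y => η y ^ 2) = fun y => η y * η y := by funext y; ring
    rw [this]; exact hηc.mul_left
  have hqη : ContDiff ℝ 1 (fun y => q y * η y) := (hq.of_le (by norm_num)).mul hη
  have hqηc : HasCompactSupport (fun y => q y * η y) := hηc.mul_left
  have j1 : ∀ i, Integrable (fun x => dg8D i (fun y => q y * η y) x ^ 2) := by
    intro i
    have hc : Continuous (dg8D i (fun y => q y * η y)) :=
      (dg8_contDiff_D (k := 0) (by exact_mod_cast hqη) i).continuous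
    refine Continuous.integrable_of_hasCompactSupport (hc.pow 2) ?_
    have h2 := dg8_hasCompactSupport_D hqηc i
    have : (fun y => dg8D i (fun y => q y * η y) y ^ 2) =
        fun y => dg8D i (fun y => q y * η y) y * dg8D i (fun y => q y * η y) y := by funext y; ring
    rw [this]; exact h2.mul_left
  have j2 : ∀ i, Integrable (fun x => q x ^ 2 * dg8D i η x ^ 2) := by
    intro i
    have := hη0 i
    refine Continuous.integrable_of_hasCompactSupport (by fun_prop) ?_
    have h3 : (fun y => dg8D i η y ^ 2) = fun y => dg8D i η y * dg8D i η y := by funext y; ring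
    have h2 : HasCompactSupport (fun y => dg8D i η y ^ 2) := by
      rw [h3]; exact (dg8_hasCompactSupport_D hηc i).mul_left
    exact h2.mul_left
  have j3 : ∀ i, Integrable (fun x => q x * dg8D i (dg8D i q) x * η x ^ 2) := by
    intro i
    have := hq2 i
    exact Continuous.integrable_of_hasCompactSupport (by fun_prop) hη2c.mul_left
  have e1 : ∫ x, ‖fderiv ℝ (fun y => q y * η y) x‖ ^ 2 =
      ∑ i, ∫ x, dg8D i (fun y => q y * η y) x ^ 2 := by
    rw [← integral_finsetSum _ (fun i _ => j1 i)]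
    exact integral_congr_ae (Eventually.of_forall fun x => dg8_norm_fderiv_sq _ x)
  have e2 : ∫ x, q x ^ 2 * ‖fderiv ℝ η x‖ ^ 2 = ∑ i, ∫ x, q x ^ 2 * dg8D i η x ^ 2 := by
    rw [← integral_finsetSum _ (fun i _ => j2 i)]
    refine integral_congr_ae (Eventually.of_forall fun x => ?_)
    simp only [dg8_norm_fderiv_sq, Finset.mul_sum]
  have e3 : ∫ x, q x * Laplacian.laplacian q x * η x ^ 2 =
      ∑ i, ∫ x, q x * dg8D i (dg8D i q) x * η x ^ 2 := by
    rw [← integral_finsetSum _ (fun i _ => j3 i)]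
    refine integral_congr_ae (Eventually.of_forall fun x => ?_)
    simp only [dg8_laplacian_eq_sum_DD hq, Finset.mul_sum, Finset.sum_mul]
  rw [e1, e2, e3, ← Finset.sum_sub_distrib]
  exact Finset.sum_congr rfl fun i _ => dg8_ground_coord hq hη hηc i

/-- The Laplacian of `1 - v²`. -/
theorem dg8_laplacian_q {v : EuclideanSpace ℝ (Fin n) → ℝ} (hv : ContDiff ℝ 2 v)
    (x : EuclideanSpace ℝ (Fin n)) :
    Laplacian.laplacian (fun y => 1 - v y ^ 2 : EuclideanSpace ℝ (Fin n) → ℝ) x =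
      -2 * ‖fderiv ℝ v x‖ ^ 2 - 2 * v x * Laplacian.laplacian v x := by
  have hq : ContDiff ℝ 2 (fun y => 1 - v y ^ 2) := contDiff_const.sub (hv.pow 2)
  have hvd : Differentiable ℝ v := hv.differentiable (by norm_num)
  have hv1 : ∀ i, ContDiff ℝ 1 (dg8D i v) := fun i => dg8_contDiff_D (k := 1) (by exact_mod_cast hv) i
  rw [dg8_laplacian_eq_sum_DD hq, dg8_laplacian_eq_sum_DD hv, dg8_norm_fderiv_sq, Finset.mul_sum,
    Finset.mul_sum, ← Finset.sum_sub_distrib]
  refine Finset.sum_congr rfl fun i _ => ?_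
  have h1 : dg8D i (fun y => 1 - v y ^ 2) = fun y => (-2 * v y) * dg8D i v y := by
    funext y
    have : dg8D i (fun y => 1 - v y ^ 2) y = - dg8D i (fun y => v y ^ 2) y := by
      unfold dg8D
      rw [fderiv_const_sub]
      simp
    rw [this, dg8_D_sq (hvd y)]
    ring
  rw [h1, dg8_D_mul ((hvd x).const_mul (-2)) ((hv1 i).differentiable (by norm_num) x)]
  have h2 : dg8D i (fun y => -2 * v y) x = -2 * dg8D i v x := by
    unfold dg8D
    rw [fderiv_const_mul (hvd x)]
    simp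
  rw [h2]
  ring

/-- **The `q`-test** (paper, `eq:intro-defect-test`): for a stable solution and `q = 1 - v²`,
`∫ (q³ - 2 q |∇v|²) η² ≤ ∫ q² |∇η|²`.  (`q³ - 2 q |∇v|² = 4 q (W(v) - |∇v|²/2) = q³ D`.) -/
theorem dg8_q_test {v : EuclideanSpace ℝ (Fin n) → ℝ} (hv : ContDiff ℝ 2 v)
    (hpde : ∀ x, Laplacian.laplacian v x = v x ^ 3 - v x)
    (hstable : ∀ φ : EuclideanSpace ℝ (Fin n) → ℝ, ContDiff ℝ 1 φ → HasCompactSupport φ →
      0 ≤ ∫ x, (‖fderiv ℝ φ x‖ ^ 2 + (3 * v x ^ 2 - 1) * φ x ^ 2))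
    {η : EuclideanSpace ℝ (Fin n) → ℝ} (hη : ContDiff ℝ 1 η) (hηc : HasCompactSupport η) :
    ∫ x, ((1 - v x ^ 2) ^ 3 - 2 * (1 - v x ^ 2) * ‖fderiv ℝ v x‖ ^ 2) * η x ^ 2 ≤
      ∫ x, (1 - v x ^ 2) ^ 2 * ‖fderiv ℝ η x‖ ^ 2 := by
  have hq : ContDiff ℝ 2 (fun y => 1 - v y ^ 2) := contDiff_const.sub (hv.pow 2)
  have hvc : Continuous v := hv.continuous
  have hηcont : Continuous η := hη.continuous
  have hgv : Continuous fun x => ‖fderiv ℝ v x‖ ^ 2 :=
    dg8_continuous_norm_fderiv_sq (hv.of_le (by norm_num))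
  have hη2c : HasCompactSupport (fun y => η y ^ 2) := by
    have : (fun y => η y ^ 2) = fun y => η y * η y := by funext y; ring
    rw [this]; exact hηc.mul_left
  have hqη : ContDiff ℝ 1 (fun y => (1 - v y ^ 2) * η y) := (hq.of_le (by norm_num)).mul hη
  have hqηc : HasCompactSupport (fun y => (1 - v y ^ 2) * η y) := hηc.mul_left
  have h0 := hstable _ hqη hqηc
  have k1 : Integrable (fun x => ‖fderiv ℝ (fun y => (1 - v y ^ 2) * η y) x‖ ^ 2) :=
    Continuous.integrable_of_hasCompactSupport (dg8_continuous_norm_fderiv_sq hqη)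
      (dg8_hasCompactSupport_norm_fderiv_sq hqηc)
  have k2 : Integrable (fun x => (3 * v x ^ 2 - 1) * ((1 - v x ^ 2) * η x) ^ 2) := by
    refine Continuous.integrable_of_hasCompactSupport (by fun_prop) ?_
    have : (fun x => (3 * v x ^ 2 - 1) * ((1 - v x ^ 2) * η x) ^ 2) =
        fun x => ((3 * v x ^ 2 - 1) * (1 - v x ^ 2) ^ 2) * η x ^ 2 := by funext x; ring
    rw [this]; exact hη2c.mul_left
  have k3 : Integrable (fun x => (1 - v x ^ 2) * Laplacian.laplacian (fun y => 1 - v y ^ 2 : EuclideanSpace ℝ (Fin n) → ℝ) x *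
      η x ^ 2) := by
    have : (fun x => (1 - v x ^ 2) * Laplacian.laplacian (fun y => 1 - v y ^ 2 : EuclideanSpace ℝ (Fin n) → ℝ) x * η x ^ 2) =
        fun x => ((1 - v x ^ 2) * (-2 * ‖fderiv ℝ v x‖ ^ 2 - 2 * v x * (v x ^ 3 - v x))) * η x ^ 2 := by
      funext x; rw [dg8_laplacian_q hv, hpde]
    rw [this]
    exact Continuous.integrable_of_hasCompactSupport (by fun_prop) hη2c.mul_left
  rw [integral_add k1 k2, dg8_ground hq hη hηc] at h0
  have h1 : (∫ x, (3 * v x ^ 2 - 1) * ((1 - v x ^ 2) * η x) ^ 2) -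
      ∫ x, (1 - v x ^ 2) * Laplacian.laplacian (fun y => 1 - v y ^ 2 : EuclideanSpace ℝ (Fin n) → ℝ) x * η x ^ 2 =
      - ∫ x, ((1 - v x ^ 2) ^ 3 - 2 * (1 - v x ^ 2) * ‖fderiv ℝ v x‖ ^ 2) * η x ^ 2 := by
    rw [← integral_sub k2 k3, ← integral_neg]
    refine integral_congr_ae (Eventually.of_forall fun x => ?_)
    simp only [dg8_laplacian_q hv, hpde]
    ring
  linarith

end Claimed.Agent.R329
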