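import Claimed.Agent.R329.Defs
import Claimed.Agent.Lib.Ell.Api

/-!
# Row 329, post of helper178 (ORDER C6-1): `LapApi.lean`, prefix `dgL_`.   THE LAPLACIAN API.

Everything about Mathlib's `Laplacian.laplacian` that the other files of the row need, on a finite dimensional real inner product
space `W` (instance: `DgE n`).

1. pointwise formulas: `dgL_lap_eq_sum` (any orthonormal basis), `dgL_lap_eq_ellLap`, `dgL_lap_eq_ndOp` (bridges to `Lib/Ell`),
   `dgL_normSq_fderiv`, `dgL_inner_gradient`.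
2. calculus: `dgL_lap_add/sub/neg/const_mul`, `dgL_lap_mul` (product rule), `dgL_lap_comp` (chain rule), `dgL_lap_translate`,
   `dgL_lap_dilate`, `dgL_lap_isometry`, `dgL_lap_ridge`.
3. Green's identity for compactly supported tests: `dgL_green_dir`, `dgL_green` (any Haar measure), `dgL_continuous_lap`.
4. Allen-Cahn: `dgL_deriv_G`, `dgL_deriv2_G`, `dgL_sol_planar`, `DgPlanar.dgL_sol`, `DgRigid.dgL_sol`, `dgL_sol_one/neg_one/zero`, `DgSol.dgL_neg`,
   `DgSol.dgL_translate`, `DgSol.dgL_isometry`, `DgSol.dgL_dilate`, weak form of the equation `DgSol.dgL_weak`.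
-/

set_option autoImplicit false
open scoped RealInnerProductSpace Gradient
open MeasureTheory Metric Set Filter Topology

namespace Claimed.Agent.R329

open Claimed.Agent.Lib.Ell

section General

variable {W : Type} [NormedAddCommGroup W] [InnerProductSpace ℝ W] [FiniteDimensional ℝ W]

/-! ## 1. pointwise formulas -/

/-- the Laplacian in any orthonormal basis, through `fderiv ℝ (fderiv ℝ u)`.  No regularity needed. -/
theorem dgL_lap_eq_sum {ι : Type} [Fintype ι] (b : OrthonormalBasis ι ℝ W) (u : W → ℝ) (x : W) :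
    Laplacian.laplacian u x = ∑ i, fderiv ℝ (fderiv ℝ u) x (b i) (b i) := by
  rw [InnerProductSpace.laplacian_eq_iteratedFDeriv_orthonormalBasis u b]
  simp [iteratedFDeriv_two_apply]

/-- bridge to `Lib/Ell`. -/
theorem dgL_lap_eq_ellLap (u : W → ℝ) (x : W) : Laplacian.laplacian u x = ellLap u x := by
  rw [dgL_lap_eq_sum (stdOrthonormalBasis ℝ W)]
  simp [ellLap, ellTr, ellD2]

/-- bridge to the operators of `Lib/Ell`: `Δ u + c u = ndOp id 0 c u`. -/
theorem dgL_lap_eq_ndOp (c : W → ℝ) (u : W → ℝ) (x : W) :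
    ndOp (fun _ => ContinuousLinearMap.id ℝ W) (fun _ => 0) c u x = Laplacian.laplacian u x + c x * u x := by
  rw [dgL_lap_eq_ellLap]
  simp [ndOp, ellLap]

/-- the identity coefficients are uniformly elliptic. -/
theorem dgL_ellOn_id (s : Set W) : EllOn 1 1 s (fun _ => ContinuousLinearMap.id ℝ W) := by
  intro x _
  refine ⟨fun ξ η => rfl, fun ξ => ?_, ContinuousLinearMap.norm_id_le⟩
  simp

theorem dgL_normSq_fderiv {ι : Type} [Fintype ι] (b : OrthonormalBasis ι ℝ W) (u : W → ℝ) (x : W) :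
    ‖fderiv ℝ u x‖ ^ 2 = ∑ i, (fderiv ℝ u x (b i)) ^ 2 := by
  rw [← ell_norm_gradient, ← b.sum_sq_norm_inner_right (∇ u x)]
  refine Finset.sum_congr rfl fun i _ => ?_
  rw [Real.norm_eq_abs, sq_abs, real_inner_comm, ← ell_dd_eq_inner]
  rfl

theorem dgL_inner_gradient {ι : Type} [Fintype ι] (b : OrthonormalBasis ι ℝ W) (u v : W → ℝ) (x : W) :
    ⟪∇ u x, ∇ v x⟫ = ∑ i, fderiv ℝ u x (b i) * fderiv ℝ v x (b i) := by
  rw [← b.sum_inner_mul_inner (∇ u x) (∇ v x)]
  refine Finset.sum_congr rfl fun i _ => ?_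
  have h1 : ⟪∇ u x, b i⟫ = fderiv ℝ u x (b i) := (ell_dd_eq_inner u x (b i)).symm
  have h2 : ⟪b i, ∇ v x⟫ = fderiv ℝ v x (b i) := by
    rw [real_inner_comm]; exact (ell_dd_eq_inner v x (b i)).symm
  rw [h1, h2]

theorem dgL_fderiv_gradient (u v : W → ℝ) (x : W) : fderiv ℝ u x (∇ v x) = ⟪∇ u x, ∇ v x⟫ :=
  ell_dd_eq_inner u x (∇ v x)

theorem dgL_inner_gradient_self (u : W → ℝ) (x : W) : ⟪∇ u x, ∇ u x⟫ = ‖fderiv ℝ u x‖ ^ 2 := by
  rw [real_inner_self_eq_norm_sq, ell_norm_gradient]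

/-! ## 2. calculus -/

theorem dgL_lap_add {u v : W → ℝ} {x : W} (hu : ContDiffAt ℝ 2 u x) (hv : ContDiffAt ℝ 2 v x) :
    Laplacian.laplacian (fun y => u y + v y) x = Laplacian.laplacian u x + Laplacian.laplacian v x := by
  simp only [dgL_lap_eq_ellLap, ellLap]
  rw [ell_d2_add hu hv, ellTr_add_right]

theorem dgL_lap_const_mul {u : W → ℝ} {x : W} (t : ℝ) (hu : ContDiffAt ℝ 2 u x) :
    Laplacian.laplacian (fun y => t * u y) x = t * Laplacian.laplacian u x := by
  simp only [dgL_lap_eq_ellLap, ellLap]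
  rw [ell_d2_const_mul t hu, ellTr_smul_right]

theorem dgL_lap_neg {u : W → ℝ} {x : W} (hu : ContDiffAt ℝ 2 u x) :
    Laplacian.laplacian (fun y => - u y) x = - Laplacian.laplacian u x := by
  have := dgL_lap_const_mul (-1) hu
  simpa using this

theorem dgL_lap_sub {u v : W → ℝ} {x : W} (hu : ContDiffAt ℝ 2 u x) (hv : ContDiffAt ℝ 2 v x) :
    Laplacian.laplacian (fun y => u y - v y) x = Laplacian.laplacian u x - Laplacian.laplacian v x := by
  have h := dgL_lap_add hu (hv.neg)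
  have h2 : Laplacian.laplacian (fun y => - v y) x = - Laplacian.laplacian v x := dgL_lap_neg hv
  have e : (fun y => u y - v y) = fun y => u y + - v y := by funext y; simp [sub_eq_add_neg]
  rw [e, h, h2]; ring

theorem dgL_lap_const (c : ℝ) (x : W) : Laplacian.laplacian (fun _ : W => c) x = 0 := by
  rw [dgL_lap_eq_sum (stdOrthonormalBasis ℝ W)]
  have : fderiv ℝ (fun _ : W => c) = fun _ => 0 := by funext z; simp
  rw [this]; simp

theorem dgL_lap_add_const {u : W → ℝ} {x : W} (c : ℝ) (hu : ContDiffAt ℝ 2 u x) :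
    Laplacian.laplacian (fun y => u y + c) x = Laplacian.laplacian u x := by
  rw [dgL_lap_add hu contDiffAt_const, dgL_lap_const, add_zero]

/-- the second derivative of a product. -/
theorem dgL_d2_mul {u v : W → ℝ} {x : W} (hu : ContDiffAt ℝ 2 u x) (hv : ContDiffAt ℝ 2 v x) (h k : W) :
    fderiv ℝ (fderiv ℝ (fun y => u y * v y)) x h k =
      u x * fderiv ℝ (fderiv ℝ v) x h k + fderiv ℝ u x h * fderiv ℝ v x k
        + fderiv ℝ v x h * fderiv ℝ u x k + v x * fderiv ℝ (fderiv ℝ u) x h k := by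
  have h1 : fderiv ℝ (fun y => u y * v y) =ᶠ[𝓝 x] fun y => u y • fderiv ℝ v y + v y • fderiv ℝ u y := by
    filter_upwards [ell_eventually_differentiableAt hu, ell_eventually_differentiableAt hv] with z h1 h2
    exact fderiv_fun_mul h1 h2
  rw [h1.fderiv_eq]
  have hud : HasFDerivAt u (fderiv ℝ u x) x := (hu.differentiableAt (by norm_num)).hasFDerivAt
  have hvd : HasFDerivAt v (fderiv ℝ v x) x := (hv.differentiableAt (by norm_num)).hasFDerivAt
  have h2 := (hud.smul (ell_differentiableAt_fderiv hv).hasFDerivAt).add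
    (hvd.smul (ell_differentiableAt_fderiv hu).hasFDerivAt)
  have h3 : fderiv ℝ (fun y => u y • fderiv ℝ v y + v y • fderiv ℝ u y) x = _ := h2.fderiv
  rw [h3]
  simp
  ring

/-- **product rule**. -/
theorem dgL_lap_mul {u v : W → ℝ} {x : W} (hu : ContDiffAt ℝ 2 u x) (hv : ContDiffAt ℝ 2 v x) :
    Laplacian.laplacian (fun y => u y * v y) x =
      u x * Laplacian.laplacian v x + 2 * ⟪∇ u x, ∇ v x⟫ + v x * Laplacian.laplacian u x := by
  simp only [dgL_lap_eq_sum (stdOrthonormalBasis ℝ W), dgL_inner_gradient (stdOrthonormalBasis ℝ W),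
    dgL_d2_mul hu hv, Finset.sum_add_distrib, Finset.mul_sum]
  have : ∀ i, fderiv ℝ v x (stdOrthonormalBasis ℝ W i) * fderiv ℝ u x (stdOrthonormalBasis ℝ W i)
      = fderiv ℝ u x (stdOrthonormalBasis ℝ W i) * fderiv ℝ v x (stdOrthonormalBasis ℝ W i) :=
    fun i => mul_comm _ _
  simp only [this]
  have e : ∀ i, 2 * (fderiv ℝ u x (stdOrthonormalBasis ℝ W i) * fderiv ℝ v x (stdOrthonormalBasis ℝ W i))
      = fderiv ℝ u x (stdOrthonormalBasis ℝ W i) * fderiv ℝ v x (stdOrthonormalBasis ℝ W i)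
        + fderiv ℝ u x (stdOrthonormalBasis ℝ W i) * fderiv ℝ v x (stdOrthonormalBasis ℝ W i) :=
    fun i => two_mul _
  simp only [e, Finset.sum_add_distrib]
  ring

/-- the second derivative of `f ∘ u`, `f : ℝ → ℝ`. -/
theorem dgL_d2_comp {f : ℝ → ℝ} {u : W → ℝ} {x : W} (hf : ContDiffAt ℝ 2 f (u x)) (hu : ContDiffAt ℝ 2 u x)
    (h k : W) :
    fderiv ℝ (fderiv ℝ (fun y => f (u y))) x h k =
      deriv (deriv f) (u x) * (fderiv ℝ u x h * fderiv ℝ u x k) + deriv f (u x) * fderiv ℝ (fderiv ℝ u) x h k := by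
  have hfe : ∀ᶠ t in 𝓝 (u x), DifferentiableAt ℝ f t := by
    have h := hf.eventually (by simp)
    filter_upwards [h] with z hz
    exact hz.differentiableAt (by norm_num)
  have huc : ContinuousAt u x := hu.continuousAt
  have h1 : fderiv ℝ (fun y => f (u y)) =ᶠ[𝓝 x] fun y => deriv f (u y) • fderiv ℝ u y := by
    filter_upwards [ell_eventually_differentiableAt hu, huc.eventually hfe] with z h1 h2
    exact (h2.hasDerivAt.comp_hasFDerivAt z h1.hasFDerivAt).fderiv
  rw [h1.fderiv_eq]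
  have hud : HasFDerivAt u (fderiv ℝ u x) x := (hu.differentiableAt (by norm_num)).hasFDerivAt
  have hf' : DifferentiableAt ℝ (deriv f) (u x) := by
    have : ContDiffAt ℝ 1 (deriv f) (u x) := by
      have h2 : ContDiffAt ℝ (1 + 1) f (u x) := by simpa [one_add_one_eq_two] using hf
      exact ((contDiffAt_succ_iff_hasFDerivAt.mp h2) |> fun _ => by
        have := hf.fderiv_right (m := 1) (by norm_num)
        have e : deriv f = fun t => fderiv ℝ f t 1 := by funext t; simp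
        rw [e]
        exact this.clm_apply contDiffAt_const)
    exact this.differentiableAt (by norm_num)
  have h2 := (hf'.hasDerivAt.comp_hasFDerivAt x hud).smul (ell_differentiableAt_fderiv hu).hasFDerivAt
  have h3 : fderiv ℝ (fun y => deriv f (u y) • fderiv ℝ u y) x = _ := h2.fderiv
  rw [h3]
  simp
  ring

/-- **chain rule**: `Δ (f ∘ u) = f''(u) |∇u|² + f'(u) Δ u`. -/
theorem dgL_lap_comp {f : ℝ → ℝ} {u : W → ℝ} {x : W} (hf : ContDiffAt ℝ 2 f (u x)) (hu : ContDiffAt ℝ 2 u x) :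
    Laplacian.laplacian (fun y => f (u y)) x =
      deriv (deriv f) (u x) * ‖fderiv ℝ u x‖ ^ 2 + deriv f (u x) * Laplacian.laplacian u x := by
  simp only [dgL_lap_eq_sum (stdOrthonormalBasis ℝ W), dgL_normSq_fderiv (stdOrthonormalBasis ℝ W),
    dgL_d2_comp hf hu, Finset.sum_add_distrib, Finset.mul_sum, sq]

/-! ### affine changes of variables -/

/-- second derivative of `y ↦ u (L y + a)`, `L` continuous linear between two spaces. -/
theorem dgL_d2_affine {W' : Type} [NormedAddCommGroup W'] [NormedSpace ℝ W'] (L : W' →L[ℝ] W) (a : W)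
    {u : W → ℝ} {x : W'} (hu : ContDiffAt ℝ 2 u (L x + a)) (h k : W') :
    fderiv ℝ (fderiv ℝ (fun y => u (L y + a))) x h k = fderiv ℝ (fderiv ℝ u) (L x + a) (L h) (L k) := by
  have hA : ∀ y, HasFDerivAt (fun y : W' => L y + a) L y := fun y => (L.hasFDerivAt).add_const a
  have hc : ContinuousAt (fun y : W' => L y + a) x := (hA x).continuousAt
  have h1 : fderiv ℝ (fun y => u (L y + a)) =ᶠ[𝓝 x] fun y => (fderiv ℝ u (L y + a)).comp L := by
    filter_upwards [hc.eventually (ell_eventually_differentiableAt hu)] with z hz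
    exact (hz.hasFDerivAt.comp z (hA z)).fderiv
  rw [h1.fderiv_eq]
  have h2 : HasFDerivAt (fun y => fderiv ℝ u (L y + a)) ((fderiv ℝ (fderiv ℝ u) (L x + a)).comp L) x :=
    (ell_differentiableAt_fderiv hu).hasFDerivAt.comp x (hA x)
  have h3 := ((ContinuousLinearMap.compL ℝ W' W ℝ).flip L).hasFDerivAt.comp x h2
  have h4 : fderiv ℝ (fun y => (fderiv ℝ u (L y + a)).comp L) x = _ := h3.fderiv
  rw [h4]
  simp

theorem dgL_lap_translate (u : W → ℝ) (a x : W) :
    Laplacian.laplacian (fun y => u (y + a)) x = Laplacian.laplacian u (x + a) := by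
  simp only [dgL_lap_eq_sum (stdOrthonormalBasis ℝ W)]
  have h1 : fderiv ℝ (fun y => u (y + a)) = fun y => fderiv ℝ u (y + a) := by
    funext y; exact fderiv_comp_add_right a
  rw [h1]
  have h2 : fderiv ℝ (fun y => fderiv ℝ u (y + a)) x = fderiv ℝ (fderiv ℝ u) (x + a) :=
    fderiv_comp_add_right a
  rw [h2]

theorem dgL_lap_dilate (u : W → ℝ) (r : ℝ) (x : W) :
    Laplacian.laplacian (fun y => u (r • y)) x = r ^ 2 * Laplacian.laplacian u (r • x) := by
  simp only [dgL_lap_eq_sum (stdOrthonormalBasis ℝ W)]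
  have h1 : fderiv ℝ (fun y => u (r • y)) = fun y => r • fderiv ℝ u (r • y) := by
    funext y; exact fderiv_comp_smul r
  rw [h1]
  have h2 : fderiv ℝ (fun y => r • fderiv ℝ u (r • y)) x = r • (r • fderiv ℝ (fderiv ℝ u) (r • x)) := by
    have h3 : fderiv ℝ (fun y => fderiv ℝ u (r • y)) x = r • fderiv ℝ (fderiv ℝ u) (r • x) :=
      fderiv_comp_smul r
    have h4 := congrFun (fderiv_const_smul_field (𝕜 := ℝ) (f := fun y => fderiv ℝ u (r • y)) r) x
    rw [Pi.smul_apply, h3] at h4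
    exact h4
  rw [h2, Finset.mul_sum]
  refine Finset.sum_congr rfl fun i _ => ?_
  simp
  ring

/-- invariance under linear isometries (between possibly different spaces). -/
theorem dgL_lap_isometry {W' : Type} [NormedAddCommGroup W'] [InnerProductSpace ℝ W'] [FiniteDimensional ℝ W']
    (L : W' ≃ₗᵢ[ℝ] W) {u : W → ℝ} {x : W'} (hu : ContDiffAt ℝ 2 u (L x)) :
    Laplacian.laplacian (fun y => u (L y)) x = Laplacian.laplacian u (L x) := by
  rw [dgL_lap_eq_sum (stdOrthonormalBasis ℝ W'), dgL_lap_eq_sum ((stdOrthonormalBasis ℝ W').map L)]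
  refine Finset.sum_congr rfl fun i _ => ?_
  have hu' : ContDiffAt ℝ 2 u ((L : W' →L[ℝ] W) x + 0) := by simpa using hu
  have := dgL_d2_affine (L : W' →L[ℝ] W) 0 hu' (stdOrthonormalBasis ℝ W' i) (stdOrthonormalBasis ℝ W' i)
  simpa using this

/-- the affine function `y ↦ ⟪a, y⟫ - b`. -/
theorem dgL_hasFDerivAt_aff (a : W) (b : ℝ) (x : W) :
    HasFDerivAt (fun y : W => ⟪a, y⟫ - b) (innerSL ℝ a) x :=
  ((innerSL ℝ a).hasFDerivAt).sub_const b

theorem dgL_contDiff_aff (a : W) (b : ℝ) : ContDiff ℝ 2 (fun y : W => ⟪a, y⟫ - b) :=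
  ((innerSL ℝ a).contDiff).sub contDiff_const

theorem dgL_lap_aff (a : W) (b : ℝ) (x : W) : Laplacian.laplacian (fun y : W => ⟪a, y⟫ - b) x = 0 := by
  rw [dgL_lap_eq_sum (stdOrthonormalBasis ℝ W)]
  have : fderiv ℝ (fun y : W => ⟪a, y⟫ - b) = fun _ => innerSL ℝ a := by
    funext z; exact (dgL_hasFDerivAt_aff a b z).fderiv
  rw [this]; simp

/-- **ridge functions**: `Δ (h (⟪a, x⟫ - b)) = ‖a‖² h''(⟪a, x⟫ - b)`. -/
theorem dgL_lap_ridge {h : ℝ → ℝ} (a : W) (b : ℝ) (x : W) (hh : ContDiffAt ℝ 2 h (⟪a, x⟫ - b)) :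
    Laplacian.laplacian (fun y : W => h (⟪a, y⟫ - b)) x = ‖a‖ ^ 2 * deriv (deriv h) (⟪a, x⟫ - b) := by
  rw [dgL_lap_comp (u := fun y : W => ⟪a, y⟫ - b) hh (dgL_contDiff_aff a b).contDiffAt, dgL_lap_aff,
    (dgL_hasFDerivAt_aff a b x).fderiv, innerSL_apply_norm]
  ring

theorem dgL_fderiv_ridge {h : ℝ → ℝ} (a : W) (b : ℝ) (x : W) (hh : DifferentiableAt ℝ h (⟪a, x⟫ - b)) :
    fderiv ℝ (fun y : W => h (⟪a, y⟫ - b)) x = deriv h (⟪a, x⟫ - b) • innerSL ℝ a :=
  (hh.hasDerivAt.comp_hasFDerivAt x (dgL_hasFDerivAt_aff a b x)).fderiv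

end General

/-! ## 3. Green's identity with compactly supported tests -/

section Green

variable {W : Type} [NormedAddCommGroup W] [InnerProductSpace ℝ W] [FiniteDimensional ℝ W]
  [MeasurableSpace W] [BorelSpace W]

theorem dgL_d2_eq_fderiv_dd {u : W → ℝ} {x : W} (hu : ContDiffAt ℝ 2 u x) (h k : W) :
    fderiv ℝ (fderiv ℝ u) x h k = fderiv ℝ (fun y => fderiv ℝ u y k) x h := by
  have h1 := ((ell_differentiableAt_fderiv hu).hasFDerivAt.clm_apply (hasFDerivAt_const k x)).fderiv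
  rw [h1]; simp

theorem dgL_contDiff_dd {u : W → ℝ} (hu : ContDiff ℝ 2 u) (k : W) : ContDiff ℝ 1 (fun y => fderiv ℝ u y k) :=
  (hu.fderiv_right (m := 1) (by norm_num)).clm_apply contDiff_const

/-- one direction: `∫ φ ∂ₖ∂ₖ u = - ∫ ∂ₖφ ∂ₖu`. -/
theorem dgL_green_dir (μ : Measure W) [μ.IsAddHaarMeasure] {u φ : W → ℝ} (hu : ContDiff ℝ 2 u)
    (hφ : ContDiff ℝ 1 φ) (hc : HasCompactSupport φ) (k : W) :
    ∫ x, φ x * fderiv ℝ (fderiv ℝ u) x k k ∂μ = - ∫ x, fderiv ℝ φ x k * fderiv ℝ u x k ∂μ := by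
  have hg := dgL_contDiff_dd hu k
  have e : ∀ x, fderiv ℝ (fderiv ℝ u) x k k = fderiv ℝ (fun y => fderiv ℝ u y k) x k :=
    fun x => dgL_d2_eq_fderiv_dd hu.contDiffAt k k
  simp only [e]
  have cφ' : Continuous fun x => fderiv ℝ φ x k :=
    (hφ.continuous_fderiv (by norm_num)).clm_apply continuous_const
  have cg' : Continuous fun x => fderiv ℝ (fun y => fderiv ℝ u y k) x k :=
    (hg.continuous_fderiv (by norm_num)).clm_apply continuous_const
  refine integral_mul_fderiv_eq_neg_fderiv_mul_of_integrable ?_ ?_ ?_ ?_ ?_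
  · exact (cφ'.mul hg.continuous).integrable_of_hasCompactSupport ((hc.fderiv_apply (𝕜 := ℝ) k).mul_right)
  · exact (hφ.continuous.mul cg').integrable_of_hasCompactSupport hc.mul_right
  · exact (hφ.continuous.mul hg.continuous).integrable_of_hasCompactSupport hc.mul_right
  · exact fun x _ => (hφ.differentiable (by norm_num)) x
  · exact fun x _ => (hg.differentiable (by norm_num)) x

theorem dgL_continuous_lap {u : W → ℝ} (hu : ContDiff ℝ 2 u) : Continuous (Laplacian.laplacian u) := by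
  have e : Laplacian.laplacian u = fun x => ∑ i, fderiv ℝ (fderiv ℝ u) x (stdOrthonormalBasis ℝ W i)
      (stdOrthonormalBasis ℝ W i) := by
    funext x; exact dgL_lap_eq_sum _ u x
  rw [e]
  refine continuous_finsetSum _ fun i _ => ?_
  have h1 : Continuous (fderiv ℝ (fderiv ℝ u)) :=
    (hu.fderiv_right (m := 1) (by norm_num)).continuous_fderiv (by norm_num)
  exact (h1.clm_apply continuous_const).clm_apply continuous_const

theorem dgL_continuous_inner_gradient {u v : W → ℝ} (hu : ContDiff ℝ 1 u) (hv : ContDiff ℝ 1 v) :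
    Continuous fun x => ⟪∇ u x, ∇ v x⟫ := by
  have e : (fun x => ⟪∇ u x, ∇ v x⟫) = fun x => ∑ i, fderiv ℝ u x (stdOrthonormalBasis ℝ W i) *
      fderiv ℝ v x (stdOrthonormalBasis ℝ W i) := by
    funext x; exact dgL_inner_gradient _ u v x
  rw [e]
  refine continuous_finsetSum _ fun i _ => ?_
  exact ((hu.continuous_fderiv (by norm_num)).clm_apply continuous_const).mul
    ((hv.continuous_fderiv (by norm_num)).clm_apply continuous_const)

/-- **Green's first identity**: `∫ φ Δu = - ∫ ⟪∇φ, ∇u⟫` for `u ∈ C²`, `φ ∈ C¹_c`. -/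
theorem dgL_green (μ : Measure W) [μ.IsAddHaarMeasure] {u φ : W → ℝ} (hu : ContDiff ℝ 2 u)
    (hφ : ContDiff ℝ 1 φ) (hc : HasCompactSupport φ) :
    ∫ x, φ x * Laplacian.laplacian u x ∂μ = - ∫ x, ⟪∇ φ x, ∇ u x⟫ ∂μ := by
  simp only [dgL_lap_eq_sum (stdOrthonormalBasis ℝ W), dgL_inner_gradient (stdOrthonormalBasis ℝ W),
    Finset.mul_sum]
  have h1 : Continuous (fderiv ℝ (fderiv ℝ u)) :=
    (hu.fderiv_right (m := 1) (by norm_num)).continuous_fderiv (by norm_num)
  rw [integral_finsetSum, integral_finsetSum, ← Finset.sum_neg_distrib]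
  · exact Finset.sum_congr rfl fun i _ => dgL_green_dir μ hu hφ hc _
  · intro i _
    exact (((hφ.continuous_fderiv (by norm_num)).clm_apply continuous_const).mul
      (((hu.of_le (by norm_num : (1 : WithTop ℕ∞) ≤ 2)).continuous_fderiv (by norm_num)).clm_apply
        continuous_const)).integrable_of_hasCompactSupport ((hc.fderiv_apply (𝕜 := ℝ) _).mul_right)
  · intro i _
    exact (hφ.continuous.mul ((h1.clm_apply continuous_const).clm_apply
      continuous_const)).integrable_of_hasCompactSupport hc.mul_right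

theorem dgL_integrable_mul_of_compact (μ : Measure W) [μ.IsAddHaarMeasure] {f φ : W → ℝ} (hf : Continuous f)
    (hφ : Continuous φ) (hc : HasCompactSupport φ) : Integrable (fun x => f x * φ x) μ :=
  (hf.mul hφ).integrable_of_hasCompactSupport hc.mul_left

theorem dgL_integrable_inner_gradient (μ : Measure W) [μ.IsAddHaarMeasure] {u φ : W → ℝ} (hu : ContDiff ℝ 1 u)
    (hφ : ContDiff ℝ 1 φ) (hc : HasCompactSupport φ) : Integrable (fun x => ⟪∇ u x, ∇ φ x⟫) μ := by
  refine (dgL_continuous_inner_gradient hu hφ).integrable_of_hasCompactSupport ?_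
  have h := hc.fderiv (𝕜 := ℝ)
  refine h.mono ?_
  intro x hx
  simp only [Function.mem_support, ne_eq] at hx ⊢
  intro h0
  apply hx
  have : ∇ φ x = 0 := by simp [gradient, h0]
  rw [this, inner_zero_right]

end Green

/-! ## 4. Allen-Cahn: examples and invariances of `DgSol` -/

section AC

theorem dgL_hasDerivAt_tanh (x : ℝ) : HasDerivAt Real.tanh (1 - Real.tanh x ^ 2) x := by
  have hc : Real.cosh x ≠ 0 := (Real.cosh_pos x).ne'
  have h := (Real.hasDerivAt_sinh x).div (Real.hasDerivAt_cosh x) hc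
  have key : (Real.cosh x * Real.cosh x - Real.sinh x * Real.sinh x) / Real.cosh x ^ 2
      = 1 - Real.tanh x ^ 2 := by
    rw [Real.tanh_eq_sinh_div_cosh]
    field_simp
  rw [key] at h
  exact h.congr_of_eventuallyEq (Eventually.of_forall fun y => Real.tanh_eq_sinh_div_cosh y)

theorem dgL_sqrt2_pos : 0 < Real.sqrt 2 := Real.sqrt_pos.mpr (by norm_num)

theorem dgL_sqrt2_sq : Real.sqrt 2 * Real.sqrt 2 = 2 := Real.mul_self_sqrt (by norm_num)

theorem dgL_G_hasDerivAt (s : ℝ) : HasDerivAt dgG ((1 - dgG s ^ 2) / Real.sqrt 2) s := by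
  have h1 : HasDerivAt (fun t : ℝ => t / Real.sqrt 2) (1 / Real.sqrt 2) s :=
    (hasDerivAt_id s).div_const _
  have h := (dgL_hasDerivAt_tanh (s / Real.sqrt 2)).comp s h1
  have key : (1 - Real.tanh (s / Real.sqrt 2) ^ 2) * (1 / Real.sqrt 2)
      = (1 - dgG s ^ 2) / Real.sqrt 2 := by
    unfold dgG; ring
  rw [key] at h
  exact h

theorem dgL_deriv_G : deriv dgG = fun s => (1 - dgG s ^ 2) / Real.sqrt 2 := by
  funext s; exact (dgL_G_hasDerivAt s).deriv

theorem dgL_G'_hasDerivAt (s : ℝ) :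
    HasDerivAt (fun s => (1 - dgG s ^ 2) / Real.sqrt 2) (dgG s ^ 3 - dgG s) s := by
  have h := (((dgL_G_hasDerivAt s).pow 2).const_sub 1).div_const (Real.sqrt 2)
  have h2 := dgL_sqrt2_sq
  have h0 := dgL_sqrt2_pos.ne'
  have key : -(((2 : ℕ) : ℝ) * dgG s ^ (2 - 1) * ((1 - dgG s ^ 2) / Real.sqrt 2)) / Real.sqrt 2
      = dgG s ^ 3 - dgG s := by
    have : -(((2 : ℕ) : ℝ) * dgG s ^ (2 - 1) * ((1 - dgG s ^ 2) / Real.sqrt 2)) / Real.sqrt 2
        = -(2 * dgG s * (1 - dgG s ^ 2)) / (Real.sqrt 2 * Real.sqrt 2) := by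
      field_simp
      norm_num
      ring
    rw [this, h2]; ring
  rw [key] at h
  exact h

/-- `g'' = g³ - g`. -/
theorem dgL_deriv2_G (s : ℝ) : deriv (deriv dgG) s = dgG s ^ 3 - dgG s := by
  rw [dgL_deriv_G]; exact (dgL_G'_hasDerivAt s).deriv

theorem dgL_G_contDiff : ContDiff ℝ ⊤ dgG := by
  have e : Real.tanh = fun y => Real.sinh y / Real.cosh y := by
    funext y; exact Real.tanh_eq_sinh_div_cosh y
  have h : ContDiff ℝ ⊤ Real.tanh := by
    rw [e]
    exact Real.contDiff_sinh.div Real.contDiff_cosh (fun x => (Real.cosh_pos x).ne')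
  exact h.comp (contDiff_id.div_const _)

theorem dgL_G_mem_Ioo (s : ℝ) : dgG s ∈ Ioo (-1 : ℝ) 1 := ⟨Real.neg_one_lt_tanh _, Real.tanh_lt_one _⟩

variable {n : ℕ}

/-- **the planar transition layers are solutions.** -/
theorem dgL_sol_planar (a : DgE n) (ha : ‖a‖ = 1) (b : ℝ) :
    DgSol n (fun x => Real.tanh ((inner ℝ a x - b) / Real.sqrt 2)) := by
  have e : (fun x : DgE n => Real.tanh ((inner ℝ a x - b) / Real.sqrt 2)) = fun x => dgG (⟪a, x⟫ - b) := rfl
  rw [e]
  refine ⟨(dgL_G_contDiff.of_le le_top).comp (dgL_contDiff_aff a b), fun x => ?_, fun x => ?_⟩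
  · exact Ioo_subset_Icc_self (dgL_G_mem_Ioo _)
  · rw [dgL_lap_ridge a b x (dgL_G_contDiff.of_le le_top).contDiffAt, ha, dgL_deriv2_G]
    ring

theorem DgPlanar.dgL_sol {v : DgE n → ℝ} (h : DgPlanar n v) : DgSol n v := by
  obtain ⟨a, ha, b, hv⟩ := h
  have : v = fun x => Real.tanh ((inner ℝ a x - b) / Real.sqrt 2) := funext hv
  rw [this]; exact dgL_sol_planar a ha b

theorem dgL_sol_const (c : ℝ) (hc : c ∈ Icc (-1 : ℝ) 1) (h : c ^ 3 - c = 0) : DgSol n (fun _ => c) :=
  ⟨contDiff_const, fun _ => hc, fun x => by rw [dgL_lap_const, h]⟩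

theorem dgL_sol_one : DgSol n (fun _ => 1) := dgL_sol_const 1 (by constructor <;> norm_num) (by norm_num)
theorem dgL_sol_neg_one : DgSol n (fun _ => -1) := dgL_sol_const (-1) (by constructor <;> norm_num) (by norm_num)
theorem dgL_sol_zero : DgSol n (fun _ => 0) := dgL_sol_const 0 (by constructor <;> norm_num) (by norm_num)

theorem DgRigid.dgL_sol {v : DgE n → ℝ} (h : DgRigid n v) : DgSol n v := by
  rcases h with h | h | h
  · rw [show v = fun _ => 1 from funext h]; exact dgL_sol_one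
  · rw [show v = fun _ => -1 from funext h]; exact dgL_sol_neg_one
  · exact h.dgL_sol

theorem DgSol.dgL_abs_le {u : DgE n → ℝ} (h : DgSol n u) (x : DgE n) : |u x| ≤ 1 :=
  abs_le.mpr (h.range x)

theorem DgSol.dgL_sq_le {u : DgE n → ℝ} (h : DgSol n u) (x : DgE n) : u x ^ 2 ≤ 1 := by
  have := h.dgL_abs_le x
  rw [← sq_abs]; nlinarith [abs_nonneg (u x)]

/-- the equation is odd. -/
theorem DgSol.dgL_neg {u : DgE n → ℝ} (h : DgSol n u) : DgSol n (fun x => - u x) :=
  ⟨h.smooth.neg, fun x => ⟨by linarith [(h.range x).2], by linarith [(h.range x).1]⟩, fun x => by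
    rw [dgL_lap_neg h.smooth.contDiffAt, h.pde]; ring⟩

theorem DgSol.dgL_translate {u : DgE n → ℝ} (h : DgSol n u) (a : DgE n) : DgSol n (fun x => u (x + a)) :=
  ⟨h.smooth.comp (contDiff_id.add contDiff_const), fun x => h.range _, fun x => by
    rw [dgL_lap_translate, h.pde]⟩

theorem DgSol.dgL_isometry {u : DgE n → ℝ} (h : DgSol n u) (L : DgE n ≃ₗᵢ[ℝ] DgE n) :
    DgSol n (fun x => u (L x)) :=
  ⟨h.smooth.comp L.toContinuousLinearEquiv.contDiff, fun x => h.range _, fun x => by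
    rw [dgL_lap_isometry L h.smooth.contDiffAt, h.pde]⟩

/-- the rescaled function `u_ε(x) = u(x/ε)`, written with `r = 1/ε`: `Δ u_r = r² (u_r³ - u_r)`. -/
theorem DgSol.dgL_dilate {u : DgE n → ℝ} (h : DgSol n u) (r : ℝ) (x : DgE n) :
    Laplacian.laplacian (fun y => u (r • y)) x = r ^ 2 * (u (r • x) ^ 3 - u (r • x)) := by
  rw [dgL_lap_dilate, h.pde]

/-- **weak form of the equation**: `∫ ⟪∇u, ∇φ⟫ + (u³ - u) φ = 0` for `φ ∈ C¹_c`. -/
theorem DgSol.dgL_weak {u : DgE n → ℝ} (h : DgSol n u) {φ : DgE n → ℝ} (hφ : ContDiff ℝ 1 φ)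
    (hc : HasCompactSupport φ) : ∫ x, (⟪∇ u x, ∇ φ x⟫ + (u x ^ 3 - u x) * φ x) = 0 := by
  have hg := dgL_green volume h.smooth hφ hc
  have h1 : Integrable (fun x => ⟪∇ u x, ∇ φ x⟫) volume :=
    dgL_integrable_inner_gradient volume (h.smooth.of_le (by norm_num)) hφ hc
  have h2 : Integrable (fun x => (u x ^ 3 - u x) * φ x) volume :=
    dgL_integrable_mul_of_compact volume ((h.smooth.continuous.pow 3).sub h.smooth.continuous) hφ.continuous hc
  rw [integral_add h1 h2]
  have e1 : ∫ x, (u x ^ 3 - u x) * φ x = ∫ x, φ x * Laplacian.laplacian u x := by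
    refine integral_congr_ae (Eventually.of_forall fun x => ?_)
    simp only [h.pde]; ring
  have e2 : ∫ x, ⟪∇ u x, ∇ φ x⟫ = ∫ x, ⟪∇ φ x, ∇ u x⟫ := by
    refine integral_congr_ae (Eventually.of_forall fun x => ?_)
    exact real_inner_comm _ _
  rw [e1, hg, e2]; ring

end AC

end Claimed.Agent.R329
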