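import Claimed.Agent.R329.Defs
import Claimed.Agent.Lib.Ell.Hopf

/-!
# Row 329, post A2 (helper168, prefix `dgA2_`): STRONG MAXIMUM PRINCIPLE / STRONG COMPARISON for `C²` functions.

All statements are in the words of the frozen texts (`Laplacian.laplacian`), on a finite dimensional real inner product space `W`
(so every `EuclideanSpace ℝ (Fin n)`), on an open preconnected set `U` or on the whole space.  The engine is `ell_strong_min` of
`Lib/Ell/Hopf` (Hopf lemma + touching ball).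

MAIN EXITS
* `dgA2_laplacian_eq_ellLap`, `dgA2_ndOp_lap`      : bridge `Laplacian.laplacian` = `ellLap`, `ndOp id 0 c`;
* `dgA2_strong_min_on`, `dgA2_strong_min`          : `w ≥ 0`, `Δ w ≤ c w`, `c` locally bounded, `w x₀ = 0` ⟹ `w = 0`;
* `dgA2_pos_or_zero`                               : dichotomy `w ≡ 0` or `w > 0`;
* `dgA2_strong_comparison_on`, `dgA2_strong_comparison` : ordered sub/supersolutions of `Δ u = u³ - u` which touch coincide;
* `dgA2_eq_one_of_touch`, `dgA2_eq_neg_one_of_touch`, `dgA2_trichotomy` : `|v| ≤ 1` solution touching `±1` is `±1`;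
* `DgSol.dgA2_trichotomy`                          : the same for the structure `DgSol`.
-/

set_option autoImplicit false

namespace Claimed.Agent.R329

open Metric Set Filter
open Claimed.Agent.Lib.Ell
open scoped ContDiff RealInnerProductSpace Topology

universe u

variable {W : Type u} [NormedAddCommGroup W] [InnerProductSpace ℝ W] [FiniteDimensional ℝ W]

/-! ## Bridge to `Lib/Ell` -/

/-- Mathlib's Laplacian is the sum of the second derivatives along the standard orthonormal basis. -/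
theorem dgA2_laplacian_eq_sum (u : W → ℝ) (x : W) :
    Laplacian.laplacian u x =
      ∑ i, fderiv ℝ (fderiv ℝ u) x (stdOrthonormalBasis ℝ W i) (stdOrthonormalBasis ℝ W i) := by
  rw [InnerProductSpace.laplacian_eq_iteratedFDeriv_stdOrthonormalBasis]
  refine Finset.sum_congr rfl fun i _ => ?_
  rw [iteratedFDeriv_two_apply]
  simp

/-- Mathlib's Laplacian is the Laplacian of `Lib/Ell`. -/
theorem dgA2_laplacian_eq_ellLap (u : W → ℝ) (x : W) : Laplacian.laplacian u x = ellLap u x := by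
  rw [dgA2_laplacian_eq_sum]
  simp [ellLap, ellTr, ellD2]

/-- the operator `Δ + c` in the language of `Lib/Ell`. -/
theorem dgA2_ndOp_lap (c u : W → ℝ) (x : W) :
    ndOp (fun _ => ContinuousLinearMap.id ℝ W) (fun _ => (0 : W)) c u x = Laplacian.laplacian u x + c x * u x := by
  rw [dgA2_laplacian_eq_ellLap]
  simp [ndOp, ellLap]

/-- the identity matrix is elliptic. -/
theorem dgA2_ellOn_id (s : Set W) : EllOn 1 1 s (fun _ => ContinuousLinearMap.id ℝ W) := by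
  intro x _
  refine ⟨fun ξ η => rfl, fun ξ => ?_, ContinuousLinearMap.norm_id_le⟩
  simp

/-- the local hypothesis of `ell_strong_min` for `Δ + c`, `c` locally bounded on `U`. -/
theorem dgA2_loc {U : Set W} {c : W → ℝ}
    (hc : ∀ x ∈ U, ∃ r > 0, ∃ K : ℝ, ∀ z ∈ ball x r, |c z| ≤ K) :
    ∀ x ∈ U, ∃ r > 0, ∃ lam > 0, ∃ Lam K : ℝ,
      EllOn lam Lam (ball x r) (fun _ => ContinuousLinearMap.id ℝ W) ∧ BdOn K (ball x r) (fun _ => (0 : W)) ∧
        BdOn K (ball x r) c := by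
  intro x hx
  obtain ⟨r, hr, K, hK⟩ := hc x hx
  refine ⟨r, hr, 1, one_pos, 1, K, dgA2_ellOn_id _, ?_, ?_⟩
  · intro z hz
    have h1 := hK z hz
    simpa using (abs_nonneg _).trans h1
  · intro z hz
    simpa [Real.norm_eq_abs] using hK z hz

/-- a function which is continuous on an open set is locally bounded there. -/
theorem dgA2_locBdd_of_continuousOn {U : Set W} (hU : IsOpen U) {c : W → ℝ} (hc : ContinuousOn c U) :
    ∀ x ∈ U, ∃ r > 0, ∃ K : ℝ, ∀ z ∈ ball x r, |c z| ≤ K := by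
  intro x hx
  have h1 : ∀ᶠ z in 𝓝 x, dist (c z) (c x) < 1 :=
    Metric.tendsto_nhds.1 (hc.continuousAt (hU.mem_nhds hx)) _ one_pos
  obtain ⟨r, hr, hball⟩ := Metric.eventually_nhds_iff_ball.1 h1
  refine ⟨r, hr, |c x| + 1, fun z hz => ?_⟩
  have h2 := hball z hz
  rw [Real.dist_eq] at h2
  have h3 : |c z| ≤ |c z - c x| + |c x| := by
    have := abs_add_le (c z - c x) (c x)
    simpa using this
  linarith

/-! ## The strong minimum principle -/

/-- **Strong minimum principle** on an open preconnected set, `c` locally bounded, any sign: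
`w ≥ 0`, `Δ w ≤ c w`, `w x₀ = 0` ⟹ `w = 0`. -/
theorem dgA2_strong_min_on {U : Set W} (hU : IsOpen U) (hUc : IsPreconnected U) {c w : W → ℝ}
    (hc : ∀ x ∈ U, ∃ r > 0, ∃ K : ℝ, ∀ z ∈ ball x r, |c z| ≤ K)
    (hw : ContDiffOn ℝ 2 w U) (hL : ∀ x ∈ U, Laplacian.laplacian w x ≤ c x * w x) (hw0 : ∀ x ∈ U, 0 ≤ w x)
    {x₀ : W} (hx₀ : x₀ ∈ U) (hwx₀ : w x₀ = 0) : ∀ x ∈ U, w x = 0 := by
  refine ell_strong_min (a := fun _ => ContinuousLinearMap.id ℝ W) (b := fun _ => (0 : W)) (c := fun x => - c x)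
    hU hUc (dgA2_loc (c := fun x => - c x) ?_) hw ?_ hw0 hx₀ hwx₀
  · intro x hx
    obtain ⟨r, hr, K, hK⟩ := hc x hx
    exact ⟨r, hr, K, fun z hz => by simpa using hK z hz⟩
  · intro x hx
    rw [dgA2_ndOp_lap]
    have := hL x hx
    linarith

/-- the same with a coefficient continuous on `U`. -/
theorem dgA2_strong_min_on_of_continuousOn {U : Set W} (hU : IsOpen U) (hUc : IsPreconnected U) {c w : W → ℝ}
    (hc : ContinuousOn c U)
    (hw : ContDiffOn ℝ 2 w U) (hL : ∀ x ∈ U, Laplacian.laplacian w x ≤ c x * w x) (hw0 : ∀ x ∈ U, 0 ≤ w x)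
    {x₀ : W} (hx₀ : x₀ ∈ U) (hwx₀ : w x₀ = 0) : ∀ x ∈ U, w x = 0 :=
  dgA2_strong_min_on hU hUc (dgA2_locBdd_of_continuousOn hU hc) hw hL hw0 hx₀ hwx₀

/-- **Strong minimum principle** on the whole space, bounded coefficient. -/
theorem dgA2_strong_min_of_bdd {c w : W → ℝ} {K : ℝ} (hc : ∀ x, |c x| ≤ K)
    (hw : ContDiff ℝ 2 w) (hL : ∀ x, Laplacian.laplacian w x ≤ c x * w x) (hw0 : ∀ x, 0 ≤ w x)
    {x₀ : W} (hwx₀ : w x₀ = 0) : ∀ x, w x = 0 := fun x =>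
  dgA2_strong_min_on isOpen_univ isPreconnected_univ (fun _ _ => ⟨1, one_pos, K, fun z _ => hc z⟩)
    hw.contDiffOn (fun x _ => hL x) (fun x _ => hw0 x) (mem_univ x₀) hwx₀ x (mem_univ x)

/-- **Strong minimum principle** on the whole space, continuous coefficient. -/
theorem dgA2_strong_min {c w : W → ℝ} (hc : Continuous c)
    (hw : ContDiff ℝ 2 w) (hL : ∀ x, Laplacian.laplacian w x ≤ c x * w x) (hw0 : ∀ x, 0 ≤ w x)
    {x₀ : W} (hwx₀ : w x₀ = 0) : ∀ x, w x = 0 := fun x =>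
  dgA2_strong_min_on_of_continuousOn isOpen_univ isPreconnected_univ hc.continuousOn
    hw.contDiffOn (fun x _ => hL x) (fun x _ => hw0 x) (mem_univ x₀) hwx₀ x (mem_univ x)

/-- dichotomy on an open preconnected set: a nonnegative supersolution of `Δ w = c w` is `≡ 0` or `> 0`. -/
theorem dgA2_pos_or_zero_on {U : Set W} (hU : IsOpen U) (hUc : IsPreconnected U) {c w : W → ℝ}
    (hc : ∀ x ∈ U, ∃ r > 0, ∃ K : ℝ, ∀ z ∈ ball x r, |c z| ≤ K)
    (hw : ContDiffOn ℝ 2 w U) (hL : ∀ x ∈ U, Laplacian.laplacian w x ≤ c x * w x) (hw0 : ∀ x ∈ U, 0 ≤ w x) :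
    (∀ x ∈ U, w x = 0) ∨ ∀ x ∈ U, 0 < w x := by
  by_cases h : ∃ x₀ ∈ U, w x₀ = 0
  · obtain ⟨x₀, hx₀, hwx₀⟩ := h
    exact Or.inl (dgA2_strong_min_on hU hUc hc hw hL hw0 hx₀ hwx₀)
  · push Not at h
    exact Or.inr fun x hx => lt_of_le_of_ne (hw0 x hx) (Ne.symm (h x hx))

/-- dichotomy on the whole space. -/
theorem dgA2_pos_or_zero {c w : W → ℝ} (hc : Continuous c)
    (hw : ContDiff ℝ 2 w) (hL : ∀ x, Laplacian.laplacian w x ≤ c x * w x) (hw0 : ∀ x, 0 ≤ w x) :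
    (∀ x, w x = 0) ∨ ∀ x, 0 < w x := by
  by_cases h : ∃ x₀, w x₀ = 0
  · obtain ⟨x₀, hwx₀⟩ := h
    exact Or.inl (dgA2_strong_min hc hw hL hw0 hwx₀)
  · push Not at h
    exact Or.inr fun x => lt_of_le_of_ne (hw0 x) (Ne.symm (h x))

/-! ## Strong comparison for `Δ u = u³ - u` -/

/-- Laplacian of a difference, on an open set. -/
theorem dgA2_laplacian_sub_on {U : Set W} (hU : IsOpen U) {u₁ u₂ : W → ℝ} (h₁ : ContDiffOn ℝ 2 u₁ U)
    (h₂ : ContDiffOn ℝ 2 u₂ U) {x : W} (hx : x ∈ U) :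
    Laplacian.laplacian (fun z => u₂ z - u₁ z) x = Laplacian.laplacian u₂ x - Laplacian.laplacian u₁ x := by
  have := ContDiffAt.laplacian_sub (h₂.contDiffAt (hU.mem_nhds hx)) (h₁.contDiffAt (hU.mem_nhds hx))
  simpa [Pi.sub_def] using this

/-- **Strong comparison** on an open preconnected set: `u₁` subsolution, `u₂` supersolution of `Δ u = u³ - u`, `u₁ ≤ u₂`,
touching at one point ⟹ `u₁ = u₂`. -/
theorem dgA2_strong_comparison_on {U : Set W} (hU : IsOpen U) (hUc : IsPreconnected U) {u₁ u₂ : W → ℝ}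
    (h₁ : ContDiffOn ℝ 2 u₁ U) (h₂ : ContDiffOn ℝ 2 u₂ U)
    (hsub : ∀ x ∈ U, u₁ x ^ 3 - u₁ x ≤ Laplacian.laplacian u₁ x)
    (hsup : ∀ x ∈ U, Laplacian.laplacian u₂ x ≤ u₂ x ^ 3 - u₂ x)
    (hle : ∀ x ∈ U, u₁ x ≤ u₂ x) {x₀ : W} (hx₀ : x₀ ∈ U) (htouch : u₁ x₀ = u₂ x₀) :
    ∀ x ∈ U, u₁ x = u₂ x := by
  have key := dgA2_strong_min_on_of_continuousOn (w := fun z => u₂ z - u₁ z)
    (c := fun z => u₂ z ^ 2 + u₂ z * u₁ z + u₁ z ^ 2 - 1) hU hUc
    ((((h₂.continuousOn.pow 2).add (h₂.continuousOn.mul h₁.continuousOn)).add (h₁.continuousOn.pow 2)).sub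
      continuousOn_const)
    (h₂.sub h₁)
    (fun x hx => by
      rw [dgA2_laplacian_sub_on hU h₁ h₂ hx]
      have e1 := hsub x hx
      have e2 := hsup x hx
      have e3 : (u₂ x ^ 2 + u₂ x * u₁ x + u₁ x ^ 2 - 1) * (u₂ x - u₁ x)
          = (u₂ x ^ 3 - u₂ x) - (u₁ x ^ 3 - u₁ x) := by ring
      rw [e3]
      linarith)
    (fun x hx => sub_nonneg.2 (hle x hx)) hx₀ (by simp [htouch])
  intro x hx
  have := key x hx
  linarith

/-- **Strong comparison** on the whole space. -/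
theorem dgA2_strong_comparison {u₁ u₂ : W → ℝ} (h₁ : ContDiff ℝ 2 u₁) (h₂ : ContDiff ℝ 2 u₂)
    (hsub : ∀ x, u₁ x ^ 3 - u₁ x ≤ Laplacian.laplacian u₁ x)
    (hsup : ∀ x, Laplacian.laplacian u₂ x ≤ u₂ x ^ 3 - u₂ x)
    (hle : ∀ x, u₁ x ≤ u₂ x) {x₀ : W} (htouch : u₁ x₀ = u₂ x₀) : ∀ x, u₁ x = u₂ x := fun x =>
  dgA2_strong_comparison_on isOpen_univ isPreconnected_univ h₁.contDiffOn h₂.contDiffOn (fun x _ => hsub x)
    (fun x _ => hsup x) (fun x _ => hle x) (mem_univ x₀) htouch x (mem_univ x)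

/-- ordered solutions on an open preconnected set: equal or strictly ordered. -/
theorem dgA2_lt_or_eq_on {U : Set W} (hU : IsOpen U) (hUc : IsPreconnected U) {u₁ u₂ : W → ℝ}
    (h₁ : ContDiffOn ℝ 2 u₁ U) (h₂ : ContDiffOn ℝ 2 u₂ U)
    (hsub : ∀ x ∈ U, u₁ x ^ 3 - u₁ x ≤ Laplacian.laplacian u₁ x)
    (hsup : ∀ x ∈ U, Laplacian.laplacian u₂ x ≤ u₂ x ^ 3 - u₂ x)
    (hle : ∀ x ∈ U, u₁ x ≤ u₂ x) : (∀ x ∈ U, u₁ x = u₂ x) ∨ ∀ x ∈ U, u₁ x < u₂ x := by
  by_cases h : ∃ x₀ ∈ U, u₁ x₀ = u₂ x₀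
  · obtain ⟨x₀, hx₀, ht⟩ := h
    exact Or.inl (dgA2_strong_comparison_on hU hUc h₁ h₂ hsub hsup hle hx₀ ht)
  · push Not at h
    exact Or.inr fun x hx => lt_of_le_of_ne (hle x hx) (h x hx)

/-- ordered entire solutions: equal or strictly ordered. -/
theorem dgA2_lt_or_eq {u₁ u₂ : W → ℝ} (h₁ : ContDiff ℝ 2 u₁) (h₂ : ContDiff ℝ 2 u₂)
    (hsub : ∀ x, u₁ x ^ 3 - u₁ x ≤ Laplacian.laplacian u₁ x)
    (hsup : ∀ x, Laplacian.laplacian u₂ x ≤ u₂ x ^ 3 - u₂ x)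
    (hle : ∀ x, u₁ x ≤ u₂ x) : (∀ x, u₁ x = u₂ x) ∨ ∀ x, u₁ x < u₂ x := by
  by_cases h : ∃ x₀, u₁ x₀ = u₂ x₀
  · obtain ⟨x₀, ht⟩ := h
    exact Or.inl (dgA2_strong_comparison h₁ h₂ hsub hsup hle ht)
  · push Not at h
    exact Or.inr fun x => lt_of_le_of_ne (hle x) (h x)

/-! ## The wells -/

/-- Laplacian of a constant function (lambda form). -/
theorem dgA2_laplacian_const (t : ℝ) (x : W) : Laplacian.laplacian (fun _ : W => t) x = 0 := by
  have := InnerProductSpace.laplacian_const (E := W) (F := ℝ) (c := t)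
  exact congrFun this x

/-- on an open preconnected set: a subsolution `v ≤ 1` touching `1` is `1`. -/
theorem dgA2_eq_one_of_touch_on {U : Set W} (hU : IsOpen U) (hUc : IsPreconnected U) {v : W → ℝ}
    (hv : ContDiffOn ℝ 2 v U) (hsub : ∀ x ∈ U, v x ^ 3 - v x ≤ Laplacian.laplacian v x) (hle : ∀ x ∈ U, v x ≤ 1)
    {x₀ : W} (hx₀ : x₀ ∈ U) (h : v x₀ = 1) : ∀ x ∈ U, v x = 1 :=
  dgA2_strong_comparison_on (u₂ := fun _ => (1 : ℝ)) hU hUc hv contDiffOn_const hsub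
    (fun x _ => by rw [dgA2_laplacian_const]; norm_num) hle hx₀ h

/-- on an open preconnected set: a supersolution `v ≥ -1` touching `-1` is `-1`. -/
theorem dgA2_eq_neg_one_of_touch_on {U : Set W} (hU : IsOpen U) (hUc : IsPreconnected U) {v : W → ℝ}
    (hv : ContDiffOn ℝ 2 v U) (hsup : ∀ x ∈ U, Laplacian.laplacian v x ≤ v x ^ 3 - v x) (hle : ∀ x ∈ U, -1 ≤ v x)
    {x₀ : W} (hx₀ : x₀ ∈ U) (h : v x₀ = -1) : ∀ x ∈ U, v x = -1 := fun x hx =>
  (dgA2_strong_comparison_on (u₁ := fun _ => (-1 : ℝ)) hU hUc contDiffOn_const hv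
    (fun x _ => by rw [dgA2_laplacian_const]; norm_num) hsup hle hx₀ h.symm x hx).symm

/-- an entire solution `v ≤ 1` touching `1` is `1`. -/
theorem dgA2_eq_one_of_touch {v : W → ℝ} (hv : ContDiff ℝ 2 v)
    (hpde : ∀ x, Laplacian.laplacian v x = v x ^ 3 - v x) (hle : ∀ x, v x ≤ 1) {x₀ : W} (h : v x₀ = 1) :
    ∀ x, v x = 1 := fun x =>
  dgA2_eq_one_of_touch_on isOpen_univ isPreconnected_univ hv.contDiffOn (fun x _ => (hpde x).ge) (fun x _ => hle x)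
    (mem_univ x₀) h x (mem_univ x)

/-- an entire solution `v ≥ -1` touching `-1` is `-1`. -/
theorem dgA2_eq_neg_one_of_touch {v : W → ℝ} (hv : ContDiff ℝ 2 v)
    (hpde : ∀ x, Laplacian.laplacian v x = v x ^ 3 - v x) (hle : ∀ x, -1 ≤ v x) {x₀ : W} (h : v x₀ = -1) :
    ∀ x, v x = -1 := fun x =>
  dgA2_eq_neg_one_of_touch_on isOpen_univ isPreconnected_univ hv.contDiffOn (fun x _ => (hpde x).le) (fun x _ => hle x)
    (mem_univ x₀) h x (mem_univ x)

/-- **Trichotomy**: an entire solution with values in `[-1, 1]` is `≡ 1`, `≡ -1` or takes its values in `(-1, 1)`. -/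
theorem dgA2_trichotomy {v : W → ℝ} (hv : ContDiff ℝ 2 v) (hrange : ∀ x, v x ∈ Set.Icc (-1 : ℝ) 1)
    (hpde : ∀ x, Laplacian.laplacian v x = v x ^ 3 - v x) :
    (∀ x, v x = 1) ∨ (∀ x, v x = -1) ∨ ∀ x, v x ∈ Set.Ioo (-1 : ℝ) 1 := by
  by_cases h1 : ∃ x₀, v x₀ = 1
  · obtain ⟨x₀, h⟩ := h1
    exact Or.inl (dgA2_eq_one_of_touch hv hpde (fun x => (hrange x).2) h)
  by_cases h2 : ∃ x₀, v x₀ = -1
  · obtain ⟨x₀, h⟩ := h2
    exact Or.inr (Or.inl (dgA2_eq_neg_one_of_touch hv hpde (fun x => (hrange x).1) h))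
  push Not at h1 h2
  exact Or.inr (Or.inr fun x =>
    ⟨lt_of_le_of_ne (hrange x).1 (Ne.symm (h2 x)), lt_of_le_of_ne (hrange x).2 (h1 x)⟩)

/-- the trichotomy for `DgSol`. -/
theorem DgSol.dgA2_trichotomy {n : ℕ} {v : DgE n → ℝ} (h : DgSol n v) :
    (∀ x, v x = 1) ∨ (∀ x, v x = -1) ∨ ∀ x, v x ∈ Set.Ioo (-1 : ℝ) 1 :=
  Claimed.Agent.R329.dgA2_trichotomy h.smooth h.range h.pde

/-- two ordered `DgSol` are equal or strictly ordered. -/
theorem DgSol.dgA2_lt_or_eq {n : ℕ} {u₁ u₂ : DgE n → ℝ} (h₁ : DgSol n u₁) (h₂ : DgSol n u₂)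
    (hle : ∀ x, u₁ x ≤ u₂ x) : (∀ x, u₁ x = u₂ x) ∨ ∀ x, u₁ x < u₂ x :=
  Claimed.Agent.R329.dgA2_lt_or_eq h₁.smooth h₂.smooth (fun x => (h₁.pde x).ge) (fun x => (h₂.pde x).le) hle

/-! ## Versions with a drift term (for the `P`-function of Modica's estimate) -/

/-- the operator `Δ + b·∇ + c` in the language of `Lib/Ell`. -/
theorem dgA2_ndOp_lap_drift (b : W → W) (c u : W → ℝ) (x : W) :
    ndOp (fun _ => ContinuousLinearMap.id ℝ W) b c u x =
      Laplacian.laplacian u x + fderiv ℝ u x (b x) + c x * u x := by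
  rw [dgA2_laplacian_eq_ellLap]
  simp [ndOp, ellLap]

/-- the local hypothesis of `ell_strong_min` for `Δ + b·∇ + c`. -/
theorem dgA2_loc_drift {U : Set W} {b : W → W} {c : W → ℝ}
    (hb : ∀ x ∈ U, ∃ r > 0, ∃ K : ℝ, ∀ z ∈ ball x r, ‖b z‖ ≤ K)
    (hc : ∀ x ∈ U, ∃ r > 0, ∃ K : ℝ, ∀ z ∈ ball x r, |c z| ≤ K) :
    ∀ x ∈ U, ∃ r > 0, ∃ lam > 0, ∃ Lam K : ℝ,
      EllOn lam Lam (ball x r) (fun _ => ContinuousLinearMap.id ℝ W) ∧ BdOn K (ball x r) b ∧
        BdOn K (ball x r) c := by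
  intro x hx
  obtain ⟨r₁, hr₁, K₁, hK₁⟩ := hb x hx
  obtain ⟨r₂, hr₂, K₂, hK₂⟩ := hc x hx
  refine ⟨min r₁ r₂, lt_min hr₁ hr₂, 1, one_pos, 1, max K₁ K₂, dgA2_ellOn_id _, ?_, ?_⟩
  · intro z hz
    exact (hK₁ z (ball_subset_ball (min_le_left _ _) hz)).trans (le_max_left _ _)
  · intro z hz
    rw [Real.norm_eq_abs]
    exact (hK₂ z (ball_subset_ball (min_le_right _ _) hz)).trans (le_max_right _ _)

/-- a vector field which is continuous on an open set is locally bounded there. -/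
theorem dgA2_locBdd_of_continuousOn_vec {U : Set W} (hU : IsOpen U) {b : W → W} (hb : ContinuousOn b U) :
    ∀ x ∈ U, ∃ r > 0, ∃ K : ℝ, ∀ z ∈ ball x r, ‖b z‖ ≤ K := by
  intro x hx
  have h1 : ∀ᶠ z in 𝓝 x, dist (b z) (b x) < 1 :=
    Metric.tendsto_nhds.1 (hb.continuousAt (hU.mem_nhds hx)) _ one_pos
  obtain ⟨r, hr, hball⟩ := Metric.eventually_nhds_iff_ball.1 h1
  refine ⟨r, hr, ‖b x‖ + 1, fun z hz => ?_⟩
  have h2 := hball z hz
  rw [dist_eq_norm] at h2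
  have h3 : ‖b z‖ ≤ ‖b z - b x‖ + ‖b x‖ := by
    have := norm_add_le (b z - b x) (b x)
    simpa using this
  linarith

/-- **Strong minimum principle with drift**: `w ≥ 0`, `Δ w + Dw(b) ≤ c w`, `w x₀ = 0` ⟹ `w = 0`. -/
theorem dgA2_strong_min_drift_on {U : Set W} (hU : IsOpen U) (hUc : IsPreconnected U) {b : W → W} {c w : W → ℝ}
    (hb : ∀ x ∈ U, ∃ r > 0, ∃ K : ℝ, ∀ z ∈ ball x r, ‖b z‖ ≤ K)
    (hc : ∀ x ∈ U, ∃ r > 0, ∃ K : ℝ, ∀ z ∈ ball x r, |c z| ≤ K)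
    (hw : ContDiffOn ℝ 2 w U) (hL : ∀ x ∈ U, Laplacian.laplacian w x + fderiv ℝ w x (b x) ≤ c x * w x)
    (hw0 : ∀ x ∈ U, 0 ≤ w x) {x₀ : W} (hx₀ : x₀ ∈ U) (hwx₀ : w x₀ = 0) : ∀ x ∈ U, w x = 0 := by
  refine ell_strong_min (a := fun _ => ContinuousLinearMap.id ℝ W) (b := b) (c := fun x => - c x)
    hU hUc (dgA2_loc_drift (c := fun x => - c x) hb ?_) hw ?_ hw0 hx₀ hwx₀
  · intro x hx
    obtain ⟨r, hr, K, hK⟩ := hc x hx
    exact ⟨r, hr, K, fun z hz => by simpa using hK z hz⟩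
  · intro x hx
    rw [dgA2_ndOp_lap_drift]
    have := hL x hx
    linarith

/-- **Strong maximum principle with drift, no zero order term**: `Δ P ≥ DP(b)` on an open preconnected set and `P` has an interior
maximum ⟹ `P` is constant.  (This is the form used for `P = |∇v|²/2 - W(v)` on a component of `{∇v ≠ 0}`.) -/
theorem dgA2_strong_max_drift_on {U : Set W} (hU : IsOpen U) (hUc : IsPreconnected U) {b : W → W} {P : W → ℝ}
    (hb : ∀ x ∈ U, ∃ r > 0, ∃ K : ℝ, ∀ z ∈ ball x r, ‖b z‖ ≤ K)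
    (hP : ContDiffOn ℝ 2 P U) (hL : ∀ x ∈ U, fderiv ℝ P x (b x) ≤ Laplacian.laplacian P x)
    {x₀ : W} (hx₀ : x₀ ∈ U) (hmax : ∀ x ∈ U, P x ≤ P x₀) : ∀ x ∈ U, P x = P x₀ := by
  have key := dgA2_strong_min_drift_on (w := fun z => P x₀ - P z) (b := fun z => - b z) (c := fun _ => 0) hU hUc
    (fun x hx => by
      obtain ⟨r, hr, K, hK⟩ := hb x hx
      exact ⟨r, hr, K, fun z hz => by simpa using hK z hz⟩)
    (fun x _ => ⟨1, one_pos, 0, fun z _ => by simp⟩)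
    (contDiffOn_const.sub hP)
    (fun x hx => by
      have hPx : ContDiffAt ℝ 2 P x := hP.contDiffAt (hU.mem_nhds hx)
      have e1 : Laplacian.laplacian (fun z => P x₀ - P z) x = - Laplacian.laplacian P x := by
        have := dgA2_laplacian_sub_on (u₁ := P) (u₂ := fun _ => P x₀) hU hP contDiffOn_const hx
        rw [this, dgA2_laplacian_const]
        ring
      have e2 : fderiv ℝ (fun z => P x₀ - P z) x = - fderiv ℝ P x := by
        rw [fderiv_const_sub]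
      rw [e1, e2]
      have := hL x hx
      simp only [neg_apply, map_neg, neg_neg, zero_mul]
      linarith)
    (fun x hx => sub_nonneg.2 (hmax x hx)) hx₀ (by simp)
  intro x hx
  have := key x hx
  linarith

/-! ## Weak maximum principle and Hopf lemma in the words of `Laplacian.laplacian` -/

/-- **Weak minimum principle** on a bounded open set: `Δ w ≤ c w` with `0 ≤ c` bounded, `w ≥ 0` on the frontier ⟹ `w ≥ 0`. -/
theorem dgA2_weak_min_on [Nontrivial W] {U : Set W} (hU : IsOpen U) (hUb : Bornology.IsBounded U) {K : ℝ}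
    {c w : W → ℝ} (hc : ∀ x ∈ U, |c x| ≤ K) (hc0 : ∀ x ∈ U, 0 ≤ c x) (hw : ContDiffOn ℝ 2 w U)
    (hwc : ContinuousOn w (closure U)) (hL : ∀ x ∈ U, Laplacian.laplacian w x ≤ c x * w x)
    (hbd : ∀ x ∈ frontier U, 0 ≤ w x) : ∀ x ∈ U, 0 ≤ w x := by
  intro x hx
  have hK : 0 ≤ K := (abs_nonneg _).trans (hc x hx)
  refine ell_weak_min (a := fun _ => ContinuousLinearMap.id ℝ W) (b := fun _ => (0 : W)) (c := fun x => - c x)
    (lam := 1) (Lam := 1) (K := K) hU hUb one_pos (dgA2_ellOn_id _) (fun z _ => by simpa using hK)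
    (fun z hz => by simpa [Real.norm_eq_abs] using hc z hz) (fun z hz => by simpa using hc0 z hz) hw hwc
    (fun z hz => by
      rw [dgA2_ndOp_lap]
      have := hL z hz
      linarith) hbd x hx

/-- **Hopf lemma**: `w > 0` in `ball x₁ ρ`, `Δ w ≤ c w` there with `c` bounded (any sign), `w y = 0` at a boundary point ⟹ the inner
derivative is positive. -/
theorem dgA2_hopf [Nontrivial W] {U : Set W} (hU : IsOpen U) {K ρ : ℝ} (hρ : 0 < ρ) {c w : W → ℝ} {x₁ y : W}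
    (hB : closedBall x₁ ρ ⊆ U) (hc : ∀ x ∈ ball x₁ ρ, |c x| ≤ K) (hw : ContDiffOn ℝ 2 w U)
    (hL : ∀ x ∈ ball x₁ ρ, Laplacian.laplacian w x ≤ c x * w x) (hpos : ∀ x ∈ ball x₁ ρ, 0 < w x)
    (hy : ‖y - x₁‖ = ρ) (hwy : w y = 0) : 0 < fderiv ℝ w y (x₁ - y) := by
  have hK : 0 ≤ K := (abs_nonneg _).trans (hc x₁ (mem_ball_self hρ))
  refine ell_hopf (a := fun _ => ContinuousLinearMap.id ℝ W) (b := fun _ => (0 : W)) (c := fun x => min (- c x) 0)
    (lam := 1) (Lam := 1) (K := K) hU one_pos hρ hB (dgA2_ellOn_id _) (fun z _ => by simpa using hK)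
    (fun z hz => ?_) (fun z _ => min_le_right _ _) hw (fun z hz => ?_) hpos hy hwy
  · have h1 := hc z hz
    rw [Real.norm_eq_abs]
    show |min (- c z) 0| ≤ K
    rcases le_total (- c z) 0 with h | h
    · rw [min_eq_left h, abs_neg]; exact h1
    · rw [min_eq_right h, abs_zero]; exact hK
  · rw [dgA2_ndOp_lap]
    have h1 := hL z hz
    have h2 := (hpos z hz).le
    have h3 : min (- c z) 0 * w z ≤ (- c z) * w z := mul_le_mul_of_nonneg_right (min_le_left _ _) h2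
    linarith

end Claimed.Agent.R329
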