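import Claimed.Agent.R329.Defs
import Claimed.Agent.R329.DgBase
import Claimed.Agent.R329.LapApi
import Claimed.Agent.R329.Smp

/-!
# Row 329 (S0587, S0588), cell C6, post A28 = Lemma 2.2 of `01-diffuse.tex` (clearing inside a phase).   Pen: helper228.   Prefix `dgCl_`.

* `dgCl_clearing`: a solution which is positive on `closedBall x₀ R` satisfies `v(x₀)² ≥ 1 - (n+2)²/(2R²)`.
  Barrier: `φ = (1 - |x-x₀|²/R²)²`, `-Δφ ≤ (n+2)²/(2R²) φ` EVERYWHERE (a perfect square); touching by the maximum of `φ/v` (no eigenfunction, no sliding).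
* `dgCl_clearing_neg`: the mirror statement.
* `dgCl_exists_zero`: an entire solution with `|v| < 1` has a zero.
* `dgCl_sign_far`: at distance `≥ R` from the zero set `v² ≥ 1 - (n+2)²/(2R²)`.
* strips: if the zero set lies in `{|⟨e,x⟩ - t₀| ≤ h}` then `v² → 1` uniformly in the distance to the strip, with a constant sign on each side.
-/

set_option autoImplicit false
open scoped Topology ContDiff
open MeasureTheory Metric Set Filter

namespace Claimed.Agent.R329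

open Claimed.Agent.Lib.Ell

variable {n : ℕ}

/-! ## the barrier -/

/-- `s(x) = |x - x₀|²`. -/
noncomputable def dgCl_s (x₀ : DgE n) (x : DgE n) : ℝ := ‖x - x₀‖ ^ 2

/-- the barrier `φ(x) = (1 - |x - x₀|²/R²)²`. -/
noncomputable def dgCl_phi (x₀ : DgE n) (R : ℝ) (x : DgE n) : ℝ := (1 - ‖x - x₀‖ ^ 2 / R ^ 2) ^ 2

theorem dgCl_s_hasFDerivAt (x₀ x : DgE n) :
    HasFDerivAt (dgCl_s x₀) ((2 : ℝ) • innerSL ℝ (x - x₀)) x := by
  have h := ((hasFDerivAt_id x).sub_const x₀).norm_sq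
  have e : (2 • (innerSL ℝ (id x - x₀)) ∘SL (ContinuousLinearMap.id ℝ (DgE n)))
      = (2 : ℝ) • innerSL ℝ (x - x₀) := by
    ext y; simp [two_mul]
  rw [e] at h
  exact h

theorem dgCl_s_contDiff (x₀ : DgE n) : ContDiff ℝ ∞ (dgCl_s x₀) :=
  (contDiff_id.sub contDiff_const).norm_sq ℝ

theorem dgCl_s_norm_fderiv (x₀ x : DgE n) : ‖fderiv ℝ (dgCl_s x₀) x‖ ^ 2 = 4 * dgCl_s x₀ x := by
  rw [(dgCl_s_hasFDerivAt x₀ x).fderiv, norm_smul, innerSL_apply_norm, mul_pow]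
  unfold dgCl_s
  norm_num

theorem dgCl_s_D (x₀ : DgE n) (i : Fin n) : dg8D i (dgCl_s x₀) = fun y => 2 * (y i - x₀ i) := by
  funext y
  unfold dg8D
  rw [(dgCl_s_hasFDerivAt x₀ y).fderiv]
  simp [EuclideanSpace.inner_single_right]

theorem dgCl_s_lap (x₀ x : DgE n) : Laplacian.laplacian (dgCl_s x₀) x = 2 * n := by
  rw [dg8_laplacian_eq_sum_DD ((dgCl_s_contDiff x₀).of_le (by norm_cast))]
  have : ∀ i, dg8D i (dg8D i (dgCl_s x₀)) x = 2 := by
    intro i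
    rw [dgCl_s_D]
    unfold dg8D
    have h1 : HasFDerivAt (fun y : DgE n => 2 * (y i - x₀ i))
        ((2 : ℝ) • (EuclideanSpace.proj i : DgE n →L[ℝ] ℝ)) x := by
      have h0 : HasFDerivAt (fun y : DgE n => y i) (EuclideanSpace.proj i : DgE n →L[ℝ] ℝ) x :=
        (EuclideanSpace.proj i : DgE n →L[ℝ] ℝ).hasFDerivAt
      exact (h0.sub_const (x₀ i)).const_mul 2
    rw [h1.fderiv]
    simp
  simp [this, mul_comm]

/-- the profile of the barrier. -/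
noncomputable def dgCl_f (R : ℝ) (t : ℝ) : ℝ := (1 - t / R ^ 2) ^ 2

theorem dgCl_f_hasDerivAt (R t : ℝ) : HasDerivAt (dgCl_f R) (-(2 * (1 - t / R ^ 2) / R ^ 2)) t := by
  have h1 : HasDerivAt (fun t : ℝ => 1 - t / R ^ 2) (-(1 / R ^ 2)) t :=
    ((hasDerivAt_id t).div_const (R ^ 2)).const_sub 1
  have h2 := h1.fun_pow 2
  have e : (2 : ℕ) * (1 - t / R ^ 2) ^ (2 - 1) * -(1 / R ^ 2) = -(2 * (1 - t / R ^ 2) / R ^ 2) := by
    push_cast; ring
  rw [e] at h2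
  exact h2

theorem dgCl_f_deriv (R : ℝ) : deriv (dgCl_f R) = fun t => -(2 * (1 - t / R ^ 2) / R ^ 2) :=
  funext fun t => (dgCl_f_hasDerivAt R t).deriv

theorem dgCl_f_deriv2 (R t : ℝ) : deriv (deriv (dgCl_f R)) t = 2 / R ^ 4 := by
  rw [dgCl_f_deriv]
  have h1 : HasDerivAt (fun t : ℝ => 1 - t / R ^ 2) (-(1 / R ^ 2)) t :=
    ((hasDerivAt_id t).div_const (R ^ 2)).const_sub 1
  have h2 := (((h1.const_mul 2).div_const (R ^ 2))).fun_neg
  rw [h2.deriv]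
  ring

theorem dgCl_f_contDiff (R : ℝ) : ContDiff ℝ ∞ (dgCl_f R) := by
  unfold dgCl_f
  exact (contDiff_const.sub (contDiff_id.div_const _)).pow 2

theorem dgCl_phi_eq (x₀ : DgE n) (R : ℝ) : dgCl_phi x₀ R = fun y => dgCl_f R (dgCl_s x₀ y) := rfl

theorem dgCl_phi_contDiff (x₀ : DgE n) (R : ℝ) : ContDiff ℝ ∞ (dgCl_phi x₀ R) := by
  rw [dgCl_phi_eq]
  exact (dgCl_f_contDiff R).comp (dgCl_s_contDiff x₀)

theorem dgCl_phi_lap (x₀ : DgE n) (R : ℝ) (x : DgE n) :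
    Laplacian.laplacian (dgCl_phi x₀ R) x
      = 8 * dgCl_s x₀ x / R ^ 4 - 4 * n * (1 - dgCl_s x₀ x / R ^ 2) / R ^ 2 := by
  rw [dgCl_phi_eq, dgL_lap_comp ((dgCl_f_contDiff R).contDiffAt.of_le (by norm_cast))
    ((dgCl_s_contDiff x₀).contDiffAt.of_le (by norm_cast)), dgCl_f_deriv2, dgCl_f_deriv,
    dgCl_s_norm_fderiv, dgCl_s_lap]
  ring

/-- **the barrier inequality** `-Δφ ≤ (n+2)²/(2R²) φ`, everywhere. -/
theorem dgCl_phi_sub (x₀ : DgE n) {R : ℝ} (hR : 0 < R) (x : DgE n) :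
    - Laplacian.laplacian (dgCl_phi x₀ R) x ≤ ((n : ℝ) + 2) ^ 2 / (2 * R ^ 2) * dgCl_phi x₀ R x := by
  rw [dgCl_phi_lap]
  have e : dgCl_phi x₀ R x = (1 - dgCl_s x₀ x / R ^ 2) ^ 2 := rfl
  rw [e]
  set t := 1 - dgCl_s x₀ x / R ^ 2 with ht
  have hs : dgCl_s x₀ x / R ^ 2 = 1 - t := by rw [ht]; ring
  have e2 : 8 * dgCl_s x₀ x / R ^ 4 = 8 * (1 - t) / R ^ 2 := by
    rw [← hs]; field_simp
  rw [e2]
  have hR2 : 0 < R ^ 2 := by positivity
  have key : 0 ≤ (((n : ℝ) + 2) * t - 4) ^ 2 / (2 * R ^ 2) := by positivity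
  have e3 : ((n : ℝ) + 2) ^ 2 / (2 * R ^ 2) * t ^ 2 - -(8 * (1 - t) / R ^ 2 - 4 * n * t / R ^ 2)
      = (((n : ℝ) + 2) * t - 4) ^ 2 / (2 * R ^ 2) := by
    field_simp
    ring
  linarith

theorem dgCl_phi_center (x₀ : DgE n) (R : ℝ) : dgCl_phi x₀ R x₀ = 1 := by
  unfold dgCl_phi; simp

theorem dgCl_phi_nonneg (x₀ : DgE n) (R : ℝ) (x : DgE n) : 0 ≤ dgCl_phi x₀ R x := by
  unfold dgCl_phi; positivity

theorem dgCl_phi_le_one (x₀ : DgE n) {R : ℝ} (hR : 0 < R) {x : DgE n} (hx : x ∈ closedBall x₀ R) :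
    dgCl_phi x₀ R x ≤ 1 := by
  unfold dgCl_phi
  have h1 : ‖x - x₀‖ ≤ R := by simpa [dist_eq_norm] using hx
  have h2 : ‖x - x₀‖ ^ 2 / R ^ 2 ≤ 1 := by
    rw [div_le_one (by positivity)]
    exact pow_le_pow_left₀ (norm_nonneg _) h1 2
  have h3 : 0 ≤ ‖x - x₀‖ ^ 2 / R ^ 2 := by positivity
  nlinarith

theorem dgCl_lap_nonneg_of_isLocalMin {F : DgE n → ℝ} {x : DgE n} (hF : ContDiffAt ℝ 2 F x)
    (hmin : IsLocalMin F x) : 0 ≤ Laplacian.laplacian F x := by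
  rw [dg8_laplacian_eq]
  exact Finset.sum_nonneg fun i _ => ell_d2_nonneg_of_isLocalMin hF hmin _

/-! ## clearing -/

/-- **Clearing on large balls** (first half of Lemma 2.2): a solution which is positive on `closedBall x₀ R` satisfies
`v(x₀)² ≥ 1 - (n+2)²/(2R²)`. -/
theorem dgCl_clearing {v : DgE n → ℝ} (hv : DgSol n v) {x₀ : DgE n} {R : ℝ} (hR : 0 < R)
    (hpos : ∀ x ∈ closedBall x₀ R, 0 < v x) : 1 - ((n : ℝ) + 2) ^ 2 / (2 * R ^ 2) ≤ v x₀ ^ 2 := by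
  set lam : ℝ := ((n : ℝ) + 2) ^ 2 / (2 * R ^ 2) with hlam
  set φ := dgCl_phi x₀ R with hφ
  have hφc : Continuous φ := (dgCl_phi_contDiff x₀ R).continuous
  have hvc : Continuous v := hv.smooth.continuous
  have hx₀ : x₀ ∈ closedBall x₀ R := mem_closedBall_self hR.le
  obtain ⟨x₁, hx₁, hmax⟩ := (isCompact_closedBall x₀ R).exists_isMaxOn ⟨x₀, hx₀⟩
    (f := fun x => φ x / v x)
    (hφc.continuousOn.div hvc.continuousOn fun x hx => (hpos x hx).ne')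
  have hv₁ := hpos x₁ hx₁
  have hv₀ := hpos x₀ hx₀
  have h1 : φ x₀ / v x₀ ≤ φ x₁ / v x₁ := hmax hx₀
  have hφ₁ : 0 < φ x₁ := by
    have : 0 < φ x₀ / v x₀ := by rw [hφ, dgCl_phi_center]; positivity
    have h2 : 0 < φ x₁ / v x₁ := lt_of_lt_of_le this h1
    by_contra hc
    have h3 : φ x₁ = 0 := le_antisymm (not_lt.mp hc) (dgCl_phi_nonneg x₀ R x₁)
    rw [h3, zero_div] at h2
    exact lt_irrefl _ h2
  have hin : x₁ ∈ ball x₀ R := by
    have h2 : ‖x₁ - x₀‖ ≤ R := by simpa [dist_eq_norm] using hx₁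
    rcases lt_or_eq_of_le h2 with h3 | h3
    · simpa [dist_eq_norm] using h3
    · exfalso
      have : φ x₁ = 0 := by
        rw [hφ]; unfold dgCl_phi; rw [h3, div_self (by positivity)]; ring
      rw [this] at hφ₁
      exact lt_irrefl _ hφ₁
  set t₁ : ℝ := v x₁ / φ x₁ with ht₁
  have ht₁pos : 0 < t₁ := div_pos hv₁ hφ₁
  have hF : ∀ x ∈ closedBall x₀ R, t₁ * φ x ≤ v x := by
    intro x hx
    have h2 : φ x / v x ≤ φ x₁ / v x₁ := hmax hx
    have hvx := hpos x hx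
    rw [div_le_div_iff₀ hvx hv₁] at h2
    rw [ht₁, div_mul_eq_mul_div, div_le_iff₀ hφ₁]
    linarith
  have hFx₁ : t₁ * φ x₁ = v x₁ := by rw [ht₁]; field_simp
  have hmin : IsLocalMin (fun x => v x - t₁ * φ x) x₁ := by
    filter_upwards [isOpen_ball.mem_nhds hin] with x hx
    have := hF x (ball_subset_closedBall hx)
    simp only [hFx₁, sub_self]
    linarith
  have hφ2 : ContDiffAt ℝ 2 φ x₁ := (dgCl_phi_contDiff x₀ R).contDiffAt.of_le (by norm_cast)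
  have hlap := dgCl_lap_nonneg_of_isLocalMin
    (hv.smooth.contDiffAt.sub (contDiffAt_const.mul hφ2)) hmin
  rw [dgL_lap_sub hv.smooth.contDiffAt (contDiffAt_const.mul hφ2), dgL_lap_const_mul t₁ hφ2,
    hv.pde] at hlap
  have hsub := dgCl_phi_sub x₀ hR x₁
  rw [← hφ, ← hlam] at hsub
  -- `0 ≤ v₁³ - v₁ + t₁ λ φ₁ = v₁ (v₁² - 1 + λ)`
  have h3 : 0 ≤ v x₁ * (v x₁ ^ 2 - 1 + lam) := by
    have : - (t₁ * Laplacian.laplacian φ x₁) ≤ lam * v x₁ := by
      have := mul_le_mul_of_nonneg_left hsub ht₁pos.le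
      calc - (t₁ * Laplacian.laplacian φ x₁) = t₁ * - Laplacian.laplacian φ x₁ := by ring
        _ ≤ t₁ * (lam * φ x₁) := this
        _ = lam * (t₁ * φ x₁) := by ring
        _ = lam * v x₁ := by rw [hFx₁]
    nlinarith
  have h4 : 1 - lam ≤ v x₁ ^ 2 := by
    have := nonneg_of_mul_nonneg_right h3 hv₁
    linarith
  -- `v x₀ ≥ t₁ ≥ v x₁`
  have h5 : v x₁ ≤ t₁ := by
    rw [ht₁, le_div_iff₀ hφ₁]
    have := dgCl_phi_le_one x₀ hR hx₁
    rw [← hφ] at this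
    nlinarith
  have h6 : t₁ ≤ v x₀ := by
    have := hF x₀ hx₀
    rwa [hφ, dgCl_phi_center, mul_one] at this
  have h7 : v x₁ ^ 2 ≤ v x₀ ^ 2 := pow_le_pow_left₀ hv₁.le (le_trans h5 h6) 2
  linarith

theorem dgCl_sol_neg {v : DgE n → ℝ} (hv : DgSol n v) : DgSol n (fun x => - v x) := by
  refine ⟨hv.smooth.neg, fun x => ?_, fun x => ?_⟩
  · have := hv.range x
    exact ⟨by linarith [this.2], by linarith [this.1]⟩
  · rw [dgL_lap_neg hv.smooth.contDiffAt, hv.pde]; ring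

/-- the mirror statement. -/
theorem dgCl_clearing_neg {v : DgE n → ℝ} (hv : DgSol n v) {x₀ : DgE n} {R : ℝ} (hR : 0 < R)
    (hneg : ∀ x ∈ closedBall x₀ R, v x < 0) : 1 - ((n : ℝ) + 2) ^ 2 / (2 * R ^ 2) ≤ v x₀ ^ 2 := by
  have := dgCl_clearing (dgCl_sol_neg hv) hR (fun x hx => by linarith [hneg x hx])
  simpa using this

/-- no zero in `closedBall x₀ R` ⟹ `v(x₀)² ≥ 1 - (n+2)²/(2R²)`. -/
theorem dgCl_clearing_ne {v : DgE n → ℝ} (hv : DgSol n v) {x₀ : DgE n} {R : ℝ} (hR : 0 < R)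
    (hne : ∀ x ∈ closedBall x₀ R, v x ≠ 0) : 1 - ((n : ℝ) + 2) ^ 2 / (2 * R ^ 2) ≤ v x₀ ^ 2 := by
  have hconn : IsPreconnected (closedBall x₀ R) := (convex_closedBall x₀ R).isPreconnected
  have hvc : ContinuousOn v (closedBall x₀ R) := hv.smooth.continuous.continuousOn
  have hx₀ : x₀ ∈ closedBall x₀ R := mem_closedBall_self hR.le
  rcases lt_or_gt_of_ne (hne x₀ hx₀) with h0 | h0
  · refine dgCl_clearing_neg hv hR fun x hx => ?_
    by_contra hc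
    push Not at hc
    obtain ⟨z, hz, hz0⟩ := hconn.intermediate_value hx₀ hx hvc ⟨h0.le, hc⟩
    exact hne z hz hz0
  · refine dgCl_clearing hv hR fun x hx => ?_
    by_contra hc
    push Not at hc
    obtain ⟨z, hz, hz0⟩ := hconn.intermediate_value hx hx₀ hvc ⟨hc, h0.le⟩
    exact hne z hz hz0

/-- **an entire solution with `|v| < 1` has a zero** (Lemma 2.2, first assertion). -/
theorem dgCl_exists_zero {v : DgE n → ℝ} (hv : DgSol n v) (hlt : ∀ x, v x ∈ Ioo (-1 : ℝ) 1) :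
    ∃ z, v z = 0 := by
  by_contra hc
  push Not at hc
  have h0 : v 0 ^ 2 < 1 := by nlinarith [(hlt 0).1, (hlt 0).2]
  set d := 1 - v 0 ^ 2 with hd
  have hdpos : 0 < d := by linarith
  -- choose `R` with `(n+2)²/(2R²) < d`
  set R : ℝ := ((n : ℝ) + 2) / Real.sqrt d with hRdef
  have hsd : 0 < Real.sqrt d := Real.sqrt_pos.mpr hdpos
  have hR : 0 < R := by positivity
  have h1 := dgCl_clearing_ne hv (x₀ := 0) hR (fun x _ => hc x)
  have h2 : ((n : ℝ) + 2) ^ 2 / (2 * R ^ 2) = d / 2 := by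
    rw [hRdef, div_pow, Real.sq_sqrt hdpos.le]
    field_simp
  rw [h2] at h1
  linarith

/-! ## strips -/

theorem dgCl_inner_ball {e x y : DgE n} (he : ‖e‖ = 1) {R : ℝ} (hy : y ∈ closedBall x R) :
    |inner ℝ e y - inner ℝ e x| ≤ R := by
  rw [← inner_sub_right]
  have h1 := abs_real_inner_le_norm e (y - x)
  rw [he, one_mul] at h1
  have h2 : ‖y - x‖ ≤ R := by simpa [dist_eq_norm] using hy
  linarith

/-- EXIT: if the zero set lies in the strip `{|⟨e,x⟩ - t₀| ≤ h}`, then `v² ≥ 1 - (n+2)²/(2R²)` at distance `> R` from the strip. -/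
theorem dgCl_strip_far {v : DgE n → ℝ} (hv : DgSol n v) {e : DgE n} (he : ‖e‖ = 1) {t₀ h R : ℝ}
    (hR : 0 < R) (hz : ∀ z, v z = 0 → |inner ℝ e z - t₀| ≤ h) {x : DgE n}
    (hx : h + R < |inner ℝ e x - t₀|) : 1 - ((n : ℝ) + 2) ^ 2 / (2 * R ^ 2) ≤ v x ^ 2 := by
  refine dgCl_clearing_ne hv hR fun y hy hy0 => ?_
  have h1 := hz y hy0
  have h2 := dgCl_inner_ball he hy
  have h3 : |inner ℝ e x - t₀| ≤ |inner ℝ e y - t₀| + |inner ℝ e y - inner ℝ e x| := by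
    have := abs_sub_le (inner ℝ e x) (inner ℝ e y) t₀
    rw [abs_sub_comm (inner ℝ e x) (inner ℝ e y)] at this
    linarith
  linarith

/-- EXIT: constant sign above the strip. -/
theorem dgCl_strip_sign {v : DgE n → ℝ} (hv : DgSol n v) {e : DgE n} {t₀ h : ℝ}
    (hz : ∀ z, v z = 0 → |inner ℝ e z - t₀| ≤ h) :
    (∀ x, h < inner ℝ e x - t₀ → 0 < v x) ∨ (∀ x, h < inner ℝ e x - t₀ → v x < 0) := by
  set S : Set (DgE n) := {x | h < inner ℝ e x - t₀} with hS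
  have hconv : Convex ℝ S := by
    have : S = {x | h + t₀ < innerSL ℝ e x} := by
      ext x; simp only [hS, Set.mem_ofPred_eq, innerSL_apply_apply]; constructor <;> intro hh <;> linarith
    rw [this]
    exact convex_halfSpace_gt (innerSL ℝ e).isLinear _
  have hne : ∀ x ∈ S, v x ≠ 0 := by
    intro x hx h0
    have h1 := le_of_abs_le (hz x h0)
    have h2 : h < inner ℝ e x - t₀ := hx
    linarith
  have hvc : ContinuousOn v S := hv.smooth.continuous.continuousOn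
  by_cases hemp : ∃ x₁ ∈ S, 0 < v x₁
  · obtain ⟨x₁, hx₁, hp⟩ := hemp
    left
    intro x hx
    by_contra hc
    push Not at hc
    obtain ⟨z, hz', hz0⟩ := hconv.isPreconnected.intermediate_value hx hx₁ hvc ⟨hc, hp.le⟩
    exact hne z hz' hz0
  · right
    push Not at hemp
    intro x hx
    exact lt_of_le_of_ne (hemp x hx) (hne x hx)

/-- the radius at which the clearing bound is `ε`. -/
theorem dgCl_radius {ε : ℝ} (hε : 0 < ε) :
    ∃ R : ℝ, 0 < R ∧ ((n : ℝ) + 2) ^ 2 / (2 * R ^ 2) ≤ ε := by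
  have hs : 0 < Real.sqrt ε := Real.sqrt_pos.mpr hε
  refine ⟨((n : ℝ) + 2) / Real.sqrt ε, by positivity, ?_⟩
  rw [div_pow, Real.sq_sqrt hε.le]
  have : ((n : ℝ) + 2) ^ 2 / (2 * (((n : ℝ) + 2) ^ 2 / ε)) = ε / 2 := by field_simp
  rw [this]; linarith

/-- EXIT: **uniform limit `+1` above the strip** (the hypothesis of the sliding method / Gibbons' form). -/
theorem dgCl_strip_unif_pos {v : DgE n → ℝ} (hv : DgSol n v) {e : DgE n} (he : ‖e‖ = 1) {t₀ h : ℝ}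
    (hz : ∀ z, v z = 0 → |inner ℝ e z - t₀| ≤ h)
    (hpos : ∀ x, h < inner ℝ e x - t₀ → 0 < v x) {ε : ℝ} (hε : 0 < ε) :
    ∃ L : ℝ, ∀ x, L ≤ inner ℝ e x - t₀ → 1 - ε ≤ v x := by
  obtain ⟨R, hR, hRε⟩ := dgCl_radius (n := n) hε
  refine ⟨|h| + R + 1, fun x hx => ?_⟩
  have h1 : h + R < |inner ℝ e x - t₀| := by
    have := le_abs_self (inner ℝ e x - t₀)
    have := le_abs_self h
    linarith
  have h2 := dgCl_strip_far hv he hR hz h1
  have h3 : 0 < v x := hpos x (by have := le_abs_self h; linarith)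
  have h4 := (hv.range x).2
  nlinarith

/-- EXIT: uniform limit `-1` above the strip when the sign there is negative. -/
theorem dgCl_strip_unif_neg {v : DgE n → ℝ} (hv : DgSol n v) {e : DgE n} (he : ‖e‖ = 1) {t₀ h : ℝ}
    (hz : ∀ z, v z = 0 → |inner ℝ e z - t₀| ≤ h)
    (hneg : ∀ x, h < inner ℝ e x - t₀ → v x < 0) {ε : ℝ} (hε : 0 < ε) :
    ∃ L : ℝ, ∀ x, L ≤ inner ℝ e x - t₀ → v x ≤ -1 + ε := by
  obtain ⟨L, hL⟩ := dgCl_strip_unif_pos (dgCl_sol_neg hv) he (t₀ := t₀) (h := h)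
    (fun z hz0 => hz z (by simpa using hz0)) (fun x hx => by linarith [hneg x hx]) hε
  exact ⟨L, fun x hx => by linarith [hL x hx]⟩

theorem dgCl_eqns_cite : True := by
  have := @dgCl_s.eq_1
  have := @dgCl_phi.eq_1
  have := @dgCl_f.eq_1
  trivial

end Claimed.Agent.R329
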