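import Claimed.Agent.R329.Defs

/-!
# Row 329, post A6 (second pen: helper17), prefix `dg17_`.

* `dg17_lim` / `dg17_K6g`: a monotone normalised energy with surface-order growth converges to a positive limit (contract K6g of the Hub).
* `dg17_div_nonneg`: the sphere-free divergence lemma: a `C¹` field with `0 ≤ ⟪F x, x⟫` has `0 ≤ ∫_{B_R} div F`.
-/

set_option autoImplicit false
open MeasureTheory Metric Set Filter Topology

namespace Claimed.Agent.R329

theorem dg17_W_nonneg (s : ℝ) : 0 ≤ dgW s := by unfold dgW; positivity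

theorem dg17_dens_nonneg (n : ℕ) (u : DgE n → ℝ) (x : DgE n) : 0 ≤ dgDens n u x := by
  unfold dgDens
  have := dg17_W_nonneg (u x)
  positivity

theorem dg17_dens_continuous {n : ℕ} {u : DgE n → ℝ} (hu : ContDiff ℝ 1 u) :
    Continuous (dgDens n u) := by
  unfold dgDens dgW
  have h1 : Continuous (fderiv ℝ u) := hu.continuous_fderiv (by norm_num)
  have h2 : Continuous u := hu.continuous
  fun_prop

theorem dg17_dens_integrableOn {n : ℕ} {u : DgE n → ℝ} (hu : ContDiff ℝ 1 u) (x₀ : DgE n) (R : ℝ) :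
    IntegrableOn (dgDens n u) (ball x₀ R) :=
  ((dg17_dens_continuous hu).continuousOn.integrableOn_compact
    (isCompact_closedBall x₀ R)).mono_set ball_subset_closedBall

theorem dg17_En_nonneg (n : ℕ) (u : DgE n → ℝ) (x₀ : DgE n) (R : ℝ) : 0 ≤ dgEn n u x₀ R :=
  integral_nonneg (fun x => dg17_dens_nonneg n u x)

/-- The energy of a ball containing a point of positive density is positive. -/
theorem dg17_En_pos {n : ℕ} {u : DgE n → ℝ} (hu : ContDiff ℝ 1 u) {x₀ x₁ : DgE n} {R : ℝ}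
    (hx : x₁ ∈ ball x₀ R) (hpos : 0 < dgDens n u x₁) : 0 < dgEn n u x₀ R := by
  unfold dgEn
  rw [setIntegral_pos_iff_support_of_nonneg_ae
    (Eventually.of_forall (fun x => dg17_dens_nonneg n u x)) (dg17_dens_integrableOn hu x₀ R)]
  have hopen : IsOpen (Function.support (dgDens n u) ∩ ball x₀ R) :=
    ((dg17_dens_continuous hu).isOpen_support).inter isOpen_ball
  exact hopen.measure_pos _ ⟨x₁, hpos.ne', hx⟩

/-- General form of K6g. -/
theorem dg17_lim {n : ℕ} {u : DgE n → ℝ} (hu : ContDiff ℝ 1 u) {x₁ : DgE n}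
    (hpos : 0 < dgDens n u x₁) (hgrowth : DgFinDens n u) {c : ℝ} (hc : 0 < c)
    (hmon : MonotoneOn (fun R : ℝ => dgEn n u 0 R / (c * R ^ (n - 1))) (Ioi 0)) :
    ∃ L : ℝ, 0 < L ∧ Tendsto (fun R : ℝ => dgEn n u 0 R / (c * R ^ (n - 1))) atTop (𝓝 L) := by
  obtain ⟨C, hC⟩ := hgrowth
  set M : ℝ → ℝ := fun R : ℝ => dgEn n u 0 R / (c * R ^ (n - 1)) with hM
  set g : ℝ → ℝ := fun R => M (max R 1) with hg
  have hgmono : Monotone g := by
    intro a b hab
    exact hmon (lt_of_lt_of_le one_pos (le_max_right a 1)) (lt_of_lt_of_le one_pos (le_max_right b 1))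
      (max_le_max_right 1 hab)
  have hbdd : BddAbove (range g) := by
    refine ⟨C / c, ?_⟩
    rintro _ ⟨R, rfl⟩
    have h1 : (1 : ℝ) ≤ max R 1 := le_max_right R 1
    have h2 : 0 < (max R 1) ^ (n - 1) := by positivity
    show dgEn n u 0 (max R 1) / (c * (max R 1) ^ (n - 1)) ≤ C / c
    rw [div_le_div_iff₀ (by positivity) hc]
    nlinarith [hC _ h1]
  have hlim : Tendsto g atTop (𝓝 (⨆ R, g R)) := tendsto_atTop_ciSup hgmono hbdd
  refine ⟨⨆ R, g R, ?_, ?_⟩
  · have hR : (1 : ℝ) ≤ ‖x₁‖ + 1 := by have := norm_nonneg x₁; linarith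
    have h1 : 0 < g (‖x₁‖ + 1) := by
      show 0 < dgEn n u 0 (max (‖x₁‖ + 1) 1) / (c * (max (‖x₁‖ + 1) 1) ^ (n - 1))
      rw [max_eq_left hR]
      have h3 : 0 < dgEn n u 0 (‖x₁‖ + 1) :=
        dg17_En_pos hu (by rw [mem_ball_zero_iff]; linarith) hpos
      positivity
    exact lt_of_lt_of_le h1 (le_ciSup hbdd _)
  · refine hlim.congr' ?_
    filter_upwards [eventually_ge_atTop (1 : ℝ)] with R hR
    show M (max R 1) = M R
    rw [max_eq_left hR]

/-- K6g in the words of the Hub, the normalising constant being any `c > 0`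
(`dgM 8 u R = dgEn 8 u 0 R / (c * R ^ (8 - 1))` with `c = dgS0 * ω₇`). -/
theorem dg17_K6g {u : DgE 8 → ℝ} (hu : DgSol 8 u) {e : DgE 8} (hmono : ∀ x, 0 < fderiv ℝ u x e)
    (hgrowth : DgFinDens 8 u) {c : ℝ} (hc : 0 < c)
    (hmon : MonotoneOn (fun R : ℝ => dgEn 8 u 0 R / (c * R ^ (8 - 1))) (Ioi 0)) :
    ∃ L : ℝ, 0 < L ∧ Tendsto (fun R : ℝ => dgEn 8 u 0 R / (c * R ^ (8 - 1))) atTop (𝓝 L) := by
  have h1 : ContDiff ℝ 1 u := hu.smooth.of_le (by norm_num)
  refine dg17_lim h1 (x₁ := 0) ?_ hgrowth hc hmon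
  have h2 : fderiv ℝ u 0 ≠ 0 := by
    intro h
    have := hmono 0
    rw [h] at this
    simp at this
  have h3 : 0 < ‖fderiv ℝ u 0‖ := norm_pos_iff.mpr h2
  have h4 := dg17_W_nonneg (u 0)
  unfold dgDens
  positivity

end Claimed.Agent.R329
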