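import Claimed.Agent.R329.Defs
import Claimed.Agent.R329.MonoLim
import Claimed.Agent.Lib.Gmt.CoA
import Claimed.Agent.Lib.Gmt.RbHalf

/-!
# Row 329, post B5 (helper48), prefix `dgB5_`: the blow-down set is a directed cone   (paper: sec. 3.3, (3.17), (3.18))

* `dgB5_K6d`     : a perimeter minimiser whose area ratio about `0` is constant is a cone (contract K6d of the Hub, any dimension).
* `DgB5Exact`    : the contract of Prop. 3.3 (posts B3, B4) in the form in which it is consumed here.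
* `dgB5_K6c`     : exact limit + density at infinity `L` + monotonicity in the direction `e` give the set `S` of contract K6c.
* `dgB5_dir_test`, `dgB5_zero_mem_bd` : bridges from the words of K6e to the words of the exit of post B6.
-/

set_option autoImplicit false
open scoped ENNReal RealInnerProductSpace Topology
open MeasureTheory Metric Set Filter

namespace Claimed.Agent.R329

open Claimed.Agent.Gmt

/-! ## 1. Radial scaling of a measure with homogeneous mass of balls -/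

theorem dgB5_ball_scale {m k : ℕ} {μ : Measure (E m)} {c : ℝ}
    (h : ∀ r : ℝ, 0 < r → μ (ball 0 r) = ENNReal.ofReal (c * r ^ k)) {ρ : ℝ} (hρ : 0 < ρ) (a : ℝ) :
    μ (ball 0 (a * ρ)) = ENNReal.ofReal (ρ ^ k) * μ (ball 0 a) := by
  rcases le_or_gt a 0 with ha | ha
  · rw [ball_eq_empty.2 ha, ball_eq_empty.2 (mul_nonpos_of_nonpos_of_nonneg ha hρ.le)]
    simp
  · rw [h _ ha, h _ (mul_pos ha hρ), ← ENNReal.ofReal_mul (by positivity)]
    congr 1
    ring

theorem dgB5_ball_ne_top {m k : ℕ} {μ : Measure (E m)} {c : ℝ}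
    (h : ∀ r : ℝ, 0 < r → μ (ball 0 r) = ENNReal.ofReal (c * r ^ k)) (a : ℝ) : μ (ball 0 a) ≠ ⊤ := by
  rcases le_or_gt a 0 with ha | ha
  · rw [ball_eq_empty.2 ha]
    simp
  · rw [h _ ha]
    exact ENNReal.ofReal_ne_top

theorem dgB5_preimage_Ico {m : ℕ} {ρ : ℝ} (hρ : 0 < ρ) (a b : ℝ) :
    (fun y : E m => ‖y‖ / ρ) ⁻¹' Ico a b = ball 0 (b * ρ) \ ball 0 (a * ρ) := by
  ext y
  simp only [mem_preimage, mem_Ico, Set.mem_sdiff, mem_ball_zero_iff, not_lt, le_div_iff₀ hρ, div_lt_iff₀ hρ]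
  tauto

theorem dgB5_map_Ico {m k : ℕ} {μ : Measure (E m)} {c : ℝ}
    (h : ∀ r : ℝ, 0 < r → μ (ball 0 r) = ENNReal.ofReal (c * r ^ k)) {ρ : ℝ} (hρ : 0 < ρ) {a b : ℝ} (hab : a < b) :
    μ.map (fun y : E m => ‖y‖ / ρ) (Ico a b) = μ (ball 0 (b * ρ)) - μ (ball 0 (a * ρ)) := by
  rw [Measure.map_apply (by fun_prop) measurableSet_Ico, dgB5_preimage_Ico hρ,
    measure_sdiff (ball_subset_ball (by nlinarith)) measurableSet_ball.nullMeasurableSet (dgB5_ball_ne_top h _)]

/-- the law of `‖y‖ / ρ` is `ρ ^ k` times the law of `‖y‖`. -/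
theorem dgB5_radial_scale {m k : ℕ} {μ : Measure (E m)} {c : ℝ}
    (h : ∀ r : ℝ, 0 < r → μ (ball 0 r) = ENNReal.ofReal (c * r ^ k)) {ρ : ℝ} (hρ : 0 < ρ) :
    μ.map (fun y : E m => ‖y‖ / ρ) = ENNReal.ofReal (ρ ^ k) • μ.map (fun y : E m => ‖y‖ / 1) := by
  refine Measure.ext_of_Ico' _ _ (fun a b hab => ?_) fun a b hab => ?_
  · rw [dgB5_map_Ico h hρ hab]
    exact ne_top_of_le_ne_top (dgB5_ball_ne_top h _) tsub_le_self
  · rw [Measure.smul_apply, dgB5_map_Ico h hρ hab, dgB5_map_Ico h one_pos hab, mul_one, mul_one,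
      dgB5_ball_scale h hρ, dgB5_ball_scale h hρ, smul_eq_mul, ENNReal.mul_sub]
    intro _ _
    exact ENNReal.ofReal_ne_top

/-- the smoothed density ratio of a set with constant area ratio is constant. -/
theorem dgB5_gmtI_const {m : ℕ} {S : Set (E m)} {c : ℝ}
    (h : ∀ r : ℝ, 0 < r → gmtMu S (ball 0 r) = ENNReal.ofReal (c * r ^ (m - 1))) {ρ : ℝ} (hρ : 0 < ρ) :
    gmtI S 0 ρ = gmtI S 0 1 := by
  have hm : ∀ σ : ℝ, ∫ y, gmtPhi (‖y - 0‖ / σ) ∂(gmtMu S) = ∫ s, gmtPhi s ∂((gmtMu S).map fun y : E m => ‖y‖ / σ) := by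
    intro σ
    rw [integral_map (by fun_prop) gmtPhi_contDiff.continuous.aestronglyMeasurable]
    simp
  unfold gmtI
  rw [hm, hm, dgB5_radial_scale h hρ, integral_smul_measure, ENNReal.toReal_ofReal (by positivity), smul_eq_mul,
    ← mul_assoc, inv_mul_cancel₀ (by positivity)]
  simp

/-- **K6d**, any dimension: a minimiser with constant area ratio about `0` is a cone. -/
theorem dgB5_cone_of_ratio {m : ℕ} (hm : 1 ≤ m) {S : Set (E m)} (hS : GmtMin univ S) {c : ℝ}
    (h : ∀ r : ℝ, 0 < r → gmtP S (ball 0 r) = ENNReal.ofReal (c * r ^ (m - 1))) : GmtCone S := by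
  have h' : ∀ r : ℝ, 0 < r → gmtMu S (ball 0 r) = ENNReal.ofReal (c * r ^ (m - 1)) := fun r hr => by
    rw [gmtMu_open S isOpen_ball, h r hr]
  have h1 := gmt_cone_of_const hm hS (x := 0) (c := gmtI S 0 1) fun ρ hρ => dgB5_gmtI_const h' hρ
  have h2 : gmtDil 0 1 S = S := by
    ext y
    simp [gmtDil]
  rwa [h2] at h1

/-! ## 2. The contract of Prop. 3.3 (posts B3, B4), as consumed here -/

/-- the rescaled energy measure `(ε/2 |∇u_R|² + W(u_R)/ε) dx`, `u_R = u(R ·)`, `ε = 1/R`. -/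
noncomputable def dgB5_mu (n : ℕ) (u : DgE n → ℝ) (R : ℝ) : Measure (DgE n) :=
  volume.withDensity fun x => ENNReal.ofReal (R * dgDens n u (R • x))

/-- **Prop. 3.3** (exact perimeter limit), `s` = the surface tension: every blow-down sequence has a subsequence along which
`u(R_j ·) → 2·1_S - 1` in `L¹_loc`, the energy measures converge weakly to `s |D1_S|`, and `S` minimises perimeter. -/
def DgB5Exact (n : ℕ) (s : ℝ) (u : DgE n → ℝ) : Prop :=
  ∀ R : ℕ → ℝ, Tendsto R atTop atTop → ∃ (φ : ℕ → ℕ) (S : Set (DgE n)), StrictMono φ ∧ GmtMin univ S ∧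
    (∀ K : Set (DgE n), IsCompact K →
      Tendsto (fun j => ∫ x in K, |u (R (φ j) • x) - (2 * S.indicator (fun _ => (1 : ℝ)) x - 1)|) atTop (𝓝 0)) ∧
    GmtWk univ (fun j => dgB5_mu n u (R (φ j))) (ENNReal.ofReal s • gmtMu S)

/-! ## 3. The mass of balls in the limit -/

theorem dgB5_resc_continuous {n : ℕ} {u : DgE n → ℝ} (hu : ContDiff ℝ 1 u) (R : ℝ) :
    Continuous fun x : DgE n => R * dgDens n u (R • x) :=
  continuous_const.mul ((dg17_dens_continuous hu).comp (continuous_const_smul R))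

theorem dgB5_mu_compact_ne_top {n : ℕ} {u : DgE n → ℝ} (hu : ContDiff ℝ 1 u) (R : ℝ) {K : Set (DgE n)}
    (hK : IsCompact K) : dgB5_mu n u R K ≠ ⊤ := by
  unfold dgB5_mu
  rw [withDensity_apply _ hK.measurableSet]
  exact ((dgB5_resc_continuous hu R).continuousOn.integrableOn_compact hK).lintegral_lt_top.ne

theorem dgB5_mu_ball {n : ℕ} (hn : 1 ≤ n) {u : DgE n → ℝ} (hu : ContDiff ℝ 1 u) {R : ℝ} (hR : 0 < R) (r : ℝ) :
    dgB5_mu n u R (ball 0 r) = ENNReal.ofReal ((R ^ (n - 1))⁻¹ * dgEn n u 0 (R * r)) := by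
  unfold dgB5_mu
  have hi : IntegrableOn (fun x : DgE n => R * dgDens n u (R • x)) (ball 0 r) :=
    ((dgB5_resc_continuous hu R).continuousOn.integrableOn_compact (isCompact_closedBall 0 r)).mono_set
      ball_subset_closedBall
  rw [withDensity_apply _ measurableSet_ball, ← ofReal_integral_eq_lintegral_ofReal hi
    (Eventually.of_forall fun x => mul_nonneg hR.le (dg17_dens_nonneg n u _))]
  congr 1
  rw [integral_const_mul, Measure.setIntegral_comp_smul_of_pos volume _ _ hR, _root_.smul_ball hR.ne', smul_zero,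
    Real.norm_of_nonneg hR.le, finrank_euclideanSpace_fin, smul_eq_mul, ← mul_assoc]
  congr 1
  obtain ⟨k, rfl⟩ : ∃ k, n = k + 1 := ⟨n - 1, by omega⟩
  rw [Nat.add_sub_cancel, pow_succ]
  field_simp

theorem dgB5_mass {n : ℕ} (hn : 1 ≤ n) {u : DgE n → ℝ} (hu : ContDiff ℝ 1 u) {s : ℝ} (hs : 0 < s)
    {S : Set (DgE n)} (hS : GmtLF S univ) {R : ℕ → ℝ} (hR : Tendsto R atTop atTop)
    (hw : GmtWk univ (fun j => dgB5_mu n u (R j)) (ENNReal.ofReal s • gmtMu S)) {L : ℝ}
    (hL : Tendsto (fun T : ℝ => dgEn n u 0 T / (s * gmtOm (n - 1) * T ^ (n - 1))) atTop (𝓝 L))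
    {r : ℝ} (hr : 0 < r) :
    gmtMu S (ball 0 r) = ENNReal.ofReal (L * (gmtOm (n - 1) * r ^ (n - 1))) := by
  have hom : 0 < gmtOm (n - 1) := by
    unfold gmtOm
    exact ENNReal.toReal_pos (measure_ball_pos _ _ one_pos).ne' measure_ball_lt_top.ne
  set μ' : Measure (DgE n) := ENNReal.ofReal s • gmtMu S with hμ'
  set a : ℝ → ℝ := fun r => s * (L * (gmtOm (n - 1) * r ^ (n - 1))) with ha
  have hf : ∀ K : Set (DgE n), IsCompact K → K ⊆ univ → μ' K ≠ ⊤ := fun K hK _ => by
    rw [hμ', Measure.smul_apply, smul_eq_mul]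
    exact ENNReal.mul_ne_top ENNReal.ofReal_ne_top (gmtMu_compact_ne_top isOpen_univ hS hK (subset_univ _))
  have hfi : ∀ i, ∀ K : Set (DgE n), IsCompact K → K ⊆ univ → dgB5_mu n u (R i) K ≠ ⊤ :=
    fun i K hK _ => dgB5_mu_compact_ne_top hu _ hK
  have h1 : ∀ r : ℝ, 0 < r → Tendsto (fun j => dgB5_mu n u (R j) (ball 0 r)) atTop (𝓝 (ENNReal.ofReal (a r))) := by
    intro r hr
    have t1 : Tendsto (fun j => R j * r) atTop atTop := hR.atTop_mul_const hr
    have t2 := (hL.comp t1).const_mul (s * gmtOm (n - 1) * r ^ (n - 1))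
    have t3 := (ENNReal.continuous_ofReal.tendsto _).comp t2
    have e1 : s * gmtOm (n - 1) * r ^ (n - 1) * L = a r := by
      simp only [ha]
      ring
    rw [e1] at t3
    refine t3.congr' ?_
    filter_upwards [hR.eventually_gt_atTop 0] with j hj
    rw [dgB5_mu_ball hn hu hj]
    simp only [Function.comp]
    congr 1
    rw [mul_pow]
    have : 0 < r ^ (n - 1) := by positivity
    have : 0 < R j ^ (n - 1) := by positivity
    field_simp
  have h2 : ∀ r : ℝ, 0 < r → μ' (ball 0 r) ≤ ENNReal.ofReal (a r) := by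
    intro r hr
    have := hw.le_liminf isOpen_univ hf hfi (W := ball 0 r) isOpen_ball (subset_univ _)
    rwa [(h1 r hr).liminf_eq] at this
  have h3 : ∀ r : ℝ, 0 < r → ENNReal.ofReal (a r) ≤ μ' (closedBall 0 r) := by
    intro r hr
    have := hw.limsup_le isOpen_univ hf hfi (K := closedBall 0 r) (isCompact_closedBall 0 r) (subset_univ _)
    refine le_trans ?_ this
    rw [← (h1 r hr).limsup_eq]
    exact limsup_le_limsup (Eventually.of_forall fun j => measure_mono ball_subset_closedBall)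
  have h4 : ENNReal.ofReal (a r) ≤ μ' (ball 0 r) := by
    have hc : Continuous fun r : ℝ => ENNReal.ofReal (a r) := by
      refine ENNReal.continuous_ofReal.comp ?_
      simp only [ha]
      fun_prop
    have ht : Tendsto (fun r' : ℝ => ENNReal.ofReal (a r')) (𝓝[<] r) (𝓝 (ENNReal.ofReal (a r))) :=
      (hc.tendsto r).mono_left nhdsWithin_le_nhds
    refine le_of_tendsto ht ?_
    filter_upwards [Ioo_mem_nhdsLT hr] with r' hr'
    exact (h3 r' hr'.1).trans (measure_mono (closedBall_subset_ball hr'.2))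
  have h5 : μ' (ball 0 r) = ENNReal.ofReal (a r) := le_antisymm (h2 r hr) h4
  rw [hμ', Measure.smul_apply, smul_eq_mul] at h5
  simp only [ha] at h5
  rw [ENNReal.ofReal_mul hs.le] at h5
  exact (ENNReal.mul_right_inj (by simpa using hs) ENNReal.ofReal_ne_top).1 h5

/-! ## 4. Monotonicity survives the limit -/

theorem dgB5_mono_line {n : ℕ} {u : DgE n → ℝ} (hu : ContDiff ℝ 1 u) {e : DgE n}
    (hmono : ∀ x, 0 < fderiv ℝ u x e) (x : DgE n) {τ : ℝ} (hτ : 0 ≤ τ) : u x ≤ u (x + τ • e) := by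
  have hd : ∀ t : ℝ, HasDerivAt (fun t : ℝ => u (x + t • e)) (fderiv ℝ u (x + t • e) e) t := by
    intro t
    have h1 : HasDerivAt (fun t : ℝ => x + t • e) e t := by
      simpa using ((hasDerivAt_id t).smul_const e).const_add x
    exact ((hu.differentiable (by norm_num)) _).hasFDerivAt.comp_hasDerivAt t h1
  have hm : Monotone (fun t : ℝ => u (x + t • e)) :=
    monotone_of_deriv_nonneg (fun t => (hd t).differentiableAt) fun t => by
      rw [(hd t).deriv]
      exact (hmono _).le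
  simpa using hm hτ

theorem dgB5_intOn {n : ℕ} {g h : DgE n → ℝ} (hg : Continuous g) (hh : Measurable h) (hb : ∀ x, |h x| ≤ 1)
    {K : Set (DgE n)} (hK : IsCompact K) : IntegrableOn (fun x => |g x - h x|) K :=
  ((hg.continuousOn.integrableOn_compact hK).sub
    (Measure.integrableOn_of_bounded hK.measure_lt_top.ne hh.aestronglyMeasurable (M := 1)
      (Eventually.of_forall hb))).abs

theorem dgB5_directed {n : ℕ} {u : DgE n → ℝ} (hu : Continuous u) {e : DgE n}
    (hmon : ∀ (x : DgE n) (τ : ℝ), 0 ≤ τ → u x ≤ u (x + τ • e)) {S : Set (DgE n)} (hS : MeasurableSet S)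
    {R : ℕ → ℝ} (hR : Tendsto R atTop atTop)
    (hl : ∀ K : Set (DgE n), IsCompact K →
      Tendsto (fun j => ∫ x in K, |u (R j • x) - (2 * S.indicator (fun _ => (1 : ℝ)) x - 1)|) atTop (𝓝 0))
    {t : ℝ} (ht : 0 ≤ t) : ∀ᵐ x : DgE n, x ∈ S → x + t • e ∈ S := by
  set χ : DgE n → ℝ := fun x => 2 * S.indicator (fun _ => (1 : ℝ)) x - 1 with hχ
  have hχm : Measurable χ := ((measurable_const.indicator hS).const_mul 2).sub_const 1
  have hχb : ∀ x, |χ x| ≤ 1 := by
    intro x
    by_cases hx : x ∈ S <;> simp [hχ, hx]; norm_num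
  set τ : DgE n → DgE n := fun x => x + t • e with hτ
  have hτc : Continuous τ := by fun_prop
  set A : Set (DgE n) := S ∩ τ ⁻¹' Sᶜ with hA
  have hAm : MeasurableSet A := hS.inter (hS.compl.preimage hτc.measurable)
  set f : ℕ → DgE n → ℝ := fun j x => |u (R j • x) - χ x| with hf
  have hfi : ∀ j (K : Set (DgE n)), IsCompact K → IntegrableOn (f j) K := fun j K hK =>
    dgB5_intOn (hu.comp (continuous_const_smul (R j))) hχm hχb hK
  have hfi' : ∀ j (K : Set (DgE n)), IsCompact K → IntegrableOn (fun x => f j (τ x)) K := fun j K hK =>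
    dgB5_intOn ((hu.comp (continuous_const_smul (R j))).comp hτc) (hχm.comp hτc.measurable) (fun x => hχb _) hK
  have key : ∀ K : Set (DgE n), IsCompact K → volume (A ∩ K) = 0 := by
    intro K hK
    have hK' : IsCompact (τ '' K) := hK.image hτc
    have hfin : volume (A ∩ K) ≠ ⊤ := ne_top_of_le_ne_top hK.measure_lt_top.ne (measure_mono inter_subset_right)
    have hlim := (hl K hK).add (hl _ hK')
    rw [add_zero] at hlim
    have hle : ∀ᶠ j in atTop, 2 * (volume (A ∩ K)).toReal ≤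
        (∫ x in K, |u (R j • x) - χ x|) + ∫ x in τ '' K, |u (R j • x) - χ x| := by
      filter_upwards [hR.eventually_gt_atTop 0] with j hj
      have e1 : ∫ x in τ '' K, |u (R j • x) - χ x| = ∫ x in K, f j (τ x) :=
        (measurePreserving_add_right volume (t • e)).setIntegral_image_emb (measurableEmbedding_addRight (t • e))
          (f j) K
      rw [e1, ← integral_add (hfi j K hK) (hfi' j K hK)]
      have hnn : ∀ x, 0 ≤ f j x + f j (τ x) := fun x => add_nonneg (abs_nonneg _) (abs_nonneg _)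
      have hsum : IntegrableOn (fun x => f j x + f j (τ x)) K := (hfi j K hK).add (hfi' j K hK)
      calc 2 * (volume (A ∩ K)).toReal = ∫ _x in A ∩ K, (2 : ℝ) := by
            rw [setIntegral_const, smul_eq_mul, mul_comm]
            rfl
        _ ≤ ∫ x in A ∩ K, (f j x + f j (τ x)) := by
            refine setIntegral_mono_on (integrableOn_const hfin) (hsum.mono_set inter_subset_right)
              (hAm.inter hK.measurableSet) fun x hx => ?_
            have hxS : x ∈ S := hx.1.1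
            have hxT : τ x ∉ S := hx.1.2
            have c1 : χ x = 1 := by simp [hχ, hxS]; norm_num
            have c2 : χ (τ x) = -1 := by simp [hχ, hxT]
            have c3 : u (R j • x) ≤ u (R j • τ x) := by
              have := hmon (R j • x) (R j * t) (mul_nonneg hj.le ht)
              rwa [mul_smul, ← smul_add] at this
            simp only [hf, c1, c2]
            have a1 := neg_abs_le (u (R j • x) - 1)
            have a2 := le_abs_self (u (R j • τ x) - -1)
            linarith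
        _ ≤ ∫ x in K, (f j x + f j (τ x)) :=
            setIntegral_mono_set hsum (Eventually.of_forall hnn) (Eventually.of_forall inter_subset_right)
    have h0 : 2 * (volume (A ∩ K)).toReal ≤ 0 := ge_of_tendsto hlim hle
    have h1 : (volume (A ∩ K)).toReal = 0 := le_antisymm (by linarith) ENNReal.toReal_nonneg
    rcases (ENNReal.toReal_eq_zero_iff _).1 h1 with h | h
    · exact h
    · exact absurd h hfin
  have hA0 : volume A = 0 := by
    have : A = ⋃ N : ℕ, A ∩ closedBall 0 N := by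
      rw [← inter_iUnion]
      have : (⋃ N : ℕ, closedBall (0 : DgE n) N) = univ := iUnion_closedBall_nat 0
      rw [this, inter_univ]
    rw [this]
    exact measure_iUnion_null fun N => key _ (isCompact_closedBall 0 N)
  rw [ae_iff]
  convert hA0 using 2
  ext x
  simp [hA, hτ]

/-! ## 5. Bridges to the words of post B6 -/

theorem dgB5_zero_mem_bd {m : ℕ} {S : Set (E m)} (hS : MeasurableSet S) (hc : GmtCone S)
    (hne : gmtP S (ball 0 1) ≠ 0) : (0 : E m) ∈ gmtBd S := by
  rw [gmtBd_iff_gmtMu hS]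
  intro r hr
  have h1 := gmtMu_gmtDil hS 0 hr (ball 0 r)
  have h2 : gmtDil (0 : E m) r (ball 0 r) = ball 0 1 := by
    ext y
    simp only [gmtDil, mem_ofPred_eq, zero_add, mem_ball_zero_iff, norm_smul, Real.norm_eq_abs, abs_of_pos hr]
    constructor
    · intro h
      by_contra hcon
      nlinarith [not_lt.1 hcon]
    · intro h
      nlinarith
  have h3 : gmtMu (gmtDil 0 r S) = gmtMu S := by
    have := gmtMu_restrict_congr isOpen_univ (measurableSet_gmtDil hS 0 r) hS (by simpa using hc r hr)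
    rwa [Measure.restrict_univ, Measure.restrict_univ] at this
  rw [h2, h3, gmtMu_open S isOpen_ball] at h1
  rw [pos_iff_ne_zero]
  intro h0
  rw [h0, mul_zero] at h1
  rcases mul_eq_zero.1 h1 with h | h
  · exact hne h
  · rw [ENNReal.ofReal_eq_zero] at h
    exact absurd h (not_le.2 (by positivity))

open scoped Convolution in
theorem dgB5_shift_hasDerivAt {m : ℕ} {S : Set (E m)} (hS : MeasurableSet S) (e : E m) {g : E m → ℝ}
    (hg : ContDiff ℝ 1 g) (hc : HasCompactSupport g) (σ : ℝ) :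
    HasDerivAt (fun σ : ℝ => ∫ y, S.indicator (fun _ => (1 : ℝ)) y * g (y - σ • e))
      (-∫ y in S, fderiv ℝ g (y - σ • e) e) σ := by
  set f : E m → ℝ := S.indicator (fun _ => (1 : ℝ)) with hf
  set k : E m → ℝ := fun x => g (-x) with hk
  have hfl : LocallyIntegrable f := (locallyIntegrable_const (1 : ℝ)).indicator hS
  have hk1 : ContDiff ℝ 1 k := hg.comp contDiff_neg
  have hkc : HasCompactSupport k := hc.comp_homeomorph (Homeomorph.neg _)
  have hkd : ∀ x, fderiv ℝ k x = -(fderiv ℝ g (-x)) := fun x => by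
    have h0 := ((hg.differentiable (by simp)) (-x)).hasFDerivAt.comp x
      (hasFDerivAt_id x).neg
    have h00 : fderiv ℝ k x = _ := h0.fderiv
    rw [h00]
    ext v
    simp
  have h1 := hkc.hasFDerivAt_convolution_right (ContinuousLinearMap.mul ℝ ℝ) hfl hk1
    (σ • e)
  have h2 : HasDerivAt (fun σ : ℝ => σ • e) e σ := by
    simpa using (hasDerivAt_id σ).smul_const e
  have h3 := h1.comp_hasDerivAt σ h2
  have hex := (hkc.fderiv ℝ).convolutionExists_right
    ((ContinuousLinearMap.mul ℝ ℝ).precompR (E m)) hfl (hk1.continuous_fderiv (by simp))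
    (σ • e)
  unfold ConvolutionExistsAt at hex
  have e1 : (f ⋆[(ContinuousLinearMap.mul ℝ ℝ).precompR (E m), volume] fderiv ℝ k)
      (σ • e) e = -∫ y in S, fderiv ℝ g (y - σ • e) e := by
    unfold convolution
    rw [ContinuousLinearMap.integral_apply hex, ← integral_indicator hS, ← integral_neg]
    congr 1
    funext y
    rw [hkd, neg_sub]
    by_cases hy : y ∈ S
    · simp [hf, hy]
    · simp [hf, hy]
  rw [e1] at h3
  refine h3.congr_of_eventuallyEq (Filter.Eventually.of_forall fun s => ?_)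
  show (∫ y, f y * g (y - s • e)) = (f ⋆[ContinuousLinearMap.mul ℝ ℝ, volume] k) (s • e)
  unfold convolution
  congr 1
  funext y
  simp [hk]

theorem dgB5_dir_test {m : ℕ} {S : Set (E m)} (hS : MeasurableSet S) {e : E m}
    (hdir : ∀ t : ℝ, 0 ≤ t → ∀ᵐ x : E m, x ∈ S → x + t • e ∈ S) {ψ : E m → ℝ} (hψ : GmtTest0 univ ψ)
    (h0 : ∀ x, 0 ≤ ψ x) : ∫ x in S, fderiv ℝ ψ x e ≤ 0 := by
  set G : ℝ → ℝ := fun σ : ℝ => ∫ y, S.indicator (fun _ => (1 : ℝ)) y * ψ (y - σ • e) with hG
  have hd : HasDerivAt G (-∫ y in S, fderiv ℝ ψ y e) 0 := by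
    have := dgB5_shift_hasDerivAt hS e hψ.c1 hψ.cpt 0
    simpa using this
  have hint : ∀ T : Set (E m), MeasurableSet T → Integrable fun y => T.indicator (fun _ => (1 : ℝ)) y * ψ y := by
    intro T hT
    have h1 : Integrable ψ := hψ.c1.continuous.integrable_of_hasCompactSupport hψ.cpt
    have h2 : (fun y => T.indicator (fun _ => (1 : ℝ)) y * ψ y) = T.indicator ψ := by
      funext y
      by_cases hy : y ∈ T <;> simp [hy]
    rw [h2]
    exact h1.indicator hT
  -- `G 0 ≤ G t` for `t ≥ 0`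
  have hmon : ∀ t : ℝ, 0 ≤ t → G 0 ≤ G t := by
    intro t ht
    have e1 : G t = ∫ y, ((fun x => x + t • e) ⁻¹' S).indicator (fun _ => (1 : ℝ)) y * ψ y := by
      show ∫ y, S.indicator (fun _ => (1 : ℝ)) y * ψ (y - t • e) = _
      rw [← integral_add_right_eq_self (fun y => S.indicator (fun _ => (1 : ℝ)) y * ψ (y - t • e)) (t • e)]
      congr 1
      funext y
      rw [add_sub_cancel_right]
      rfl
    have e0 : G 0 = ∫ y, S.indicator (fun _ => (1 : ℝ)) y * ψ y := by
      show ∫ y, S.indicator (fun _ => (1 : ℝ)) y * ψ (y - (0 : ℝ) • e) = _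
      simp
    rw [e0, e1]
    refine integral_mono_ae (hint S hS) (hint _ (hS.preimage (by fun_prop))) ?_
    filter_upwards [hdir t ht] with y hy
    by_cases hyS : y ∈ S
    · have : y ∈ (fun x => x + t • e) ⁻¹' S := hy hyS
      simp [hyS, this]
    · simp only [indicator_of_notMem hyS, zero_mul]
      exact mul_nonneg (indicator_nonneg (fun _ _ => zero_le_one) _) (h0 y)
  -- so the right derivative at `0` is nonnegative
  have hnn : 0 ≤ -∫ y in S, fderiv ℝ ψ y e := by
    have ht := hd.tendsto_slope_zero_right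
    refine ge_of_tendsto ht ?_
    filter_upwards [self_mem_nhdsWithin] with t ht0
    have ht0' : (0 : ℝ) < t := ht0
    rw [zero_add, smul_eq_mul]
    exact mul_nonneg (inv_nonneg.2 ht0'.le) (sub_nonneg.2 (hmon t ht0'.le))
  linarith

/-! ## EXITS -/

/-- **K6d** in the words of the Hub. -/
theorem dgB5_K6d {S : Set (DgE 8)} (hS : GmtMin univ S) {c : ℝ}
    (h : ∀ r : ℝ, 0 < r → gmtP S (ball 0 r) = ENNReal.ofReal (c * r ^ 7)) : GmtCone S :=
  dgB5_cone_of_ratio (m := 8) (by norm_num) hS h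

/-- **K6c** from the exact limit (general dimension, direction `e`, tension `s`). -/
theorem dgB5_K6c {n : ℕ} (hn : 1 ≤ n) {u : DgE n → ℝ} (hu : ContDiff ℝ 1 u) {e : DgE n}
    (hmono : ∀ x, 0 < fderiv ℝ u x e) {s : ℝ} (hs : 0 < s) (hex : DgB5Exact n s u) {L : ℝ}
    (hL : Tendsto (fun R : ℝ => dgEn n u 0 R / (s * (volume (ball (0 : DgE (n - 1)) 1)).toReal * R ^ (n - 1))) atTop (𝓝 L)) :
    ∃ S : Set (DgE n), GmtMin univ S ∧
      (∀ r : ℝ, 0 < r → gmtP S (ball 0 r) = ENNReal.ofReal (L * (gmtOm (n - 1) * r ^ (n - 1)))) ∧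
      ∀ t : ℝ, 0 ≤ t → ∀ᵐ x : DgE n, x ∈ S → x + t • e ∈ S := by
  obtain ⟨φ, S, hφ, hS, hl, hw⟩ := hex (fun j => (j : ℝ)) tendsto_natCast_atTop_atTop
  have hR : Tendsto (fun j => ((φ j : ℕ) : ℝ)) atTop atTop := tendsto_natCast_atTop_atTop.comp hφ.tendsto_atTop
  have hLF : GmtLF S univ := GmtLAM.lf isOpen_univ (gmtInt_eu _) hS
  refine ⟨S, hS, fun r hr => ?_, fun t ht => ?_⟩
  · rw [← gmtMu_open S isOpen_ball]
    exact dgB5_mass hn hu hs hLF hR hw hL hr
  · exact dgB5_directed hu.continuous (fun x τ hτ => dgB5_mono_line hu hmono x hτ) hS.meas hR hl ht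

/-- **K6c** in the words of the Hub (`s = dgS0`; the quotient is `dgM 8 u R` unfolded), given the contract of Prop. 3.3. -/
theorem dgB5_K6c_hub {u : DgE 8 → ℝ} (hu : DgSol 8 u) (hmono : ∀ x, 0 < fderiv ℝ u x (EuclideanSpace.single 7 1))
    {s : ℝ} (hs : 0 < s) (hex : DgB5Exact 8 s u) {L : ℝ}
    (hL : Tendsto (fun R : ℝ => dgEn 8 u 0 R / (s * (volume (ball (0 : DgE (8 - 1)) 1)).toReal * R ^ (8 - 1))) atTop (𝓝 L)) :
    ∃ S : Set (DgE 8), GmtMin univ S ∧
      (∀ r : ℝ, 0 < r → gmtP S (ball 0 r) = ENNReal.ofReal (L * (gmtOm 7 * r ^ 7))) ∧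
      ∀ t : ℝ, 0 ≤ t → ∀ᵐ x : DgE 8, x ∈ S → x + t • (EuclideanSpace.single 7 1 : DgE 8) ∈ S :=
  dgB5_K6c (n := 8) (by norm_num) (hu.smooth.of_le (by norm_num)) hmono hs hex hL

/-- **K6e** from the exit of post B6 (given as the hypothesis `hB6`, in 38's words). -/
theorem dgB5_K6e_of {m : ℕ} {e : E m}
    (hB6 : ∀ S : Set (E m), GmtMin univ S → GmtCone S → (0 : E m) ∈ gmtBd S →
      (∀ ψ : E m → ℝ, GmtTest0 univ ψ → (∀ x, 0 ≤ ψ x) → ∫ x in S, fderiv ℝ ψ x e ≤ 0) →
      ∃ ν : E m, ‖ν‖ = 1 ∧ S =ᵐ[volume] gmtHalf 0 ν)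
    {S : Set (E m)} (hS : GmtMin univ S) (hc : GmtCone S)
    (hdir : ∀ t : ℝ, 0 ≤ t → ∀ᵐ x : E m, x ∈ S → x + t • e ∈ S) (hne : gmtP S (ball 0 1) ≠ 0) :
    ∃ ν : E m, ‖ν‖ = 1 ∧ S =ᵐ[volume] gmtHalf 0 ν :=
  hB6 S hS hc (dgB5_zero_mem_bd hS.meas hc hne) fun _ hψ h0 => dgB5_dir_test hS.meas hdir hψ h0

end Claimed.Agent.R329
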