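import Mathlib
import Claimed.Agent.Lib.AASmooth
import Claimed.Agent.R329.Defs
import Claimed.Agent.R329.Reg

/-!
# R329 / Cpt (post A4, helper118): compactness of bounded entire solutions of `Δ v = v ^ 3 - v`

Everything is stated in unfolded form (no dependency on the Hub).  The interior regularity of post A3 enters as the two hypotheses
`hreg : ∀ j, ContDiff ℝ ∞ (v j)` and `hbd : ∀ m, ∃ C, ∀ j x, ‖iteratedFDeriv ℝ m (v j) x‖ ≤ C`.

* `dgA4_aas` : smooth Arzela-Ascoli on the whole space, in the language of `TendstoLocallyUniformly` of all `iteratedFDeriv`.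
* `DgA4Conv f F` : `f k → F` in `C^∞_loc`; consequences: values, `fderiv`, second derivatives, Laplacian converge locally uniformly.
* `dgA4_compact` : a sequence of solutions with values in `[-1, 1]` has a subsequence converging in `C^∞_loc` to a solution with values in `[-1, 1]`;
  stability (frozen form) passes to the limit.
* `dgA4_translates` : the same for the translates `v (· + y j)` of one solution.
-/

set_option autoImplicit false

open Set Filter Topology MeasureTheory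
open scoped ContDiff

namespace Claimed.Agent.R329

section general

variable {E : Type*} [NormedAddCommGroup E] [NormedSpace ℝ E]
variable {F : Type*} [NormedAddCommGroup F] [NormedSpace ℝ F]

/-- convergence in `C^∞_loc`: all iterated derivatives converge locally uniformly. -/
def DgA4Conv (f : ℕ → E → F) (F₀ : E → F) : Prop :=
  ∀ m : ℕ, TendstoLocallyUniformly (fun k => iteratedFDeriv ℝ m (f k)) (iteratedFDeriv ℝ m F₀) atTop

theorem DgA4Conv.tendsto_iterated {f : ℕ → E → F} {F₀ : E → F} (h : DgA4Conv f F₀) (m : ℕ) (x : E) :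
    Tendsto (fun k => iteratedFDeriv ℝ m (f k) x) atTop (𝓝 (iteratedFDeriv ℝ m F₀ x)) :=
  (TendstoLocallyUniformly.tendstoLocallyUniformlyOn (h m) (s := univ)).tendsto_at (mem_univ x)

/-- the values converge locally uniformly. -/
theorem DgA4Conv.locUnif {f : ℕ → E → F} {F₀ : E → F} (h : DgA4Conv f F₀) :
    TendstoLocallyUniformly f F₀ atTop := by
  have h0 := h 0
  rw [Metric.tendstoLocallyUniformly_iff] at h0 ⊢
  intro ε hε x
  obtain ⟨t, ht, H⟩ := h0 ε hε x
  refine ⟨t, ht, ?_⟩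
  filter_upwards [H] with k hk y hy
  have := hk y hy
  rw [dist_eq_norm] at this ⊢
  have e : iteratedFDeriv ℝ 0 F₀ y - iteratedFDeriv ℝ 0 (f k) y
      = (continuousMultilinearCurryFin0 ℝ E F).symm (F₀ y - f k y) := by
    ext v
    simp
  rw [e, LinearIsometryEquiv.norm_map] at this
  exact this

theorem DgA4Conv.tendsto {f : ℕ → E → F} {F₀ : E → F} (h : DgA4Conv f F₀) (x : E) :
    Tendsto (fun k => f k x) atTop (𝓝 (F₀ x)) :=
  (TendstoLocallyUniformly.tendstoLocallyUniformlyOn h.locUnif (s := univ)).tendsto_at (mem_univ x)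

/-- the first derivatives converge locally uniformly. -/
theorem DgA4Conv.locUnif_fderiv {f : ℕ → E → F} {F₀ : E → F} (h : DgA4Conv f F₀) :
    TendstoLocallyUniformly (fun k => fderiv ℝ (f k)) (fderiv ℝ F₀) atTop := by
  have h0 := h 1
  rw [Metric.tendstoLocallyUniformly_iff] at h0 ⊢
  intro ε hε x
  obtain ⟨t, ht, H⟩ := h0 ε hε x
  refine ⟨t, ht, ?_⟩
  filter_upwards [H] with k hk y hy
  have := hk y hy
  rw [dist_eq_norm] at this ⊢
  have e : iteratedFDeriv ℝ 1 F₀ y - iteratedFDeriv ℝ 1 (f k) y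
      = (continuousMultilinearCurryFin1 ℝ E F).symm (fderiv ℝ F₀ y - fderiv ℝ (f k) y) := by
    ext v
    simp [iteratedFDeriv_one_apply]
  rw [e, LinearIsometryEquiv.norm_map] at this
  exact this

theorem DgA4Conv.tendsto_fderiv {f : ℕ → E → F} {F₀ : E → F} (h : DgA4Conv f F₀) (x : E) :
    Tendsto (fun k => fderiv ℝ (f k) x) atTop (𝓝 (fderiv ℝ F₀ x)) :=
  (TendstoLocallyUniformly.tendstoLocallyUniformlyOn h.locUnif_fderiv (s := univ)).tendsto_at
    (mem_univ x)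

/-- uniform convergence of every derivative on compact sets. -/
theorem DgA4Conv.unifOn {f : ℕ → E → F} {F₀ : E → F} (h : DgA4Conv f F₀) (m : ℕ) {K : Set E}
    (hK : IsCompact K) :
    TendstoUniformlyOn (fun k => iteratedFDeriv ℝ m (f k)) (iteratedFDeriv ℝ m F₀) atTop K :=
  (tendstoLocallyUniformlyOn_iff_tendstoUniformlyOn_of_compact hK).1
    (TendstoLocallyUniformly.tendstoLocallyUniformlyOn (h m))

theorem DgA4Conv.unifOn_val {f : ℕ → E → F} {F₀ : E → F} (h : DgA4Conv f F₀) {K : Set E}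
    (hK : IsCompact K) : TendstoUniformlyOn f F₀ atTop K :=
  (tendstoLocallyUniformlyOn_iff_tendstoUniformlyOn_of_compact hK).1
    (TendstoLocallyUniformly.tendstoLocallyUniformlyOn h.locUnif)

theorem DgA4Conv.unifOn_fderiv {f : ℕ → E → F} {F₀ : E → F} (h : DgA4Conv f F₀) {K : Set E}
    (hK : IsCompact K) :
    TendstoUniformlyOn (fun k => fderiv ℝ (f k)) (fderiv ℝ F₀) atTop K :=
  (tendstoLocallyUniformlyOn_iff_tendstoUniformlyOn_of_compact hK).1
    (TendstoLocallyUniformly.tendstoLocallyUniformlyOn h.locUnif_fderiv)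

/-- a subsequence of a convergent sequence converges. -/
theorem DgA4Conv.comp {f : ℕ → E → F} {F₀ : E → F} (h : DgA4Conv f F₀) {ψ : ℕ → ℕ}
    (hψ : Tendsto ψ atTop atTop) : DgA4Conv (fun k => f (ψ k)) F₀ := by
  intro m
  have h0 := h m
  rw [Metric.tendstoLocallyUniformly_iff] at h0 ⊢
  intro ε hε x
  obtain ⟨t, ht, H⟩ := h0 ε hε x
  exact ⟨t, ht, hψ.eventually H⟩

variable [FiniteDimensional ℝ E] [FiniteDimensional ℝ F]

/-- **smooth Arzela-Ascoli on the whole space.** -/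
theorem dgA4_aas (f : ℕ → E → F) (hreg : ∀ k, ContDiff ℝ ∞ (f k))
    (hbd : ∀ (m : ℕ) (K : Set E), IsCompact K → ∃ C : ℝ, ∀ k, ∀ x ∈ K,
      ‖iteratedFDeriv ℝ m (f k) x‖ ≤ C) :
    ∃ (φ : ℕ → ℕ) (F₀ : E → F), StrictMono φ ∧ ContDiff ℝ ∞ F₀ ∧ DgA4Conv (fun k => f (φ k)) F₀ := by
  obtain ⟨φ, F₀, hφ, hF₀, hconv⟩ := Claimed.Agent.Lib.aas_main (E := E) (F := F) univ uniqueDiffOn_univ
    (fun x _ => ⟨Metric.closedBall x 1, isCompact_closedBall x 1, convex_closedBall x 1,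
      subset_univ _, by rw [nhdsWithin_univ]; exact Metric.closedBall_mem_nhds x one_pos⟩)
    f (fun K _ _ => ⟨0, fun k _ => ⟨univ, isOpen_univ, subset_univ _, by
      rw [univ_inter]; exact (hreg k).contDiffOn⟩⟩)
    (fun K hK _ m => by
      obtain ⟨C, hC⟩ := hbd m K hK
      exact ⟨C, 0, fun k _ q hq => by rw [iteratedFDerivWithin_univ]; exact hC k q hq⟩)
  have hF : ContDiff ℝ ∞ F₀ := contDiffOn_univ.1 hF₀
  refine ⟨φ, F₀, hφ, hF, fun m => ?_⟩
  rw [Metric.tendstoLocallyUniformly_iff]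
  intro ε hε x
  refine ⟨Metric.closedBall x 1, Metric.closedBall_mem_nhds x one_pos, ?_⟩
  obtain ⟨k₀, hk₀⟩ := hconv (Metric.closedBall x 1) (isCompact_closedBall x 1) (subset_univ _) m
    (ε / 2) (by positivity)
  filter_upwards [eventually_ge_atTop k₀] with k hk y hy
  have h1 := hk₀ k hk y hy
  rw [iteratedFDerivWithin_univ] at h1
  have h2 : iteratedFDeriv ℝ m (fun p => f (φ k) p - F₀ p) y
      = iteratedFDeriv ℝ m (f (φ k)) y - iteratedFDeriv ℝ m F₀ y :=
    iteratedFDeriv_sub_apply ((hreg (φ k)).contDiffAt.of_le (by exact_mod_cast le_top))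
      (hF.contDiffAt.of_le (by exact_mod_cast le_top))
  rw [h2] at h1
  rw [dist_comm, dist_eq_norm]
  linarith

/-- If the sequence converges pointwise, then the WHOLE sequence converges in `C^∞_loc` and the limit is smooth. -/
theorem dgA4_conv_of_pointwise (f : ℕ → E → F) (hreg : ∀ k, ContDiff ℝ ∞ (f k))
    (hbd : ∀ (m : ℕ) (K : Set E), IsCompact K → ∃ C : ℝ, ∀ k, ∀ x ∈ K,
      ‖iteratedFDeriv ℝ m (f k) x‖ ≤ C)
    (F₀ : E → F) (hpt : ∀ x, Tendsto (fun k => f k x) atTop (𝓝 (F₀ x))) :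
    ContDiff ℝ ∞ F₀ ∧ DgA4Conv f F₀ := by
  -- every subsequence has a sub-subsequence converging to `F₀`
  have key : ∀ ψ : ℕ → ℕ, StrictMono ψ → ∃ φ : ℕ → ℕ, StrictMono φ ∧ ContDiff ℝ ∞ F₀ ∧
      DgA4Conv (fun k => f (ψ (φ k))) F₀ := by
    intro ψ hψ
    obtain ⟨φ, G, hφ, hG, hconv⟩ := dgA4_aas (fun k => f (ψ k)) (fun k => hreg (ψ k))
      (fun m K hK => by
        obtain ⟨C, hC⟩ := hbd m K hK
        exact ⟨C, fun k => hC (ψ k)⟩)
    have hGF : G = F₀ := by
      funext x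
      have h1 := hconv.tendsto x
      have h2 : Tendsto (fun k => f (ψ (φ k)) x) atTop (𝓝 (F₀ x)) :=
        (hpt x).comp (hψ.tendsto_atTop.comp hφ.tendsto_atTop)
      exact tendsto_nhds_unique h1 h2
    subst hGF
    exact ⟨φ, hφ, hG, hconv⟩
  obtain ⟨-, -, hF, -⟩ := key id strictMono_id
  refine ⟨hF, fun m => ?_⟩
  rw [← tendstoLocallyUniformlyOn_univ,
    tendstoLocallyUniformlyOn_iff_forall_isCompact isOpen_univ]
  intro K _ hK
  by_contra hcon
  rw [Metric.tendstoUniformlyOn_iff] at hcon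
  push Not at hcon
  obtain ⟨ε, hε, hfreq⟩ := hcon
  obtain ⟨ψ, hψ, hψ'⟩ := extraction_of_frequently_atTop hfreq
  obtain ⟨φ, hφ, -, hconv⟩ := key ψ hψ
  have h1 := hconv.unifOn m hK
  rw [Metric.tendstoUniformlyOn_iff] at h1
  obtain ⟨k, hk⟩ := (h1 ε hε).exists
  obtain ⟨x, hx, hle⟩ := hψ' (φ k)
  exact absurd (hk x hx) (not_lt.2 hle)

end general

section pde

variable {n : ℕ}

/-- the Laplacians converge pointwise. -/
theorem DgA4Conv.tendsto_laplacian {f : ℕ → EuclideanSpace ℝ (Fin n) → ℝ}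
    {F₀ : EuclideanSpace ℝ (Fin n) → ℝ} (h : DgA4Conv f F₀) (x : EuclideanSpace ℝ (Fin n)) :
    Tendsto (fun k => Laplacian.laplacian (f k) x) atTop (𝓝 (Laplacian.laplacian F₀ x)) := by
  simp only [InnerProductSpace.laplacian_eq_iteratedFDeriv_stdOrthonormalBasis]
  refine tendsto_finsetSum _ (fun i _ => ?_)
  exact ((ContinuousMultilinearMap.apply ℝ (fun _ : Fin 2 => EuclideanSpace ℝ (Fin n)) ℝ
    ![_, _]).continuous.tendsto _).comp (h.tendsto_iterated 2 x)

/-- a semilinear equation `Δ v = G (v)` with continuous `G` passes to the limit. -/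
theorem dgA4_limit_pde {f : ℕ → EuclideanSpace ℝ (Fin n) → ℝ}
    {F₀ : EuclideanSpace ℝ (Fin n) → ℝ} (h : DgA4Conv f F₀) {G : ℝ → ℝ} (hG : Continuous G)
    (hpde : ∀ k x, Laplacian.laplacian (f k) x = G (f k x)) (x : EuclideanSpace ℝ (Fin n)) :
    Laplacian.laplacian F₀ x = G (F₀ x) := by
  have h1 := h.tendsto_laplacian x
  have h2 : Tendsto (fun k => G (f k x)) atTop (𝓝 (G (F₀ x))) :=
    (hG.tendsto _).comp (h.tendsto x)
  simp only [hpde] at h1
  exact tendsto_nhds_unique h1 h2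

/-- the Allen-Cahn equation passes to the limit. -/
theorem dgA4_limit_sol {f : ℕ → EuclideanSpace ℝ (Fin n) → ℝ}
    {F₀ : EuclideanSpace ℝ (Fin n) → ℝ} (h : DgA4Conv f F₀)
    (hpde : ∀ k x, Laplacian.laplacian (f k) x = f k x ^ 3 - f k x)
    (x : EuclideanSpace ℝ (Fin n)) :
    Laplacian.laplacian F₀ x = F₀ x ^ 3 - F₀ x :=
  dgA4_limit_pde h (G := fun t => t ^ 3 - t) (by fun_prop) hpde x

/-- a closed range passes to the limit (only pointwise convergence is used). -/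
theorem dgA4_limit_range {X : Type*} {f : ℕ → X → ℝ} {F₀ : X → ℝ}
    (h : ∀ x, Tendsto (fun k => f k x) atTop (𝓝 (F₀ x))) {S : Set ℝ} (hS : IsClosed S)
    (hr : ∀ k x, f k x ∈ S) (x : X) : F₀ x ∈ S :=
  hS.mem_of_tendsto (h x) (Eventually.of_forall (fun k => hr k x))

/-- bounds on the derivatives pass to the limit. -/
theorem dgA4_limit_bound {f : ℕ → EuclideanSpace ℝ (Fin n) → ℝ}
    {F₀ : EuclideanSpace ℝ (Fin n) → ℝ} (h : DgA4Conv f F₀) {m : ℕ} {C : ℝ}
    {x : EuclideanSpace ℝ (Fin n)} (hb : ∀ k, ‖iteratedFDeriv ℝ m (f k) x‖ ≤ C) :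
    ‖iteratedFDeriv ℝ m F₀ x‖ ≤ C :=
  le_of_tendsto' (h.tendsto_iterated m x).norm hb

/-- **Stability (frozen form of S0588) passes to pointwise limits** of continuous functions with values in `[-1, 1]`. -/
theorem dgA4_limit_stable {f : ℕ → EuclideanSpace ℝ (Fin n) → ℝ}
    {F₀ : EuclideanSpace ℝ (Fin n) → ℝ}
    (h : ∀ x, Tendsto (fun k => f k x) atTop (𝓝 (F₀ x))) (hc : ∀ k, Continuous (f k))
    (hr : ∀ k x, f k x ∈ Icc (-1 : ℝ) 1)
    (hst : ∀ k, ∀ φ : EuclideanSpace ℝ (Fin n) → ℝ, ContDiff ℝ 1 φ → HasCompactSupport φ →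
      0 ≤ ∫ x, (‖fderiv ℝ φ x‖ ^ 2 + (3 * f k x ^ 2 - 1) * φ x ^ 2)) :
    ∀ φ : EuclideanSpace ℝ (Fin n) → ℝ, ContDiff ℝ 1 φ → HasCompactSupport φ →
      0 ≤ ∫ x, (‖fderiv ℝ φ x‖ ^ 2 + (3 * F₀ x ^ 2 - 1) * φ x ^ 2) := by
  intro φ hφ hφc
  have hφ0 : Continuous φ := hφ.continuous
  have hφ1 : Continuous (fderiv ℝ φ) := hφ.continuous_fderiv (by norm_num)
  have hbint : Integrable (fun x => ‖fderiv ℝ φ x‖ ^ 2 + 4 * φ x ^ 2) := by
    apply Continuous.integrable_of_hasCompactSupport (by fun_prop)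
    have h1 : HasCompactSupport (fun x => ‖fderiv ℝ φ x‖ ^ 2) := by
      have := hφc.fderiv (𝕜 := ℝ)
      exact this.comp_left (g := fun L => ‖L‖ ^ 2) (by simp)
    have h2 : HasCompactSupport (fun x => 4 * φ x ^ 2) :=
      hφc.comp_left (g := fun t => 4 * t ^ 2) (by simp)
    exact h1.add h2
  refine ge_of_tendsto' (tendsto_integral_of_dominated_convergence
    (fun x => ‖fderiv ℝ φ x‖ ^ 2 + 4 * φ x ^ 2) (fun k => ?_) hbint (fun k => ?_) ?_)
    (fun k => hst k φ hφ hφc)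
  · have := hc k
    exact (by fun_prop : Continuous fun x => ‖fderiv ℝ φ x‖ ^ 2
      + (3 * f k x ^ 2 - 1) * φ x ^ 2).aestronglyMeasurable
  · refine Eventually.of_forall (fun x => ?_)
    have h1 := hr k x
    have h2 : f k x ^ 2 ≤ 1 := by nlinarith [h1.1, h1.2]
    have h3 : 0 ≤ f k x ^ 2 := sq_nonneg _
    have h4 : 0 ≤ φ x ^ 2 := sq_nonneg _
    have h5 : 0 ≤ ‖fderiv ℝ φ x‖ ^ 2 := sq_nonneg _
    rw [Real.norm_eq_abs, abs_le]
    constructor <;> nlinarith
  · refine Eventually.of_forall (fun x => ?_)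
    exact tendsto_const_nhds.add (((((h x).pow 2).const_mul 3).sub_const 1).mul_const _)

/-! ### Translations -/

theorem dgA4_translate_contDiff {N : WithTop ℕ∞} {v : EuclideanSpace ℝ (Fin n) → ℝ}
    (hv : ContDiff ℝ N v) (y : EuclideanSpace ℝ (Fin n)) : ContDiff ℝ N (fun x => v (x + y)) :=
  hv.comp (contDiff_id.add contDiff_const)

theorem dgA4_translate_laplacian (v : EuclideanSpace ℝ (Fin n) → ℝ)
    (y x : EuclideanSpace ℝ (Fin n)) :
    Laplacian.laplacian (fun z => v (z + y)) x = Laplacian.laplacian v (x + y) := by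
  simp only [InnerProductSpace.laplacian_eq_iteratedFDeriv_stdOrthonormalBasis,
    iteratedFDeriv_comp_add_right]

/-- a translate of a solution is a solution. -/
theorem dgA4_translate_sol {v : EuclideanSpace ℝ (Fin n) → ℝ}
    (hpde : ∀ x, Laplacian.laplacian v x = v x ^ 3 - v x) (y x : EuclideanSpace ℝ (Fin n)) :
    Laplacian.laplacian (fun z => v (z + y)) x = v (x + y) ^ 3 - v (x + y) := by
  rw [dgA4_translate_laplacian, hpde]

/-- a translate of a stable function is stable (frozen form). -/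
theorem dgA4_translate_stable {v : EuclideanSpace ℝ (Fin n) → ℝ}
    (hst : ∀ φ : EuclideanSpace ℝ (Fin n) → ℝ, ContDiff ℝ 1 φ → HasCompactSupport φ →
      0 ≤ ∫ x, (‖fderiv ℝ φ x‖ ^ 2 + (3 * v x ^ 2 - 1) * φ x ^ 2))
    (y : EuclideanSpace ℝ (Fin n)) :
    ∀ φ : EuclideanSpace ℝ (Fin n) → ℝ, ContDiff ℝ 1 φ → HasCompactSupport φ →
      0 ≤ ∫ x, (‖fderiv ℝ φ x‖ ^ 2 + (3 * v (x + y) ^ 2 - 1) * φ x ^ 2) := by
  intro φ hφ hφc
  have h1 := hst (fun x => φ (x + (-y))) (dgA4_translate_contDiff hφ (-y))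
    (hφc.comp_homeomorph (Homeomorph.addRight (-y)))
  have h2 := integral_add_right_eq_self (μ := (volume : Measure (EuclideanSpace ℝ (Fin n))))
    (fun x => ‖fderiv ℝ (fun x => φ (x + (-y))) x‖ ^ 2
      + (3 * v x ^ 2 - 1) * φ (x + (-y)) ^ 2) y
  rw [← h2] at h1
  simpa [fderiv_comp_add_right] using h1

/-! ### The compactness theorems -/

/-- **Compactness of solutions.**  `hreg`, `hbd` are the contract of post A3. -/
theorem dgA4_compact (v : ℕ → EuclideanSpace ℝ (Fin n) → ℝ)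
    (hreg : ∀ j, ContDiff ℝ ∞ (v j))
    (hbd : ∀ m : ℕ, ∃ C : ℝ, ∀ j x, ‖iteratedFDeriv ℝ m (v j) x‖ ≤ C)
    (hrange : ∀ j x, v j x ∈ Icc (-1 : ℝ) 1)
    (hpde : ∀ j x, Laplacian.laplacian (v j) x = v j x ^ 3 - v j x) :
    ∃ (φ : ℕ → ℕ) (w : EuclideanSpace ℝ (Fin n) → ℝ), StrictMono φ ∧ ContDiff ℝ ∞ w ∧
      (∀ x, w x ∈ Icc (-1 : ℝ) 1) ∧ (∀ x, Laplacian.laplacian w x = w x ^ 3 - w x) ∧
      DgA4Conv (fun k => v (φ k)) w ∧
      ((∀ j, ∀ φ : EuclideanSpace ℝ (Fin n) → ℝ, ContDiff ℝ 1 φ → HasCompactSupport φ →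
          0 ≤ ∫ x, (‖fderiv ℝ φ x‖ ^ 2 + (3 * v j x ^ 2 - 1) * φ x ^ 2)) →
        ∀ φ : EuclideanSpace ℝ (Fin n) → ℝ, ContDiff ℝ 1 φ → HasCompactSupport φ →
          0 ≤ ∫ x, (‖fderiv ℝ φ x‖ ^ 2 + (3 * w x ^ 2 - 1) * φ x ^ 2)) := by
  obtain ⟨φ, w, hφ, hw, hconv⟩ := dgA4_aas v hreg (fun m K _ => by
    obtain ⟨C, hC⟩ := hbd m
    exact ⟨C, fun k x _ => hC k x⟩)
  refine ⟨φ, w, hφ, hw, dgA4_limit_range hconv.tendsto isClosed_Icc (fun k => hrange (φ k)),
    dgA4_limit_sol hconv (fun k => hpde (φ k)), hconv, fun hst => ?_⟩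
  exact dgA4_limit_stable hconv.tendsto (fun k => (hreg (φ k)).continuous)
    (fun k => hrange (φ k)) (fun k => hst (φ k))

/-- **Compactness of the translates of one solution.** -/
theorem dgA4_translates (v : EuclideanSpace ℝ (Fin n) → ℝ) (hreg : ContDiff ℝ ∞ v)
    (hbd : ∀ m : ℕ, ∃ C : ℝ, ∀ x, ‖iteratedFDeriv ℝ m v x‖ ≤ C)
    (hrange : ∀ x, v x ∈ Icc (-1 : ℝ) 1)
    (hpde : ∀ x, Laplacian.laplacian v x = v x ^ 3 - v x)
    (y : ℕ → EuclideanSpace ℝ (Fin n)) :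
    ∃ (φ : ℕ → ℕ) (w : EuclideanSpace ℝ (Fin n) → ℝ), StrictMono φ ∧ ContDiff ℝ ∞ w ∧
      (∀ x, w x ∈ Icc (-1 : ℝ) 1) ∧ (∀ x, Laplacian.laplacian w x = w x ^ 3 - w x) ∧
      DgA4Conv (fun k x => v (x + y (φ k))) w ∧
      ((∀ φ : EuclideanSpace ℝ (Fin n) → ℝ, ContDiff ℝ 1 φ → HasCompactSupport φ →
          0 ≤ ∫ x, (‖fderiv ℝ φ x‖ ^ 2 + (3 * v x ^ 2 - 1) * φ x ^ 2)) →
        ∀ φ : EuclideanSpace ℝ (Fin n) → ℝ, ContDiff ℝ 1 φ → HasCompactSupport φ →
          0 ≤ ∫ x, (‖fderiv ℝ φ x‖ ^ 2 + (3 * w x ^ 2 - 1) * φ x ^ 2)) := by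
  obtain ⟨φ, w, hφ, hw, hr, hp, hconv, hst⟩ := dgA4_compact (fun j x => v (x + y j))
    (fun j => dgA4_translate_contDiff hreg (y j))
    (fun m => by
      obtain ⟨C, hC⟩ := hbd m
      exact ⟨C, fun j x => by rw [iteratedFDeriv_comp_add_right]; exact hC _⟩)
    (fun j x => hrange _) (fun j x => dgA4_translate_sol hpde (y j) x)
  exact ⟨φ, w, hφ, hw, hr, hp, hconv, fun h => hst (fun j => dgA4_translate_stable h (y j))⟩

/-- If the translates converge pointwise, the whole sequence of translates converges in `C^∞_loc`, and the limit is a solution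
(stable if `v` is). -/
theorem dgA4_translates_of_pointwise (v : EuclideanSpace ℝ (Fin n) → ℝ) (hreg : ContDiff ℝ ∞ v)
    (hbd : ∀ m : ℕ, ∃ C : ℝ, ∀ x, ‖iteratedFDeriv ℝ m v x‖ ≤ C)
    (hrange : ∀ x, v x ∈ Icc (-1 : ℝ) 1)
    (hpde : ∀ x, Laplacian.laplacian v x = v x ^ 3 - v x)
    (y : ℕ → EuclideanSpace ℝ (Fin n)) (w : EuclideanSpace ℝ (Fin n) → ℝ)
    (hpt : ∀ x, Tendsto (fun k => v (x + y k)) atTop (𝓝 (w x))) :
    ContDiff ℝ ∞ w ∧ (∀ x, w x ∈ Icc (-1 : ℝ) 1) ∧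
      (∀ x, Laplacian.laplacian w x = w x ^ 3 - w x) ∧
      DgA4Conv (fun k x => v (x + y k)) w ∧
      ((∀ φ : EuclideanSpace ℝ (Fin n) → ℝ, ContDiff ℝ 1 φ → HasCompactSupport φ →
          0 ≤ ∫ x, (‖fderiv ℝ φ x‖ ^ 2 + (3 * v x ^ 2 - 1) * φ x ^ 2)) →
        ∀ φ : EuclideanSpace ℝ (Fin n) → ℝ, ContDiff ℝ 1 φ → HasCompactSupport φ →
          0 ≤ ∫ x, (‖fderiv ℝ φ x‖ ^ 2 + (3 * w x ^ 2 - 1) * φ x ^ 2)) := by
  obtain ⟨hw, hconv⟩ := dgA4_conv_of_pointwise (fun k x => v (x + y k))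
    (fun j => dgA4_translate_contDiff hreg (y j))
    (fun m K _ => by
      obtain ⟨C, hC⟩ := hbd m
      exact ⟨C, fun j x _ => by rw [iteratedFDeriv_comp_add_right]; exact hC _⟩) w hpt
  refine ⟨hw, dgA4_limit_range hpt isClosed_Icc (fun k x => hrange _),
    dgA4_limit_sol hconv (fun k x => dgA4_translate_sol hpde (y k) x), hconv, fun hst => ?_⟩
  exact dgA4_limit_stable hpt (fun k => (dgA4_translate_contDiff hreg (y k)).continuous)
    (fun k x => hrange _) (fun k => dgA4_translate_stable hst (y k))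

end pde

/-! ## EXITS -/

section exits

variable {n : ℕ}

/-- The contract of post A3 (interior regularity with universal constants). -/
def DgA4Reg (n : ℕ) : Prop :=
  ∀ m : ℕ, ∃ C : ℝ, ∀ v : DgE n → ℝ, DgSol n v → ContDiff ℝ ∞ v ∧ ∀ x, ‖iteratedFDeriv ℝ m v x‖ ≤ C

theorem DgA4Reg.contDiff (h : DgA4Reg n) {v : DgE n → ℝ} (hv : DgSol n v) : ContDiff ℝ ∞ v :=
  ((h 0).choose_spec v hv).1

/-- a translate of a solution is a solution. -/
theorem dgA4_exit_translate_sol {v : DgE n → ℝ} (hv : DgSol n v) (y : DgE n) :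
    DgSol n (fun x => v (x + y)) :=
  ⟨dgA4_translate_contDiff hv.smooth y, fun _ => hv.range _, fun x => dgA4_translate_sol hv.pde y x⟩

/-- a translate of a stable function is stable. -/
theorem dgA4_exit_translate_stable {v : DgE n → ℝ} (hv : DgStable n v) (y : DgE n) :
    DgStable n (fun x => v (x + y)) :=
  dgA4_translate_stable hv y

/-- stability passes to pointwise limits of solutions. -/
theorem dgA4_exit_limit_stable {v : ℕ → DgE n → ℝ} {w : DgE n → ℝ} (hv : ∀ j, DgSol n (v j))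
    (hs : ∀ j, DgStable n (v j)) (hpt : ∀ x, Tendsto (fun k => v k x) atTop (𝓝 (w x))) :
    DgStable n w :=
  dgA4_limit_stable hpt (fun k => (hv k).smooth.continuous) (fun k => (hv k).range) hs

/-- **EXIT 1: compactness of solutions** in `C^∞_loc`; stability passes to the limit. -/
theorem dgA4_exit_compact (hA3 : DgA4Reg n) (v : ℕ → DgE n → ℝ) (hv : ∀ j, DgSol n (v j)) :
    ∃ (φ : ℕ → ℕ) (w : DgE n → ℝ), StrictMono φ ∧ DgSol n w ∧ ContDiff ℝ ∞ w ∧
      DgA4Conv (fun k => v (φ k)) w ∧ ((∀ j, DgStable n (v j)) → DgStable n w) := by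
  obtain ⟨φ, w, hφ, hw, hr, hp, hconv, hst⟩ := dgA4_compact v (fun j => hA3.contDiff (hv j))
    (fun m => by
      obtain ⟨C, hC⟩ := hA3 m
      exact ⟨C, fun j x => (hC (v j) (hv j)).2 x⟩)
    (fun j => (hv j).range) (fun j => (hv j).pde)
  exact ⟨φ, w, hφ, ⟨hw.of_le (WithTop.coe_le_coe.2 le_top), hr, hp⟩, hw, hconv, hst⟩

/-- **EXIT 2: compactness of the translates of one solution.** -/
theorem dgA4_exit_translates (hA3 : DgA4Reg n) {v : DgE n → ℝ} (hv : DgSol n v) (y : ℕ → DgE n) :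
    ∃ (φ : ℕ → ℕ) (w : DgE n → ℝ), StrictMono φ ∧ DgSol n w ∧ ContDiff ℝ ∞ w ∧
      DgA4Conv (fun k x => v (x + y (φ k))) w ∧ (DgStable n v → DgStable n w) := by
  obtain ⟨φ, w, hφ, hw, hw', hconv, hst⟩ := dgA4_exit_compact hA3 (fun j x => v (x + y j))
    (fun j => dgA4_exit_translate_sol hv (y j))
  exact ⟨φ, w, hφ, hw, hw', hconv, fun h => hst (fun j => dgA4_exit_translate_stable h (y j))⟩

/-- **EXIT 3: a pointwise convergent sequence of solutions converges in `C^∞_loc`** (the whole sequence) to a solution. -/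
theorem dgA4_exit_of_pointwise (hA3 : DgA4Reg n) (v : ℕ → DgE n → ℝ) (hv : ∀ j, DgSol n (v j))
    (w : DgE n → ℝ) (hpt : ∀ x, Tendsto (fun k => v k x) atTop (𝓝 (w x))) :
    DgSol n w ∧ ContDiff ℝ ∞ w ∧ DgA4Conv v w ∧ ((∀ j, DgStable n (v j)) → DgStable n w) := by
  obtain ⟨hw, hconv⟩ := dgA4_conv_of_pointwise v (fun j => hA3.contDiff (hv j))
    (fun m K _ => by
      obtain ⟨C, hC⟩ := hA3 m
      exact ⟨C, fun j x _ => (hC (v j) (hv j)).2 x⟩) w hpt
  exact ⟨⟨hw.of_le (WithTop.coe_le_coe.2 le_top),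
    dgA4_limit_range hpt isClosed_Icc (fun k => (hv k).range),
    dgA4_limit_sol hconv (fun k => (hv k).pde)⟩, hw, hconv,
    fun hs => dgA4_exit_limit_stable hv hs hpt⟩

/-- the universal bounds hold for the limit too (they hold for every solution); recorded for convenience:
the gradient of a solution is bounded by a universal constant. -/
theorem dgA4_exit_grad_bound (hA3 : DgA4Reg n) :
    ∃ C : ℝ, ∀ v : DgE n → ℝ, DgSol n v → ∀ x, ‖fderiv ℝ v x‖ ≤ C := by
  obtain ⟨C, hC⟩ := hA3 1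
  refine ⟨C, fun v hv x => ?_⟩
  have := (hC v hv).2 x
  rwa [norm_iteratedFDeriv_one] at this

/-- a solution is Lipschitz with a universal constant. -/
theorem dgA4_exit_lipschitz (hA3 : DgA4Reg n) :
    ∃ C : NNReal, ∀ v : DgE n → ℝ, DgSol n v → LipschitzWith C v := by
  obtain ⟨C, hC⟩ := dgA4_exit_grad_bound hA3
  refine ⟨C.toNNReal, fun v hv => ?_⟩
  refine lipschitzWith_of_nnnorm_fderiv_le (hv.smooth.differentiable (by norm_num)) (fun x => ?_)
  rw [← NNReal.coe_le_coe, coe_nnnorm]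
  exact (hC v hv x).trans (Real.le_coe_toNNReal C)

/-! ### Unconditional forms (post A3 = `Reg.lean` is proved) -/

/-- the contract of post A3 holds. -/
theorem dgA4_reg (n : ℕ) : DgA4Reg n := by
  intro m
  obtain ⟨C, hC⟩ := dgA3_reg n m
  exact ⟨C, fun v hv => ⟨(hC v hv.smooth hv.range hv.pde).1,
    fun x => (hC v hv.smooth hv.range hv.pde).2 m le_rfl x⟩⟩

/-- a solution is smooth. -/
theorem DgSol.contDiff_top {v : DgE n → ℝ} (hv : DgSol n v) : ContDiff ℝ ∞ v :=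
  (dgA4_reg n).contDiff hv

/-- **EXIT 1 (unconditional): compactness of solutions.** -/
theorem dgA4_cpt (v : ℕ → DgE n → ℝ) (hv : ∀ j, DgSol n (v j)) :
    ∃ (φ : ℕ → ℕ) (w : DgE n → ℝ), StrictMono φ ∧ DgSol n w ∧ ContDiff ℝ ∞ w ∧
      DgA4Conv (fun k => v (φ k)) w ∧ ((∀ j, DgStable n (v j)) → DgStable n w) :=
  dgA4_exit_compact (dgA4_reg n) v hv

/-- **EXIT 2 (unconditional): compactness of the translates of one solution.** -/
theorem dgA4_cpt_translates {v : DgE n → ℝ} (hv : DgSol n v) (y : ℕ → DgE n) :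
    ∃ (φ : ℕ → ℕ) (w : DgE n → ℝ), StrictMono φ ∧ DgSol n w ∧ ContDiff ℝ ∞ w ∧
      DgA4Conv (fun k x => v (x + y (φ k))) w ∧ (DgStable n v → DgStable n w) :=
  dgA4_exit_translates (dgA4_reg n) hv y

/-- **EXIT 3 (unconditional): pointwise convergence of solutions is convergence in `C^∞_loc`.** -/
theorem dgA4_cpt_of_pointwise (v : ℕ → DgE n → ℝ) (hv : ∀ j, DgSol n (v j))
    (w : DgE n → ℝ) (hpt : ∀ x, Tendsto (fun k => v k x) atTop (𝓝 (w x))) :
    DgSol n w ∧ ContDiff ℝ ∞ w ∧ DgA4Conv v w ∧ ((∀ j, DgStable n (v j)) → DgStable n w) :=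
  dgA4_exit_of_pointwise (dgA4_reg n) v hv w hpt

/-- universal gradient bound. -/
theorem dgA4_grad_bound (n : ℕ) : ∃ C : ℝ, ∀ v : DgE n → ℝ, DgSol n v → ∀ x, ‖fderiv ℝ v x‖ ≤ C :=
  dgA4_exit_grad_bound (dgA4_reg n)

/-- universal Lipschitz constant. -/
theorem dgA4_lipschitz (n : ℕ) : ∃ C : NNReal, ∀ v : DgE n → ℝ, DgSol n v → LipschitzWith C v :=
  dgA4_exit_lipschitz (dgA4_reg n)

/-- **Compactness principle for universal estimates** ("uniform by compactness"): let `P` be a property of solutions which is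
invariant under translations and such that `¬ P` is closed under `C^∞_loc` limits in the following sense: a `C^∞_loc` limit of solutions
violating a quantity `Φ v ≤ c` at the origin violates it.  Concretely: if `Φ` is a real functional of solutions which is continuous
along `C^∞_loc` convergent sequences, then `Φ` is bounded above on the set of all solutions and the supremum is attained. -/
theorem dgA4_sup_attained (Φ : (DgE n → ℝ) → ℝ)
    (hΦ : ∀ (v : ℕ → DgE n → ℝ) (w : DgE n → ℝ), (∀ j, DgSol n (v j)) → DgSol n w → DgA4Conv v w →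
      Tendsto (fun k => Φ (v k)) atTop (𝓝 (Φ w))) :
    ∃ w : DgE n → ℝ, DgSol n w ∧ ∀ v : DgE n → ℝ, DgSol n v → Φ v ≤ Φ w := by
  classical
  set S : Set ℝ := {t | ∃ v : DgE n → ℝ, DgSol n v ∧ Φ v = t} with hS
  have h0 : DgSol n (fun _ => (0 : ℝ)) :=
    ⟨contDiff_const, fun _ => by constructor <;> norm_num, fun x => by
      rw [InnerProductSpace.laplacian_const]; simp⟩
  have hne : S.Nonempty := ⟨_, _, h0, rfl⟩
  -- a maximising sequence (possibly tending to `+∞`)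
  by_cases hb : BddAbove S
  · obtain ⟨u, -, hu, huS⟩ := exists_seq_tendsto_sSup hne hb
    choose v hv hvu using huS
    obtain ⟨φ, w, hφ, hw, -, hconv, -⟩ := dgA4_cpt v hv
    have h1 := hΦ _ w (fun j => hv (φ j)) hw hconv
    have h2 : Tendsto (fun k => Φ (v (φ k))) atTop (𝓝 (sSup S)) := by
      simp only [hvu]
      exact hu.comp hφ.tendsto_atTop
    have h3 : Φ w = sSup S := tendsto_nhds_unique h1 h2
    exact ⟨w, hw, fun v' hv' => by rw [h3]; exact le_csSup hb ⟨v', hv', rfl⟩⟩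
  · exfalso
    have : ∀ k : ℕ, ∃ v : DgE n → ℝ, DgSol n v ∧ (k : ℝ) < Φ v := by
      intro k
      rw [not_bddAbove_iff] at hb
      obtain ⟨t, ⟨v, hv, rfl⟩, ht⟩ := hb k
      exact ⟨v, hv, ht⟩
    choose v hv hvk using this
    obtain ⟨φ, w, hφ, hw, -, hconv, -⟩ := dgA4_cpt v hv
    have h1 := hΦ _ w (fun j => hv (φ j)) hw hconv
    have h2 : Tendsto (fun k => Φ (v (φ k))) atTop atTop := by
      refine tendsto_atTop_mono (fun k => (hvk (φ k)).le) ?_
      exact tendsto_natCast_atTop_atTop.comp hφ.tendsto_atTop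
    exact not_tendsto_nhds_of_tendsto_atTop h2 _ h1

end exits

end Claimed.Agent.R329
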