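import Claimed.Agent.R329.LipTest

/-!
# Row 329, post A15: cut-off functions on `DgE n`

* `dgcu_lin R`: the piecewise linear radial cut-off (`1` on `B_R`, `0` off `B_{2R}`, `1/R`-Lipschitz);
* `dgcu_smooth R`: a smooth radial cut-off with `‖∇η_R‖ ≤ C(n)/R`;
* `dgcu_log R`: the logarithmic cut-off (`1` on `B_R`, `0` off `B_{R²}`, `‖∇η‖ ≤ 1/(‖x‖ log R)`);
* `dgcu_log_energy`: `∫ F ‖∇η_R‖² ≤ 20 C / log R` if `∫_{B_r} F ≤ C r²` (the two-dimensional growth);
* `dgcu_lin_energy`: `∫ F ‖∇η_R‖² ≤ R⁻² ∫_{B_{2R}} F`;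
* volume growth of balls; products of `C¹` functions with Lipschitz cut-offs.
-/

open MeasureTheory Filter Topology Set Metric
open scoped NNReal ContDiff

namespace Claimed.Agent.R329

noncomputable section

variable {n : ℕ}

/-! ### The piecewise linear cut-off -/

/-- `1` on `B_R`, `0` outside `B_{2R}`, linear in `‖x‖` in between. -/
def dgcu_lin (R : ℝ) (x : DgE n) : ℝ := max 0 (min 1 (2 - ‖x‖ / R))

theorem dgcu_lin_nonneg (R : ℝ) (x : DgE n) : 0 ≤ dgcu_lin R x := le_max_left _ _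

theorem dgcu_lin_le_one (R : ℝ) (x : DgE n) : dgcu_lin R x ≤ 1 :=
  max_le zero_le_one (min_le_left _ _)

theorem dgcu_lin_eq_one {R : ℝ} (hR : 0 < R) {x : DgE n} (hx : ‖x‖ ≤ R) : dgcu_lin R x = 1 := by
  have h1 : ‖x‖ / R ≤ 1 := (div_le_one hR).2 hx
  have h2 : (1 : ℝ) ≤ 2 - ‖x‖ / R := by linarith
  rw [dgcu_lin, min_eq_left h2, max_eq_right zero_le_one]

theorem dgcu_lin_eq_zero {R : ℝ} (hR : 0 < R) {x : DgE n} (hx : 2 * R ≤ ‖x‖) :
    dgcu_lin R x = 0 := by
  have h1 : 2 ≤ ‖x‖ / R := (le_div_iff₀ hR).2 hx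
  have h2 : 2 - ‖x‖ / R ≤ 0 := by linarith
  rw [dgcu_lin, max_eq_left]
  exact le_trans (min_le_right _ _) h2

theorem dgcu_lin_lipschitz {R : ℝ} (hR : 0 < R) :
    LipschitzWith (Real.toNNReal (1 / R)) (dgcu_lin (n := n) R) := by
  have h0 : LipschitzWith (Real.toNNReal (1 / R)) (fun x : DgE n => 2 - ‖x‖ / R) := by
    refine LipschitzWith.of_dist_le_mul fun x y => ?_
    rw [Real.coe_toNNReal _ (by positivity), Real.dist_eq, dist_eq_norm]
    have h1 : (2 - ‖x‖ / R) - (2 - ‖y‖ / R) = (‖y‖ - ‖x‖) / R := by ring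
    rw [h1, abs_div, abs_of_pos hR, div_eq_mul_inv, mul_comm, one_div]
    refine mul_le_mul_of_nonneg_left ?_ (by positivity)
    rw [abs_sub_comm]
    exact abs_norm_sub_norm_le x y
  exact (h0.const_min 1).const_max 0

theorem dgcu_lin_hasCompactSupport {R : ℝ} (hR : 0 < R) :
    HasCompactSupport (dgcu_lin (n := n) R) := by
  refine HasCompactSupport.intro (isCompact_closedBall (0 : DgE n) (2 * R)) fun x hx => ?_
  refine dgcu_lin_eq_zero hR ?_
  have : ¬ ‖x‖ ≤ 2 * R := by simpa using hx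
  linarith

theorem dgcu_lin_norm_fderiv_le {R : ℝ} (hR : 0 < R) (x : DgE n) :
    ‖fderiv ℝ (dgcu_lin (n := n) R) x‖ ≤ 1 / R := by
  have := norm_fderiv_le_of_lipschitz ℝ (dgcu_lin_lipschitz (n := n) hR) (x₀ := x)
  rwa [Real.coe_toNNReal _ (by positivity)] at this

theorem dgcu_lin_fderiv_eq_zero_of_lt {R : ℝ} (hR : 0 < R) {x : DgE n} (hx : ‖x‖ < R) :
    fderiv ℝ (dgcu_lin (n := n) R) x = 0 := by
  have h : dgcu_lin (n := n) R =ᶠ[𝓝 x] fun _ => (1 : ℝ) := by
    have : ∀ᶠ y in 𝓝 x, ‖y‖ < R := (continuous_norm.tendsto x).eventually (gt_mem_nhds hx)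
    filter_upwards [this] with y hy using dgcu_lin_eq_one hR hy.le
  rw [h.fderiv_eq]
  simp

theorem dgcu_lin_fderiv_eq_zero_of_gt {R : ℝ} (hR : 0 < R) {x : DgE n} (hx : 2 * R < ‖x‖) :
    fderiv ℝ (dgcu_lin (n := n) R) x = 0 := by
  have h : dgcu_lin (n := n) R =ᶠ[𝓝 x] fun _ => (0 : ℝ) := by
    have : ∀ᶠ y in 𝓝 x, 2 * R < ‖y‖ := (continuous_norm.tendsto x).eventually (lt_mem_nhds hx)
    filter_upwards [this] with y hy using dgcu_lin_eq_zero hR hy.le
  rw [h.fderiv_eq]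
  simp

/-- `∫ F ‖∇η_R‖² ≤ R⁻² ∫_{B̄_{2R}} F`. -/
theorem dgcu_lin_energy {R : ℝ} (hR : 0 < R) {F : DgE n → ℝ} (hF : ∀ x, 0 ≤ F x)
    (hint : IntegrableOn F (closedBall 0 (2 * R))) :
    ∫ x, F x * ‖fderiv ℝ (dgcu_lin (n := n) R) x‖ ^ 2 ≤
      (1 / R ^ 2) * ∫ x in closedBall (0 : DgE n) (2 * R), F x := by
  have h1 : ∫ x, F x * ‖fderiv ℝ (dgcu_lin (n := n) R) x‖ ^ 2 ≤
      ∫ x, (closedBall (0 : DgE n) (2 * R)).indicator (fun x => (1 / R ^ 2) * F x) x := by
    refine integral_mono_of_nonneg (Eventually.of_forall fun x => mul_nonneg (hF x) (sq_nonneg _))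
      (IntegrableOn.integrable_indicator (hint.const_mul _) measurableSet_closedBall)
      (Eventually.of_forall fun x => ?_)
    by_cases hx : x ∈ closedBall (0 : DgE n) (2 * R)
    · simp only [indicator_of_mem hx]
      have h2 : ‖fderiv ℝ (dgcu_lin (n := n) R) x‖ ^ 2 ≤ (1 / R) ^ 2 :=
        pow_le_pow_left₀ (norm_nonneg _) (dgcu_lin_norm_fderiv_le hR x) 2
      calc F x * ‖fderiv ℝ (dgcu_lin (n := n) R) x‖ ^ 2 ≤ F x * (1 / R) ^ 2 :=
            mul_le_mul_of_nonneg_left h2 (hF x)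
        _ = 1 / R ^ 2 * F x := by ring
    · simp only [indicator_of_notMem hx]
      have : 2 * R < ‖x‖ := by simpa using hx
      rw [dgcu_lin_fderiv_eq_zero_of_gt hR this]
      simp
  rw [integral_indicator measurableSet_closedBall, integral_const_mul] at h1
  exact h1

/-! ### A smooth cut-off -/

/-- the reference bump: `1` on `B̄_1`, supported in `B_2`. -/
def dgcu_bump : ContDiffBump (0 : DgE n) := ⟨1, 2, one_pos, one_lt_two⟩

/-- smooth cut-off: `1` on `B̄_R`, `0` outside `B_{2R}`. -/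
def dgcu_smooth (R : ℝ) (x : DgE n) : ℝ := dgcu_bump (n := n) (R⁻¹ • x)

theorem dgcu_smooth_contDiff (R : ℝ) : ContDiff ℝ ∞ (dgcu_smooth (n := n) R) :=
  (dgcu_bump (n := n)).contDiff.comp (contDiff_const_smul _)

theorem dgcu_smooth_nonneg (R : ℝ) (x : DgE n) : 0 ≤ dgcu_smooth R x := (dgcu_bump (n := n)).nonneg

theorem dgcu_smooth_le_one (R : ℝ) (x : DgE n) : dgcu_smooth R x ≤ 1 := (dgcu_bump (n := n)).le_one

theorem dgcu_smooth_eq_one {R : ℝ} (hR : 0 < R) {x : DgE n} (hx : ‖x‖ ≤ R) :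
    dgcu_smooth R x = 1 := by
  refine (dgcu_bump (n := n)).one_of_mem_closedBall ?_
  rw [mem_closedBall_zero_iff, norm_smul, norm_inv, Real.norm_of_nonneg hR.le]
  change R⁻¹ * ‖x‖ ≤ 1
  rw [inv_mul_le_iff₀ hR]
  simpa using hx

theorem dgcu_smooth_eq_zero {R : ℝ} (hR : 0 < R) {x : DgE n} (hx : 2 * R ≤ ‖x‖) :
    dgcu_smooth R x = 0 := by
  refine (dgcu_bump (n := n)).zero_of_le_dist ?_
  rw [dist_zero_right, norm_smul, norm_inv, Real.norm_of_nonneg hR.le]
  change (2 : ℝ) ≤ R⁻¹ * ‖x‖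
  rw [le_inv_mul_iff₀ hR]
  linarith

theorem dgcu_smooth_hasCompactSupport {R : ℝ} (hR : 0 < R) :
    HasCompactSupport (dgcu_smooth (n := n) R) := by
  refine HasCompactSupport.intro (isCompact_closedBall (0 : DgE n) (2 * R)) fun x hx => ?_
  refine dgcu_smooth_eq_zero hR ?_
  have : ¬ ‖x‖ ≤ 2 * R := by simpa using hx
  linarith

/-- the gradient constant of the reference bump (depends on `n` only). -/
theorem dgcu_exists_bump_bound (n : ℕ) :
    ∃ C : ℝ, 0 ≤ C ∧ ∀ y : DgE n, ‖fderiv ℝ (dgcu_bump (n := n)) y‖ ≤ C := by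
  have hc : Continuous (fderiv ℝ (dgcu_bump (n := n))) :=
    ((dgcu_bump (n := n)).contDiff (n := 1)).continuous_fderiv one_ne_zero
  have hs : HasCompactSupport (fderiv ℝ (dgcu_bump (n := n))) :=
    (dgcu_bump (n := n)).hasCompactSupport.fderiv ℝ
  obtain ⟨C, hC⟩ := hc.bounded_above_of_compact_support hs
  exact ⟨C, le_trans (norm_nonneg _) (hC 0), hC⟩

theorem dgcu_smooth_fderiv (R : ℝ) (x : DgE n) :
    fderiv ℝ (dgcu_smooth (n := n) R) x = R⁻¹ • fderiv ℝ (dgcu_bump (n := n)) (R⁻¹ • x) := by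
  have h1 : HasFDerivAt (dgcu_bump (n := n)) (fderiv ℝ (dgcu_bump (n := n)) (R⁻¹ • x)) (R⁻¹ • x) :=
    ((dgcu_bump (n := n)).contDiff (n := 1)).differentiable one_ne_zero _ |>.hasFDerivAt
  have h2 : HasFDerivAt (fun y : DgE n => R⁻¹ • y) (R⁻¹ • ContinuousLinearMap.id ℝ (DgE n)) x :=
    (hasFDerivAt_id x).const_smul R⁻¹
  have h3 := (h1.comp x h2).fderiv
  have h4 : (dgcu_bump (n := n) : DgE n → ℝ) ∘ (fun y : DgE n => R⁻¹ • y) = dgcu_smooth R := rfl
  rw [h4] at h3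
  rw [h3]
  ext v
  simp

/-- **Smooth cut-offs with gradient `≤ C(n)/R`.** -/
theorem dgcu_smooth_norm_fderiv_le (n : ℕ) :
    ∃ C : ℝ, 0 ≤ C ∧ ∀ R : ℝ, 0 < R → ∀ x : DgE n,
      ‖fderiv ℝ (dgcu_smooth (n := n) R) x‖ ≤ C / R := by
  obtain ⟨C, hC0, hC⟩ := dgcu_exists_bump_bound n
  refine ⟨C, hC0, fun R hR x => ?_⟩
  rw [dgcu_smooth_fderiv, norm_smul, norm_inv, Real.norm_of_nonneg hR.le, div_eq_inv_mul]
  exact mul_le_mul_of_nonneg_left (hC _) (by positivity)

/-! ### The logarithmic cut-off -/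

theorem dgcu_logmax_lipschitz {ρ : ℝ} (hρ : 0 < ρ) :
    LipschitzWith (Real.toNNReal (1 / ρ)) (fun t : ℝ => Real.log (max ρ t)) := by
  refine LipschitzWith.of_le_add_mul _ fun a b => ?_
  rw [Real.coe_toNNReal _ (by positivity)]
  have hA : ρ ≤ max ρ a := le_max_left _ _
  have hB : ρ ≤ max ρ b := le_max_left _ _
  have hA0 : 0 < max ρ a := lt_of_lt_of_le hρ hA
  have hB0 : 0 < max ρ b := lt_of_lt_of_le hρ hB
  have hAB : max ρ a - max ρ b ≤ dist a b := by
    rw [Real.dist_eq]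
    refine le_trans (le_abs_self _) ?_
    rw [max_comm ρ a, max_comm ρ b]
    exact abs_max_sub_max_le_abs a b ρ
  have hd : 0 ≤ dist a b := dist_nonneg
  rcases le_total (max ρ a) (max ρ b) with h | h
  · have h1 : Real.log (max ρ a) ≤ Real.log (max ρ b) := Real.log_le_log hA0 h
    have h2 : 0 ≤ 1 / ρ * dist a b := by positivity
    linarith
  · have h1 : Real.log (max ρ a) - Real.log (max ρ b) ≤ max ρ a / max ρ b - 1 := by
      rw [← Real.log_div hA0.ne' hB0.ne']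
      exact Real.log_le_sub_one_of_pos (by positivity)
    have h2 : max ρ a / max ρ b - 1 = (max ρ a - max ρ b) / max ρ b := by
      field_simp
    have h3 : (max ρ a - max ρ b) / max ρ b ≤ (max ρ a - max ρ b) / ρ :=
      div_le_div_of_nonneg_left (by linarith) hρ hB
    have h4 : (max ρ a - max ρ b) / ρ ≤ dist a b / ρ := by gcongr
    have h5 : dist a b / ρ = 1 / ρ * dist a b := by ring
    linarith

/-- auxiliary family: `max 0 (2 - log (max ρ ‖x‖) / log R)`. -/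
def dgcu_logAux (R ρ : ℝ) (x : DgE n) : ℝ := max 0 (2 - Real.log (max ρ ‖x‖) / Real.log R)

/-- **The logarithmic cut-off**: `1` on `B̄_R`, `2 - log ‖x‖ / log R` for `R ≤ ‖x‖ ≤ R²`, `0` beyond. -/
def dgcu_log (R : ℝ) (x : DgE n) : ℝ := dgcu_logAux R R x

theorem dgcu_logAux_lipschitz {R ρ : ℝ} (hR : 1 < R) (hρ : 0 < ρ) :
    LipschitzWith (Real.toNNReal (1 / (ρ * Real.log R))) (dgcu_logAux (n := n) R ρ) := by
  have hL : 0 < Real.log R := Real.log_pos hR
  have h0 : LipschitzWith (Real.toNNReal (1 / (ρ * Real.log R)))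
      (fun x : DgE n => 2 - Real.log (max ρ ‖x‖) / Real.log R) := by
    refine LipschitzWith.of_dist_le_mul fun x y => ?_
    rw [Real.coe_toNNReal _ (by positivity), Real.dist_eq]
    have h1 := (dgcu_logmax_lipschitz hρ).dist_le_mul ‖x‖ ‖y‖
    rw [Real.coe_toNNReal _ (by positivity), Real.dist_eq, Real.dist_eq] at h1
    have h2 : |‖x‖ - ‖y‖| ≤ dist x y := by
      rw [dist_eq_norm]; exact abs_norm_sub_norm_le x y
    have h3 : (2 - Real.log (max ρ ‖x‖) / Real.log R) - (2 - Real.log (max ρ ‖y‖) / Real.log R)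
        = -((Real.log (max ρ ‖x‖) - Real.log (max ρ ‖y‖)) / Real.log R) := by ring
    rw [h3, abs_neg, abs_div, abs_of_pos hL, div_le_iff₀ hL]
    calc |Real.log (max ρ ‖x‖) - Real.log (max ρ ‖y‖)| ≤ 1 / ρ * |‖x‖ - ‖y‖| := h1
      _ ≤ 1 / ρ * dist x y := by gcongr
      _ = 1 / (ρ * Real.log R) * dist x y * Real.log R := by field_simp
  exact h0.const_max 0

theorem dgcu_log_lipschitz {R : ℝ} (hR : 1 < R) :
    LipschitzWith (Real.toNNReal (1 / (R * Real.log R))) (dgcu_log (n := n) R) :=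
  dgcu_logAux_lipschitz hR (by linarith)

theorem dgcu_log_nonneg (R : ℝ) (x : DgE n) : 0 ≤ dgcu_log R x := le_max_left _ _

theorem dgcu_log_le_one {R : ℝ} (hR : 1 < R) (x : DgE n) : dgcu_log R x ≤ 1 := by
  have hL : 0 < Real.log R := Real.log_pos hR
  refine max_le zero_le_one ?_
  have h1 : Real.log R ≤ Real.log (max R ‖x‖) := Real.log_le_log (by linarith) (le_max_left _ _)
  have h2 : 1 ≤ Real.log (max R ‖x‖) / Real.log R := (one_le_div hL).2 h1
  linarith

theorem dgcu_log_eq_one {R : ℝ} (hR : 1 < R) {x : DgE n} (hx : ‖x‖ ≤ R) : dgcu_log R x = 1 := by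
  have hL : 0 < Real.log R := Real.log_pos hR
  rw [dgcu_log, dgcu_logAux, max_eq_left hx, div_self hL.ne']
  norm_num

theorem dgcu_log_eq_zero {R : ℝ} (hR : 1 < R) {x : DgE n} (hx : R ^ 2 ≤ ‖x‖) :
    dgcu_log R x = 0 := by
  have hL : 0 < Real.log R := Real.log_pos hR
  have hR0 : 0 < R := by linarith
  have h0 : R ≤ ‖x‖ := le_trans (by nlinarith) hx
  rw [dgcu_log, dgcu_logAux, max_eq_right h0, max_eq_left]
  have h1 : Real.log (R ^ 2) ≤ Real.log ‖x‖ := Real.log_le_log (by positivity) hx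
  rw [Real.log_pow] at h1
  have h2 : 2 ≤ Real.log ‖x‖ / Real.log R := by
    rw [le_div_iff₀ hL]; exact_mod_cast h1
  linarith

theorem dgcu_log_eq {R : ℝ} (hR : 1 < R) {x : DgE n} (h1 : R ≤ ‖x‖) (h2 : ‖x‖ ≤ R ^ 2) :
    dgcu_log R x = 2 - Real.log ‖x‖ / Real.log R := by
  have hL : 0 < Real.log R := Real.log_pos hR
  have hx0 : 0 < ‖x‖ := by linarith
  rw [dgcu_log, dgcu_logAux, max_eq_right h1, max_eq_right]
  have h3 : Real.log ‖x‖ ≤ Real.log (R ^ 2) := Real.log_le_log hx0 h2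
  rw [Real.log_pow] at h3
  have h4 : Real.log ‖x‖ / Real.log R ≤ 2 := by
    rw [div_le_iff₀ hL]; exact_mod_cast h3
  linarith

theorem dgcu_log_hasCompactSupport {R : ℝ} (hR : 1 < R) :
    HasCompactSupport (dgcu_log (n := n) R) := by
  refine HasCompactSupport.intro (isCompact_closedBall (0 : DgE n) (R ^ 2)) fun x hx => ?_
  refine dgcu_log_eq_zero hR ?_
  have : ¬ ‖x‖ ≤ R ^ 2 := by simpa using hx
  linarith

theorem dgcu_log_fderiv_eq_zero_of_lt {R : ℝ} (hR : 1 < R) {x : DgE n} (hx : ‖x‖ < R) :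
    fderiv ℝ (dgcu_log (n := n) R) x = 0 := by
  have h : dgcu_log (n := n) R =ᶠ[𝓝 x] fun _ => (1 : ℝ) := by
    have : ∀ᶠ y in 𝓝 x, ‖y‖ < R := (continuous_norm.tendsto x).eventually (gt_mem_nhds hx)
    filter_upwards [this] with y hy using dgcu_log_eq_one hR hy.le
  rw [h.fderiv_eq]
  simp

theorem dgcu_log_fderiv_eq_zero_of_gt {R : ℝ} (hR : 1 < R) {x : DgE n} (hx : R ^ 2 < ‖x‖) :
    fderiv ℝ (dgcu_log (n := n) R) x = 0 := by
  have h : dgcu_log (n := n) R =ᶠ[𝓝 x] fun _ => (0 : ℝ) := by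
    have : ∀ᶠ y in 𝓝 x, R ^ 2 < ‖y‖ := (continuous_norm.tendsto x).eventually (lt_mem_nhds hx)
    filter_upwards [this] with y hy using dgcu_log_eq_zero hR hy.le
  rw [h.fderiv_eq]
  simp

theorem dgcu_log_norm_fderiv_le_of_lt {R r : ℝ} (hR : 1 < R) (hr : R ≤ r) {x : DgE n}
    (hx : r < ‖x‖) : ‖fderiv ℝ (dgcu_log (n := n) R) x‖ ≤ 1 / (r * Real.log R) := by
  have hL : 0 < Real.log R := Real.log_pos hR
  have hr0 : 0 < r := by linarith
  have h : dgcu_log (n := n) R =ᶠ[𝓝 x] dgcu_logAux R r := by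
    have : ∀ᶠ y in 𝓝 x, r < ‖y‖ := (continuous_norm.tendsto x).eventually (lt_mem_nhds hx)
    filter_upwards [this] with y hy
    rw [dgcu_log, dgcu_logAux, dgcu_logAux, max_eq_right (by linarith : R ≤ ‖y‖), max_eq_right hy.le]
  rw [h.fderiv_eq]
  have := norm_fderiv_le_of_lipschitz ℝ (dgcu_logAux_lipschitz (n := n) hR hr0) (x₀ := x)
  rwa [Real.coe_toNNReal _ (by positivity)] at this

/-- **Gradient of the logarithmic cut-off**: `‖∇η(x)‖ ≤ 1 / (‖x‖ log R)` for `‖x‖ ≥ R`. -/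
theorem dgcu_log_norm_fderiv_le {R : ℝ} (hR : 1 < R) {x : DgE n} (hx : R ≤ ‖x‖) :
    ‖fderiv ℝ (dgcu_log (n := n) R) x‖ ≤ 1 / (‖x‖ * Real.log R) := by
  have hL : 0 < Real.log R := Real.log_pos hR
  have hR0 : 0 < R := by linarith
  rcases hx.eq_or_lt with h | h
  · rw [← h]
    have := norm_fderiv_le_of_lipschitz ℝ (dgcu_log_lipschitz (n := n) hR) (x₀ := x)
    rwa [Real.coe_toNNReal _ (by positivity)] at this
  · set D := ‖fderiv ℝ (dgcu_log (n := n) R) x‖ with hD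
    have hx0 : 0 < ‖x‖ := by linarith
    rw [le_div_iff₀ (by positivity)]
    by_contra hcon
    push Not at hcon
    have hD0 : 0 < D := by
      by_contra h0
      have : D = 0 := le_antisymm (not_lt.1 h0) (norm_nonneg _)
      rw [this] at hcon
      norm_num at hcon
    -- `r` close to `‖x‖`
    set r := max R ((1 / (D * Real.log R) + ‖x‖) / 2) with hr
    have h1 : 1 / (D * Real.log R) < ‖x‖ := by
      rw [div_lt_iff₀ (by positivity)]
      nlinarith
    have hrx : r < ‖x‖ := max_lt h (by linarith)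
    have hrR : R ≤ r := le_max_left _ _
    have hr1 : 1 / (D * Real.log R) < r := lt_of_lt_of_le (by linarith) (le_max_right _ _)
    have h2 := dgcu_log_norm_fderiv_le_of_lt (n := n) hR hrR hrx
    rw [← hD, le_div_iff₀ (by positivity)] at h2
    rw [div_lt_iff₀ (by positivity)] at hr1
    nlinarith

/-- **The logarithmic cut-off kills quadratic growth**: if `F ≥ 0` and `∫_{B_r} F ≤ C r²` for all
`r ≥ 1`, then `∫ F ‖∇η_R‖² ≤ 20 C / log R` for `R ≥ 2`. -/
theorem dgcu_log_energy {R : ℝ} (hR : 2 ≤ R) {F : DgE n → ℝ} (hF : ∀ x, 0 ≤ F x)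
    (hint : ∀ r : ℝ, IntegrableOn F (ball 0 r)) {C : ℝ}
    (hC : ∀ r : ℝ, 1 ≤ r → ∫ x in ball (0 : DgE n) r, F x ≤ C * r ^ 2) :
    ∫ x, F x * ‖fderiv ℝ (dgcu_log (n := n) R) x‖ ^ 2 ≤ 20 * C / Real.log R := by
  have hR1 : 1 < R := by linarith
  have hR0 : 0 < R := by linarith
  have hL : 0 < Real.log R := Real.log_pos hR1
  have hC0 : 0 ≤ C := by
    have h1 := hC 1 le_rfl
    have h2 : 0 ≤ ∫ x in ball (0 : DgE n) 1, F x := integral_nonneg fun x => hF x
    nlinarith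
  obtain ⟨m, hm1, hm2⟩ := exists_nat_pow_near (x := R) (y := (2 : ℝ)) hR1.le one_lt_two
  -- the majorant
  set c : ℕ → ℝ := fun k => 1 / ((R * 2 ^ k) ^ 2 * Real.log R ^ 2) with hc
  have hc0 : ∀ k, 0 ≤ c k := fun k => by positivity
  set G : DgE n → ℝ := fun x => ∑ k ∈ Finset.range (m + 2),
    (ball (0 : DgE n) (R * 2 ^ (k + 1))).indicator (fun x => c k * F x) x with hG
  have hGint : Integrable G := by
    refine integrable_finsetSum _ fun k _ => ?_
    exact IntegrableOn.integrable_indicator ((hint _).const_mul _) measurableSet_ball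
  have hterm : ∀ k x, 0 ≤ (ball (0 : DgE n) (R * 2 ^ (k + 1))).indicator (fun x => c k * F x) x :=
    fun k x => indicator_nonneg (fun y _ => mul_nonneg (hc0 k) (hF y)) x
  have hle : ∀ x, F x * ‖fderiv ℝ (dgcu_log (n := n) R) x‖ ^ 2 ≤ G x := by
    intro x
    have hG0 : 0 ≤ G x := Finset.sum_nonneg fun k _ => hterm k x
    by_cases h1 : ‖x‖ < R
    · rw [dgcu_log_fderiv_eq_zero_of_lt hR1 h1]; simpa using hG0
    by_cases h2 : R ^ 2 < ‖x‖
    · rw [dgcu_log_fderiv_eq_zero_of_gt hR1 h2]; simpa using hG0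
    push Not at h1 h2
    have hx0 : 0 < ‖x‖ := by linarith
    obtain ⟨j, hj1, hj2⟩ := exists_nat_pow_near (x := ‖x‖ / R) (y := (2 : ℝ))
      ((one_le_div hR0).2 h1) one_lt_two
    rw [le_div_iff₀ hR0] at hj1
    rw [div_lt_iff₀ hR0] at hj2
    have hjm : j < m + 2 := by
      have h3 : (2 : ℝ) ^ j < 2 ^ (m + 1) := by
        have h4 : (2 : ℝ) ^ j * R ≤ R * R := by nlinarith
        have h5 : (2 : ℝ) ^ j ≤ R := le_of_mul_le_mul_right h4 hR0
        linarith
      have := (pow_lt_pow_iff_right₀ (one_lt_two : (1 : ℝ) < 2)).1 h3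
      omega
    have hmem : x ∈ ball (0 : DgE n) (R * 2 ^ (j + 1)) := by
      rw [mem_ball_zero_iff]; linarith
    have h6 : F x * ‖fderiv ℝ (dgcu_log (n := n) R) x‖ ^ 2 ≤
        (ball (0 : DgE n) (R * 2 ^ (j + 1))).indicator (fun x => c j * F x) x := by
      rw [indicator_of_mem hmem]
      have h7 : ‖fderiv ℝ (dgcu_log (n := n) R) x‖ ≤ 1 / (R * 2 ^ j * Real.log R) := by
        refine le_trans (dgcu_log_norm_fderiv_le hR1 h1) ?_
        apply one_div_le_one_div_of_le (by positivity)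
        have : R * 2 ^ j ≤ ‖x‖ := by linarith
        gcongr
      have h8 : ‖fderiv ℝ (dgcu_log (n := n) R) x‖ ^ 2 ≤ c j := by
        have := pow_le_pow_left₀ (norm_nonneg _) h7 2
        have h9 : (1 / (R * 2 ^ j * Real.log R)) ^ 2 = c j := by
          simp only [hc]; rw [div_pow, one_pow, mul_pow]
        rwa [h9] at this
      calc F x * ‖fderiv ℝ (dgcu_log (n := n) R) x‖ ^ 2 ≤ F x * c j :=
            mul_le_mul_of_nonneg_left h8 (hF x)
        _ = c j * F x := mul_comm _ _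
    exact le_trans h6 (Finset.single_le_sum (f := fun k =>
      (ball (0 : DgE n) (R * 2 ^ (k + 1))).indicator (fun x => c k * F x) x)
      (fun k _ => hterm k x) (Finset.mem_range.2 hjm))
  have h10 : ∫ x, F x * ‖fderiv ℝ (dgcu_log (n := n) R) x‖ ^ 2 ≤ ∫ x, G x :=
    integral_mono_of_nonneg (Eventually.of_forall fun x => mul_nonneg (hF x) (sq_nonneg _)) hGint
      (Eventually.of_forall hle)
  have h11 : ∫ x, G x ≤ ∑ _k ∈ Finset.range (m + 2), 4 * C / Real.log R ^ 2 := by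
    simp only [hG]
    rw [integral_finsetSum _ fun k _ =>
      IntegrableOn.integrable_indicator ((hint _).const_mul _) measurableSet_ball]
    refine Finset.sum_le_sum fun k _ => ?_
    rw [integral_indicator measurableSet_ball, integral_const_mul]
    have h12 : (1 : ℝ) ≤ R * 2 ^ (k + 1) := by
      have : (1 : ℝ) ≤ 2 ^ (k + 1) := one_le_pow₀ one_le_two
      nlinarith
    calc c k * ∫ x in ball (0 : DgE n) (R * 2 ^ (k + 1)), F x
        ≤ c k * (C * (R * 2 ^ (k + 1)) ^ 2) := mul_le_mul_of_nonneg_left (hC _ h12) (hc0 k)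
      _ = 4 * C / Real.log R ^ 2 := by
          simp only [hc]
          have h2k : (2 : ℝ) ^ k ≠ 0 := by positivity
          field_simp
          ring
  rw [Finset.sum_const, Finset.card_range, nsmul_eq_mul] at h11
  -- `m + 2 ≤ 5 log R`
  have h13 : (m : ℝ) * Real.log 2 ≤ Real.log R := by
    have := Real.log_le_log (by positivity) hm1
    rwa [Real.log_pow] at this
  have hl2 : (0.6931471803 : ℝ) < Real.log 2 := Real.log_two_gt_d9
  have h14 : Real.log 2 ≤ Real.log R := Real.log_le_log (by norm_num) hR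
  have h15 : ((m + 2 : ℕ) : ℝ) ≤ 5 * Real.log R := by
    push_cast
    have hm0 : (0 : ℝ) ≤ (m : ℝ) := Nat.cast_nonneg m
    nlinarith
  calc ∫ x, F x * ‖fderiv ℝ (dgcu_log (n := n) R) x‖ ^ 2 ≤ ((m + 2 : ℕ) : ℝ) * (4 * C / Real.log R ^ 2) :=
        le_trans h10 h11
    _ ≤ 5 * Real.log R * (4 * C / Real.log R ^ 2) :=
        mul_le_mul_of_nonneg_right h15 (by positivity)
    _ = 20 * C / Real.log R := by field_simp; ring

/-! ### Volume growth -/

theorem dgcu_volume_ball (x : DgE n) {R : ℝ} (hR : 0 < R) :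
    volume.real (ball x R) = R ^ n * volume.real (ball (0 : DgE n) 1) := by
  rw [Measure.real, Measure.addHaar_ball_of_pos volume x hR, ENNReal.toReal_mul,
    ENNReal.toReal_ofReal (by positivity), finrank_euclideanSpace, Fintype.card_fin, Measure.real]

/-- a bounded function has volume growth `R^n`. -/
theorem dgcu_setIntegral_le_of_bound {F : DgE n → ℝ} {M : ℝ} (hM : ∀ x, F x ≤ M) (x₀ : DgE n)
    {R : ℝ} (hR : 0 < R) (hint : IntegrableOn F (ball x₀ R)) :
    ∫ x in ball x₀ R, F x ≤ M * volume.real (ball (0 : DgE n) 1) * R ^ n := by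
  have h1 : ∫ x in ball x₀ R, F x ≤ ∫ _x in ball x₀ R, M :=
    setIntegral_mono hint (integrableOn_const (measure_ball_lt_top.ne)) hM
  rw [setIntegral_const, smul_eq_mul, dgcu_volume_ball x₀ hR] at h1
  linarith

/-! ### Products with a cut-off -/

/-- a locally Lipschitz function times a compactly supported Lipschitz function is Lipschitz. -/
theorem dgcu_mul_lipschitz_of_locallyLipschitz {c η : DgE n → ℝ} (hcl : LocallyLipschitz c)
    {K : ℝ≥0} (hη : LipschitzWith K η) (hs : HasCompactSupport η) :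
    ∃ K' : ℝ≥0, LipschitzWith K' (fun x => c x * η x) := by
  obtain ⟨K₁, hK₁⟩ := (hcl.locallyLipschitzOn (s := tsupport η)).exists_lipschitzOnWith_of_compact hs
  obtain ⟨M₀, hM₀⟩ := hs.exists_bound_of_continuousOn (f := c) hcl.continuous.continuousOn
  obtain ⟨M₁, hM₁⟩ := hs.exists_bound_of_continuousOn (f := η) hη.continuous.continuousOn
  have hM₀0 : 0 ≤ max M₀ 0 := le_max_right _ _
  have hM₁0 : 0 ≤ max M₁ 0 := le_max_right _ _
  have hmem : ∀ x, η x ≠ 0 → x ∈ tsupport η := fun x hx => subset_tsupport _ hx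
  -- the one-sided estimate
  have key : ∀ x y, η x ≠ 0 →
      |c x * η x - c y * η y| ≤ (max M₀ 0 * K + max M₁ 0 * K₁) * dist x y := by
    intro x y hx
    have hxs := hmem x hx
    have h1 : |c x| ≤ max M₀ 0 := le_trans (hM₀ x hxs) (le_max_left _ _)
    have h2 : |η x - η y| ≤ K * dist x y := by
      have := hη.dist_le_mul x y
      rwa [Real.dist_eq] at this
    have hd : 0 ≤ dist x y := dist_nonneg
    have h3 : |(c x - c y) * η y| ≤ max M₁ 0 * K₁ * dist x y := by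
      by_cases hy : η y = 0
      · rw [hy, mul_zero, abs_zero]; positivity
      · have hys := hmem y hy
        have h4 : |c x - c y| ≤ K₁ * dist x y := by
          have := hK₁.dist_le_mul x hxs y hys
          rwa [Real.dist_eq] at this
        have h5 : |η y| ≤ max M₁ 0 := le_trans (hM₁ y hys) (le_max_left _ _)
        rw [abs_mul]
        calc |c x - c y| * |η y| ≤ (K₁ * dist x y) * max M₁ 0 :=
              mul_le_mul h4 h5 (abs_nonneg _) (by positivity)
          _ = max M₁ 0 * K₁ * dist x y := by ring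
    have h6 : c x * η x - c y * η y = c x * (η x - η y) + (c x - c y) * η y := by ring
    rw [h6]
    calc |c x * (η x - η y) + (c x - c y) * η y|
        ≤ |c x * (η x - η y)| + |(c x - c y) * η y| := abs_add_le _ _
      _ ≤ max M₀ 0 * (K * dist x y) + max M₁ 0 * K₁ * dist x y := by
          rw [abs_mul]
          exact add_le_add (mul_le_mul h1 h2 (abs_nonneg _) hM₀0) h3
      _ = _ := by ring
  refine ⟨Real.toNNReal (max M₀ 0 * K + max M₁ 0 * K₁), LipschitzWith.of_dist_le_mul fun x y => ?_⟩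
  rw [Real.coe_toNNReal _ (by positivity), Real.dist_eq]
  by_cases hx : η x = 0
  · by_cases hy : η y = 0
    · rw [hx, hy]; simp only [mul_zero, sub_self, abs_zero]; positivity
    · rw [abs_sub_comm, dist_comm]; exact key y x hy
  · exact key x y hx

theorem dgcu_mul_lipschitz {c η : DgE n → ℝ} (hc : ContDiff ℝ 1 c)
    {K : ℝ≥0} (hη : LipschitzWith K η) (hs : HasCompactSupport η) :
    ∃ K' : ℝ≥0, LipschitzWith K' (fun x => c x * η x) :=
  dgcu_mul_lipschitz_of_locallyLipschitz hc.locallyLipschitz hη hs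

theorem dgcu_mul_hasCompactSupport (c : DgE n → ℝ) {η : DgE n → ℝ} (hs : HasCompactSupport η) :
    HasCompactSupport (fun x => c x * η x) := hs.mul_left

/-- the product rule holds almost everywhere. -/
theorem dgcu_ae_fderiv_mul {c η : DgE n → ℝ} (hc : Differentiable ℝ c)
    {K : ℝ≥0} (hη : LipschitzWith K η) :
    ∀ᵐ x, fderiv ℝ (fun x => c x * η x) x = c x • fderiv ℝ η x + η x • fderiv ℝ c x := by
  filter_upwards [hη.ae_differentiableAt (μ := volume)] with x hx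
  exact fderiv_fun_mul (hc x) hx

/-- the square of the norm of a sum in the dual, with the cross term written by the gradient. -/
theorem dgcu_norm_sq_smul_add (a b : ℝ) (A B : DgE n →L[ℝ] ℝ) :
    ‖a • A + b • B‖ ^ 2 = a ^ 2 * ‖A‖ ^ 2 +
      2 * a * b * A ((InnerProductSpace.toDual ℝ (DgE n)).symm B) + b ^ 2 * ‖B‖ ^ 2 := by
  set T := (InnerProductSpace.toDual ℝ (DgE n)).symm with hT
  have hn : ∀ L : DgE n →L[ℝ] ℝ, ‖L‖ = ‖T L‖ := fun L => (LinearIsometryEquiv.norm_map T L).symm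
  have hA : A (T B) = inner ℝ (T A) (T B) := by
    rw [hT, InnerProductSpace.toDual_symm_apply]
  rw [hn, hn A, hn B, map_add, map_smul, map_smul, hA, norm_add_sq_real, norm_smul, norm_smul,
    real_inner_smul_left, real_inner_smul_right]
  simp only [Real.norm_eq_abs, mul_pow, sq_abs]
  ring

/-- **Stability tested with `c η`** (`c ∈ C¹`, `η` Lipschitz with compact support). -/
theorem dgcu_stable_mul {v : DgE n → ℝ} (hv : Continuous v) (hst : DgStable n v)
    {c η : DgE n → ℝ} (hc : ContDiff ℝ 1 c) {K : ℝ≥0} (hη : LipschitzWith K η)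
    (hs : HasCompactSupport η) : 0 ≤ dgQ n v (fun x => c x * η x) := by
  obtain ⟨K', hK'⟩ := dgcu_mul_lipschitz hc hη hs
  exact dg88_DgStable_lipschitz hv hst hK' (dgcu_mul_hasCompactSupport c hs)

/-- the expanded form of the second variation at `c η`. -/
theorem dgcu_dgQ_mul (v : DgE n → ℝ) {c η : DgE n → ℝ} (hc : Differentiable ℝ c)
    {K : ℝ≥0} (hη : LipschitzWith K η) :
    dgQ n v (fun x => c x * η x) =
      ∫ x, (c x ^ 2 * ‖fderiv ℝ η x‖ ^ 2 +
        2 * c x * η x * fderiv ℝ η x ((InnerProductSpace.toDual ℝ (DgE n)).symm (fderiv ℝ c x)) +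
        η x ^ 2 * ‖fderiv ℝ c x‖ ^ 2 + (3 * v x ^ 2 - 1) * (c x * η x) ^ 2) := by
  rw [dgQ]
  refine integral_congr_ae ?_
  filter_upwards [dgcu_ae_fderiv_mul hc hη] with x hx
  rw [hx, dgcu_norm_sq_smul_add]

/-! ## EXITS -/

/-- EXIT (linear cut-off): all the properties at once. -/
theorem dgcu_exit_lin {R : ℝ} (hR : 0 < R) :
    LipschitzWith (Real.toNNReal (1 / R)) (dgcu_lin (n := n) R) ∧
      HasCompactSupport (dgcu_lin (n := n) R) ∧
      (∀ x : DgE n, 0 ≤ dgcu_lin R x ∧ dgcu_lin R x ≤ 1) ∧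
      (∀ x : DgE n, ‖x‖ ≤ R → dgcu_lin R x = 1) ∧
      (∀ x : DgE n, 2 * R ≤ ‖x‖ → dgcu_lin R x = 0) ∧
      (∀ x : DgE n, ‖fderiv ℝ (dgcu_lin (n := n) R) x‖ ≤ 1 / R) :=
  ⟨dgcu_lin_lipschitz hR, dgcu_lin_hasCompactSupport hR,
    fun x => ⟨dgcu_lin_nonneg R x, dgcu_lin_le_one R x⟩, fun _ hx => dgcu_lin_eq_one hR hx,
    fun _ hx => dgcu_lin_eq_zero hR hx, fun x => dgcu_lin_norm_fderiv_le hR x⟩

/-- EXIT (smooth cut-off): all the properties at once, with a dimensional constant. -/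
theorem dgcu_exit_smooth (n : ℕ) : ∃ C : ℝ, 0 ≤ C ∧ ∀ R : ℝ, 0 < R →
    ContDiff ℝ ∞ (dgcu_smooth (n := n) R) ∧ HasCompactSupport (dgcu_smooth (n := n) R) ∧
      (∀ x : DgE n, 0 ≤ dgcu_smooth R x ∧ dgcu_smooth R x ≤ 1) ∧
      (∀ x : DgE n, ‖x‖ ≤ R → dgcu_smooth R x = 1) ∧
      (∀ x : DgE n, 2 * R ≤ ‖x‖ → dgcu_smooth R x = 0) ∧
      (∀ x : DgE n, ‖fderiv ℝ (dgcu_smooth (n := n) R) x‖ ≤ C / R) := by
  obtain ⟨C, hC0, hC⟩ := dgcu_smooth_norm_fderiv_le n
  exact ⟨C, hC0, fun R hR => ⟨dgcu_smooth_contDiff R, dgcu_smooth_hasCompactSupport hR,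
    fun x => ⟨dgcu_smooth_nonneg R x, dgcu_smooth_le_one R x⟩, fun _ hx => dgcu_smooth_eq_one hR hx,
    fun _ hx => dgcu_smooth_eq_zero hR hx, fun x => hC R hR x⟩⟩

/-- EXIT (logarithmic cut-off): all the properties at once. -/
theorem dgcu_exit_log {R : ℝ} (hR : 1 < R) :
    LipschitzWith (Real.toNNReal (1 / (R * Real.log R))) (dgcu_log (n := n) R) ∧
      HasCompactSupport (dgcu_log (n := n) R) ∧
      (∀ x : DgE n, 0 ≤ dgcu_log R x ∧ dgcu_log R x ≤ 1) ∧
      (∀ x : DgE n, ‖x‖ ≤ R → dgcu_log R x = 1) ∧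
      (∀ x : DgE n, R ^ 2 ≤ ‖x‖ → dgcu_log R x = 0) ∧
      (∀ x : DgE n, R ≤ ‖x‖ → ‖fderiv ℝ (dgcu_log (n := n) R) x‖ ≤ 1 / (‖x‖ * Real.log R)) :=
  ⟨dgcu_log_lipschitz hR, dgcu_log_hasCompactSupport hR,
    fun x => ⟨dgcu_log_nonneg R x, dgcu_log_le_one hR x⟩, fun _ hx => dgcu_log_eq_one hR hx,
    fun _ hx => dgcu_log_eq_zero hR hx, fun _ hx => dgcu_log_norm_fderiv_le hR hx⟩

/-- EXIT (capacity of quadratic growth): if `F ≥ 0` has `∫_{B_r} F ≤ C r²`, then the weighted Dirichlet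
energies of the logarithmic cut-offs tend to `0`. -/
theorem dgcu_exit_log_energy_tendsto {F : DgE n → ℝ} (hF : ∀ x, 0 ≤ F x)
    (hint : ∀ r : ℝ, IntegrableOn F (ball 0 r)) {C : ℝ}
    (hC : ∀ r : ℝ, 1 ≤ r → ∫ x in ball (0 : DgE n) r, F x ≤ C * r ^ 2) :
    Tendsto (fun R : ℝ => ∫ x, F x * ‖fderiv ℝ (dgcu_log (n := n) R) x‖ ^ 2) atTop (𝓝 0) := by
  have h1 : Tendsto (fun R : ℝ => 20 * C / Real.log R) atTop (𝓝 0) :=
    Real.tendsto_log_atTop.const_div_atTop _
  refine squeeze_zero' (Eventually.of_forall fun R => integral_nonneg fun x =>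
    mul_nonneg (hF x) (sq_nonneg _)) ?_ h1
  filter_upwards [eventually_ge_atTop (2 : ℝ)] with R hR
  exact dgcu_log_energy hR hF hint hC

end

end Claimed.Agent.R329
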