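import Claimed.Agent.R329.StabMono

/-!
# Row 329, post A19 (helper158, prefix `dgCy_`): the long-cylinder test and the stability of the end profiles

Second paragraph of the proof of `lem:monotone-ends` (Lemma 3.1 of the paper).

* `dgCy_integral_snoc`: Fubini on `DgE (n+1) = ℝ × DgE n` through `dgSnoc`.
* `dgCy_form_prod`: the second variation of a cylindrical function `V(x', t) = v(x')` at a product test `φ(x') ζ(t)`.
* `dgCy_stable_of_cyl`: **long-cylinder test**: `V` stable in `ℝ^{n+1}` ⟹ `v` stable in `ℝⁿ`.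
* `dgCy_stable_translate`, `dgCy_stable_limit`: stability is invariant under translations and passes to bounded pointwise limits
  (only `v`, no derivative of `v`, enters the form).
* EXITS: the end profiles of a stable bounded continuous function are stable.
-/

set_option autoImplicit false
open MeasureTheory Metric Set Filter Topology

namespace Claimed.Agent.R329

noncomputable section

variable {n : ℕ}

/-! ### Fubini -/

/-- `DgE (n+1) ≃ ℝ × DgE n`, the last coordinate first. -/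
def dgCy_equiv (n : ℕ) : DgE (n + 1) ≃ᵐ ℝ × DgE n :=
  ((MeasurableEquiv.toLp 2 (Fin (n + 1) → ℝ)).symm.trans
    (MeasurableEquiv.piFinSuccAbove (fun _ => ℝ) (Fin.last n))).trans
    (MeasurableEquiv.prodCongr (MeasurableEquiv.refl ℝ) (MeasurableEquiv.toLp 2 (Fin n → ℝ)))

theorem dgCy_equiv_mp (n : ℕ) : MeasurePreserving (dgCy_equiv n) := by
  refine ((EuclideanSpace.volume_preserving_symm_measurableEquiv_toLp (Fin (n + 1))).trans
    (volume_preserving_piFinSuccAbove (fun _ => ℝ) (Fin.last n))).trans ?_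
  exact (MeasurePreserving.id volume).prod (PiLp.volume_preserving_toLp (Fin n))

theorem dgCy_equiv_symm_apply (t : ℝ) (x' : DgE n) : (dgCy_equiv n).symm (t, x') = dgSnoc x' t := by
  simp only [dgCy_equiv, dgSnoc]
  apply (MeasurableEquiv.toLp 2 (Fin (n + 1) → ℝ)).symm.injective
  ext j
  refine Fin.lastCases ?_ (fun i => ?_) j <;> simp [MeasurableEquiv.piFinSuccAbove, Fin.insertNthEquiv] <;> rfl

/-- **Fubini** on `DgE (n+1)`: no integrability is needed for this change of variables. -/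
theorem dgCy_integral_snoc (F : DgE (n + 1) → ℝ) :
    ∫ x, F x = ∫ p : ℝ × DgE n, F (dgSnoc p.2 p.1) := by
  have h := (dgCy_equiv_mp n).symm.integral_comp' F
  rw [← h]
  refine integral_congr_ae (Eventually.of_forall fun p => ?_)
  show F ((dgCy_equiv n).symm p) = F (dgSnoc p.2 p.1)
  rw [← dgCy_equiv_symm_apply]

/-! ### The two projections -/

/-- forget the last coordinate, as a continuous linear map -/
def dgCy_init (n : ℕ) : DgE (n + 1) →L[ℝ] DgE n :=
  (PiLp.continuousLinearEquiv 2 ℝ (fun _ : Fin n => ℝ)).symm.toContinuousLinearMap ∘L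
    ContinuousLinearMap.pi (fun i : Fin n => (EuclideanSpace.proj i.castSucc : DgE (n + 1) →L[ℝ] ℝ))

/-- the last coordinate, as a continuous linear map -/
def dgCy_last (n : ℕ) : DgE (n + 1) →L[ℝ] ℝ :=
  EuclideanSpace.proj (Fin.last n)

@[simp] theorem dgCy_init_apply (x : DgE (n + 1)) (i : Fin n) : dgCy_init n x i = x i.castSucc := rfl

@[simp] theorem dgCy_last_apply (x : DgE (n + 1)) : dgCy_last n x = x (Fin.last n) := rfl

@[simp] theorem dgCy_init_snoc (x' : DgE n) (t : ℝ) : dgCy_init n (dgSnoc x' t) = x' := by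
  ext i
  simp [dgSnoc]

@[simp] theorem dgCy_last_snoc (x' : DgE n) (t : ℝ) : dgCy_last n (dgSnoc x' t) = t := by
  simp [dgSnoc]

theorem dgCy_snoc_init_last (x : DgE (n + 1)) : dgSnoc (dgCy_init n x) (dgCy_last n x) = x := by
  ext j
  refine Fin.lastCases ?_ (fun i => ?_) j <;> simp [dgSnoc]

theorem dgCy_continuous_snoc : Continuous (fun p : ℝ × DgE n => dgSnoc p.2 p.1) := by
  unfold dgSnoc
  refine (PiLp.continuous_toLp 2 _).comp (continuous_pi fun j => ?_)
  refine Fin.lastCases ?_ (fun i => ?_) j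
  · simpa using continuous_fst
  · simp only [Fin.snoc_castSucc]
    exact (EuclideanSpace.proj i : DgE n →L[ℝ] ℝ).continuous.comp continuous_snd

theorem dgCy_init_single_castSucc (i : Fin n) :
    dgCy_init n (EuclideanSpace.single i.castSucc (1 : ℝ)) = EuclideanSpace.single i (1 : ℝ) := by
  ext k
  simp [Fin.castSucc_inj]

theorem dgCy_init_single_last : dgCy_init n (EuclideanSpace.single (Fin.last n) (1 : ℝ)) = 0 := by
  ext k
  simp [(Fin.castSucc_lt_last k).ne]

theorem dgCy_last_single_castSucc (i : Fin n) :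
    dgCy_last n (EuclideanSpace.single i.castSucc (1 : ℝ)) = 0 := by
  simp [(Fin.castSucc_lt_last i).ne']

theorem dgCy_last_single_last : dgCy_last n (EuclideanSpace.single (Fin.last n) (1 : ℝ)) = 1 := by
  simp

/-! ### Product test functions -/

/-- the product test function `φ(x') ζ(t)` -/
def dgCy_test (φ : DgE n → ℝ) (ζ : ℝ → ℝ) : DgE (n + 1) → ℝ :=
  fun x => φ (dgCy_init n x) * ζ (dgCy_last n x)

theorem dgCy_test_snoc (φ : DgE n → ℝ) (ζ : ℝ → ℝ) (x' : DgE n) (t : ℝ) :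
    dgCy_test φ ζ (dgSnoc x' t) = φ x' * ζ t := by
  rw [dgCy_test, dgCy_init_snoc, dgCy_last_snoc]

theorem dgCy_test_contDiff {φ : DgE n → ℝ} {ζ : ℝ → ℝ} (hφ : ContDiff ℝ 1 φ) (hζ : ContDiff ℝ 1 ζ) :
    ContDiff ℝ 1 (dgCy_test φ ζ) :=
  (hφ.comp (dgCy_init n).contDiff).mul (hζ.comp (dgCy_last n).contDiff)

theorem dgCy_test_hcs {φ : DgE n → ℝ} {ζ : ℝ → ℝ} (hφ : HasCompactSupport φ) (hζ : HasCompactSupport ζ) :
    HasCompactSupport (dgCy_test φ ζ) := by
  have hK : IsCompact ((fun p : ℝ × DgE n => dgSnoc p.2 p.1) '' (tsupport ζ ×ˢ tsupport φ)) :=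
    (hζ.isCompact.prod hφ.isCompact).image dgCy_continuous_snoc
  refine HasCompactSupport.intro hK fun x hx => ?_
  by_contra hne
  apply hx
  have h1 : φ (dgCy_init n x) ≠ 0 := left_ne_zero_of_mul hne
  have h2 : ζ (dgCy_last n x) ≠ 0 := right_ne_zero_of_mul hne
  exact ⟨(dgCy_last n x, dgCy_init n x), ⟨subset_tsupport _ h2, subset_tsupport _ h1⟩, dgCy_snoc_init_last x⟩

/-- `|∇(φ ζ)|² = ζ² |∇φ|² + φ² ζ'²`. -/
theorem dgCy_test_norm_sq {φ : DgE n → ℝ} {ζ : ℝ → ℝ} (hφ : ContDiff ℝ 1 φ) (hζ : ContDiff ℝ 1 ζ)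
    (x : DgE (n + 1)) :
    ‖fderiv ℝ (dgCy_test φ ζ) x‖ ^ 2 =
      ζ (dgCy_last n x) ^ 2 * ‖fderiv ℝ φ (dgCy_init n x)‖ ^ 2 +
        (deriv ζ (dgCy_last n x)) ^ 2 * φ (dgCy_init n x) ^ 2 := by
  have h1 : HasFDerivAt (fun y => φ (dgCy_init n y))
      ((fderiv ℝ φ (dgCy_init n x)).comp (dgCy_init n)) x :=
    (((hφ.differentiable (by norm_num)) _).hasFDerivAt).comp x (dgCy_init n).hasFDerivAt
  have h2 : HasFDerivAt (fun y => ζ (dgCy_last n y)) (deriv ζ (dgCy_last n x) • dgCy_last n) x :=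
    (((hζ.differentiable (by norm_num)) _).hasDerivAt).comp_hasFDerivAt x (dgCy_last n).hasFDerivAt
  have h3 := (h1.mul h2).fderiv
  have h4 : fderiv ℝ (dgCy_test φ ζ) x = _ := h3
  rw [h4, dgA7_norm_sq_clm (EuclideanSpace.basisFun (Fin (n + 1)) ℝ),
    dgA7_norm_sq_clm (EuclideanSpace.basisFun (Fin n) ℝ), Fin.sum_univ_castSucc, Finset.mul_sum]
  congr 1
  · refine Finset.sum_congr rfl fun i _ => ?_
    simp only [EuclideanSpace.basisFun_apply, add_apply, smul_apply,
      ContinuousLinearMap.comp_apply, dgCy_init_single_castSucc, dgCy_last_single_castSucc, smul_eq_mul]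
    ring
  · simp only [EuclideanSpace.basisFun_apply, add_apply, smul_apply,
      ContinuousLinearMap.comp_apply, dgCy_init_single_last, dgCy_last_single_last, smul_eq_mul, map_zero]
    ring

theorem dgCy_hcs_sq {X : Type*} [TopologicalSpace X] {f : X → ℝ} (h : HasCompactSupport f) :
    HasCompactSupport (fun x => f x ^ 2) := by
  have := h.comp_left (g := fun r : ℝ => r ^ 2) (by norm_num)
  exact this

theorem dgCy_hcs_norm_sq {m : ℕ} {φ : DgE m → ℝ} (h : HasCompactSupport φ) :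
    HasCompactSupport (fun x => ‖fderiv ℝ φ x‖ ^ 2) := by
  have := (h.fderiv (𝕜 := ℝ)).comp_left (g := fun L : DgE m →L[ℝ] ℝ => ‖L‖ ^ 2) (by simp)
  exact this

/-- The second variation of a cylindrical function at a product test function. -/
theorem dgCy_form_prod {V : DgE (n + 1) → ℝ} {v : DgE n → ℝ} (hV : ∀ x' t, V (dgSnoc x' t) = v x')
    (hv : Continuous v) {φ : DgE n → ℝ} {ζ : ℝ → ℝ} (hφ : ContDiff ℝ 1 φ) (hφc : HasCompactSupport φ)
    (hζ : ContDiff ℝ 1 ζ) (hζc : HasCompactSupport ζ) :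
    ∫ x, (‖fderiv ℝ (dgCy_test φ ζ) x‖ ^ 2 + (3 * V x ^ 2 - 1) * dgCy_test φ ζ x ^ 2) =
      (∫ t, ζ t ^ 2) * (∫ x', (‖fderiv ℝ φ x'‖ ^ 2 + (3 * v x' ^ 2 - 1) * φ x' ^ 2)) +
        (∫ t, deriv ζ t ^ 2) * ∫ x', φ x' ^ 2 := by
  rw [dgCy_integral_snoc]
  have hpt : ∀ p : ℝ × DgE n,
      ‖fderiv ℝ (dgCy_test φ ζ) (dgSnoc p.2 p.1)‖ ^ 2 +
        (3 * V (dgSnoc p.2 p.1) ^ 2 - 1) * dgCy_test φ ζ (dgSnoc p.2 p.1) ^ 2 =
      ζ p.1 ^ 2 * (‖fderiv ℝ φ p.2‖ ^ 2 + (3 * v p.2 ^ 2 - 1) * φ p.2 ^ 2) +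
        deriv ζ p.1 ^ 2 * φ p.2 ^ 2 := by
    intro p
    rw [dgCy_test_norm_sq hφ hζ, dgCy_test_snoc, hV, dgCy_init_snoc, dgCy_last_snoc]
    ring
  simp_rw [hpt]
  have I1 : Integrable (fun t => ζ t ^ 2) :=
    (hζ.continuous.pow 2).integrable_of_hasCompactSupport
      (dgCy_hcs_sq hζc)
  have I3 : Integrable (fun t => deriv ζ t ^ 2) :=
    ((hζ.continuous_deriv (by norm_num)).pow 2).integrable_of_hasCompactSupport
      (dgCy_hcs_sq hζc.deriv)
  have I4 : Integrable (fun x' => φ x' ^ 2) :=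
    (hφ.continuous.pow 2).integrable_of_hasCompactSupport
      (dgCy_hcs_sq hφc)
  have I2 : Integrable (fun x' => ‖fderiv ℝ φ x'‖ ^ 2 + (3 * v x' ^ 2 - 1) * φ x' ^ 2) := by
    refine Integrable.add ?_ ?_
    · exact (((hφ.continuous_fderiv (by norm_num)).norm).pow 2).integrable_of_hasCompactSupport
        (dgCy_hcs_norm_sq hφc)
    · exact ((((continuous_const.mul (hv.pow 2)).sub continuous_const)).mul
        (hφ.continuous.pow 2)).integrable_of_hasCompactSupport
        (dgCy_hcs_sq hφc).mul_left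
  have e1 := integral_prod_mul (μ := (volume : Measure ℝ)) (ν := (volume : Measure (DgE n)))
    (fun t => ζ t ^ 2) (fun x' => ‖fderiv ℝ φ x'‖ ^ 2 + (3 * v x' ^ 2 - 1) * φ x' ^ 2)
  have e2 := integral_prod_mul (μ := (volume : Measure ℝ)) (ν := (volume : Measure (DgE n)))
    (fun t => deriv ζ t ^ 2) (fun x' => φ x' ^ 2)
  rw [← e1, ← e2]
  exact integral_add (I1.mul_prod I2) (I3.mul_prod I4)

/-- **The long-cylinder test.**  If the cylindrical extension `V(x', t) = v(x')` is stable in `ℝ^{n+1}` then `v` is stable in `ℝⁿ`. -/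
theorem dgCy_stable_of_cyl {V : DgE (n + 1) → ℝ} {v : DgE n → ℝ} (hV : ∀ x' t, V (dgSnoc x' t) = v x')
    (hv : Continuous v) (hs : DgStable (n + 1) V) : DgStable n v := by
  intro φ hφ hφc
  set Q : ℝ := ∫ x', (‖fderiv ℝ φ x'‖ ^ 2 + (3 * v x' ^ 2 - 1) * φ x' ^ 2) with hQ
  set B : ℝ := ∫ x', φ x' ^ 2 with hB
  -- a fixed bump function on the line
  let f : ContDiffBump (0 : ℝ) := default
  have hf : ContDiff ℝ 1 (f : ℝ → ℝ) := f.contDiff
  have hfc : HasCompactSupport (f : ℝ → ℝ) := f.hasCompactSupport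
  set A0 : ℝ := ∫ t, f t ^ 2 with hA0
  set D0 : ℝ := ∫ t, deriv f t ^ 2 with hD0e
  have hA0pos : 0 < A0 := by
    refine Continuous.integral_pos_of_hasCompactSupport_nonneg_nonzero (x := (0 : ℝ)) (hf.continuous.pow 2)
      (dgCy_hcs_sq hfc) (fun t => sq_nonneg _) ?_
    have : f (0 : ℝ) = 1 := f.one_of_mem_closedBall (by simp [f.rIn_pos.le])
    simp [this]
  have hD0 : 0 ≤ D0 := integral_nonneg fun t => sq_nonneg _
  have hB0 : 0 ≤ B := integral_nonneg fun t => sq_nonneg _
  -- the test with `ζ(t) = f(a t)`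
  have key : ∀ a : ℝ, 0 < a → 0 ≤ A0 * Q + a ^ 2 * (D0 * B) := by
    intro a ha
    have hζ : ContDiff ℝ 1 (fun t : ℝ => f (a * t)) := hf.comp (contDiff_const.mul contDiff_id)
    have hζc : HasCompactSupport (fun t : ℝ => f (a * t)) :=
      hfc.comp_homeomorph (Homeomorph.mulLeft₀ a ha.ne')
    have h1 := hs _ (dgCy_test_contDiff hφ hζ) (dgCy_test_hcs hφc hζc)
    rw [dgCy_form_prod hV hv hφ hφc hζ hζc] at h1
    have e1 : ∫ t, f (a * t) ^ 2 = a⁻¹ * A0 := by
      have := Measure.integral_comp_mul_left (fun t => f t ^ 2) a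
      rw [this, abs_of_pos (inv_pos.2 ha), smul_eq_mul]
    have e2 : ∫ t, deriv (fun t : ℝ => f (a * t)) t ^ 2 = a * D0 := by
      have h2 : ∀ t, deriv (fun t : ℝ => f (a * t)) t ^ 2 = a ^ 2 * (deriv f (a * t)) ^ 2 := by
        intro t
        rw [deriv_comp_mul_left, smul_eq_mul]
        ring
      simp_rw [h2]
      rw [integral_const_mul]
      have := Measure.integral_comp_mul_left (fun t => deriv f t ^ 2) a
      rw [this, abs_of_pos (inv_pos.2 ha), smul_eq_mul, ← hD0e]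
      field_simp
    rw [e1, e2] at h1
    have h3 : A0 * Q + a ^ 2 * (D0 * B) = a * (a⁻¹ * A0 * Q + a * D0 * B) := by
      field_simp
    rw [h3]
    exact mul_nonneg ha.le h1
  by_contra hneg
  rw [not_le] at hneg
  set c : ℝ := -(A0 * Q) with hc
  have hcpos : 0 < c := by
    have := mul_neg_of_pos_of_neg hA0pos hneg
    linarith
  set d : ℝ := D0 * B with hd
  have hd0 : 0 ≤ d := mul_nonneg hD0 hB0
  -- choose `a = min 1 (c / (d + 1))`
  have ha1 : 0 < min 1 (c / (d + 1)) := lt_min one_pos (div_pos hcpos (by linarith))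
  have h1 := key _ ha1
  set a := min 1 (c / (d + 1)) with ha
  have h2 : a ^ 2 * d ≤ a * d := by
    have : a ^ 2 ≤ a := by
      have h : a ≤ 1 := min_le_left _ _
      nlinarith
    exact mul_le_mul_of_nonneg_right this hd0
  have h3 : a * d ≤ c / (d + 1) * d := mul_le_mul_of_nonneg_right (min_le_right _ _) hd0
  have h4 : c / (d + 1) * d < c := by
    rw [div_mul_eq_mul_div, div_lt_iff₀ (by linarith)]
    nlinarith
  linarith

/-! ### Translations and pointwise limits -/

variable {N : ℕ}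

/-- Stability is invariant under translations. -/
theorem dgCy_stable_translate {u : DgE N → ℝ} (hs : DgStable N u) (a : DgE N) :
    DgStable N (fun x => u (x + a)) := by
  intro φ hφ hφc
  have h1 := hs (fun x => φ (x - a)) (hφ.comp (contDiff_id.sub contDiff_const))
    (hφc.comp_homeomorph (Homeomorph.subRight a))
  have h2 := integral_add_right_eq_self (μ := (volume : Measure (DgE N)))
    (fun x => ‖fderiv ℝ (fun y => φ (y - a)) x‖ ^ 2 + (3 * u x ^ 2 - 1) * φ (x - a) ^ 2) a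
  rw [← h2] at h1
  refine h1.trans (le_of_eq ?_)
  refine integral_congr_ae (Eventually.of_forall fun x => ?_)
  simp only [fderiv_comp_sub, add_sub_cancel_right]

/-- Stability passes to pointwise limits of continuous functions with values in `[-1, 1]`. -/
theorem dgCy_stable_limit {u : ℕ → DgE N → ℝ} {V : DgE N → ℝ} (hs : ∀ k, DgStable N (u k))
    (hc : ∀ k, Continuous (u k)) (hb : ∀ k x, u k x ∈ Set.Icc (-1 : ℝ) 1)
    (hlim : ∀ x, Tendsto (fun k => u k x) atTop (𝓝 (V x))) : DgStable N V := by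
  intro φ hφ hφc
  have hcφ : Continuous (fun x => ‖fderiv ℝ φ x‖ ^ 2) := ((hφ.continuous_fderiv (by norm_num)).norm).pow 2
  have hbound_int : Integrable (fun x => ‖fderiv ℝ φ x‖ ^ 2 + 2 * φ x ^ 2) := by
    refine Integrable.add ?_ ?_
    · exact hcφ.integrable_of_hasCompactSupport
        (dgCy_hcs_norm_sq hφc)
    · exact (continuous_const.mul (hφ.continuous.pow 2)).integrable_of_hasCompactSupport
        (dgCy_hcs_sq hφc).mul_left
  have hl : Tendsto (fun k => ∫ x, (‖fderiv ℝ φ x‖ ^ 2 + (3 * u k x ^ 2 - 1) * φ x ^ 2)) atTop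
      (𝓝 (∫ x, (‖fderiv ℝ φ x‖ ^ 2 + (3 * V x ^ 2 - 1) * φ x ^ 2))) := by
    refine tendsto_integral_of_dominated_convergence (fun x => ‖fderiv ℝ φ x‖ ^ 2 + 2 * φ x ^ 2)
      (fun k => ?_) hbound_int ?_ ?_
    · exact (hcφ.add (((continuous_const.mul ((hc k).pow 2)).sub continuous_const).mul
        (hφ.continuous.pow 2))).aestronglyMeasurable
    · intro k
      refine Eventually.of_forall fun x => ?_
      have h := hb k x
      have h1 : |3 * u k x ^ 2 - 1| ≤ 2 := by
        rw [abs_le]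
        constructor <;> nlinarith [h.1, h.2, sq_nonneg (u k x)]
      rw [Real.norm_eq_abs]
      calc |‖fderiv ℝ φ x‖ ^ 2 + (3 * u k x ^ 2 - 1) * φ x ^ 2|
          ≤ |‖fderiv ℝ φ x‖ ^ 2| + |(3 * u k x ^ 2 - 1) * φ x ^ 2| := abs_add_le _ _
        _ = ‖fderiv ℝ φ x‖ ^ 2 + |3 * u k x ^ 2 - 1| * φ x ^ 2 := by
            rw [abs_of_nonneg (by positivity), abs_mul, abs_of_nonneg (sq_nonneg (φ x))]
        _ ≤ ‖fderiv ℝ φ x‖ ^ 2 + 2 * φ x ^ 2 := by
            have := mul_le_mul_of_nonneg_right h1 (sq_nonneg (φ x))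
            linarith
    · refine Eventually.of_forall fun x => ?_
      exact ((((hlim x).pow 2).const_mul 3).sub_const 1).mul_const (φ x ^ 2) |>.const_add _
  exact ge_of_tendsto' hl fun k => hs k φ hφ hφc

/-! ## EXITS -/

/-- EXIT 1: limits of translates of a stable function are stable (any direction, any countably generated filter). -/
theorem dgCy_exit_translates {u V : DgE N → ℝ} (hc : Continuous u) (hb : ∀ x, u x ∈ Set.Icc (-1 : ℝ) 1)
    (hs : DgStable N u) (e : DgE N) (l : Filter ℝ) [l.NeBot] [l.IsCountablyGenerated]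
    (hlim : ∀ x, Tendsto (fun s : ℝ => u (x + s • e)) l (𝓝 (V x))) : DgStable N V := by
  obtain ⟨s, hsl⟩ := exists_seq_tendsto l
  exact dgCy_stable_limit (u := fun k x => u (x + s k • e)) (fun k => dgCy_stable_translate hs _)
    (fun k => hc.comp (continuous_id.add continuous_const)) (fun k x => hb _)
    (fun x => (hlim x).comp hsl)

/-- EXIT 2 (the stability clauses of K2): an end profile of a stable function is stable in one dimension less. -/
theorem dgCy_exit_profile {u V : DgE (n + 1) → ℝ} {v : DgE n → ℝ} (hc : Continuous u)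
    (hb : ∀ x, u x ∈ Set.Icc (-1 : ℝ) 1) (hs : DgStable (n + 1) u) (e : DgE (n + 1))
    (l : Filter ℝ) [l.NeBot] [l.IsCountablyGenerated]
    (hlim : ∀ x, Tendsto (fun s : ℝ => u (x + s • e)) l (𝓝 (V x)))
    (hV : ∀ x' t, V (dgSnoc x' t) = v x') (hv : Continuous v) : DgStable n v :=
  dgCy_stable_of_cyl hV hv (dgCy_exit_translates hc hb hs e l hlim)

/-- `dgCy_init` is the map `dgInit` of the Hub (same right-hand side). -/
theorem dgCy_init_eq (x : DgE (n + 1)) : dgCy_init n x = WithLp.toLp 2 fun i : Fin n => x i.castSucc := rfl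

/-- EXIT 3: EXIT 2 in the words of the contract K2 of the Hub (`dgInit x = WithLp.toLp 2 fun i => x i.castSucc` by `rfl`):
pointwise convergence `u(x + s e) → v(dgInit x)` along `atTop` / `atBot` is enough. -/
theorem dgCy_exit_K2 {u : DgE (n + 1) → ℝ} {v : DgE n → ℝ} (hc : Continuous u)
    (hb : ∀ x, u x ∈ Set.Icc (-1 : ℝ) 1) (hs : DgStable (n + 1) u) (e : DgE (n + 1))
    (l : Filter ℝ) [l.NeBot] [l.IsCountablyGenerated]
    (hlim : ∀ x : DgE (n + 1), Tendsto (fun s : ℝ => u (x + s • e)) l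
      (𝓝 (v (WithLp.toLp 2 fun i : Fin n => x i.castSucc))))
    (hv : Continuous v) : DgStable n v :=
  dgCy_exit_profile (V := fun x => v (dgCy_init n x)) hc hb hs e l hlim
    (fun x' t => by rw [dgCy_init_snoc]) hv

end

end Claimed.Agent.R329
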