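import Claimed.Agent.R329.Defs
import Claimed.Agent.Lib.Gmt.FlStep

/-!
# Row 329, contract K7 (unit density at infinity ⇒ planar).  THE DIFFUSE Fl-PORT: DEFINITIONS.      (pen: helper35)

ROAD.  `Lib/Gmt/Fl*` (architect helper190) proves "flat ⇒ flatter" for a Gauss-Green pair `(μ, ν)` with small first variation, by explicit
test fields only.  Here the pair is diffuse.  `v(y) = u(x₀ + (r/4) L⁻¹ y)`, layer width `w = 4/r`, `w² Δ v = v³ - v`,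
`χ = dfChi (v) = Φ(v)/s₀ ∈ (0,1)` replaces the indicator of `S`, `ν = -∇v/|∇v|`, and (all densities divided by `s₀ = 2√2/3`)
* `dfA` = `w|∇v|²/s₀`  (the measure `μ` of the first variation),
* `dfB` = `|∇ χ(v)| = (3/4)(1-v²)|∇v|`  (the measure `μ₁` of Gauss-Green),
* `dfE` = energy density, `dfXi` = discrepancy `≥ 0` (Modica);  `dfA ≤ dfB ≤ dfE = dfA + dfXi`.
EXACT IDENTITIES:  (GG') `∫ χ div T = -∫ ⟨∇χ, T⟩`;   (FV') `∫ (|∇v|² div X - ⟨∇v, DX ∇v⟩) w/s₀ = -∫ dfXi div X`.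
GLOBAL FACTS (`DfClass`, unscaled): unit density at all centres and scales, `∫_{B_r(y)} ξ ≤ K r^{n-1}` (Morrey bound of the
discrepancy, from the `q`-test), lower density at interface points.   ONE small parameter `w`; stopping rule `w ≤ c₁ ε²`.
INTERFACE POINT := `|u x| ≤ 7/8`.   `u ≥ 7/8` BELOW the slab, `u ≤ -7/8` ABOVE (as `FlFlat`: the set `{u > 0}` lies below).
-/

set_option autoImplicit false
open scoped ContDiff RealInnerProductSpace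
open MeasureTheory Metric Set Filter

namespace Claimed.Agent.R329

open Claimed.Agent.Gmt

/-- the surface tension `s₀ = 2√2/3`. -/
noncomputable def dfS0 : ℝ := 2 * Real.sqrt 2 / 3

/-- `χ(t) = Φ(t)/s₀ = (2 + 3t - t³)/4`, `Φ(t) = ∫_{-1}^t (1-s²)/√2 ds`;  `χ' = (3/4)(1-t²)`, `χ(-1) = 0`, `χ(1) = 1`. -/
noncomputable def dfChi (t : ℝ) : ℝ := (2 + 3 * t - t ^ 3) / 4

/-- normalised energy density at layer width `w`. -/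
noncomputable def dfE {m : ℕ} (w : ℝ) (v : E m → ℝ) (y : E m) : ℝ :=
  (w * ‖fderiv ℝ v y‖ ^ 2 / 2 + dgW (v y) / w) / dfS0

/-- normalised gradient density `w|∇v|²/s₀`. -/
noncomputable def dfA {m : ℕ} (w : ℝ) (v : E m → ℝ) (y : E m) : ℝ := w * ‖fderiv ℝ v y‖ ^ 2 / dfS0

/-- normalised discrepancy `(W(v)/w - w|∇v|²/2)/s₀`. -/
noncomputable def dfXi {m : ℕ} (w : ℝ) (v : E m → ℝ) (y : E m) : ℝ :=
  (dgW (v y) / w - w * ‖fderiv ℝ v y‖ ^ 2 / 2) / dfS0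

/-- `|∇ χ(v)|`. -/
noncomputable def dfB {m : ℕ} (v : E m → ℝ) (y : E m) : ℝ := 3 / 4 * (1 - v y ^ 2) * ‖fderiv ℝ v y‖

/-- the diffuse height function `h(z) = ∫_{-1}^1 χ(v(z,t)) dt - 1`. -/
noncomputable def dfH {n : ℕ} (v : E (n + 1) → ℝ) (z : E n) : ℝ :=
  (∫ t in Ioo (-1 : ℝ) 1, dfChi (v (gmtJoin z t))) - 1

/-- **hypotheses at unit scale** (centre `0`, vertical direction, slab `|t| ≤ ε` in `ball 0 4`, layer width `w ≤ ε²`). -/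
structure DfUnit (n : ℕ) (w ε K c₀ r₀ : ℝ) (v : E (n + 1) → ℝ) : Prop where
  hw : 0 < w
  hε : 0 < ε
  hε' : ε ≤ 1 / 8
  hwε : w ≤ ε ^ 2
  hK : 0 ≤ K
  hc : 0 < c₀
  hr : 0 < r₀
  smooth : ContDiff ℝ ∞ v
  range : ∀ y, v y ∈ Ioo (-1 : ℝ) 1
  pde : ∀ y, w ^ 2 * Laplacian.laplacian v y = v y ^ 3 - v y
  modica : ∀ y, 0 ≤ dfXi w v y
  mass : ∀ (y : E (n + 1)) (ρ : ℝ), 0 < ρ → ∫ x in ball y ρ, dfE w v x ≤ gmtOm n * ρ ^ n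
  disc : ∀ (y : E (n + 1)) (ρ : ℝ), 0 < ρ → ∫ x in ball y ρ, dfXi w v x ≤ K * w * ρ ^ (n - 1)
  low : ∀ y : E (n + 1), |v y| ≤ 7 / 8 → ∀ ρ : ℝ, r₀ * w ≤ ρ → c₀ * ρ ^ n ≤ ∫ x in ball y ρ, dfE w v x
  below : ∀ y ∈ ball (0 : E (n + 1)) 4, gmtVer y < -ε → 7 / 8 ≤ v y
  above : ∀ y ∈ ball (0 : E (n + 1)) 4, ε < gmtVer y → v y ≤ -(7 / 8)

/-- flatness of `u` at the centre `x₀`, scale `r`, direction `e` (`u` DEcreases along `e`). -/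
structure DfFlatU {N : ℕ} (u : E N → ℝ) (x₀ : E N) (r ε : ℝ) (e : E N) : Prop where
  unit : ‖e‖ = 1
  below : ∀ x ∈ ball x₀ r, ⟪x - x₀, e⟫ < -(ε * r) → 7 / 8 ≤ u x
  above : ∀ x ∈ ball x₀ r, ε * r < ⟪x - x₀, e⟫ → u x ≤ -(7 / 8)

/-- the global facts about `u` (unscaled) used by the iteration. -/
structure DfClass (n : ℕ) (K c₀ : ℝ) (u : E (n + 1) → ℝ) : Prop where
  hK : 0 ≤ K
  hc : 0 < c₀
  smooth : ContDiff ℝ ∞ u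
  range : ∀ x, u x ∈ Ioo (-1 : ℝ) 1
  pde : ∀ x, Laplacian.laplacian u x = u x ^ 3 - u x
  modica : ∀ x, ‖fderiv ℝ u x‖ ^ 2 / 2 ≤ dgW (u x)
  mass : ∀ (y : E (n + 1)) (r : ℝ), 0 < r → dgEn (n + 1) u y r ≤ dfS0 * gmtOm n * r ^ n
  disc : ∀ (y : E (n + 1)) (r : ℝ), 0 < r →
    ∫ x in ball y r, (dgW (u x) - ‖fderiv ℝ u x‖ ^ 2 / 2) ≤ K * r ^ (n - 1)
  low : ∀ y : E (n + 1), |u y| ≤ 7 / 8 → ∀ r : ℝ, 1 ≤ r → c₀ * r ^ n ≤ dgEn (n + 1) u y r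

/-- **contract (F)** (helper8): fixed direction, sublinear strip, uniformly in the base point. -/
def DfF {N : ℕ} (u : E N → ℝ) : Prop :=
  ∃ e : E N, ‖e‖ = 1 ∧ ∀ ε : ℝ, 0 < ε → ∃ K : ℝ, ∀ x₀ x : E N, |u x₀| ≤ 7 / 8 →
    (ε * ‖x - x₀‖ + K ≤ ⟪x - x₀, e⟫ → 3 / 4 ≤ u x) ∧ (⟪x - x₀, e⟫ ≤ -(ε * ‖x - x₀‖) - K → u x ≤ -(3 / 4))

end Claimed.Agent.R329
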