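import Claimed.Agent.R329.DfTail
import Claimed.Agent.Lib.Gmt.BvTools

/-!
# Row 329, post P4 (chief helper59, pen helper279), prefix `dfxh_` (NOT `dfh_`, which is helper68's): the flux identities F1, F2 for a `C¹` phase function `χ`

Diffuse port of `Lib/Gmt/FlFlux*`: `1_S` is replaced by a `C¹` function `χ` on `E (n+1)` (later `χ = (2 + 3v - v³)/4 = Φ(v)/s₀`), the vector measure `ν μ₁` by `-∇χ dy`.
Pure calculus: Fubini, the fundamental theorem of calculus on vertical lines, the divergence theorem on horizontal slices.  No equation, no flatness.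

* `dfxh_flux`   (F1) : `∫_{C_ρ} ψ(z) ∂_t χ dy = ∫_{B_ρ} ψ(z) (χ(z,1) - χ(z,-1)) dz`;
* `dfxhH`            : the diffuse height `h(z) = ∫_{-1}^{1} χ(z,t) dt - 1`;
* `dfxh_H_grad` (F2) : `∫ h div Ψ dz = - ∫_{C_1} ∇χ·(Ψ(z),0) dy`.
-/

set_option autoImplicit false
open scoped ENNReal RealInnerProductSpace Topology
open MeasureTheory Metric Set Filter

namespace Claimed.Agent.R329

open Claimed.Agent.Gmt

variable {n : ℕ}

/-- the diffuse height `h(z) = ∫_{-1}^{1} χ(z,t) dt - 1`. -/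
noncomputable def dfxhH (χ : E (n + 1) → ℝ) (z : E n) : ℝ :=
  (∫ t in Ioo (-1 : ℝ) 1, χ (gmtJoin z t)) - 1

theorem dfxh_mem_cyl (ρ : ℝ) (z : E n) (t : ℝ) : gmtJoin z t ∈ (flCyl ρ : Set (E (n + 1))) ↔ ‖z‖ < ρ ∧ t ∈ Ioo (-1 : ℝ) 1 := by
  show ‖gmtHor (gmtJoin z t)‖ < ρ ∧ |gmtVer (gmtJoin z t)| < 1 ↔ _
  rw [fl_hor_join, fl_ver_join, abs_lt, mem_Ioo]

theorem dfxh_cyl_subset (ρ : ℝ) : (flCyl ρ : Set (E (n + 1))) ⊆ closedBall 0 (|ρ| + 1) := by
  intro y hy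
  rw [mem_closedBall_zero_iff]
  have h1 := fl_norm_sq y
  have h2 : ‖gmtHor y‖ ≤ |ρ| := hy.1.le.trans (le_abs_self ρ)
  have h3 : gmtVer y ^ 2 ≤ 1 := by
    have := hy.2
    rw [← sq_abs]
    nlinarith [abs_nonneg (gmtVer y)]
  have h4 : ‖y‖ ^ 2 ≤ (|ρ| + 1) ^ 2 := by
    rw [h1]
    nlinarith [norm_nonneg (gmtHor y), abs_nonneg ρ]
  exact abs_le_of_sq_le_sq' h4 (by positivity) |>.2

/-- a continuous function is integrable on the cylinders. -/
theorem dfxh_integrableOn_cyl {F : E (n + 1) → ℝ} (hF : Continuous F) (ρ : ℝ) : IntegrableOn F (flCyl ρ) :=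
  (hF.continuousOn.integrableOn_compact (isCompact_closedBall 0 (|ρ| + 1))).mono_set (dfxh_cyl_subset ρ)

/-- Fubini on a cylinder. -/
theorem dfxh_integral_cyl {F : E (n + 1) → ℝ} (hF : Continuous F) (ρ : ℝ) :
    ∫ y in flCyl ρ, F y = ∫ z in ball (0 : E n) ρ, ∫ t in Ioo (-1 : ℝ) 1, F (gmtJoin z t) := by
  have hm : MeasurableSet (flCyl ρ : Set (E (n + 1))) := (fl_isOpen_cyl ρ).measurableSet
  rw [← integral_indicator hm, fl_integral_join ((dfxh_integrableOn_cyl hF ρ).integrable_indicator hm),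
    ← integral_indicator measurableSet_ball]
  congr 1
  funext z
  by_cases hz : ‖z‖ < ρ
  · rw [indicator_of_mem (by simpa using hz), ← integral_indicator measurableSet_Ioo]
    congr 1
    funext t
    by_cases ht : t ∈ Ioo (-1 : ℝ) 1
    · rw [indicator_of_mem ht, indicator_of_mem ((dfxh_mem_cyl ρ z t).2 ⟨hz, ht⟩)]
    · rw [indicator_of_notMem ht, indicator_of_notMem fun h => ht ((dfxh_mem_cyl ρ z t).1 h).2]
  · rw [indicator_of_notMem (by simpa using hz)]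
    have : ∀ t, (flCyl ρ : Set (E (n + 1))).indicator F (gmtJoin z t) = 0 := fun t =>
      indicator_of_notMem (fun h => hz ((dfxh_mem_cyl ρ z t).1 h).1) _
    simp [this]

/-- the derivative along a vertical line. -/
theorem dfxh_hasDerivAt_ver {χ : E (n + 1) → ℝ} (hχ : Differentiable ℝ χ) (z : E n) (t : ℝ) :
    HasDerivAt (fun s => χ (gmtJoin z s)) (fderiv ℝ χ (gmtJoin z t) (gmtEn n)) t := by
  have h2 : HasDerivAt (fun s : ℝ => gmtJoin z s) (gmtEn n) t := by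
    have : (fun s : ℝ => gmtJoin z s) = fun s => flInc n z + s • gmtEn n := by
      funext s; exact fl_join_eq z s
    rw [this]
    simpa using ((hasDerivAt_id t).smul_const (gmtEn n)).const_add (flInc n z)
  exact (hχ _).hasFDerivAt.comp_hasDerivAt t h2

/-- the derivative along a horizontal slice. -/
theorem dfxh_hasFDerivAt_hor {χ : E (n + 1) → ℝ} (hχ : Differentiable ℝ χ) (z : E n) (t : ℝ) :
    HasFDerivAt (fun w => χ (gmtJoin w t)) ((fderiv ℝ χ (gmtJoin z t)).comp (flInc n)) z := by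
  have h2 : HasFDerivAt (fun w : E n => gmtJoin w t) (flInc n) z := by
    have : (fun w : E n => gmtJoin w t) = fun w => flInc n w + t • gmtEn n := by
      funext w; exact fl_join_eq w t
    rw [this]
    exact (flInc n).hasFDerivAt.add_const _
  exact (hχ _).hasFDerivAt.comp z h2

theorem dfxh_continuous_join_left (t : ℝ) : Continuous fun z : E n => gmtJoin z t :=
  fl_continuous_join.comp (by fun_prop : Continuous fun z : E n => (z, t))

theorem dfxh_continuous_join_right (z : E n) : Continuous fun t : ℝ => gmtJoin z t :=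
  fl_continuous_join.comp (by fun_prop : Continuous fun t : ℝ => (z, t))

/-- the fundamental theorem of calculus on a vertical segment. -/
theorem dfxh_ftc {χ : E (n + 1) → ℝ} (hχ : ContDiff ℝ 1 χ) (z : E n) :
    ∫ t in Ioo (-1 : ℝ) 1, fderiv ℝ χ (gmtJoin z t) (gmtEn n) = χ (gmtJoin z 1) - χ (gmtJoin z (-1)) := by
  have hd : Differentiable ℝ χ := hχ.differentiable one_ne_zero
  have hc : Continuous fun t : ℝ => fderiv ℝ χ (gmtJoin z t) (gmtEn n) :=
    ((hχ.continuous_fderiv one_ne_zero).comp (dfxh_continuous_join_right z)).clm_apply continuous_const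
  rw [← integral_Ioc_eq_integral_Ioo, ← intervalIntegral.integral_of_le (by norm_num : (-1 : ℝ) ≤ 1)]
  exact intervalIntegral.integral_eq_sub_of_hasDerivAt (fun t _ => dfxh_hasDerivAt_ver hd z t)
    (hc.intervalIntegrable _ _)

/-- **F1**: the vertical flux through a cylinder. -/
theorem dfxh_flux {χ : E (n + 1) → ℝ} (hχ : ContDiff ℝ 1 χ) {ψ : E n → ℝ} (hψ : Continuous ψ) (ρ : ℝ) :
    ∫ y in flCyl ρ, ψ (gmtHor y) * fderiv ℝ χ y (gmtEn n) =
      ∫ z in ball (0 : E n) ρ, ψ z * (χ (gmtJoin z 1) - χ (gmtJoin z (-1))) := by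
  have hc : Continuous fun y : E (n + 1) => ψ (gmtHor y) * fderiv ℝ χ y (gmtEn n) :=
    (hψ.comp fl_continuous_hor).mul ((hχ.continuous_fderiv one_ne_zero).clm_apply continuous_const)
  rw [dfxh_integral_cyl hc]
  congr 1
  funext z
  simp only [fl_hor_join]
  rw [integral_const_mul, dfxh_ftc hχ]

/-- the divergence theorem on a horizontal slice. -/
theorem dfxh_slice_div {χ : E (n + 1) → ℝ} (hχ : ContDiff ℝ 1 χ) {U : Set (E n)} {Ψ : E n → E n} (hΨ : GmtTest U Ψ) (t : ℝ) :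
    ∫ z, (χ (gmtJoin z t) * gmtDiv Ψ z + fderiv ℝ χ (gmtJoin z t) (flInc n (Ψ z))) = 0 := by
  have hd : Differentiable ℝ χ := hχ.differentiable one_ne_zero
  have hj : ContDiff ℝ 1 fun w : E n => gmtJoin w t := by
    have : (fun w : E n => gmtJoin w t) = fun w => flInc n w + t • gmtEn n := by
      funext w; exact fl_join_eq w t
    rw [this]
    exact (flInc n).contDiff.add contDiff_const
  have h1 : ContDiff ℝ 1 fun w : E n => χ (gmtJoin w t) := hχ.comp hj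
  have h2 := integral_gmtDiv_eq_zero (hΨ.smul h1)
  rw [← h2]
  congr 1
  funext z
  rw [gmtDiv_smul (dfxh_hasFDerivAt_hor hd z t).differentiableAt (hΨ.differentiable z),
    (dfxh_hasFDerivAt_hor hd z t).fderiv]
  rfl

theorem dfxh_H_eq_interval (χ : E (n + 1) → ℝ) (z : E n) :
    dfxhH χ z = (∫ t in (-1 : ℝ)..1, χ (gmtJoin z t)) - 1 := by
  rw [dfxhH, intervalIntegral.integral_of_le (by norm_num : (-1 : ℝ) ≤ 1), integral_Ioc_eq_integral_Ioo]

theorem dfxh_H_continuous {χ : E (n + 1) → ℝ} (hχ : Continuous χ) : Continuous (dfxhH χ) := by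
  have h1 : Continuous (Function.uncurry fun (z : E n) (t : ℝ) => χ (gmtJoin z t)) := hχ.comp fl_continuous_join
  have h2 := intervalIntegral.continuous_parametric_intervalIntegral_of_continuous' (μ := volume) h1 (-1) 1
  have : dfxhH χ = fun z => (∫ t in (-1 : ℝ)..1, χ (gmtJoin z t)) - 1 := funext (dfxh_H_eq_interval χ)
  rw [this]
  exact h2.sub continuous_const

theorem dfxh_div_continuous {U : Set (E n)} {Ψ : E n → E n} (hΨ : GmtTest U Ψ) : Continuous (gmtDiv Ψ) :=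
  (continuous_gmtDiv hΨ).1

theorem dfxh_div_off {Ψ : E n → E n} (hΨ : GmtTest (ball 0 1) Ψ) {z : E n} (hz : ¬ ‖z‖ < 1) : gmtDiv Ψ z = 0 :=
  gmtDiv_eq_zero_of_notMem fun h => hz (by simpa using hΨ.sub h)

theorem dfxh_psi_off {Ψ : E n → E n} (hΨ : GmtTest (ball 0 1) Ψ) {z : E n} (hz : ¬ ‖z‖ < 1) : Ψ z = 0 :=
  image_eq_zero_of_notMem_tsupport fun h => hz (by simpa using hΨ.sub h)

/-- **F2**: the distributional gradient of the diffuse height. -/
theorem dfxh_H_grad {χ : E (n + 1) → ℝ} (hχ : ContDiff ℝ 1 χ) {Ψ : E n → E n} (hΨ : GmtTest (ball 0 1) Ψ) :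
    ∫ z, dfxhH χ z * gmtDiv Ψ z = - ∫ y in flCyl 1, fderiv ℝ χ y (flInc n (Ψ (gmtHor y))) := by
  have hdc : Continuous (gmtDiv Ψ) := dfxh_div_continuous hΨ
  set A : E (n + 1) → ℝ := fun y => χ y * gmtDiv Ψ (gmtHor y) with hAdef
  set B : E (n + 1) → ℝ := fun y => fderiv ℝ χ y (flInc n (Ψ (gmtHor y))) with hBdef
  have hA : Continuous A := hχ.continuous.mul (hdc.comp fl_continuous_hor)
  have hB : Continuous B := (hχ.continuous_fderiv one_ne_zero).clm_apply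
    ((flInc n).continuous.comp (hΨ.c1.continuous.comp fl_continuous_hor))
  have hm : MeasurableSet (flCyl 1 : Set (E (n + 1))) := (fl_isOpen_cyl 1).measurableSet
  -- (1) the sum integrates to zero
  have h1 : ∫ y in flCyl 1, (A y + B y) = 0 := by
    have hi : Integrable ((flCyl 1 : Set (E (n + 1))).indicator fun y => A y + B y) :=
      (dfxh_integrableOn_cyl (hA.add hB) 1).integrable_indicator hm
    rw [← integral_indicator hm, fl_integral_join hi,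
      integral_integral_swap (f := fun (z : E n) (t : ℝ) =>
        (flCyl 1 : Set (E (n + 1))).indicator (fun y => A y + B y) (gmtJoin z t)) (fl_integrable_join hi)]
    have : ∀ t : ℝ, ∫ z : E n, (flCyl 1 : Set (E (n + 1))).indicator (fun y => A y + B y) (gmtJoin z t) = 0 := by
      intro t
      by_cases ht : t ∈ Ioo (-1 : ℝ) 1
      · rw [← dfxh_slice_div hχ hΨ t]
        congr 1
        funext z
        by_cases hz : ‖z‖ < 1
        · rw [indicator_of_mem ((dfxh_mem_cyl 1 z t).2 ⟨hz, ht⟩)]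
          simp only [hAdef, hBdef, fl_hor_join]
        · rw [indicator_of_notMem fun h => hz ((dfxh_mem_cyl 1 z t).1 h).1, dfxh_div_off hΨ hz, dfxh_psi_off hΨ hz]
          simp
      · have : ∀ z : E n, (flCyl 1 : Set (E (n + 1))).indicator (fun y => A y + B y) (gmtJoin z t) = 0 := fun z =>
          indicator_of_notMem (fun h => ht ((dfxh_mem_cyl 1 z t).1 h).2) _
        simp [this]
    simp [this]
  -- (2) the first term is the height
  have h2 : ∫ y in flCyl 1, A y = ∫ z, dfxhH χ z * gmtDiv Ψ z := by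
    rw [dfxh_integral_cyl hA 1]
    have e1 : ∀ z : E n, ∫ t in Ioo (-1 : ℝ) 1, A (gmtJoin z t) = dfxhH χ z * gmtDiv Ψ z + gmtDiv Ψ z := by
      intro z
      simp only [hAdef, fl_hor_join]
      rw [integral_mul_const, dfxhH]
      ring
    simp only [e1]
    rw [setIntegral_eq_integral_of_forall_compl_eq_zero (fun z hz => by
      rw [dfxh_div_off hΨ (by simpa using hz)]; simp)]
    have hcs : HasCompactSupport (gmtDiv Ψ) := (continuous_gmtDiv hΨ).2.1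
    have i1 : Integrable fun z => dfxhH χ z * gmtDiv Ψ z :=
      ((dfxh_H_continuous hχ.continuous).mul hdc).integrable_of_hasCompactSupport hcs.mul_left
    rw [integral_add i1 (hdc.integrable_of_hasCompactSupport hcs), integral_gmtDiv_eq_zero hΨ, add_zero]
  rw [integral_add (dfxh_integrableOn_cyl hA 1) (dfxh_integrableOn_cyl hB 1), h2] at h1
  linarith

/-- the diffuse height is at most `ε + τ` when `χ` is `τ`-close to `1` below the slab `|t| ≤ ε` and `τ`-close to `0` above it. -/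
theorem dfxh_H_bound {χ : E (n + 1) → ℝ} (hχ : Continuous χ) {z : E n} {ε τ : ℝ} (hε0 : 0 ≤ ε) (hε1 : ε ≤ 1) (hτ : 0 ≤ τ)
    (h01 : ∀ t ∈ Icc (-1 : ℝ) 1, 0 ≤ χ (gmtJoin z t) ∧ χ (gmtJoin z t) ≤ 1)
    (hb : ∀ t ∈ Icc (-1 : ℝ) (-ε), 1 - τ ≤ χ (gmtJoin z t))
    (ha : ∀ t ∈ Icc ε (1 : ℝ), χ (gmtJoin z t) ≤ τ) : |dfxhH χ z| ≤ ε + τ := by
  have hc : Continuous fun t : ℝ => χ (gmtJoin z t) := hχ.comp (dfxh_continuous_join_right z)
  have hi : ∀ a b : ℝ, IntervalIntegrable (fun t : ℝ => χ (gmtJoin z t)) volume a b := fun a b => hc.intervalIntegrable a b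
  have hk : ∀ (c a b : ℝ), IntervalIntegrable (fun _ : ℝ => c) volume a b := fun c a b => intervalIntegrable_const
  have e : ∫ t in (-1 : ℝ)..1, χ (gmtJoin z t) = (∫ t in (-1 : ℝ)..(-ε), χ (gmtJoin z t)) +
      (∫ t in (-ε)..ε, χ (gmtJoin z t)) + ∫ t in ε..1, χ (gmtJoin z t) := by
    rw [intervalIntegral.integral_add_adjacent_intervals (hi _ _) (hi _ _),
      intervalIntegral.integral_add_adjacent_intervals (hi _ _) (hi _ _)]
  have l1 : (1 - τ) * (1 - ε) ≤ ∫ t in (-1 : ℝ)..(-ε), χ (gmtJoin z t) := by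
    have := intervalIntegral.integral_mono_on (by linarith : (-1 : ℝ) ≤ -ε) (hk (1 - τ) _ _) (hi _ _) hb
    rw [intervalIntegral.integral_const, smul_eq_mul] at this
    linarith
  have u1 : ∫ t in (-1 : ℝ)..(-ε), χ (gmtJoin z t) ≤ 1 - ε := by
    have := intervalIntegral.integral_mono_on (by linarith : (-1 : ℝ) ≤ -ε) (hi _ _) (hk 1 _ _)
      fun t ht => (h01 t ⟨ht.1, by linarith [ht.2]⟩).2
    rw [intervalIntegral.integral_const, smul_eq_mul] at this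
    linarith
  have l2 : 0 ≤ ∫ t in (-ε)..ε, χ (gmtJoin z t) :=
    intervalIntegral.integral_nonneg (by linarith) fun t ht => (h01 t ⟨by linarith [ht.1], by linarith [ht.2]⟩).1
  have u2 : ∫ t in (-ε)..ε, χ (gmtJoin z t) ≤ 2 * ε := by
    have := intervalIntegral.integral_mono_on (by linarith : -ε ≤ ε) (hi _ _) (hk 1 _ _)
      fun t ht => (h01 t ⟨by linarith [ht.1], by linarith [ht.2]⟩).2
    rw [intervalIntegral.integral_const, smul_eq_mul] at this
    linarith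
  have l3 : 0 ≤ ∫ t in ε..1, χ (gmtJoin z t) :=
    intervalIntegral.integral_nonneg hε1 fun t ht => (h01 t ⟨by linarith [ht.1], ht.2⟩).1
  have u3 : ∫ t in ε..1, χ (gmtJoin z t) ≤ τ * (1 - ε) := by
    have := intervalIntegral.integral_mono_on hε1 (hi _ _) (hk τ _ _) ha
    rw [intervalIntegral.integral_const, smul_eq_mul] at this
    linarith
  rw [dfxh_H_eq_interval, e, abs_le]
  constructor <;> nlinarith

/-- crude bound: `|h| ≤ 1` as soon as `0 ≤ χ ≤ 1`. -/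
theorem dfxh_H_bound_all {χ : E (n + 1) → ℝ} (hχ : Continuous χ) (h01 : ∀ y, 0 ≤ χ y ∧ χ y ≤ 1) (z : E n) : |dfxhH χ z| ≤ 1 := by
  have hc : Continuous fun t : ℝ => χ (gmtJoin z t) := hχ.comp (dfxh_continuous_join_right z)
  have l : 0 ≤ ∫ t in (-1 : ℝ)..1, χ (gmtJoin z t) :=
    intervalIntegral.integral_nonneg (by norm_num) fun t _ => (h01 _).1
  have u : ∫ t in (-1 : ℝ)..1, χ (gmtJoin z t) ≤ 2 := by
    have := intervalIntegral.integral_mono_on (μ := volume) (by norm_num : (-1 : ℝ) ≤ 1) (hc.intervalIntegrable _ _)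
      (intervalIntegrable_const (c := (1 : ℝ))) fun t _ => (h01 (gmtJoin z t)).2
    rw [intervalIntegral.integral_const, smul_eq_mul] at this
    linarith
  rw [dfxh_H_eq_interval, abs_le]
  constructor <;> linarith

/-! ## The contracts of `DfHub.lean` (P4, F2 and the slice bound), in the words of the hub; `df_tail` (P2) enters as a hypothesis -/

/-- the body of the contract `df_tail` (P2). -/
def DfxhTail (n : ℕ) (C : ℝ) : Prop :=
  ∀ (w ε K c₀ r₀ : ℝ) (v : E (n + 1) → ℝ), DfUnit n w ε K c₀ r₀ v →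
    ∀ y ∈ ball (0 : E (n + 1)) 3,
      (gmtVer y ≤ -(2 * ε) → 1 - v y ≤ C * w) ∧ (2 * ε ≤ gmtVer y → 1 + v y ≤ C * w)

theorem dfxh_chi_contDiff : ContDiff ℝ 1 dfChi := by
  unfold dfChi
  fun_prop

theorem dfxh_chi_hasDerivAt (s : ℝ) : HasDerivAt dfChi (3 / 4 * (1 - s ^ 2)) s := by
  have h : HasDerivAt (fun t : ℝ => (2 + 3 * t - t ^ 3) / 4) ((0 + 3 * 1 - 3 * s ^ 2) / 4) s := by
    have h1 : HasDerivAt (fun t : ℝ => t ^ 3) (3 * s ^ 2) s := by simpa using hasDerivAt_pow 3 s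
    have h2 : HasDerivAt (fun t : ℝ => 3 * t) (3 * 1) s := (hasDerivAt_id' s).const_mul 3
    exact (((hasDerivAt_const s (2 : ℝ)).add h2).sub h1).div_const 4
  have e : (0 + 3 * 1 - 3 * s ^ 2) / 4 = 3 / 4 * (1 - s ^ 2) := by ring
  rw [e] at h
  exact h

theorem dfxh_chi_mem {s : ℝ} (hs : s ∈ Icc (-1 : ℝ) 1) : 0 ≤ dfChi s ∧ dfChi s ≤ 1 := by
  obtain ⟨h1, h2⟩ := hs
  have e1 : dfChi s = (1 + s) ^ 2 * (2 - s) / 4 := by unfold dfChi; ring
  have e2 : 1 - dfChi s = (1 - s) ^ 2 * (2 + s) / 4 := by unfold dfChi; ring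
  constructor
  · rw [e1]
    have : 0 ≤ (1 + s) ^ 2 * (2 - s) := mul_nonneg (sq_nonneg _) (by linarith)
    linarith
  · have : 0 ≤ (1 - s) ^ 2 * (2 + s) := mul_nonneg (sq_nonneg _) (by linarith)
    linarith

/-- `1 - χ(s) ≤ (3/4) (1-s)²`. -/
theorem dfxh_one_sub_chi_le {s : ℝ} (hs : s ≤ 1) : 1 - dfChi s ≤ 3 / 4 * (1 - s) ^ 2 := by
  have e2 : 1 - dfChi s = (1 - s) ^ 2 * (2 + s) / 4 := by unfold dfChi; ring
  rw [e2]
  nlinarith [sq_nonneg (1 - s)]

/-- `χ(s) ≤ (3/4) (1+s)²`. -/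
theorem dfxh_chi_le {s : ℝ} (hs : -1 ≤ s) : dfChi s ≤ 3 / 4 * (1 + s) ^ 2 := by
  have e1 : dfChi s = (1 + s) ^ 2 * (2 - s) / 4 := by unfold dfChi; ring
  rw [e1]
  nlinarith [sq_nonneg (1 + s)]

theorem dfxh_chi_comp_fderiv {m : ℕ} {v : E m → ℝ} {y : E m} (hv : DifferentiableAt ℝ v y) :
    fderiv ℝ (fun x => dfChi (v x)) y = (3 / 4 * (1 - v y ^ 2)) • fderiv ℝ v y :=
  ((dfxh_chi_hasDerivAt (v y)).comp_hasFDerivAt y hv.hasFDerivAt).fderiv

theorem dfxh_H_eq (v : E (n + 1) → ℝ) : dfH v = dfxhH fun y => dfChi (v y) := rfl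

/-- **contract `df_H_continuous`**. -/
theorem dfxh_hub_H_continuous {v : E (n + 1) → ℝ} (hv : Continuous v) : Continuous (dfH v) := by
  rw [dfxh_H_eq]
  exact dfxh_H_continuous (dfxh_chi_contDiff.continuous.comp hv)

theorem dfxh_join_mem_ball {z : E n} {t : ℝ} (hz : ‖z‖ < 1) (ht : t ∈ Icc (-1 : ℝ) 1) : gmtJoin z t ∈ ball (0 : E (n + 1)) 3 := by
  rw [mem_ball_zero_iff]
  have h1 := fl_norm_sq (gmtJoin z t)
  rw [fl_hor_join, fl_ver_join] at h1
  have h2 : t ^ 2 ≤ 1 := by nlinarith [ht.1, ht.2]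
  have h3 : ‖z‖ ^ 2 ≤ 1 := by nlinarith [norm_nonneg z]
  nlinarith [norm_nonneg (gmtJoin z t)]

/-- the phase function off the slab `|t| ≤ 2ε`. -/
theorem dfxh_chi_tail {C w ε K c₀ r₀ : ℝ} {v : E (n + 1) → ℝ} (ht : DfxhTail n C) (H : DfUnit n w ε K c₀ r₀ v)
    {z : E n} (hz : ‖z‖ < 1) :
    (∀ t ∈ Icc (-1 : ℝ) (-(2 * ε)), 1 - 3 / 4 * C ^ 2 * w ^ 2 ≤ dfChi (v (gmtJoin z t))) ∧
      ∀ t ∈ Icc (2 * ε) (1 : ℝ), dfChi (v (gmtJoin z t)) ≤ 3 / 4 * C ^ 2 * w ^ 2 := by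
  have hε := H.hε
  have hw := H.hw
  constructor
  · intro t htt
    have hb := dfxh_join_mem_ball hz (t := t) ⟨htt.1, by linarith [htt.2]⟩
    have h1 := (ht w ε K c₀ r₀ v H _ hb).1 (by rw [fl_ver_join]; exact htt.2)
    have h2 := dfxh_one_sub_chi_le (H.range (gmtJoin z t)).2.le
    have h3 : 0 ≤ 1 - v (gmtJoin z t) := by linarith [(H.range (gmtJoin z t)).2]
    have h4 : (1 - v (gmtJoin z t)) ^ 2 ≤ (C * w) ^ 2 := pow_le_pow_left₀ h3 h1 2
    nlinarith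
  · intro t htt
    have hb := dfxh_join_mem_ball hz (t := t) ⟨by linarith [htt.1], htt.2⟩
    have h1 := (ht w ε K c₀ r₀ v H _ hb).2 (by rw [fl_ver_join]; exact htt.1)
    have h2 := dfxh_chi_le (H.range (gmtJoin z t)).1.le
    have h3 : 0 ≤ 1 + v (gmtJoin z t) := by linarith [(H.range (gmtJoin z t)).1]
    have h4 : (1 + v (gmtJoin z t)) ^ 2 ≤ (C * w) ^ 2 := pow_le_pow_left₀ h3 h1 2
    nlinarith

/-- **contract `df_H_bound`**, from `df_tail`. -/
theorem dfxh_hub_H_bound (n : ℕ) (htail : ∃ C : ℝ, 0 < C ∧ DfxhTail n C) :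
    ∃ ε₀ : ℝ, 0 < ε₀ ∧ ∀ (w ε K c₀ r₀ : ℝ) (v : E (n + 1) → ℝ), DfUnit n w ε K c₀ r₀ v → ε ≤ ε₀ →
      ∀ z : E n, ‖z‖ < 1 → |dfH v z| ≤ 3 * ε := by
  obtain ⟨C, hC, ht⟩ := htail
  refine ⟨(C ^ 2)⁻¹, by positivity, fun w ε K c₀ r₀ v H hε₀ z hz => ?_⟩
  have hε := H.hε
  have hε8 := H.hε'
  have hw := H.hw
  obtain ⟨hb, ha⟩ := dfxh_chi_tail ht H hz
  have h1 := dfxh_H_bound (χ := fun y => dfChi (v y)) (dfxh_chi_contDiff.continuous.comp H.smooth.continuous) (z := z)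
    (ε := 2 * ε) (τ := 3 / 4 * C ^ 2 * w ^ 2) (by linarith) (by linarith) (by positivity)
    (fun t _ => dfxh_chi_mem (Ioo_subset_Icc_self (H.range _))) hb ha
  rw [dfxh_H_eq]
  refine h1.trans ?_
  -- `τ ≤ ε`
  have h2 : w ^ 2 ≤ ε ^ 2 := by
    have : w ≤ ε := H.hwε.trans (by nlinarith)
    exact pow_le_pow_left₀ hw.le this 2
  have h3 : C ^ 2 * ε ≤ 1 := by
    have := mul_le_mul_of_nonneg_left hε₀ (by positivity : 0 ≤ C ^ 2)
    rwa [mul_inv_cancel₀ (by positivity)] at this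
  have h4 : 3 / 4 * C ^ 2 * w ^ 2 ≤ ε := by
    calc 3 / 4 * C ^ 2 * w ^ 2 ≤ 3 / 4 * C ^ 2 * ε ^ 2 := by gcongr
      _ = 3 / 4 * (C ^ 2 * ε) * ε := by ring
      _ ≤ 3 / 4 * 1 * ε := by gcongr
      _ ≤ ε := by linarith
  linarith

/-- `dfB ≤ dfE` (Cauchy-Schwarz / Modica-Mortola trick). -/
theorem dfxh_B_le_E {m : ℕ} {w : ℝ} (hw : 0 < w) (v : E m → ℝ) (y : E m) : dfB v y ≤ dfE w v y := by
  unfold dfB dfE dgW dfS0
  set g := ‖fderiv ℝ v y‖ with hg
  set q := 1 - v y ^ 2 with hq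
  have h2 : Real.sqrt 2 ^ 2 = 2 := Real.sq_sqrt (by norm_num)
  have hs : 0 < Real.sqrt 2 := by positivity
  rw [le_div_iff₀ (by positivity)]
  have h3 : 0 ≤ (Real.sqrt 2 * w * g - q) ^ 2 / (4 * w) := by positivity
  have e : (Real.sqrt 2 * w * g - q) ^ 2 / (4 * w) = w * g ^ 2 / 2 + q ^ 2 / 4 / w - 3 / 4 * q * g * (2 * Real.sqrt 2 / 3) := by
    have : (Real.sqrt 2 * w * g - q) ^ 2 = 2 * w ^ 2 * g ^ 2 - 2 * Real.sqrt 2 * w * g * q + q ^ 2 := by
      have : (Real.sqrt 2 * w * g - q) ^ 2 = Real.sqrt 2 ^ 2 * w ^ 2 * g ^ 2 - 2 * Real.sqrt 2 * w * g * q + q ^ 2 := by ring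
      rw [this, h2]
    rw [this]
    field_simp
    ring
  linarith

/-- **contract `df_slice_low`**, from `df_tail`. -/
theorem dfxh_hub_slice_low (n : ℕ) (htail : ∃ C : ℝ, 0 < C ∧ DfxhTail n C) :
    ∃ C : ℝ, 0 < C ∧ ∀ (w ε K c₀ r₀ : ℝ) (v : E (n + 1) → ℝ), DfUnit n w ε K c₀ r₀ v →
      ∀ z : E n, ‖z‖ < 1 → 1 - C * w ^ 2 ≤ ∫ t in Ioo (-1 : ℝ) 1, dfE w v (gmtJoin z t) := by
  obtain ⟨C, hC, ht⟩ := htail
  refine ⟨3 / 2 * C ^ 2, by positivity, fun w ε K c₀ r₀ v H z hz => ?_⟩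
  have hε := H.hε
  have hε8 := H.hε'
  have hw := H.hw
  have hv1 : ContDiff ℝ 1 v := H.smooth.of_le (by simp)
  have hvd : Differentiable ℝ v := hv1.differentiable one_ne_zero
  obtain ⟨hb, ha⟩ := dfxh_chi_tail ht H hz
  have hχ : ContDiff ℝ 1 fun y => dfChi (v y) := dfxh_chi_contDiff.comp hv1
  have hftc := dfxh_ftc hχ z
  have hcE : Continuous fun t : ℝ => dfE w v (gmtJoin z t) := by
    have : Continuous (dfE w v) := by
      unfold dfE dgW
      have := hv1.continuous_fderiv one_ne_zero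
      have := hv1.continuous
      fun_prop
    exact this.comp (dfxh_continuous_join_right z)
  have hcD : Continuous fun t : ℝ => fderiv ℝ (fun y => dfChi (v y)) (gmtJoin z t) (gmtEn n) :=
    ((hχ.continuous_fderiv one_ne_zero).comp (dfxh_continuous_join_right z)).clm_apply continuous_const
  have hfin : IsFiniteMeasure (volume.restrict (Ioo (-1 : ℝ) 1)) := ⟨by simp⟩
  have iI : ∀ {f : ℝ → ℝ}, Continuous f → IntegrableOn f (Ioo (-1 : ℝ) 1) := fun hf =>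
    (hf.continuousOn.integrableOn_compact isCompact_Icc).mono_set Ioo_subset_Icc_self
  have hmono : ∫ t in Ioo (-1 : ℝ) 1, -fderiv ℝ (fun y => dfChi (v y)) (gmtJoin z t) (gmtEn n) ≤
      ∫ t in Ioo (-1 : ℝ) 1, dfE w v (gmtJoin z t) := by
    refine integral_mono (iI hcD.neg) (iI hcE) fun t => ?_
    refine le_trans ?_ (dfxh_B_le_E hw v (gmtJoin z t))
    show -fderiv ℝ (fun y => dfChi (v y)) (gmtJoin z t) (gmtEn n) ≤ _
    rw [dfxh_chi_comp_fderiv (hvd _)]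
    unfold dfB
    have hq : 0 ≤ 1 - v (gmtJoin z t) ^ 2 := by
      have := H.range (gmtJoin z t)
      nlinarith [this.1, this.2]
    have h1 : |fderiv ℝ v (gmtJoin z t) (gmtEn n)| ≤ ‖fderiv ℝ v (gmtJoin z t)‖ := by
      have := (fderiv ℝ v (gmtJoin z t)).le_opNorm (gmtEn n)
      simpa using this
    have h2 := neg_abs_le (fderiv ℝ v (gmtJoin z t) (gmtEn n))
    simp only [_root_.smul_apply, smul_eq_mul]
    nlinarith
  rw [integral_neg, hftc] at hmono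
  have h1 := hb (-1) ⟨le_rfl, by linarith⟩
  have h2 := ha 1 ⟨by linarith, le_rfl⟩
  linarith

/-! ## The three contracts VERBATIM (with `dgTw_df_tail` of helper169) -/

/-- `df_H_continuous` closes by `dfxh_df_H_continuous hv`. -/
theorem dfxh_df_H_continuous {n : ℕ} {v : E (n + 1) → ℝ} (hv : Continuous v) : Continuous (dfH v) :=
  dfxh_hub_H_continuous hv

/-- `df_H_bound` closes by `dfxh_df_H_bound n`. -/
theorem dfxh_df_H_bound (n : ℕ) : ∃ ε₀ : ℝ, 0 < ε₀ ∧ ∀ (w ε K c₀ r₀ : ℝ) (v : E (n + 1) → ℝ), DfUnit n w ε K c₀ r₀ v → ε ≤ ε₀ →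
    ∀ z : E n, ‖z‖ < 1 → |dfH v z| ≤ 3 * ε :=
  dfxh_hub_H_bound n (dgTw_df_tail n)

/-- `df_slice_low` closes by `dfxh_df_slice_low n`. -/
theorem dfxh_df_slice_low (n : ℕ) : ∃ C : ℝ, 0 < C ∧ ∀ (w ε K c₀ r₀ : ℝ) (v : E (n + 1) → ℝ), DfUnit n w ε K c₀ r₀ v →
    ∀ z : E n, ‖z‖ < 1 → 1 - C * w ^ 2 ≤ ∫ t in Ioo (-1 : ℝ) 1, dfE w v (gmtJoin z t) :=
  dfxh_hub_slice_low n (dgTw_df_tail n)

/-- **F2 in the words of `DfDefs`** (for P5, `df_harm`): `∫ h div Ψ dz = - ∫_{C_1} (3/4)(1-v²) ∇v·(Ψ(z),0) dy`, exact. -/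
theorem dfxh_H_grad_v {n : ℕ} {v : E (n + 1) → ℝ} (hv : ContDiff ℝ 1 v) {Ψ : E n → E n} (hΨ : GmtTest (ball 0 1) Ψ) :
    ∫ z, dfH v z * gmtDiv Ψ z =
      - ∫ y in flCyl 1, 3 / 4 * (1 - v y ^ 2) * fderiv ℝ v y (flInc n (Ψ (gmtHor y))) := by
  have hχ : ContDiff ℝ 1 fun y => dfChi (v y) := dfxh_chi_contDiff.comp hv
  have h := dfxh_H_grad hχ hΨ
  rw [dfxh_H_eq, h]
  congr 2
  funext y
  show fderiv ℝ (fun x => dfChi (v x)) y _ = _
  rw [dfxh_chi_comp_fderiv (hv.differentiable one_ne_zero y)]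
  rfl

/-- **F1 in the words of `DfDefs`**: `∫_{C_ρ} ψ(z) (3/4)(1-v²) ∂_t v dy = ∫_{B_ρ} ψ(z) (χ(v(z,1)) - χ(v(z,-1))) dz`, exact. -/
theorem dfxh_flux_v {n : ℕ} {v : E (n + 1) → ℝ} (hv : ContDiff ℝ 1 v) {ψ : E n → ℝ} (hψ : Continuous ψ) (ρ : ℝ) :
    ∫ y in flCyl ρ, ψ (gmtHor y) * (3 / 4 * (1 - v y ^ 2) * fderiv ℝ v y (gmtEn n)) =
      ∫ z in ball (0 : E n) ρ, ψ z * (dfChi (v (gmtJoin z 1)) - dfChi (v (gmtJoin z (-1)))) := by
  have hχ : ContDiff ℝ 1 fun y => dfChi (v y) := dfxh_chi_contDiff.comp hv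
  rw [← dfxh_flux hχ hψ ρ]
  congr 1
  funext y
  show _ = ψ (gmtHor y) * fderiv ℝ (fun x => dfChi (v x)) y _
  rw [dfxh_chi_comp_fderiv (hv.differentiable one_ne_zero y)]
  rfl

end Claimed.Agent.R329
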