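import Claimed.Agent.R329.FlId

/-!
# Row 329, post B7.I / P3, second file (helper42): the pair `(μ_e, ν̂)` with layer width `w` (idea of helper278): `κ = 0` EXACTLY.

`v ∈ C²`, `|v| ≤ 1`, `w² Δv = v³ - v` (`w > 0` = layer width; `w = 1`: `DgSol`), scaled Modica bound `w² |∇v|² ≤ 2 W(v)` (conventions of helper47, P9: `dgFJ_e = dfDens`, `dgFJ_xi = dfXi` by `rfl`).
`e_w = w |∇v|²/2 + W(v)/w`, `μ_e = e_w dy/s₀`, `ν̂ = -√w ∇v/√e_w`, `ν₁ = -√(2W(v)) ∇v/e_w`, `ξ_w = W(v)/w - w |∇v|²/2`.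
* `dgFJ_stress`   : `∫ (e_w div X - w ⟪∇v, DX ∇v⟫) = 0` for `X ∈ C¹_c`;
* `dgFJ_fv0`, `dgFJ_FlFV` : `∫ (div X - ⟪ν̂, DX ν̂⟫) dμ_e = 0`, i.e. `Gmt.FlFV 0 univ μ_e ν̂` verbatim;
* `dgFJ_gg`       : `∫ χ div T = ∫ ⟪T, ν₁⟫ dμ_e`, `χ = Φ(v)/s₀`;
* `dgFJ_norm_nuh_le` (Modica), `dgFJ_norm_nu1_le` (Young), `dgFJ_one_sub_normsq` : `e_w (1 - |ν̂|²) = ξ_w`,
  `dgFJ_mismatch` : `e_w |ν₁ - ν̂| ≤ ξ_w/2` (Modica).
All hypotheses are unbundled, so that the statements plug into any structure.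
-/

set_option autoImplicit false
open MeasureTheory Metric Set Filter Topology
open scoped RealInnerProductSpace ENNReal

namespace Claimed.Agent.R329

section
variable {n : ℕ}

/-- the energy density with layer width `w`. -/
noncomputable def dgFJ_e (w : ℝ) (v : DgE n → ℝ) (x : DgE n) : ℝ := w / 2 * ‖fderiv ℝ v x‖ ^ 2 + dgW (v x) / w

/-- the discrepancy with layer width `w`. -/
noncomputable def dgFJ_xi (w : ℝ) (v : DgE n → ℝ) (x : DgE n) : ℝ := dgW (v x) / w - w / 2 * ‖fderiv ℝ v x‖ ^ 2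

/-- `μ_e = e_w dy / s₀`. -/
noncomputable def dgFJ_mue (w : ℝ) (v : DgE n → ℝ) : Measure (DgE n) :=
  volume.withDensity fun x => ENNReal.ofReal (dgFJ_e w v x / dgFI_s0)

/-- `ν̂ = -√w ∇v/√e_w`. -/
noncomputable def dgFJ_nuh (w : ℝ) (v : DgE n → ℝ) (x : DgE n) : DgE n :=
  -((Real.sqrt w * (Real.sqrt (dgFJ_e w v x))⁻¹) • gradient v x)

/-- `ν₁ = -√(2W(v)) ∇v/e_w`. -/
noncomputable def dgFJ_nu1 (w : ℝ) (v : DgE n → ℝ) (x : DgE n) : DgE n :=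
  -((dgFI_w (v x) * (dgFJ_e w v x)⁻¹) • gradient v x)

theorem dgFJ_e_one (v : DgE n → ℝ) (x : DgE n) : dgFJ_e 1 v x = dgDens n v x := by
  unfold dgFJ_e dgDens
  ring

theorem dgFJ_mue_one (v : DgE n → ℝ) : dgFJ_mue 1 v = dgFI_mue v := by
  unfold dgFJ_mue dgFI_mue
  simp only [dgFJ_e_one]

theorem dgFJ_xi_one (v : DgE n → ℝ) (x : DgE n) : dgFJ_xi 1 v x = dgFI_xi v x := by
  unfold dgFJ_xi dgFI_xi
  ring

theorem dgFJ_W_nonneg (s : ℝ) : 0 ≤ dgW s := by unfold dgW; positivity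

theorem dgFJ_e_nonneg {w : ℝ} (hw : 0 < w) (v : DgE n → ℝ) (x : DgE n) : 0 ≤ dgFJ_e w v x := by
  unfold dgFJ_e
  have := dgFJ_W_nonneg (v x)
  positivity

theorem dgFJ_e_eq (w : ℝ) (v : DgE n → ℝ) (x : DgE n) :
    dgFJ_e w v x = w * dgDens n v x + (1 / w - w) * dgW (v x) := by
  unfold dgFJ_e dgDens
  ring

theorem dgFJ_e_eq_add_xi (w : ℝ) (v : DgE n → ℝ) (x : DgE n) :
    dgFJ_e w v x = w * ‖fderiv ℝ v x‖ ^ 2 + dgFJ_xi w v x := by
  unfold dgFJ_e dgFJ_xi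
  ring

theorem dgFJ_xi_nonneg {w : ℝ} (hw : 0 < w) {v : DgE n → ℝ}
    (hmod : ∀ x, w ^ 2 * ‖fderiv ℝ v x‖ ^ 2 ≤ 2 * dgW (v x)) (x : DgE n) : 0 ≤ dgFJ_xi w v x := by
  unfold dgFJ_xi
  rw [sub_nonneg, le_div_iff₀ hw]
  nlinarith [hmod x]

theorem dgFJ_W_contDiff : ContDiff ℝ 1 dgW := by
  unfold dgW
  fun_prop

theorem dgFJ_W_hasDerivAt (s : ℝ) : HasDerivAt dgW (s ^ 3 - s) s := by
  unfold dgW
  have h := ((((hasDerivAt_id s).pow 2).const_sub 1).pow 2).div_const 4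
  refine h.congr_deriv ?_
  simp
  ring

theorem dgFJ_e_contDiff (w : ℝ) {v : DgE n → ℝ} (hv : ContDiff ℝ 2 v) : ContDiff ℝ 1 (dgFJ_e w v) := by
  have h : dgFJ_e w v = fun x => w * dgDens n v x + (1 / w - w) * dgW (v x) := funext (dgFJ_e_eq w v)
  rw [h]
  exact (contDiff_const.mul (dgA6_contDiff_dens hv)).add
    (contDiff_const.mul (dgFJ_W_contDiff.comp (hv.of_le (by norm_num))))

theorem dgFJ_e_continuous (w : ℝ) {v : DgE n → ℝ} (hv : ContDiff ℝ 1 v) : Continuous (dgFJ_e w v) := by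
  unfold dgFJ_e dgW
  have h1 := dgFI_continuous_normD hv
  have h2 := hv.continuous
  fun_prop

theorem dgFJ_xi_continuous (w : ℝ) {v : DgE n → ℝ} (hv : ContDiff ℝ 1 v) : Continuous (dgFJ_xi w v) := by
  unfold dgFJ_xi dgW
  have h1 := dgFI_continuous_normD hv
  have h2 := hv.continuous
  fun_prop

theorem dgFJ_e_fderiv (w : ℝ) {v : DgE n → ℝ} (hv : ContDiff ℝ 2 v) (x a : DgE n) :
    fderiv ℝ (dgFJ_e w v) x a
      = w * (∑ j, fderiv ℝ v x (dgA6_b j) * fderiv ℝ (fderiv ℝ v) x a (dgA6_b j))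
        + (1 / w) * ((v x ^ 3 - v x) * fderiv ℝ v x a) := by
  have hv1 : HasFDerivAt v (fderiv ℝ v x) x :=
    ((hv.of_le (by norm_num : (1 : WithTop ℕ∞) ≤ 2)).differentiable one_ne_zero x).hasFDerivAt
  have h1 : HasFDerivAt (fun x => dgW (v x)) ((v x ^ 3 - v x) • fderiv ℝ v x) x :=
    (dgFJ_W_hasDerivAt (v x)).comp_hasFDerivAt x hv1
  have h2 := ((dgA6_hasFDerivAt_dens hv x).const_mul w).fun_add (h1.const_mul (1 / w - w))
  have h : dgFJ_e w v = fun x => w * dgDens n v x + (1 / w - w) * dgW (v x) := funext (dgFJ_e_eq w v)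
  rw [h, h2.fderiv]
  simp
  ring

/-- **The stress tensor with layer width `w`**: `∫ (e_w div X - w ⟪∇v, DX ∇v⟫) = 0` for `X ∈ C¹_c`. -/
theorem dgFJ_stress {w : ℝ} (hw : 0 < w) {v : DgE n → ℝ} {X : DgE n → DgE n} (hv : ContDiff ℝ 2 v)
    (hpde : ∀ x, w ^ 2 * Laplacian.laplacian v x = v x ^ 3 - v x) (hX : ContDiff ℝ 1 X)
    (hc : HasCompactSupport X) :
    ∫ x, (dgFJ_e w v x * Gmt.gmtDiv X x - w * ⟪gradient v x, fderiv ℝ X x (gradient v x)⟫) = 0 := by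
  have he : ContDiff ℝ 1 (dgFJ_e w v) := dgFJ_e_contDiff w hv
  have hφ := dgFI_contDiff_dir hv hX
  have hφc := dgFI_hcs_dir v hc
  have hA := dgFI_ibp he hX hc
  have hB := dgA6_weak hv hφ hφc
  have hlap : ∀ x, Laplacian.laplacian v x = (v x ^ 3 - v x) / w ^ 2 := fun x => by
    rw [← hpde x]
    field_simp
  have hlapc : Continuous (Laplacian.laplacian v) := by
    have : Laplacian.laplacian v = fun x => (v x ^ 3 - v x) / w ^ 2 := funext hlap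
    rw [this]
    exact ((hv.continuous.pow 3).sub hv.continuous).div_const _
  have iA : Integrable (fun x => dgFJ_e w v x * Gmt.gmtDiv X x + fderiv ℝ (dgFJ_e w v) x (X x)) := by
    refine Integrable.add ?_ ?_
    · exact (he.continuous.mul (dgFI_continuous_div hX)).integrable_of_hasCompactSupport (dgFI_hcs_div hc).mul_left
    · exact ((he.continuous_fderiv one_ne_zero).clm_apply hX.continuous).integrable_of_hasCompactSupport
        (dgFI_hcs_dir _ hc)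
  have iB : Integrable (fun x => (∑ i, fderiv ℝ (fun x => fderiv ℝ v x (X x)) x (dgA6_b i)
      * fderiv ℝ v x (dgA6_b i)) + fderiv ℝ v x (X x) * Laplacian.laplacian v x) := by
    refine Integrable.add ?_ ?_
    · refine integrable_finsetSum _ fun i _ => ?_
      exact Continuous.integrable_of_hasCompactSupport
        (((hφ.continuous_fderiv one_ne_zero).clm_apply continuous_const).mul
          (dgA6_contDiff_partial hv _).continuous)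
        (dgA6_hcs_apply (hφc.fderiv (𝕜 := ℝ)) _).mul_right
    · exact (hφ.continuous.mul hlapc).integrable_of_hasCompactSupport hφc.mul_right
  have hAB := integral_sub iA (iB.const_mul w)
  rw [hA, integral_const_mul, hB, mul_zero, sub_zero] at hAB
  rw [← hAB]
  refine integral_congr_ae (Eventually.of_forall fun x => ?_)
  simp only
  have d2 : ∀ i : Fin n, fderiv ℝ (fun x => fderiv ℝ v x (X x)) x (dgA6_b i)
      = fderiv ℝ v x (fderiv ℝ X x (dgA6_b i)) + fderiv ℝ (fderiv ℝ v) x (dgA6_b i) (X x) := by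
    intro i
    rw [(dgFI_hasFDerivAt_dir hv hX x).fderiv]
    simp
  have hsum : (∑ i, fderiv ℝ (fun x => fderiv ℝ v x (X x)) x (dgA6_b i) * fderiv ℝ v x (dgA6_b i))
      = ⟪gradient v x, fderiv ℝ X x (gradient v x)⟫
        + ∑ i, fderiv ℝ v x (dgA6_b i) * fderiv ℝ (fderiv ℝ v) x (X x) (dgA6_b i) := by
    rw [← dgFI_fderiv_eq_inner]
    conv_rhs => rw [dgFI_gradient_eq_sum v x]
    simp only [map_sum, map_smul, smul_eq_mul]
    rw [← Finset.sum_add_distrib]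
    refine Finset.sum_congr rfl fun i _ => ?_
    rw [d2 i, dgA6_symm hv x (dgA6_b i) (X x)]
    ring
  rw [hsum, dgFJ_e_fderiv w hv, hlap]
  field_simp
  ring

/-! ## the measure `μ_e` -/

theorem dgFJ_integral_mue {w : ℝ} (hw : 0 < w) {v : DgE n → ℝ} (hv : ContDiff ℝ 1 v) (f : DgE n → ℝ) :
    ∫ x, f x ∂(dgFJ_mue w v) = ∫ x, dgFJ_e w v x / dgFI_s0 * f x :=
  dgFI_integral_withDensity ((dgFJ_e_continuous w hv).div_const _)
    (fun x => div_nonneg (dgFJ_e_nonneg hw v x) dgFI_s0_pos.le) f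

theorem dgFJ_mue_compact (w : ℝ) {v : DgE n → ℝ} (hv : ContDiff ℝ 1 v) {K : Set (DgE n)} (hK : IsCompact K) :
    dgFJ_mue w v K ≠ ⊤ :=
  dgFI_withDensity_compact ((dgFJ_e_continuous w hv).div_const _) hK

/-- `μ_e(A) = (1/s₀) ∫_A e_w` for bounded measurable `A`. -/
theorem dgFJ_mue_apply {w : ℝ} (hw : 0 < w) {v : DgE n → ℝ} (hv : ContDiff ℝ 1 v) {A : Set (DgE n)}
    (hA : MeasurableSet A) (hb : Bornology.IsBounded A) :
    dgFJ_mue w v A = ENNReal.ofReal ((∫ x in A, dgFJ_e w v x) / dgFI_s0) := by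
  unfold dgFJ_mue
  rw [withDensity_apply _ hA, ← integral_div]
  have hc : Continuous fun x => dgFJ_e w v x / dgFI_s0 := (dgFJ_e_continuous w hv).div_const _
  obtain ⟨R, hR⟩ := hb.subset_closedBall (0 : DgE n)
  have hi : IntegrableOn (fun x => dgFJ_e w v x / dgFI_s0) A :=
    (hc.continuousOn.integrableOn_compact (isCompact_closedBall 0 R)).mono_set hR
  rw [ofReal_integral_eq_lintegral_ofReal hi
    (Eventually.of_forall fun x => div_nonneg (dgFJ_e_nonneg hw v x) dgFI_s0_pos.le)]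

/-! ## the normal `ν̂` -/

theorem dgFJ_grad_eq_zero {w : ℝ} (hw : 0 < w) {v : DgE n → ℝ} {x : DgE n} (h : dgFJ_e w v x = 0) :
    gradient v x = 0 := by
  unfold dgFJ_e at h
  have h1 : 0 ≤ dgW (v x) / w := div_nonneg (dgFJ_W_nonneg _) hw.le
  have h2 : 0 ≤ w / 2 * ‖fderiv ℝ v x‖ ^ 2 := by positivity
  have h3 : w / 2 * ‖fderiv ℝ v x‖ ^ 2 = 0 := by linarith
  have h4 : ‖fderiv ℝ v x‖ ^ 2 = 0 := by
    have : w * ‖fderiv ℝ v x‖ ^ 2 = 0 := by linarith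
    exact (mul_eq_zero.1 this).resolve_left hw.ne'
  rw [← norm_eq_zero, dgFI_norm_gradient]
  exact pow_eq_zero_iff (two_ne_zero) |>.1 h4

theorem dgFJ_normsq_nuh {w : ℝ} (hw : 0 < w) (v : DgE n → ℝ) (x : DgE n) :
    dgFJ_e w v x * ‖dgFJ_nuh w v x‖ ^ 2 = w * ‖fderiv ℝ v x‖ ^ 2 := by
  unfold dgFJ_nuh
  rw [norm_neg, norm_smul, dgFI_norm_gradient, Real.norm_eq_abs, mul_pow, sq_abs, mul_pow, inv_pow,
    Real.sq_sqrt hw.le, Real.sq_sqrt (dgFJ_e_nonneg hw v x)]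
  by_cases h : dgFJ_e w v x = 0
  · have := dgFJ_grad_eq_zero hw h
    rw [← dgFI_norm_gradient, this]
    simp
  · field_simp

/-- `e_w (1 - |ν̂|²) = ξ_w`. -/
theorem dgFJ_one_sub_normsq {w : ℝ} (hw : 0 < w) (v : DgE n → ℝ) (x : DgE n) :
    dgFJ_e w v x * (1 - ‖dgFJ_nuh w v x‖ ^ 2) = dgFJ_xi w v x := by
  rw [mul_sub, dgFJ_normsq_nuh hw, mul_one, dgFJ_e_eq_add_xi]
  ring

/-- `|ν̂| ≤ 1` is Modica's bound. -/
theorem dgFJ_norm_nuh_le {w : ℝ} (hw : 0 < w) {v : DgE n → ℝ}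
    (hmod : ∀ x, w ^ 2 * ‖fderiv ℝ v x‖ ^ 2 ≤ 2 * dgW (v x)) (x : DgE n) : ‖dgFJ_nuh w v x‖ ≤ 1 := by
  by_cases h : dgFJ_e w v x = 0
  · unfold dgFJ_nuh
    rw [dgFJ_grad_eq_zero hw h]
    simp
  · have hpos : 0 < dgFJ_e w v x := lt_of_le_of_ne (dgFJ_e_nonneg hw v x) (Ne.symm h)
    have h1 := dgFJ_one_sub_normsq hw v x
    have h2 := dgFJ_xi_nonneg hw hmod x
    have h3 : 0 ≤ 1 - ‖dgFJ_nuh w v x‖ ^ 2 := by
      by_contra hcon
      rw [not_le] at hcon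
      nlinarith
    exact abs_le_of_sq_le_sq' (by linarith) zero_le_one |>.2

theorem dgFJ_measurable_nuh (w : ℝ) {v : DgE n → ℝ} (hv : ContDiff ℝ 1 v) : Measurable (dgFJ_nuh w v) := by
  have h := (dgFI_continuous_gradient hv).measurable
  have he := (dgFJ_e_continuous w hv).measurable
  unfold dgFJ_nuh
  exact ((measurable_const.mul he.sqrt.inv).smul h).neg

theorem dgFJ_sqrt_smul_nuh {w : ℝ} (hw : 0 < w) (v : DgE n → ℝ) (x : DgE n) :
    Real.sqrt (dgFJ_e w v x) • dgFJ_nuh w v x = -(Real.sqrt w • gradient v x) := by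
  unfold dgFJ_nuh
  by_cases h : dgFJ_e w v x = 0
  · rw [dgFJ_grad_eq_zero hw h]
    simp
  · have hpos : 0 < dgFJ_e w v x := lt_of_le_of_ne (dgFJ_e_nonneg hw v x) (Ne.symm h)
    have hs : Real.sqrt (dgFJ_e w v x) ≠ 0 := (Real.sqrt_pos.2 hpos).ne'
    rw [smul_neg, smul_smul]
    congr 2
    field_simp

theorem dgFJ_e_mul_tdiv {w : ℝ} (hw : 0 < w) (v : DgE n → ℝ) (X : DgE n → DgE n) (x : DgE n) :
    dgFJ_e w v x * Gmt.flTdiv X (dgFJ_nuh w v) x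
      = dgFJ_e w v x * Gmt.gmtDiv X x - w * ⟪gradient v x, fderiv ℝ X x (gradient v x)⟫ := by
  unfold Gmt.flTdiv
  have e : dgFJ_e w v x * ⟪dgFJ_nuh w v x, fderiv ℝ X x (dgFJ_nuh w v x)⟫
      = w * ⟪gradient v x, fderiv ℝ X x (gradient v x)⟫ := by
    have h := dgFJ_sqrt_smul_nuh hw v x
    have h1 : Real.sqrt (dgFJ_e w v x) * Real.sqrt (dgFJ_e w v x) = dgFJ_e w v x :=
      Real.mul_self_sqrt (dgFJ_e_nonneg hw v x)
    have h2 : Real.sqrt w * Real.sqrt w = w := Real.mul_self_sqrt hw.le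
    calc dgFJ_e w v x * ⟪dgFJ_nuh w v x, fderiv ℝ X x (dgFJ_nuh w v x)⟫
        = ⟪Real.sqrt (dgFJ_e w v x) • dgFJ_nuh w v x,
            fderiv ℝ X x (Real.sqrt (dgFJ_e w v x) • dgFJ_nuh w v x)⟫ := by
          rw [map_smul, real_inner_smul_left, real_inner_smul_right, ← mul_assoc, h1]
      _ = (Real.sqrt w * Real.sqrt w) * ⟪gradient v x, fderiv ℝ X x (gradient v x)⟫ := by
          rw [h, map_neg, inner_neg_neg, map_smul, real_inner_smul_left, real_inner_smul_right]; ring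
      _ = _ := by rw [h2]
  rw [mul_sub, e]

/-- **(FV) with `κ = 0`**: `∫ (div X - ⟪ν̂, DX ν̂⟫) dμ_e = 0` for every `X ∈ C¹_c`. -/
theorem dgFJ_fv0 {w : ℝ} (hw : 0 < w) {v : DgE n → ℝ} {X : DgE n → DgE n} (hv : ContDiff ℝ 2 v)
    (hpde : ∀ x, w ^ 2 * Laplacian.laplacian v x = v x ^ 3 - v x) (hX : ContDiff ℝ 1 X)
    (hc : HasCompactSupport X) : ∫ x, Gmt.flTdiv X (dgFJ_nuh w v) x ∂(dgFJ_mue w v) = 0 := by
  rw [dgFJ_integral_mue hw (hv.of_le (by norm_num))]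
  have e : (fun x => dgFJ_e w v x / dgFI_s0 * Gmt.flTdiv X (dgFJ_nuh w v) x)
      = fun x => (1 / dgFI_s0) * (dgFJ_e w v x * Gmt.gmtDiv X x
          - w * ⟪gradient v x, fderiv ℝ X x (gradient v x)⟫) := by
    funext x
    rw [← dgFJ_e_mul_tdiv hw]
    ring
  rw [e, integral_const_mul, dgFJ_stress hw hv hpde hX hc, mul_zero]

/-- **`FlFV 0 univ μ_e ν̂`**, in the words of `Lib/Gmt/FlDefs`. -/
theorem dgFJ_FlFV {w : ℝ} (hw : 0 < w) {v : DgE n → ℝ} (hv : ContDiff ℝ 2 v)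
    (hpde : ∀ x, w ^ 2 * Laplacian.laplacian v x = v x ^ 3 - v x) (U : Set (DgE n)) :
    Gmt.FlFV 0 U (dgFJ_mue w v) (dgFJ_nuh w v) := by
  intro X hX
  rw [dgFJ_fv0 hw hv hpde (hX.smooth.of_le (by exact_mod_cast le_top)) hX.cpt]
  simp

/-! ## the Gauss-Green normal `ν₁` -/

theorem dgFJ_e_smul_nu1 {w : ℝ} (hw : 0 < w) (v : DgE n → ℝ) (x : DgE n) :
    dgFJ_e w v x • dgFJ_nu1 w v x = -(dgFI_w (v x) • gradient v x) := by
  unfold dgFJ_nu1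
  by_cases h : dgFJ_e w v x = 0
  · rw [dgFJ_grad_eq_zero hw h]
    simp
  · rw [smul_neg, smul_smul]
    congr 2
    field_simp

theorem dgFJ_measurable_nu1 (w : ℝ) {v : DgE n → ℝ} (hv : ContDiff ℝ 1 v) : Measurable (dgFJ_nu1 w v) := by
  have h := (dgFI_continuous_gradient hv).measurable
  have he := (dgFJ_e_continuous w hv).measurable
  have hw' := (dgFI_w_continuous.comp hv.continuous).measurable
  unfold dgFJ_nu1
  exact ((hw'.mul he.inv).smul h).neg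

/-- `√(2W) |∇v| ≤ e_w` (Young). -/
theorem dgFJ_young {w : ℝ} (hw : 0 < w) (v : DgE n → ℝ) (x : DgE n) :
    dgFI_w (v x) * ‖fderiv ℝ v x‖ ≤ dgFJ_e w v x := by
  unfold dgFJ_e
  have h := dgFI_w_sq (v x)
  have e : dgW (v x) / w = dgFI_w (v x) ^ 2 / (2 * w) := by rw [h]; field_simp
  rw [e]
  have h2 : 0 ≤ (dgFI_w (v x) - w * ‖fderiv ℝ v x‖) ^ 2 / (2 * w) := by positivity
  have e2 : (dgFI_w (v x) - w * ‖fderiv ℝ v x‖) ^ 2 / (2 * w)
      = w / 2 * ‖fderiv ℝ v x‖ ^ 2 + dgFI_w (v x) ^ 2 / (2 * w) - dgFI_w (v x) * ‖fderiv ℝ v x‖ := by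
    field_simp
    ring
  linarith

theorem dgFJ_norm_nu1_le {w : ℝ} (hw : 0 < w) {v : DgE n → ℝ} (hr : ∀ x, v x ∈ Icc (-1 : ℝ) 1) (x : DgE n) :
    ‖dgFJ_nu1 w v x‖ ≤ 1 := by
  by_cases h : dgFJ_e w v x = 0
  · unfold dgFJ_nu1
    rw [dgFJ_grad_eq_zero hw h]
    simp
  · have hpos : 0 < dgFJ_e w v x := lt_of_le_of_ne (dgFJ_e_nonneg hw v x) (Ne.symm h)
    unfold dgFJ_nu1
    rw [norm_neg, norm_smul, dgFI_norm_gradient, Real.norm_eq_abs, abs_mul, abs_inv, abs_of_pos hpos,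
      abs_of_nonneg (dgFI_w_nonneg (hr x))]
    have := dgFJ_young hw v x
    rw [mul_right_comm, ← div_eq_mul_inv, div_le_one hpos]
    exact this

/-- **(GG')** with respect to `μ_e`: `∫ χ div T = ∫ ⟪T, ν₁⟫ dμ_e` for every `T ∈ C¹_c`. -/
theorem dgFJ_gg {w : ℝ} (hw : 0 < w) {v : DgE n → ℝ} {T : DgE n → DgE n} (hv : ContDiff ℝ 1 v)
    (hT : ContDiff ℝ 1 T) (hc : HasCompactSupport T) :
    ∫ x, dgFI_chi v x * Gmt.gmtDiv T x = ∫ x, ⟪T x, dgFJ_nu1 w v x⟫ ∂(dgFJ_mue w v) := by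
  rw [dgFI_gg_raw hv hT hc, dgFJ_integral_mue hw hv, ← integral_neg]
  refine integral_congr_ae (Eventually.of_forall fun x => ?_)
  simp only
  have e : dgFJ_e w v x * ⟪T x, dgFJ_nu1 w v x⟫ = -(dgFI_w (v x) * fderiv ℝ v x (T x)) := by
    rw [← real_inner_smul_right, dgFJ_e_smul_nu1 hw, inner_neg_right, real_inner_smul_right,
      dgFI_fderiv_eq_inner, real_inner_comm]
  calc -(dgFI_w (v x) / dgFI_s0 * fderiv ℝ v x (T x))
      = (1 / dgFI_s0) * (dgFJ_e w v x * ⟪T x, dgFJ_nu1 w v x⟫) := by rw [e]; ring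
    _ = _ := by ring

/-- **the mismatch of the two normals**: `e_w |ν₁ - ν̂| ≤ ξ_w / 2` under Modica's bound. -/
theorem dgFJ_mismatch {w : ℝ} (hw : 0 < w) {v : DgE n → ℝ} (hr : ∀ x, v x ∈ Icc (-1 : ℝ) 1)
    (hmod : ∀ x, w ^ 2 * ‖fderiv ℝ v x‖ ^ 2 ≤ 2 * dgW (v x)) (x : DgE n) :
    dgFJ_e w v x * ‖dgFJ_nu1 w v x - dgFJ_nuh w v x‖ ≤ dgFJ_xi w v x / 2 := by
  by_cases h : dgFJ_e w v x = 0
  · rw [h, zero_mul]
    have := dgFJ_xi_nonneg hw hmod x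
    positivity
  have hpos : 0 < dgFJ_e w v x := lt_of_le_of_ne (dgFJ_e_nonneg hw v x) (Ne.symm h)
  set e := dgFJ_e w v x with he
  set a := ‖fderiv ℝ v x‖ with ha
  set b := dgFI_w (v x) with hb
  set s := Real.sqrt e with hs
  set q := Real.sqrt w with hq
  have hs0 : 0 < s := Real.sqrt_pos.2 hpos
  have hq0 : 0 < q := Real.sqrt_pos.2 hw
  have hss : s * s = e := Real.mul_self_sqrt hpos.le
  have hqq : q * q = w := Real.mul_self_sqrt hw.le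
  have ha0 : 0 ≤ a := norm_nonneg _
  have hb0 : 0 ≤ b := dgFI_w_nonneg (hr x)
  have hbb : b ^ 2 = 2 * dgW (v x) := dgFI_w_sq (v x)
  -- `e = (w² a² + b²)/(2w)`, `ξ = (b² - w² a²)/(2w)`
  have he2 : 2 * w * e = w ^ 2 * a ^ 2 + b ^ 2 := by
    rw [he, dgFJ_e, hbb, ha]
    field_simp
  have hx2 : 2 * w * dgFJ_xi w v x = b ^ 2 - w ^ 2 * a ^ 2 := by
    rw [dgFJ_xi, hbb, ha]
    field_simp
  have hwa : w * a ≤ b := by
    refine abs_le_of_sq_le_sq' ?_ hb0 |>.2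
    rw [hbb, mul_pow]
    linarith [hmod x]
  -- the difference of the two normals
  have hd : dgFJ_nu1 w v x - dgFJ_nuh w v x = (q * s⁻¹ - b * e⁻¹) • gradient v x := by
    unfold dgFJ_nu1 dgFJ_nuh
    rw [sub_smul]
    abel
  rw [hd, norm_smul, dgFI_norm_gradient, Real.norm_eq_abs]
  -- `q s ≤ b`: `w e ≤ b²`
  have hwab : w ^ 2 * a ^ 2 ≤ b ^ 2 := by
    have := pow_le_pow_left₀ (by positivity : 0 ≤ w * a) hwa 2
    rwa [mul_pow] at this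
  have hqs : q * s ≤ b := by
    refine abs_le_of_sq_le_sq' ?_ hb0 |>.2
    have : (q * s) ^ 2 = w * e := by rw [mul_pow, sq, sq, hqq, hss]
    rw [this]
    linarith
  have hwa2 : w * a ≤ q * s := by
    refine abs_le_of_sq_le_sq' ?_ (by positivity) |>.2
    have : (q * s) ^ 2 = w * e := by rw [mul_pow, sq, sq, hqq, hss]
    rw [this, mul_pow]
    linarith
  have habs : |q * s⁻¹ - b * e⁻¹| = (b - q * s) * e⁻¹ := by
    have e1 : q * s⁻¹ - b * e⁻¹ = -((b - q * s) * e⁻¹) := by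
      rw [← hss]
      field_simp
      ring
    rw [e1, abs_neg, abs_of_nonneg (mul_nonneg (by linarith) (inv_nonneg.2 hpos.le))]
  rw [habs]
  have e3 : e * ((b - q * s) * e⁻¹ * a) = (b - q * s) * a := by field_simp
  rw [e3]
  -- `(b - qs)(b + qs) = b² - w e = w ξ`, and `a ≤ (b + qs)/(2w)`
  have h5 : (b - q * s) * (b + q * s) = w * dgFJ_xi w v x := by
    have : (q * s) * (q * s) = w * e := by rw [mul_mul_mul_comm, hqq, hss]
    nlinarith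
  have h6 : 2 * w * a ≤ b + q * s := by linarith
  have h7 : 0 ≤ b - q * s := by linarith
  have h8 : (b - q * s) * (2 * w * a) ≤ w * dgFJ_xi w v x := by
    rw [← h5]
    exact mul_le_mul_of_nonneg_left h6 h7
  have h9 : w * ((b - q * s) * a) ≤ w * (dgFJ_xi w v x / 2) := by nlinarith
  exact le_of_mul_le_mul_left h9 hw

/-! ## the triple `(μ, μ₁, λ)` with layer width `w` and the unit normal `ν = -∇v/|∇v|` (fields of P5) -/

/-- `μ = w |∇v|² dy / s₀`. -/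
noncomputable def dgFJ_mu (w : ℝ) (v : DgE n → ℝ) : Measure (DgE n) :=
  volume.withDensity fun x => ENNReal.ofReal (w * ‖fderiv ℝ v x‖ ^ 2 / dgFI_s0)

/-- `λ = ξ_w dy / s₀` (the discrepancy measure). -/
noncomputable def dgFJ_lam (w : ℝ) (v : DgE n → ℝ) : Measure (DgE n) :=
  volume.withDensity fun x => ENNReal.ofReal (dgFJ_xi w v x / dgFI_s0)

theorem dgFJ_integral_mu {w : ℝ} (hw : 0 < w) {v : DgE n → ℝ} (hv : ContDiff ℝ 1 v) (f : DgE n → ℝ) :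
    ∫ x, f x ∂(dgFJ_mu w v) = ∫ x, w * ‖fderiv ℝ v x‖ ^ 2 / dgFI_s0 * f x :=
  dgFI_integral_withDensity ((continuous_const.mul ((dgFI_continuous_normD hv).pow 2)).div_const _)
    (fun _ => div_nonneg (mul_nonneg hw.le (sq_nonneg _)) dgFI_s0_pos.le) f

theorem dgFJ_integral_lam {w : ℝ} (hw : 0 < w) {v : DgE n → ℝ} (hv : ContDiff ℝ 1 v)
    (hmod : ∀ x, w ^ 2 * ‖fderiv ℝ v x‖ ^ 2 ≤ 2 * dgW (v x)) (f : DgE n → ℝ) :
    ∫ x, f x ∂(dgFJ_lam w v) = ∫ x, dgFJ_xi w v x / dgFI_s0 * f x :=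
  dgFI_integral_withDensity ((dgFJ_xi_continuous w hv).div_const _)
    (fun x => div_nonneg (dgFJ_xi_nonneg hw hmod x) dgFI_s0_pos.le) f

theorem dgFJ_mu_compact (w : ℝ) {v : DgE n → ℝ} (hv : ContDiff ℝ 1 v) {K : Set (DgE n)} (hK : IsCompact K) :
    dgFJ_mu w v K ≠ ⊤ :=
  dgFI_withDensity_compact ((continuous_const.mul ((dgFI_continuous_normD hv).pow 2)).div_const _) hK

theorem dgFJ_lam_compact (w : ℝ) {v : DgE n → ℝ} (hv : ContDiff ℝ 1 v) {K : Set (DgE n)} (hK : IsCompact K) :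
    dgFJ_lam w v K ≠ ⊤ :=
  dgFI_withDensity_compact ((dgFJ_xi_continuous w hv).div_const _) hK

/-- `λ(A) = (1/s₀) ∫_A ξ_w` for bounded measurable `A`. -/
theorem dgFJ_lam_apply {w : ℝ} (hw : 0 < w) {v : DgE n → ℝ} (hv : ContDiff ℝ 1 v)
    (hmod : ∀ x, w ^ 2 * ‖fderiv ℝ v x‖ ^ 2 ≤ 2 * dgW (v x)) {A : Set (DgE n)}
    (hA : MeasurableSet A) (hb : Bornology.IsBounded A) :
    dgFJ_lam w v A = ENNReal.ofReal ((∫ x in A, dgFJ_xi w v x) / dgFI_s0) := by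
  unfold dgFJ_lam
  rw [withDensity_apply _ hA, ← integral_div]
  have hc : Continuous fun x => dgFJ_xi w v x / dgFI_s0 := (dgFJ_xi_continuous w hv).div_const _
  obtain ⟨R, hR⟩ := hb.subset_closedBall (0 : DgE n)
  have hi : IntegrableOn (fun x => dgFJ_xi w v x / dgFI_s0) A :=
    (hc.continuousOn.integrableOn_compact (isCompact_closedBall 0 R)).mono_set hR
  rw [ofReal_integral_eq_lintegral_ofReal hi
    (Eventually.of_forall fun x => div_nonneg (dgFJ_xi_nonneg hw hmod x) dgFI_s0_pos.le)]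

/-- `w |∇v| ≤ √(2W(v))` (Modica). -/
theorem dgFJ_modica_w {w : ℝ} {v : DgE n → ℝ} (hr : ∀ x, v x ∈ Icc (-1 : ℝ) 1)
    (hmod : ∀ x, w ^ 2 * ‖fderiv ℝ v x‖ ^ 2 ≤ 2 * dgW (v x)) (x : DgE n) :
    w * ‖fderiv ℝ v x‖ ≤ dgFI_w (v x) := by
  refine abs_le_of_sq_le_sq' ?_ (dgFI_w_nonneg (hr x)) |>.2
  rw [dgFI_w_sq, mul_pow]
  exact hmod x

/-- `μ ≤ μ₁` (Modica). -/
theorem dgFJ_mu_le_mu1 {w : ℝ} {v : DgE n → ℝ} (hr : ∀ x, v x ∈ Icc (-1 : ℝ) 1)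
    (hmod : ∀ x, w ^ 2 * ‖fderiv ℝ v x‖ ^ 2 ≤ 2 * dgW (v x)) : dgFJ_mu w v ≤ dgFI_mu1 v := by
  refine withDensity_mono (Eventually.of_forall fun x => ENNReal.ofReal_le_ofReal ?_)
  refine div_le_div_of_nonneg_right ?_ dgFI_s0_pos.le
  have h1 := dgFJ_modica_w hr hmod x
  nlinarith [norm_nonneg (fderiv ℝ v x)]

/-- `μ + λ = μ_e` (Modica). -/
theorem dgFJ_mu_add_lam {w : ℝ} (hw : 0 < w) {v : DgE n → ℝ} (hv : ContDiff ℝ 1 v)
    (hmod : ∀ x, w ^ 2 * ‖fderiv ℝ v x‖ ^ 2 ≤ 2 * dgW (v x)) : dgFJ_mu w v + dgFJ_lam w v = dgFJ_mue w v := by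
  unfold dgFJ_mu dgFJ_lam dgFJ_mue
  have hm : Measurable fun x => ENNReal.ofReal (w * ‖fderiv ℝ v x‖ ^ 2 / dgFI_s0) := by
    have h1 := dgFI_continuous_normD hv
    have : Continuous fun x => w * ‖fderiv ℝ v x‖ ^ 2 / dgFI_s0 := by fun_prop
    exact this.measurable.ennreal_ofReal
  rw [← withDensity_add_left hm]
  congr 1
  funext x
  simp only [Pi.add_apply]
  rw [← ENNReal.ofReal_add (div_nonneg (mul_nonneg hw.le (sq_nonneg _)) dgFI_s0_pos.le)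
    (div_nonneg (dgFJ_xi_nonneg hw hmod x) dgFI_s0_pos.le), dgFJ_e_eq_add_xi, add_div]

/-- `μ₁ ≤ μ_e` (Young). -/
theorem dgFJ_mu1_le_mue {w : ℝ} (hw : 0 < w) (v : DgE n → ℝ) : dgFI_mu1 v ≤ dgFJ_mue w v := by
  refine withDensity_mono (Eventually.of_forall fun x => ENNReal.ofReal_le_ofReal ?_)
  exact div_le_div_of_nonneg_right (dgFJ_young hw v x) dgFI_s0_pos.le

/-- `μ₁ ≤ μ + λ`. -/
theorem dgFJ_mu1_le_add {w : ℝ} (hw : 0 < w) {v : DgE n → ℝ} (hv : ContDiff ℝ 1 v)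
    (hmod : ∀ x, w ^ 2 * ‖fderiv ℝ v x‖ ^ 2 ≤ 2 * dgW (v x)) : dgFI_mu1 v ≤ dgFJ_mu w v + dgFJ_lam w v := by
  rw [dgFJ_mu_add_lam hw hv hmod]
  exact dgFJ_mu1_le_mue hw v

/-- `∫ f dμ₁` without `DgSol` (only the range). -/
theorem dgFJ_integral_mu1 {v : DgE n → ℝ} (hv : ContDiff ℝ 1 v) (hr : ∀ x, v x ∈ Icc (-1 : ℝ) 1)
    (f : DgE n → ℝ) : ∫ x, f x ∂(dgFI_mu1 v) = ∫ x, dgFI_w (v x) * ‖fderiv ℝ v x‖ / dgFI_s0 * f x :=
  dgFI_integral_withDensity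
    (((dgFI_w_continuous.comp hv.continuous).mul (dgFI_continuous_normD hv)).div_const _)
    (fun x => div_nonneg (mul_nonneg (dgFI_w_nonneg (hr x)) (norm_nonneg _)) dgFI_s0_pos.le) f

/-- **(GG')** for the unit normal, only `C¹` and the range: `∫ χ div T = ∫ ⟪T,ν⟫ dμ₁`. -/
theorem dgFJ_gg_unit {v : DgE n → ℝ} {T : DgE n → DgE n} (hv : ContDiff ℝ 1 v)
    (hr : ∀ x, v x ∈ Icc (-1 : ℝ) 1) (hT : ContDiff ℝ 1 T) (hc : HasCompactSupport T) :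
    ∫ x, dgFI_chi v x * Gmt.gmtDiv T x = ∫ x, ⟪T x, dgFI_nu v x⟫ ∂(dgFI_mu1 v) := by
  rw [dgFI_gg_raw hv hT hc, dgFJ_integral_mu1 hv hr, ← integral_neg]
  refine integral_congr_ae (Eventually.of_forall fun x => ?_)
  simp only
  have e : ‖fderiv ℝ v x‖ * ⟪T x, dgFI_nu v x⟫ = -fderiv ℝ v x (T x) := by
    rw [← real_inner_smul_right, dgFI_norm_smul_nu, inner_neg_right, dgFI_fderiv_eq_inner, real_inner_comm]
  calc -(dgFI_w (v x) / dgFI_s0 * fderiv ℝ v x (T x))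
      = dgFI_w (v x) / dgFI_s0 * (‖fderiv ℝ v x‖ * ⟪T x, dgFI_nu v x⟫) := by rw [e]; ring
    _ = _ := by ring

/-- **(FV')** with layer width `w`: `∫ (div X - ⟪ν, DX ν⟫) dμ = -∫ div X dλ` for every `X ∈ C¹_c`. -/
theorem dgFJ_fv {w : ℝ} (hw : 0 < w) {v : DgE n → ℝ} {X : DgE n → DgE n} (hv : ContDiff ℝ 2 v)
    (hpde : ∀ x, w ^ 2 * Laplacian.laplacian v x = v x ^ 3 - v x)
    (hmod : ∀ x, w ^ 2 * ‖fderiv ℝ v x‖ ^ 2 ≤ 2 * dgW (v x)) (hX : ContDiff ℝ 1 X)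
    (hc : HasCompactSupport X) :
    ∫ x, Gmt.flTdiv X (dgFI_nu v) x ∂(dgFJ_mu w v) = -∫ x, Gmt.gmtDiv X x ∂(dgFJ_lam w v) := by
  have h1 : ContDiff ℝ 1 v := hv.of_le (by norm_num)
  rw [dgFJ_integral_mu hw h1, dgFJ_integral_lam hw h1 hmod]
  have h := dgFJ_stress hw hv hpde hX hc
  have hg := dgFI_continuous_gradient h1
  have i1 : Integrable (fun x => w * ‖fderiv ℝ v x‖ ^ 2 * Gmt.gmtDiv X x
      - w * ⟪gradient v x, fderiv ℝ X x (gradient v x)⟫) := by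
    refine Integrable.sub ?_ ?_
    · exact ((continuous_const.mul ((dgFI_continuous_normD h1).pow 2)).mul
        (dgFI_continuous_div hX)).integrable_of_hasCompactSupport (dgFI_hcs_div hc).mul_left
    · refine Continuous.integrable_of_hasCompactSupport
        (continuous_const.mul (hg.inner ((hX.continuous_fderiv one_ne_zero).clm_apply hg))) ?_
      refine (hc.fderiv (𝕜 := ℝ)).mono fun x hx => ?_
      simp only [Function.mem_support] at hx ⊢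
      intro h0
      exact hx (by simp [h0])
  have i2 : Integrable (fun x => dgFJ_xi w v x * Gmt.gmtDiv X x) :=
    ((dgFJ_xi_continuous w h1).mul (dgFI_continuous_div hX)).integrable_of_hasCompactSupport
      (dgFI_hcs_div hc).mul_left
  have e : (fun x => dgFJ_e w v x * Gmt.gmtDiv X x - w * ⟪gradient v x, fderiv ℝ X x (gradient v x)⟫)
      = fun x => (w * ‖fderiv ℝ v x‖ ^ 2 * Gmt.gmtDiv X x - w * ⟪gradient v x, fderiv ℝ X x (gradient v x)⟫)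
        + dgFJ_xi w v x * Gmt.gmtDiv X x := by
    funext x
    rw [dgFJ_e_eq_add_xi]
    ring
  rw [e, integral_add i1 i2] at h
  have e1 : (fun x => w * ‖fderiv ℝ v x‖ ^ 2 / dgFI_s0 * Gmt.flTdiv X (dgFI_nu v) x)
      = fun x => (1 / dgFI_s0) * (w * ‖fderiv ℝ v x‖ ^ 2 * Gmt.gmtDiv X x
          - w * ⟪gradient v x, fderiv ℝ X x (gradient v x)⟫) := by
    funext x
    have := dgFI_sq_mul_tdiv v X x
    calc w * ‖fderiv ℝ v x‖ ^ 2 / dgFI_s0 * Gmt.flTdiv X (dgFI_nu v) x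
        = (1 / dgFI_s0) * (w * (‖fderiv ℝ v x‖ ^ 2 * Gmt.flTdiv X (dgFI_nu v) x)) := by ring
      _ = _ := by rw [this]; ring
  have e2 : (fun x => dgFJ_xi w v x / dgFI_s0 * Gmt.gmtDiv X x)
      = fun x => (1 / dgFI_s0) * (dgFJ_xi w v x * Gmt.gmtDiv X x) := by
    funext x
    ring
  rw [e1, e2, integral_const_mul, integral_const_mul]
  have : ∫ x, (w * ‖fderiv ℝ v x‖ ^ 2 * Gmt.gmtDiv X x - w * ⟪gradient v x, fderiv ℝ X x (gradient v x)⟫)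
      = -∫ x, dgFJ_xi w v x * Gmt.gmtDiv X x := by linarith
  rw [this]
  ring

/-- the solution itself is the case `w = 1`. -/
theorem dgFJ_of_sol {u : DgE n → ℝ} (hu : DgSol n u) :
    ∀ x, (1 : ℝ) ^ 2 * Laplacian.laplacian u x = u x ^ 3 - u x := fun x => by
  rw [one_pow, one_mul, hu.pde]

end

end Claimed.Agent.R329
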