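import Claimed.Agent.R329.Defs
import Claimed.Agent.Lib.Gmt.FlCacc
import Claimed.Agent.R329.DfDefs
import Claimed.Agent.R329.FlId2
import Claimed.Agent.R329.DfFluxH

/-!
# Row 329, K7 (diffuse port of `Lib/Gmt/Fl*`), post P5 (chief helper98, prefix `dfc_`): F3' and F4'

Diffuse pair at unit scale, layer width `w`:  `μ = w |∇v|² / s₀ dy`, `ν = -∇v / |∇v|`, `lam = ξ_w / s₀ dy` (discrepancy
`ξ_w = W(v)/w - w |∇v|²/2 ≥ 0`), `μ₁ = |∇χ| dy = √(2W(v)) |∇v| / s₀ dy`.  Pointwise `μ ≤ μ₁ ≤ μ + lam`.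
The stress-energy identity reads  `∫ div_ν X dμ = - ∫ div X dlam`  (`DfcHyp.fv`).

* `dfc_vert`  : the identity for vertical fields `a e`, restricted to the unit cylinder.
* `dfc_cacc`  : F3' Caccioppoli: `∫_{C_{3/4}} |ν'|² dμ / 2 + lam-mass ≤ C (A + τ)`, `A = ∫_{C_1} t² dμ`, `τ` = tails.
* `dfc_harm`  : F4' the height is almost harmonic (`FlAH`, the very words of `Lib/Gmt/FlCacc1`, so that `FlMoll` applies verbatim).
-/

set_option autoImplicit false
open scoped ContDiff ENNReal RealInnerProductSpace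
open MeasureTheory Metric Set

namespace Claimed.Agent.R329

open Claimed.Agent.Gmt

variable {n : ℕ}

/-- the far part of the cylinder -/
def dfcOut (n : ℕ) : Set (E (n + 1)) := {y | 1 / 2 ≤ |gmtVer y|}

theorem dfc_out_meas : MeasurableSet (dfcOut n) :=
  (isClosed_le continuous_const (continuous_abs.comp fl_continuous_ver)).measurableSet

/-- **what F3', F4' consume of the diffuse pair at unit scale.** -/
structure DfcHyp (n : ℕ) (A τ : ℝ) (μ lam : Measure (E (n + 1))) (ν : E (n + 1) → E (n + 1)) : Prop where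
  hA : 0 ≤ A
  hτ : 0 ≤ τ
  mν : Measurable ν
  le1 : ∀ x, ‖ν x‖ ≤ 1
  unit : ∀ᵐ x ∂(μ.restrict (flCyl 1)), ‖ν x‖ = 1
  finμ : μ (flCyl 1) ≠ ⊤
  finl : lam (flCyl 1) ≠ ⊤
  fv : ∀ X, GmtTestS (ball 0 4) X → ∫ x, flTdiv X ν x ∂μ = - ∫ x, gmtDiv X x ∂lam
  mom : ∫ y in flCyl 1, gmtVer y ^ 2 ∂μ ≤ A
  tailμ : (μ (flCyl 1 ∩ dfcOut n)).toReal ≤ τ
  taill : (lam (flCyl 1 ∩ dfcOut n)).toReal ≤ τ

variable {A τ : ℝ} {μ lam : Measure (E (n + 1))} {ν : E (n + 1) → E (n + 1)}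

/-- bounded measurable functions are integrable for finite measures -/
theorem dfc_ibd {σ : Measure (E (n + 1))} [IsFiniteMeasure σ] {F : E (n + 1) → ℝ} (hF : Measurable F)
    (M : ℝ) (hM : ∀ᵐ y ∂σ, |F y| ≤ M) : Integrable F σ :=
  Integrable.of_bound hF.aestronglyMeasurable M (hM.mono fun y hy => by rwa [Real.norm_eq_abs])

/-- the identity for vertical fields, on the unit cylinder. -/
theorem dfc_vert (H : DfcHyp n A τ μ lam ν) {a : E (n + 1) → ℝ} (ha : ContDiff ℝ ∞ a)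
    (hs : tsupport a ⊆ {y | ‖gmtHor y‖ ≤ 7 / 8 ∧ |gmtVer y| ≤ 3 / 4}) :
    ∫ y in flCyl 1, (fderiv ℝ a y (gmtEn n) - gmtVer (ν y) * fderiv ℝ a y (ν y)) ∂μ =
      - ∫ y in flCyl 1, fderiv ℝ a y (gmtEn n) ∂lam := by
  have had : Differentiable ℝ a := ha.differentiable (by simp)
  have hX : GmtTestS (ball 0 4) (flVert a) := fl_vert_testS ha
    (hs.trans fun y hy => ⟨hy.1.trans (by norm_num), hy.2.trans (by norm_num)⟩)
  have hfv := H.fv _ hX
  have hoff : ∀ y, y ∉ (flCyl 1 : Set (E (n + 1))) → y ∉ tsupport a := fun y hy hy' =>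
    hy ⟨lt_of_le_of_lt (hs hy').1 (by norm_num), lt_of_le_of_lt (hs hy').2 (by norm_num)⟩
  have hF1 : ∀ y, flTdiv (flVert a) ν y
      = fderiv ℝ a y (gmtEn n) - gmtVer (ν y) * fderiv ℝ a y (ν y) := fun y =>
    fl_vert_tdiv (had y) ν
  have hF2 : ∀ y, gmtDiv (flVert a) y = fderiv ℝ a y (gmtEn n) := fun y => fl_vert_div (had y)
  simp only [hF1, hF2] at hfv
  have e1 : ∫ y, (fderiv ℝ a y (gmtEn n) - gmtVer (ν y) * fderiv ℝ a y (ν y)) ∂μ
      = ∫ y in flCyl 1, (fderiv ℝ a y (gmtEn n) - gmtVer (ν y) * fderiv ℝ a y (ν y)) ∂μ := by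
    refine (setIntegral_eq_integral_of_forall_compl_eq_zero fun y hy => ?_).symm
    rw [fderiv_of_notMem_tsupport ℝ (hoff y hy)]
    simp
  have e2 : ∫ y, fderiv ℝ a y (gmtEn n) ∂lam = ∫ y in flCyl 1, fderiv ℝ a y (gmtEn n) ∂lam := by
    refine (setIntegral_eq_integral_of_forall_compl_eq_zero fun y hy => ?_).symm
    rw [fderiv_of_notMem_tsupport ℝ (hoff y hy)]
    simp
  rw [e1, e2] at hfv
  exact hfv

/-- the profile `η(t) t` has a bounded derivative and is bounded by one. -/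
theorem dfc_K_bounds : (∀ t, |flcK t| ≤ 1) ∧ ∃ C : ℝ, 0 ≤ C ∧ ∀ t, |deriv flcK t| ≤ C := by
  constructor
  · intro t
    by_cases ht : 3 / 4 ≤ |t|
    · rw [flc_K_zero ht]; simp
    · unfold flcK
      rw [abs_mul, abs_of_nonneg (fl_eta_props.2.1 t).1]
      have h1 := (fl_eta_props.2.1 t).2
      have h2 : |t| ≤ 1 := by linarith [not_le.1 ht]
      calc flEta t * |t| ≤ 1 * 1 := mul_le_mul h1 h2 (abs_nonneg _) (by norm_num)
        _ = 1 := by norm_num
  · have hcs : HasCompactSupport flcK := by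
      refine HasCompactSupport.intro (isCompact_Icc (a := (-1 : ℝ)) (b := 1)) fun t ht => ?_
      apply flc_K_zero
      by_contra hc
      apply ht
      have := abs_le.1 (not_le.1 hc).le
      exact ⟨by linarith [this.1], by linarith [this.2]⟩
    obtain ⟨C, hC⟩ := hcs.deriv.exists_bound_of_continuous (flc_K_contDiff.continuous_deriv (by simp))
    exact ⟨C, (norm_nonneg _).trans (hC 0), fun t => by simpa using hC t⟩

theorem dfc_A_fderiv {ζ : E n → ℝ} (hζ : ContDiff ℝ ∞ ζ) (y v : E (n + 1)) :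
    fderiv ℝ (flcA ζ) y v = 2 * ζ (gmtHor y) * fderiv ℝ ζ (gmtHor y) (gmtHor v) * flcK (gmtVer y)
      + ζ (gmtHor y) ^ 2 * (deriv flcK (gmtVer y) * gmtVer v) := by
  have hd : DifferentiableAt ℝ ζ (gmtHor y) := (hζ.differentiable (by simp)) _
  have h2 : HasFDerivAt (fun z => ζ z ^ 2) ((2 * ζ (gmtHor y)) • fderiv ℝ ζ (gmtHor y))
      (gmtHor y) := by
    have := hd.hasFDerivAt.pow 2
    simpa using this
  unfold flcA
  rw [fl_pr_fderiv h2.differentiableAt ((flc_K_contDiff.differentiable (by simp)) _), h2.fderiv]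
  simp only [_root_.smul_apply, smul_eq_mul]

/-- pointwise algebra of F3'. -/
theorem dfc_real {ζ t p νt d Cζ K K' CK : ℝ} (h0 : 0 ≤ ζ) (h1 : ζ ≤ 1) (hp : 0 ≤ p) (hCζ : 0 ≤ Cζ)
    (hn : p ^ 2 + νt ^ 2 = 1) (hd : |d| ≤ Cζ * p) (hK : |K| ≤ 1) (hK' : |K'| ≤ CK)
    (hin : |t| < 1 / 2 → K = t ∧ K' = 1) (I : ℝ) (hI0 : |t| < 1 / 2 → I = 0) (hI1 : 1 / 2 ≤ |t| → I = 1) :
    ζ ^ 2 * p ^ 2 / 2 - 2 * Cζ ^ 2 * t ^ 2 - (CK + 2 * Cζ + 1) * I ≤
      ζ ^ 2 * (K' * 1) - νt * (2 * ζ * d * K + ζ ^ 2 * (K' * νt)) := by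
  have hν : |νt| ≤ 1 := by
    rw [← sq_le_one_iff_abs_le_one]
    nlinarith [sq_nonneg p]
  have hp1 : p ≤ 1 := by nlinarith [sq_nonneg νt]
  have e : ζ ^ 2 * (K' * 1) - νt * (2 * ζ * d * K + ζ ^ 2 * (K' * νt)) =
      ζ ^ 2 * K' * p ^ 2 - 2 * (ζ * K * νt * d) := by
    have : νt ^ 2 = 1 - p ^ 2 := by linarith
    ring_nf
    rw [this]
    ring
  rw [e]
  have hcross : |ζ * K * νt * d| ≤ (ζ * p) * (|K| * Cζ) := by
    rw [abs_mul, abs_mul, abs_mul, abs_of_nonneg h0]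
    calc ζ * |K| * |νt| * |d| ≤ ζ * |K| * 1 * (Cζ * p) := by gcongr
      _ = (ζ * p) * (|K| * Cζ) := by ring
  have hc := (abs_le.1 hcross).2
  rcases lt_or_ge |t| (1 / 2) with ht | ht
  · obtain ⟨rfl, rfl⟩ := hin ht
    rw [hI0 ht]
    have h2 := flc_young (ζ * p) (|K| * Cζ)
    have h3 : (|K| * Cζ) ^ 2 = Cζ ^ 2 * K ^ 2 := by rw [mul_pow, sq_abs]; ring
    rw [h3] at h2
    nlinarith
  · rw [hI1 ht]
    have hz2 : ζ ^ 2 ≤ 1 := pow_le_one₀ h0 h1
    have hp2 : p ^ 2 ≤ 1 := pow_le_one₀ hp hp1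
    have hzp : ζ ^ 2 * p ^ 2 ≤ 1 := by nlinarith [sq_nonneg ζ, sq_nonneg p]
    have hzp0 : 0 ≤ ζ ^ 2 * p ^ 2 := by positivity
    have hCK : 0 ≤ CK := (abs_nonneg _).trans hK'
    have h4 : - CK ≤ ζ ^ 2 * K' * p ^ 2 := by
      have h5 : |ζ ^ 2 * K' * p ^ 2| ≤ CK := by
        have : ζ ^ 2 * K' * p ^ 2 = (ζ ^ 2 * p ^ 2) * K' := by ring
        rw [this, abs_mul, abs_of_nonneg hzp0]
        calc ζ ^ 2 * p ^ 2 * |K'| ≤ 1 * CK := mul_le_mul hzp hK' (abs_nonneg _) (by norm_num)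
          _ = CK := one_mul _
      exact (abs_le.1 h5).1
    have h6 : (ζ * p) * (|K| * Cζ) ≤ Cζ := by
      have : ζ * p ≤ 1 := by nlinarith
      calc (ζ * p) * (|K| * Cζ) ≤ 1 * (1 * Cζ) := by
            apply mul_le_mul this _ (by positivity) (by norm_num)
            exact mul_le_mul_of_nonneg_right hK hCζ
        _ = Cζ := by ring
    have h7 : 0 ≤ Cζ ^ 2 * t ^ 2 := by positivity
    nlinarith

theorem dfc_norm_en : ‖gmtEn n‖ = 1 := by
  have h := fl_norm_sq (gmtEn n)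
  rw [fl_hor_en, fl_ver_en] at h
  have h0 := norm_nonneg (gmtEn n)
  simp only [norm_zero] at h
  nlinarith

/-- a smooth function supported in the closed cylinder has a bounded derivative. -/
theorem dfc_bound_fderiv {a : E (n + 1) → ℝ} (ha : ContDiff ℝ ∞ a)
    (hs : tsupport a ⊆ {y | ‖gmtHor y‖ ≤ 7 / 8 ∧ |gmtVer y| ≤ 3 / 4}) :
    ∃ C : ℝ, 0 ≤ C ∧ ∀ y, ‖fderiv ℝ a y‖ ≤ C := by
  have hcs : HasCompactSupport a :=
    (isCompact_closedBall (0 : E (n + 1)) 2).of_isClosed_subset (isClosed_tsupport _)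
      (hs.trans fun y hy => ball_subset_closedBall
        (fl_cyl_subset_ball (hy.1.trans (by norm_num)) (hy.2.trans (by norm_num))))
  obtain ⟨C, hC⟩ := (hcs.fderiv ℝ).exists_bound_of_continuous (ha.continuous_fderiv (by simp))
  exact ⟨C, (norm_nonneg _).trans (hC 0), hC⟩

/-- integrability of the two integrands of `dfc_vert`. -/
theorem dfc_vert_integrable (H : DfcHyp n A τ μ lam ν) {a : E (n + 1) → ℝ} (ha : ContDiff ℝ ∞ a)
    (hs : tsupport a ⊆ {y | ‖gmtHor y‖ ≤ 7 / 8 ∧ |gmtVer y| ≤ 3 / 4}) :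
    Integrable (fun y => fderiv ℝ a y (gmtEn n) - gmtVer (ν y) * fderiv ℝ a y (ν y))
        (μ.restrict (flCyl 1)) ∧
      Integrable (fun y => fderiv ℝ a y (gmtEn n)) (lam.restrict (flCyl 1)) := by
  have : IsFiniteMeasure (μ.restrict (flCyl 1)) :=
    ⟨by rw [Measure.restrict_apply_univ]; exact H.finμ.lt_top⟩
  have : IsFiniteMeasure (lam.restrict (flCyl 1)) :=
    ⟨by rw [Measure.restrict_apply_univ]; exact H.finl.lt_top⟩
  obtain ⟨C, hC0, hC⟩ := dfc_bound_fderiv ha hs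
  have ha1 : ContDiff ℝ 1 a := ha.of_le (by simp)
  have hm1 : Measurable fun y => fderiv ℝ a y (gmtEn n) :=
    (ha1.continuous_fderiv (by simp)).measurable.apply_continuousLinearMap _
  have hb1 : ∀ y, |fderiv ℝ a y (gmtEn n)| ≤ C := fun y => by
    have := (fderiv ℝ a y).le_opNorm (gmtEn n)
    rw [dfc_norm_en, mul_one, Real.norm_eq_abs] at this
    exact this.trans (hC y)
  refine ⟨dfc_ibd (hm1.sub ((fl_continuous_ver.measurable.comp H.mν).mul
    (flc_measurable_apply ha1 H.mν))) (2 * C) (Filter.Eventually.of_forall fun y => ?_),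
    dfc_ibd hm1 C (Filter.Eventually.of_forall hb1)⟩
  have h2 : |fderiv ℝ a y (ν y)| ≤ C := by
    have := (fderiv ℝ a y).le_opNorm (ν y)
    rw [Real.norm_eq_abs] at this
    calc _ ≤ ‖fderiv ℝ a y‖ * ‖ν y‖ := this
      _ ≤ C * 1 := mul_le_mul (hC y) (H.le1 y) (norm_nonneg _) hC0
      _ = C := mul_one _
  have h3 : |gmtVer (ν y)| ≤ 1 := (fl_abs_ver_le _).trans (H.le1 y)
  have h4 : |gmtVer (ν y) * fderiv ℝ a y (ν y)| ≤ C := by
    rw [abs_mul]
    calc _ ≤ 1 * C := mul_le_mul h3 h2 (abs_nonneg _) (by norm_num)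
      _ = C := one_mul _
  calc _ ≤ |fderiv ℝ a y (gmtEn n)| + |gmtVer (ν y) * fderiv ℝ a y (ν y)| := abs_sub _ _
    _ ≤ 2 * C := by linarith [hb1 y]

/-- the indicator of the far part -/
noncomputable def dfcI (n : ℕ) : E (n + 1) → ℝ := (dfcOut n).indicator fun _ => 1

theorem dfc_I_meas : Measurable (dfcI n) := measurable_const.indicator dfc_out_meas

theorem dfc_I_in {y : E (n + 1)} (h : |gmtVer y| < 1 / 2) : dfcI n y = 0 :=
  indicator_of_notMem (s := dfcOut n) (fun h' : (1 / 2 : ℝ) ≤ |gmtVer y| => absurd h (not_lt.2 h')) _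

theorem dfc_I_out {y : E (n + 1)} (h : 1 / 2 ≤ |gmtVer y|) : dfcI n y = 1 :=
  indicator_of_mem (s := dfcOut n) h _

theorem dfc_I_bd (y : E (n + 1)) : |dfcI n y| ≤ 1 := by
  rcases lt_or_ge |gmtVer y| (1 / 2) with h | h
  · rw [dfc_I_in h]; simp
  · rw [dfc_I_out h]; simp

theorem dfc_I_integral (σ : Measure (E (n + 1))) :
    ∫ y in flCyl 1, dfcI n y ∂σ = (σ (flCyl 1 ∩ dfcOut n)).toReal := by
  unfold dfcI
  rw [integral_indicator_const _ dfc_out_meas, smul_eq_mul, mul_one, measureReal_def,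
    Measure.restrict_apply dfc_out_meas, inter_comm]

/-- **F3': Caccioppoli inequality for the diffuse pair** (with the bound of the discrepancy as a bonus). -/
theorem dfc_cacc (n : ℕ) : ∃ C : ℝ, 0 < C ∧ ∀ (A τ : ℝ) (μ lam : Measure (E (n + 1)))
    (ν : E (n + 1) → E (n + 1)), DfcHyp n A τ μ lam ν →
      ∫ y in flCyl (3 / 4), ‖gmtHor (ν y)‖ ^ 2 ∂μ ≤ C * (A + τ) ∧
        (lam (flCyl (3 / 4))).toReal ≤ C * (A + τ) := by
  obtain ⟨hζ, hζ01, hζ1, -, hζs, Cζ, hCζ, hζd⟩ :=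
    fl_cut_props (n := n) (a := 3 / 4) (b := 7 / 8) (by norm_num) (by norm_num)
  obtain ⟨hK1, CK, hCK, hK'⟩ := dfc_K_bounds
  set ζ : E n → ℝ := flCut (3 / 4) (7 / 8) with hζdef
  refine ⟨2 * (2 * Cζ ^ 2 + (CK + 2 * Cζ + 1) + (CK + 1)) + 1, by positivity, ?_⟩
  intro A τ μ lam ν H
  set a := flcA ζ with hadef
  have ha : ContDiff ℝ ∞ a := flc_A_contDiff hζ
  have hsupp : tsupport a ⊆ {y | ‖gmtHor y‖ ≤ 7 / 8 ∧ |gmtVer y| ≤ 3 / 4} := by
    refine fl_pr_tsupport ?_ (fun t ht => flc_K_zero ht)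
    refine (closure_mono fun z hz => ?_).trans hζs
    intro h0
    apply hz
    show ζ z ^ 2 = 0
    rw [h0]; norm_num
  have hV := dfc_vert H ha hsupp
  obtain ⟨hF₁i, hD₁i⟩ := dfc_vert_integrable H ha hsupp
  have : IsFiniteMeasure (μ.restrict (flCyl 1)) :=
    ⟨by rw [Measure.restrict_apply_univ]; exact H.finμ.lt_top⟩
  have : IsFiniteMeasure (lam.restrict (flCyl 1)) :=
    ⟨by rw [Measure.restrict_apply_univ]; exact H.finl.lt_top⟩
  have hmν := H.mν
  have hmhor : Measurable fun y => ‖gmtHor (ν y)‖ := (fl_continuous_hor.measurable.comp hmν).norm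
  set G : E (n + 1) → ℝ := fun y => ζ (gmtHor y) ^ 2 * ‖gmtHor (ν y)‖ ^ 2 with hG
  set Z : E (n + 1) → ℝ := fun y => ζ (gmtHor y) ^ 2 with hZ
  have hZm : Measurable Z := (hζ.continuous.comp fl_continuous_hor).measurable.pow_const 2
  have hGm : Measurable G := hZm.mul (hmhor.pow_const 2)
  have hp1 : ∀ y, ‖gmtHor (ν y)‖ ≤ 1 := fun y => (fl_norm_hor_le _).trans (H.le1 y)
  have hZ0 : ∀ y, 0 ≤ Z y := fun y => by positivity
  have hZ1 : ∀ y, Z y ≤ 1 := fun y => pow_le_one₀ (hζ01 _).1 (hζ01 _).2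
  have hG0 : ∀ y, 0 ≤ G y := fun y => by positivity
  have hG1 : ∀ y, G y ≤ 1 := fun y => by
    have h3 : ‖gmtHor (ν y)‖ ^ 2 ≤ 1 := pow_le_one₀ (norm_nonneg _) (hp1 y)
    calc G y ≤ 1 * 1 := mul_le_mul (hZ1 y) h3 (by positivity) (by norm_num)
      _ = 1 := by norm_num
  have hGi : Integrable G (μ.restrict (flCyl 1)) :=
    dfc_ibd hGm 1 (Filter.Eventually.of_forall fun y => by rw [abs_of_nonneg (hG0 y)]; exact hG1 y)
  have hZi : Integrable Z (lam.restrict (flCyl 1)) :=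
    dfc_ibd hZm 1 (Filter.Eventually.of_forall fun y => by rw [abs_of_nonneg (hZ0 y)]; exact hZ1 y)
  have hIμ : Integrable (dfcI n) (μ.restrict (flCyl 1)) :=
    dfc_ibd dfc_I_meas 1 (Filter.Eventually.of_forall dfc_I_bd)
  have hIl : Integrable (dfcI n) (lam.restrict (flCyl 1)) :=
    dfc_ibd dfc_I_meas 1 (Filter.Eventually.of_forall dfc_I_bd)
  have hTi : Integrable (fun y : E (n + 1) => gmtVer y ^ 2) (μ.restrict (flCyl 1)) := by
    refine dfc_ibd (fl_continuous_ver.measurable.pow_const 2) 1 ?_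
    filter_upwards [ae_restrict_mem (fl_isOpen_cyl 1).measurableSet] with y hy
    rw [abs_of_nonneg (by positivity), ← sq_abs]
    exact pow_le_one₀ (abs_nonneg _) hy.2.le
  -- the pointwise facts
  have hpt : ∀ᵐ y ∂(μ.restrict (flCyl 1)),
      G y / 2 - 2 * Cζ ^ 2 * gmtVer y ^ 2 - (CK + 2 * Cζ + 1) * dfcI n y ≤
        fderiv ℝ a y (gmtEn n) - gmtVer (ν y) * fderiv ℝ a y (ν y) := by
    filter_upwards [H.unit] with y hyν
    rw [dfc_A_fderiv hζ, dfc_A_fderiv hζ, fl_hor_en, fl_ver_en, map_zero]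
    have hn : ‖gmtHor (ν y)‖ ^ 2 + gmtVer (ν y) ^ 2 = 1 := by
      rw [← fl_norm_sq, hyν]; norm_num
    have hd : |fderiv ℝ ζ (gmtHor y) (gmtHor (ν y))| ≤ Cζ * ‖gmtHor (ν y)‖ := by
      rw [← Real.norm_eq_abs]
      exact (ContinuousLinearMap.le_opNorm _ _).trans
        (mul_le_mul_of_nonneg_right (hζd _) (norm_nonneg _))
    have := dfc_real (t := gmtVer y) (hζ01 (gmtHor y)).1 (hζ01 (gmtHor y)).2 (norm_nonneg _) hCζ hn hd
      (hK1 (gmtVer y)) (hK' (gmtVer y)) (fun ht => ⟨flc_K_eq ht.le, flc_K_deriv ht⟩) (dfcI n y)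
      dfc_I_in dfc_I_out
    simp only [mul_zero, zero_mul, zero_add]
    exact this
  have hpl : ∀ y, Z y - (CK + 1) * dfcI n y ≤ fderiv ℝ a y (gmtEn n) := by
    intro y
    rw [dfc_A_fderiv hζ, fl_hor_en, fl_ver_en, map_zero]
    simp only [mul_zero, zero_mul, zero_add, mul_one]
    rcases lt_or_ge |gmtVer y| (1 / 2) with ht | ht
    · rw [dfc_I_in ht, flc_K_deriv ht]
      simp [hZ]
    · rw [dfc_I_out ht]
      have h1 := (abs_le.1 (hK' (gmtVer y))).1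
      have h2 := hZ0 y
      have h3 := hZ1 y
      show Z y - (CK + 1) * 1 ≤ Z y * deriv flcK (gmtVer y)
      nlinarith
  have hlow : ∫ y in flCyl 1, (G y / 2 - 2 * Cζ ^ 2 * gmtVer y ^ 2 - (CK + 2 * Cζ + 1) * dfcI n y) ∂μ ≤
      ∫ y in flCyl 1, (fderiv ℝ a y (gmtEn n) - gmtVer (ν y) * fderiv ℝ a y (ν y)) ∂μ :=
    integral_mono_ae (((hGi.div_const 2).sub (hTi.const_mul _)).sub (hIμ.const_mul _)) hF₁i hpt
  have hlow' : ∫ y in flCyl 1, (G y / 2 - 2 * Cζ ^ 2 * gmtVer y ^ 2 - (CK + 2 * Cζ + 1) * dfcI n y) ∂μ =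
      (∫ y in flCyl 1, G y ∂μ) / 2 - 2 * Cζ ^ 2 * (∫ y in flCyl 1, gmtVer y ^ 2 ∂μ) -
        (CK + 2 * Cζ + 1) * (μ (flCyl 1 ∩ dfcOut n)).toReal := by
    have i12 : Integrable (fun y => G y / 2 - 2 * Cζ ^ 2 * gmtVer y ^ 2) (μ.restrict (flCyl 1)) :=
      (hGi.div_const 2).sub (hTi.const_mul _)
    rw [integral_sub i12 (hIμ.const_mul _),
      integral_sub (hGi.div_const 2) (hTi.const_mul _), integral_div, integral_const_mul,
      integral_const_mul, dfc_I_integral]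
  have hlam : ∫ y in flCyl 1, (Z y - (CK + 1) * dfcI n y) ∂lam ≤
      ∫ y in flCyl 1, fderiv ℝ a y (gmtEn n) ∂lam :=
    integral_mono (hZi.sub (hIl.const_mul _)) hD₁i hpl
  have hlam' : ∫ y in flCyl 1, (Z y - (CK + 1) * dfcI n y) ∂lam =
      (∫ y in flCyl 1, Z y ∂lam) - (CK + 1) * (lam (flCyl 1 ∩ dfcOut n)).toReal := by
    rw [integral_sub hZi (hIl.const_mul _), integral_const_mul, dfc_I_integral]
  have hmain : (∫ y in flCyl 1, G y ∂μ) / 2 + ∫ y in flCyl 1, Z y ∂lam ≤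
      (2 * Cζ ^ 2 + (CK + 2 * Cζ + 1) + (CK + 1)) * (A + τ) := by
    rw [hlow'] at hlow
    rw [hlam'] at hlam
    have h1 := H.mom
    have h2 := H.tailμ
    have h3 := H.taill
    have h4 := H.hA
    have h5 := H.hτ
    have t1 : 2 * Cζ ^ 2 * (∫ y in flCyl 1, gmtVer y ^ 2 ∂μ) ≤ 2 * Cζ ^ 2 * A :=
      mul_le_mul_of_nonneg_left h1 (by positivity)
    have t2 : (CK + 2 * Cζ + 1) * (μ (flCyl 1 ∩ dfcOut n)).toReal ≤ (CK + 2 * Cζ + 1) * τ :=
      mul_le_mul_of_nonneg_left h2 (by positivity)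
    have t3 : (CK + 1) * (lam (flCyl 1 ∩ dfcOut n)).toReal ≤ (CK + 1) * τ :=
      mul_le_mul_of_nonneg_left h3 (by positivity)
    have t4 : 0 ≤ (2 * Cζ ^ 2) * τ := by positivity
    have t5 : 0 ≤ ((CK + 2 * Cζ + 1) + (CK + 1)) * A := by positivity
    nlinarith
  have hGint0 : 0 ≤ ∫ y in flCyl 1, G y ∂μ := integral_nonneg hG0
  have hZint0 : 0 ≤ ∫ y in flCyl 1, Z y ∂lam := integral_nonneg hZ0
  have hAτ : 0 ≤ A + τ := add_nonneg H.hA H.hτ
  have hsub34 : (flCyl (3 / 4) : Set (E (n + 1))) ⊆ flCyl 1 := fl_cyl_mono (by norm_num)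
  constructor
  · have hsub : ∫ y in flCyl (3 / 4), ‖gmtHor (ν y)‖ ^ 2 ∂μ ≤ ∫ y in flCyl 1, G y ∂μ := by
      have h1 : ∫ y in flCyl (3 / 4), ‖gmtHor (ν y)‖ ^ 2 ∂μ = ∫ y in flCyl (3 / 4), G y ∂μ := by
        refine setIntegral_congr_fun (fl_isOpen_cyl _).measurableSet fun y hy => ?_
        show _ = ζ (gmtHor y) ^ 2 * ‖gmtHor (ν y)‖ ^ 2
        rw [hζ1 _ hy.1.le]; ring
      rw [h1]
      exact setIntegral_mono_set hGi (Filter.Eventually.of_forall hG0)
        (Filter.Eventually.of_forall hsub34)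
    nlinarith
  · have hsub : (lam (flCyl (3 / 4))).toReal ≤ ∫ y in flCyl 1, Z y ∂lam := by
      have h1 : (lam (flCyl (3 / 4))).toReal = ∫ y in flCyl (3 / 4), Z y ∂lam := by
        have : ∫ y in flCyl (3 / 4), Z y ∂lam = ∫ _y in (flCyl (3 / 4) : Set (E (n + 1))), (1 : ℝ) ∂lam := by
          refine setIntegral_congr_fun (fl_isOpen_cyl _).measurableSet fun y hy => ?_
          show ζ (gmtHor y) ^ 2 = 1
          rw [hζ1 _ hy.1.le]; ring
        rw [this, integral_const, smul_eq_mul, mul_one, measureReal_def, Measure.restrict_apply_univ]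
      rw [h1]
      exact setIntegral_mono_set hZi (Filter.Eventually.of_forall hZ0)
        (Filter.Eventually.of_forall hsub34)
    nlinarith

/-- comparison of the integrals for `μ ≤ μ₁ ≤ μ + lam`. -/
theorem dfc_cmp {σ σ₁ l : Measure (E (n + 1))} [IsFiniteMeasure σ] [IsFiniteMeasure l] (h1 : σ ≤ σ₁)
    (h2 : σ₁ ≤ σ + l) {f : E (n + 1) → ℝ} (hf : Measurable f) {M : ℝ} (hM : ∀ y, |f y| ≤ M) :
    |∫ y, f y ∂σ₁ - ∫ y, f y ∂σ| ≤ M * l.real univ := by
  have hθl : σ₁ - σ ≤ l := Measure.sub_le_of_le_add (h2.trans (le_of_eq (add_comm σ l)))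
  have : IsFiniteMeasure (σ₁ - σ) := isFiniteMeasure_of_le l hθl
  have hsum : σ₁ - σ + σ = σ₁ := Measure.sub_add_cancel_of_le h1
  have i1 : Integrable f (σ₁ - σ) := dfc_ibd hf M (Filter.Eventually.of_forall hM)
  have i2 : Integrable f σ := dfc_ibd hf M (Filter.Eventually.of_forall hM)
  have e : ∫ y, f y ∂σ₁ = ∫ y, f y ∂(σ₁ - σ) + ∫ y, f y ∂σ := by
    rw [← integral_add_measure i1 i2, hsum]
  rw [e, add_sub_cancel_right]
  have hM0 : 0 ≤ M := (abs_nonneg _).trans (hM 0)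
  have h3 := norm_integral_le_of_norm_le_const (μ := σ₁ - σ) (f := f) (C := M)
    (Filter.Eventually.of_forall fun y => by rw [Real.norm_eq_abs]; exact hM y)
  rw [Real.norm_eq_abs] at h3
  refine h3.trans (mul_le_mul_of_nonneg_left ?_ hM0)
  exact ENNReal.toReal_mono (measure_ne_top l univ) (hθl univ)

/-- the derivative of the vertical cut-off is bounded. -/
theorem dfc_eta_bound : ∃ C : ℝ, 0 ≤ C ∧ ∀ t, |deriv flEta t| ≤ C := by
  have hcs : HasCompactSupport flEta := by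
    refine HasCompactSupport.intro (isCompact_Icc (a := (-1 : ℝ)) (b := 1)) fun t ht => ?_
    apply fl_eta_props.2.2.2
    by_contra hc
    apply ht
    have := abs_le.1 (not_le.1 hc).le
    exact ⟨by linarith [this.1], by linarith [this.2]⟩
  obtain ⟨C, hC⟩ := hcs.deriv.exists_bound_of_continuous (fl_eta_props.1.continuous_deriv (by simp))
  exact ⟨C, (norm_nonneg _).trans (hC 0), fun t => by simpa using hC t⟩

/-- the cross term (as `fl_cross`). -/
theorem dfc_cross {dl B : ℝ} (H : DfcHyp n A τ μ lam ν) (hdl : 0 ≤ dl)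
    (hexc : ∫ y in flCyl 1, (1 - gmtVer (ν y)) ∂μ ≤ dl)
    (hcacc : ∫ y in flCyl (3 / 4), ‖gmtHor (ν y)‖ ^ 2 ∂μ ≤ B) :
    ∫ y in flCyl (3 / 4), (1 - gmtVer (ν y)) * ‖gmtHor (ν y)‖ ∂μ ≤ Real.sqrt (2 * dl * B) := by
  have hmν := H.mν
  have hsub : (flCyl (3 / 4) : Set (E (n + 1))) ⊆ flCyl 1 := fl_cyl_mono (by norm_num)
  have : IsFiniteMeasure (μ.restrict (flCyl 1)) :=
    ⟨by rw [Measure.restrict_apply_univ]; exact H.finμ.lt_top⟩
  have : IsFiniteMeasure (μ.restrict (flCyl (3 / 4))) := ⟨by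
    rw [Measure.restrict_apply_univ]; exact (measure_mono hsub).trans_lt H.finμ.lt_top⟩
  have hvt : ∀ y, |gmtVer (ν y)| ≤ 1 := fun y => (fl_abs_ver_le _).trans (H.le1 y)
  have hp1 : ∀ y, ‖gmtHor (ν y)‖ ≤ 1 := fun y => (fl_norm_hor_le _).trans (H.le1 y)
  have hu0 : ∀ y, 0 ≤ 1 - gmtVer (ν y) := fun y => by have := (abs_le.1 (hvt y)).2; linarith
  have hu2 : ∀ y, 1 - gmtVer (ν y) ≤ 2 := fun y => by have := (abs_le.1 (hvt y)).1; linarith
  have hmu : Measurable fun y => 1 - gmtVer (ν y) :=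
    measurable_const.sub (fl_continuous_ver.measurable.comp hmν)
  have hmv : Measurable fun y => ‖gmtHor (ν y)‖ := (fl_continuous_hor.measurable.comp hmν).norm
  have iu2 : Integrable (fun y => (1 - gmtVer (ν y)) ^ 2) (μ.restrict (flCyl (3 / 4))) :=
    dfc_ibd (hmu.pow_const 2) 4 (Filter.Eventually.of_forall fun y => by
      rw [abs_of_nonneg (by positivity)]; nlinarith [hu0 y, hu2 y])
  have iv2 : Integrable (fun y => ‖gmtHor (ν y)‖ ^ 2) (μ.restrict (flCyl (3 / 4))) :=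
    dfc_ibd (hmv.pow_const 2) 1 (Filter.Eventually.of_forall fun y => by
      rw [abs_of_nonneg (by positivity)]; exact pow_le_one₀ (norm_nonneg _) (hp1 y))
  have iuv : Integrable (fun y => (1 - gmtVer (ν y)) * ‖gmtHor (ν y)‖)
      (μ.restrict (flCyl (3 / 4))) :=
    dfc_ibd (hmu.mul hmv) 2 (Filter.Eventually.of_forall fun y => by
      rw [abs_of_nonneg (mul_nonneg (hu0 y) (norm_nonneg _))]
      nlinarith [hu0 y, hu2 y, hp1 y, norm_nonneg (gmtHor (ν y))])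
  have iu1 : Integrable (fun y => 1 - gmtVer (ν y)) (μ.restrict (flCyl 1)) :=
    dfc_ibd hmu 2 (Filter.Eventually.of_forall fun y => by rw [abs_of_nonneg (hu0 y)]; exact hu2 y)
  have hcs := flc_cs iu2 iv2 iuv
  have hA : ∫ y in flCyl (3 / 4), (1 - gmtVer (ν y)) ^ 2 ∂μ ≤ 2 * dl := by
    have h1 : ∫ y in flCyl (3 / 4), (1 - gmtVer (ν y)) ^ 2 ∂μ
        ≤ ∫ y in flCyl (3 / 4), 2 * (1 - gmtVer (ν y)) ∂μ :=
      integral_mono iu2 ((iu1.mono_measure (Measure.restrict_mono hsub le_rfl)).const_mul 2)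
        fun y => by
          show (1 - gmtVer (ν y)) ^ 2 ≤ 2 * (1 - gmtVer (ν y))
          nlinarith [hu0 y, hu2 y]
    rw [integral_const_mul] at h1
    have h2 : ∫ y in flCyl (3 / 4), (1 - gmtVer (ν y)) ∂μ ≤ ∫ y in flCyl 1, (1 - gmtVer (ν y)) ∂μ :=
      setIntegral_mono_set iu1 (Filter.Eventually.of_forall hu0) (Filter.Eventually.of_forall hsub)
    linarith
  have hB0 : 0 ≤ ∫ y in flCyl (3 / 4), ‖gmtHor (ν y)‖ ^ 2 ∂μ :=
    integral_nonneg fun y => by positivity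
  apply Real.le_sqrt_of_sq_le
  refine hcs.trans ?_
  exact mul_le_mul hA hcacc hB0 (by positivity)

/-- **F4': the height is almost harmonic** (abstract form; `μ₁` = the Gauss-Green measure, `h` = the height, `dl` = oriented excess). -/
theorem dfc_harm (n : ℕ) : ∃ C : ℝ, 0 < C ∧ ∀ (A τ dl : ℝ) (μ μ₁ lam : Measure (E (n + 1)))
    (ν : E (n + 1) → E (n + 1)) (h : E n → ℝ), DfcHyp n A τ μ lam ν → μ ≤ μ₁ → μ₁ ≤ μ + lam → 0 ≤ dl →
    ∫ y in flCyl 1, (1 - gmtVer (ν y)) ∂μ ≤ dl →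
    (∀ Ψ : E n → E n, GmtTest (ball 0 (3 / 4)) Ψ →
      ∫ z, h z * gmtDiv Ψ z = ∫ y in flCyl 1, ⟪Ψ (gmtHor y), gmtHor (ν y)⟫ ∂μ₁) →
    FlAH h (C * (Real.sqrt (dl * (A + τ)) + τ + (lam (flCyl 1)).toReal)) := by
  obtain ⟨C3, hC3, H3⟩ := dfc_cacc n
  obtain ⟨Cη, hCη, hη'⟩ := dfc_eta_bound
  refine ⟨Real.sqrt (2 * C3) + 2 * Cη + 3, by positivity, ?_⟩
  intro A τ dl μ μ₁ lam ν h H hle1 hle2 hdl hexc hF2 ψ hψ hψs M hM hM'
  have hM0 : 0 ≤ M := (abs_nonneg _).trans (hM 0)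
  have hAτ : 0 ≤ A + τ := add_nonneg H.hA H.hτ
  have hcacc := (H3 A τ μ lam ν H).1
  have hmν := H.mν
  have : IsFiniteMeasure (μ.restrict (flCyl 1)) :=
    ⟨by rw [Measure.restrict_apply_univ]; exact H.finμ.lt_top⟩
  have : IsFiniteMeasure (lam.restrict (flCyl 1)) :=
    ⟨by rw [Measure.restrict_apply_univ]; exact H.finl.lt_top⟩
  have hc : HasCompactSupport ψ :=
    (isCompact_closedBall (0 : E n) (3 / 4)).of_isClosed_subset (isClosed_tsupport _)
      (hψs.trans ball_subset_closedBall)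
  have hΨ : GmtTest (ball 0 (3 / 4)) (gradient ψ) := fl_grad_test hψ hc hψs
  have hψ1 : ContDiff ℝ 1 ψ := hψ.of_le (by simp)
  -- the function `f = Dψ(z)(ν')`
  set f : E (n + 1) → ℝ := fun y => fderiv ℝ ψ (gmtHor y) (gmtHor (ν y)) with hf
  have hfm : Measurable f :=
    ContinuousLinearMap.measurable_apply₂.comp
      ((((hψ1.continuous_fderiv (by simp)).comp fl_continuous_hor).measurable).prodMk
        (fl_continuous_hor.measurable.comp hmν))
  have hp1 : ∀ y, ‖gmtHor (ν y)‖ ≤ 1 := fun y => (fl_norm_hor_le _).trans (H.le1 y)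
  have hvt : ∀ y, |gmtVer (ν y)| ≤ 1 := fun y => (fl_abs_ver_le _).trans (H.le1 y)
  have hfp : ∀ y, |f y| ≤ M * ‖gmtHor (ν y)‖ := fun y => by
    rw [← Real.norm_eq_abs]
    exact (ContinuousLinearMap.le_opNorm _ _).trans
      (mul_le_mul_of_nonneg_right (hM' _) (norm_nonneg _))
  have hfM : ∀ y, |f y| ≤ M := fun y =>
    (hfp y).trans (by simpa using mul_le_mul_of_nonneg_left (hp1 y) hM0)
  have e0 : ∫ z, h z * flLap ψ z = ∫ y in flCyl 1, f y ∂μ₁ := by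
    have := hF2 _ hΨ
    unfold flLap
    rw [this]
    refine integral_congr_ae (Filter.Eventually.of_forall fun y => ?_)
    show ⟪gradient ψ (gmtHor y), gmtHor (ν y)⟫ = f y
    unfold gradient
    rw [InnerProductSpace.toDual_symm_apply]
  rw [e0]
  -- step 2: from `μ₁` to `μ`
  have hcmp := dfc_cmp (σ := μ.restrict (flCyl 1)) (σ₁ := μ₁.restrict (flCyl 1))
    (l := lam.restrict (flCyl 1)) (Measure.restrict_mono le_rfl hle1)
    (by rw [← Measure.restrict_add]; exact Measure.restrict_mono le_rfl hle2) hfm hfM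
  rw [measureReal_def, Measure.restrict_apply_univ] at hcmp
  -- step 3a: the vertical field `ψ(z) η(t) e`
  set a : E (n + 1) → ℝ := flPr ψ flEta with hadef
  have ha : ContDiff ℝ ∞ a := fl_pr_contDiff (N := ⊤) hψ fl_eta_props.1
  have hsupp : tsupport a ⊆ {y | ‖gmtHor y‖ ≤ 7 / 8 ∧ |gmtVer y| ≤ 3 / 4} :=
    fl_pr_tsupport (hψs.trans ((ball_subset_ball (by norm_num)).trans ball_subset_closedBall))
      fl_eta_props.2.2.2
  have hV := dfc_vert H ha hsupp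
  obtain ⟨hF₁i, hD₁i⟩ := dfc_vert_integrable H ha hsupp
  have hafd : ∀ y v, fderiv ℝ a y v = fderiv ℝ ψ (gmtHor y) (gmtHor v) * flEta (gmtVer y) +
      ψ (gmtHor y) * (deriv flEta (gmtVer y) * gmtVer v) := fun y v =>
    fl_pr_fderiv ((hψ.differentiable (by simp)) _) ((fl_eta_props.1.differentiable (by simp)) _) v
  set Q : E (n + 1) → ℝ := fun y => ψ (gmtHor y) * deriv flEta (gmtVer y) with hQ
  have hQm : Measurable Q :=
    ((hψ.continuous.comp fl_continuous_hor).mul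
      ((fl_eta_props.1.continuous_deriv (by simp)).comp fl_continuous_ver)).measurable
  have hQb : ∀ y, |Q y| ≤ M * Cη * dfcI n y := by
    intro y
    rcases lt_or_ge |gmtVer y| (1 / 2) with ht | ht
    · rw [dfc_I_in ht, hQ]
      simp only [fl_eta_deriv ht]
      simp
    · rw [dfc_I_out ht, mul_one, hQ]
      simp only [abs_mul]
      exact mul_le_mul (hM _) (hη' _) (abs_nonneg _) hM0
  set P : E (n + 1) → ℝ := fun y => Q y * (1 - gmtVer (ν y) ^ 2) with hP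
  set R : E (n + 1) → ℝ := fun y => flEta (gmtVer y) * gmtVer (ν y) * f y with hR
  have hνtm : Measurable fun y => gmtVer (ν y) := fl_continuous_ver.measurable.comp hmν
  have hPm : Measurable P := hQm.mul (measurable_const.sub (hνtm.pow_const 2))
  have hRm : Measurable R :=
    (((fl_eta_props.1.continuous.comp fl_continuous_ver).measurable).mul hνtm).mul hfm
  have hsq : ∀ y, 0 ≤ 1 - gmtVer (ν y) ^ 2 ∧ 1 - gmtVer (ν y) ^ 2 ≤ 1 := fun y => by
    have := sq_le_one_iff_abs_le_one _ |>.2 (hvt y)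
    exact ⟨by linarith, by nlinarith [sq_nonneg (gmtVer (ν y))]⟩
  have hI0 : ∀ y, 0 ≤ dfcI n y := fun y => by
    rcases lt_or_ge |gmtVer y| (1 / 2) with ht | ht
    · rw [dfc_I_in ht]
    · rw [dfc_I_out ht]; norm_num
  have hPb : ∀ y, |P y| ≤ M * Cη * dfcI n y := fun y => by
    rw [hP]
    simp only [abs_mul]
    rw [abs_of_nonneg (hsq y).1]
    calc |Q y| * (1 - gmtVer (ν y) ^ 2) ≤ (M * Cη * dfcI n y) * 1 :=
          mul_le_mul (hQb y) (hsq y).2 (hsq y).1 (by have := hI0 y; positivity)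
      _ = _ := mul_one _
  have hIμ : Integrable (dfcI n) (μ.restrict (flCyl 1)) :=
    dfc_ibd dfc_I_meas 1 (Filter.Eventually.of_forall dfc_I_bd)
  have hIl : Integrable (dfcI n) (lam.restrict (flCyl 1)) :=
    dfc_ibd dfc_I_meas 1 (Filter.Eventually.of_forall dfc_I_bd)
  have hI1 : ∀ y, dfcI n y ≤ 1 := fun y => (le_abs_self _).trans (dfc_I_bd y)
  have hMC : 0 ≤ M * Cη := by positivity
  have hPi : Integrable P (μ.restrict (flCyl 1)) :=
    dfc_ibd hPm (M * Cη) (Filter.Eventually.of_forall fun y =>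
      (hPb y).trans (by simpa using mul_le_mul_of_nonneg_left (hI1 y) hMC))
  have hQi : Integrable Q (lam.restrict (flCyl 1)) :=
    dfc_ibd hQm (M * Cη) (Filter.Eventually.of_forall fun y =>
      (hQb y).trans (by simpa using mul_le_mul_of_nonneg_left (hI1 y) hMC))
  have hη01 := fl_eta_props.2.1
  have hRb : ∀ y, |R y| ≤ M := fun y => by
    rw [hR]
    simp only [abs_mul]
    rw [abs_of_nonneg (hη01 _).1]
    calc flEta (gmtVer y) * |gmtVer (ν y)| * |f y| ≤ 1 * 1 * M := by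
          apply mul_le_mul _ (hfM y) (abs_nonneg _) (by norm_num)
          exact mul_le_mul (hη01 _).2 (hvt y) (abs_nonneg _) (by norm_num)
      _ = M := by ring
  have hRi : Integrable R (μ.restrict (flCyl 1)) := dfc_ibd hRm M (Filter.Eventually.of_forall hRb)
  have hfi : Integrable f (μ.restrict (flCyl 1)) := dfc_ibd hfm M (Filter.Eventually.of_forall hfM)
  have eF : ∀ y, fderiv ℝ a y (gmtEn n) - gmtVer (ν y) * fderiv ℝ a y (ν y) = P y - R y := fun y => by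
    rw [hafd, hafd, fl_hor_en, fl_ver_en, map_zero]
    show _ = ψ (gmtHor y) * deriv flEta (gmtVer y) * (1 - gmtVer (ν y) ^ 2) -
      flEta (gmtVer y) * gmtVer (ν y) * fderiv ℝ ψ (gmtHor y) (gmtHor (ν y))
    ring
  have eD : ∀ y, fderiv ℝ a y (gmtEn n) = Q y := fun y => by
    rw [hafd, fl_hor_en, fl_ver_en, map_zero]
    show _ = ψ (gmtHor y) * deriv flEta (gmtVer y)
    ring
  have hFe : (fun y => fderiv ℝ a y (gmtEn n) - gmtVer (ν y) * fderiv ℝ a y (ν y)) =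
      fun y => P y - R y := funext eF
  have hDe : (fun y => fderiv ℝ a y (gmtEn n)) = Q := funext eD
  rw [hFe, hDe, integral_sub hPi hRi] at hV
  have hPint : |∫ y in flCyl 1, P y ∂μ| ≤ M * Cη * τ := by
    have h1 : |∫ y in flCyl 1, P y ∂μ| ≤ ∫ y in flCyl 1, M * Cη * dfcI n y ∂μ := by
      rw [← Real.norm_eq_abs]
      exact norm_integral_le_of_norm_le (hIμ.const_mul _)
        (Filter.Eventually.of_forall fun y => by rw [Real.norm_eq_abs]; exact hPb y)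
    rw [integral_const_mul, dfc_I_integral] at h1
    exact h1.trans (mul_le_mul_of_nonneg_left H.tailμ hMC)
  have hQint : |∫ y in flCyl 1, Q y ∂lam| ≤ M * Cη * τ := by
    have h1 : |∫ y in flCyl 1, Q y ∂lam| ≤ ∫ y in flCyl 1, M * Cη * dfcI n y ∂lam := by
      rw [← Real.norm_eq_abs]
      exact norm_integral_le_of_norm_le (hIl.const_mul _)
        (Filter.Eventually.of_forall fun y => by rw [Real.norm_eq_abs]; exact hQb y)
    rw [integral_const_mul, dfc_I_integral] at h1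
    exact h1.trans (mul_le_mul_of_nonneg_left H.taill hMC)
  have hRint : |∫ y in flCyl 1, R y ∂μ| ≤ 2 * (M * Cη * τ) := by
    have e : ∫ y in flCyl 1, R y ∂μ = ∫ y in flCyl 1, P y ∂μ + ∫ y in flCyl 1, Q y ∂lam := by linarith
    rw [e]
    exact (abs_add_le _ _).trans (by linarith)
  -- step 3b: the remainder `f - R`
  set X : E (n + 1) → ℝ := (flCyl (3 / 4)).indicator fun y => (1 - gmtVer (ν y)) * ‖gmtHor (ν y)‖ with hX
  have hu0 : ∀ y, 0 ≤ 1 - gmtVer (ν y) := fun y => by have := (abs_le.1 (hvt y)).2; linarith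
  have hu2 : ∀ y, 1 - gmtVer (ν y) ≤ 2 := fun y => by have := (abs_le.1 (hvt y)).1; linarith
  have hXm : Measurable X :=
    ((measurable_const.sub hνtm).mul (fl_continuous_hor.measurable.comp hmν).norm).indicator
      (fl_isOpen_cyl _).measurableSet
  have hX0 : ∀ y, 0 ≤ X y := fun y => indicator_nonneg (fun y _ => mul_nonneg (hu0 y) (norm_nonneg _)) y
  have hX2 : ∀ y, X y ≤ 2 := fun y => by
    rw [hX]
    by_cases hy : y ∈ (flCyl (3 / 4) : Set (E (n + 1)))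
    · rw [indicator_of_mem hy]
      nlinarith [hu0 y, hu2 y, hp1 y, norm_nonneg (gmtHor (ν y))]
    · rw [indicator_of_notMem hy]; norm_num
  have hXi : Integrable X (μ.restrict (flCyl 1)) :=
    dfc_ibd hXm 2 (Filter.Eventually.of_forall fun y => by rw [abs_of_nonneg (hX0 y)]; exact hX2 y)
  have hrem : ∀ y ∈ (flCyl 1 : Set (E (n + 1))), |f y - R y| ≤ M * X y + 2 * M * dfcI n y := by
    intro y hy
    have e : f y - R y = (1 - flEta (gmtVer y) * gmtVer (ν y)) * f y := by rw [hR]; ring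
    rw [e, abs_mul]
    rcases lt_or_ge |gmtVer y| (1 / 2) with ht | ht
    · rw [dfc_I_in ht, fl_eta_props.2.2.1 _ ht.le, one_mul, abs_of_nonneg (hu0 y), mul_zero, add_zero]
      by_cases hz : ‖gmtHor y‖ < 3 / 4
      · have hy34 : y ∈ (flCyl (3 / 4) : Set (E (n + 1))) := ⟨hz, hy.2⟩
        rw [hX, indicator_of_mem hy34]
        calc (1 - gmtVer (ν y)) * |f y| ≤ (1 - gmtVer (ν y)) * (M * ‖gmtHor (ν y)‖) :=
              mul_le_mul_of_nonneg_left (hfp y) (hu0 y)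
          _ = _ := by ring
      · have h0 : f y = 0 := by
          rw [hf]
          have : gmtHor y ∉ tsupport ψ := fun hmem => hz (by simpa using hψs hmem)
          show fderiv ℝ ψ (gmtHor y) (gmtHor (ν y)) = 0
          rw [fderiv_of_notMem_tsupport ℝ this]
          simp
        rw [h0, abs_zero, mul_zero]
        exact mul_nonneg hM0 (hX0 y)
    · rw [dfc_I_out ht, mul_one]
      have h1 : |1 - flEta (gmtVer y) * gmtVer (ν y)| ≤ 2 := by
        have h2 : |flEta (gmtVer y) * gmtVer (ν y)| ≤ 1 := by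
          rw [abs_mul, abs_of_nonneg (hη01 _).1]
          calc _ ≤ (1 : ℝ) * 1 := mul_le_mul (hη01 _).2 (hvt y) (abs_nonneg _) (by norm_num)
            _ = 1 := by norm_num
        have := abs_le.1 h2
        rw [abs_le]
        constructor <;> linarith [this.1, this.2]
      have h3 : |1 - flEta (gmtVer y) * gmtVer (ν y)| * |f y| ≤ 2 * M :=
        mul_le_mul h1 (hfM y) (abs_nonneg _) (by norm_num)
      have := mul_nonneg hM0 (hX0 y)
      linarith
  have hcross := dfc_cross H hdl hexc hcacc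
  have hremint : |∫ y in flCyl 1, (f y - R y) ∂μ| ≤
      M * Real.sqrt (2 * dl * (C3 * (A + τ))) + 2 * M * τ := by
    have h1 : |∫ y in flCyl 1, (f y - R y) ∂μ| ≤ ∫ y in flCyl 1, (M * X y + 2 * M * dfcI n y) ∂μ := by
      rw [← Real.norm_eq_abs]
      refine norm_integral_le_of_norm_le ((hXi.const_mul _).add (hIμ.const_mul _)) ?_
      filter_upwards [ae_restrict_mem (fl_isOpen_cyl 1).measurableSet] with y hy
      rw [Real.norm_eq_abs]
      exact hrem y hy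
    rw [integral_add (hXi.const_mul _) (hIμ.const_mul _), integral_const_mul, integral_const_mul,
      dfc_I_integral] at h1
    have h2 : ∫ y in flCyl 1, X y ∂μ = ∫ y in flCyl (3 / 4), (1 - gmtVer (ν y)) * ‖gmtHor (ν y)‖ ∂μ := by
      rw [hX, setIntegral_indicator (fl_isOpen_cyl _).measurableSet,
        inter_eq_self_of_subset_right (fl_cyl_mono (by norm_num))]
    rw [h2] at h1
    have h3 := mul_le_mul_of_nonneg_left hcross hM0
    have h4 := mul_le_mul_of_nonneg_left H.tailμ (by positivity : 0 ≤ 2 * M)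
    linarith
  -- conclusion
  have hsplit : ∫ y in flCyl 1, f y ∂μ = ∫ y in flCyl 1, R y ∂μ + ∫ y in flCyl 1, (f y - R y) ∂μ := by
    rw [integral_sub hfi hRi]; ring
  have hsq2 : Real.sqrt (2 * dl * (C3 * (A + τ))) = Real.sqrt (2 * C3) * Real.sqrt (dl * (A + τ)) := by
    rw [← Real.sqrt_mul (by positivity)]
    congr 1
    ring
  have hfin : |∫ y in flCyl 1, f y ∂μ₁| ≤ M * (lam (flCyl 1)).toReal + 2 * (M * Cη * τ) +
      (M * (Real.sqrt (2 * C3) * Real.sqrt (dl * (A + τ))) + 2 * M * τ) := by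
    have h1 : |∫ y in flCyl 1, f y ∂μ₁| ≤ |∫ y in flCyl 1, f y ∂μ₁ - ∫ y in flCyl 1, f y ∂μ| +
        |∫ y in flCyl 1, f y ∂μ| := by
      have := abs_add_le (∫ y in flCyl 1, f y ∂μ₁ - ∫ y in flCyl 1, f y ∂μ) (∫ y in flCyl 1, f y ∂μ)
      simpa using this
    have h2 : |∫ y in flCyl 1, f y ∂μ| ≤ |∫ y in flCyl 1, R y ∂μ| + |∫ y in flCyl 1, (f y - R y) ∂μ| := by
      rw [hsplit]; exact abs_add_le _ _
    rw [hsq2] at hremint
    linarith
  refine hfin.trans ?_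
  have hs0 : 0 ≤ Real.sqrt (dl * (A + τ)) := Real.sqrt_nonneg _
  have hs1 : 0 ≤ Real.sqrt (2 * C3) := Real.sqrt_nonneg _
  have hL0 : 0 ≤ (lam (flCyl 1)).toReal := ENNReal.toReal_nonneg
  have hτ := H.hτ
  have k1 : 0 ≤ M * ((2 * Cη + 3) * Real.sqrt (dl * (A + τ))) := by positivity
  have k2 : 0 ≤ M * ((Real.sqrt (2 * C3) + 1) * τ) := by positivity
  have k3 : 0 ≤ M * ((Real.sqrt (2 * C3) + 2 * Cη + 2) * (lam (flCyl 1)).toReal) := by positivity
  nlinarith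

/-! ## Bridges to the concrete pair of `FlId2` -/

theorem dfc_w_div_s0 (s : ℝ) : dgFI_w s / dgFI_s0 = 3 / 4 * (1 - s ^ 2) := by
  unfold dgFI_w dgFI_s0
  have h2 : Real.sqrt 2 * Real.sqrt 2 = 2 := Real.mul_self_sqrt (by norm_num)
  have h0 : Real.sqrt 2 ≠ 0 := (Real.sqrt_pos.2 (by norm_num)).ne'
  field_simp
  nlinarith

/-- `|∇v| ⟪Ψ, ν'⟫ = - Dv (Ψ, 0)`. -/
theorem dfc_norm_mul_hor (v : E (n + 1) → ℝ) (y : E (n + 1)) (p : E n) :
    ‖fderiv ℝ v y‖ * ⟪p, gmtHor (dgFI_nu v y)⟫ = - fderiv ℝ v y (flInc n p) := by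
  have e1 : ⟪p, gmtHor (dgFI_nu v y)⟫ = ⟪flInc n p, dgFI_nu v y⟫ := by
    rw [fl_inner, fl_inc_apply, fl_hor_join, fl_ver_join]
    ring
  rw [e1, ← real_inner_smul_right, dgFI_norm_smul_nu, inner_neg_right, dgFI_fderiv_eq_inner,
    real_inner_comm]

/-- **F2** in the words of the pair `(dgFI_mu1 v, dgFI_nu v)`. -/
theorem dfc_F2 {v : E (n + 1) → ℝ} (hv : ContDiff ℝ 1 v) (hr : ∀ x, v x ∈ Icc (-1 : ℝ) 1)
    {Ψ : E n → E n} (hΨ : GmtTest (ball 0 (3 / 4)) Ψ) :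
    ∫ z, dfH v z * gmtDiv Ψ z =
      ∫ y in flCyl 1, ⟪Ψ (gmtHor y), gmtHor (dgFI_nu v y)⟫ ∂(dgFI_mu1 v) := by
  have hΨ1 : GmtTest (ball 0 1) Ψ := ⟨hΨ.c1, hΨ.cpt, hΨ.sub.trans (ball_subset_ball (by norm_num))⟩
  have h1 := dfxh_H_grad_v hv hΨ1
  have eR : ∫ y in flCyl 1, ⟪Ψ (gmtHor y), gmtHor (dgFI_nu v y)⟫ ∂(dgFI_mu1 v) =
      ∫ y, (flCyl 1 : Set (E (n + 1))).indicator
        (fun y => ⟪Ψ (gmtHor y), gmtHor (dgFI_nu v y)⟫) y ∂(dgFI_mu1 v) :=
    (integral_indicator (fl_isOpen_cyl 1).measurableSet).symm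
  rw [h1, eR, dgFJ_integral_mu1 hv hr, ← integral_indicator (fl_isOpen_cyl 1).measurableSet,
    ← integral_neg]
  refine integral_congr_ae (Filter.Eventually.of_forall fun y => ?_)
  by_cases hy : y ∈ (flCyl 1 : Set (E (n + 1)))
  · simp only [indicator_of_mem hy]
    have e := dfc_norm_mul_hor v y (Ψ (gmtHor y))
    calc -(3 / 4 * (1 - v y ^ 2) * fderiv ℝ v y (flInc n (Ψ (gmtHor y))))
        = dgFI_w (v y) / dgFI_s0 * (‖fderiv ℝ v y‖ * ⟪Ψ (gmtHor y), gmtHor (dgFI_nu v y)⟫) := by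
          rw [e, dfc_w_div_s0]; ring
      _ = _ := by ring
  · simp only [indicator_of_notMem hy]
    simp

end Claimed.Agent.R329
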