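import Claimed.Agent.R329.DfDefs
import Claimed.Agent.R329.FlId2
import Claimed.Agent.R329.DfCacc

/-!
# Row 329, K7, post P5, leaf L1 (pen helper42): `DfUnit ⇒ DfcHyp` (`dfca_hyp`), the translation `dfca_transl`, and `df_cacc`.

`dfca_hyp n hdt` : `∃ C > 0, DfUnit n w ε K c₀ r₀ v → DfcHyp n (C ε²) (C ε²) (dgFJ_mu w v) (dgFJ_lam w v) (dgFI_nu v)`, where `hdt` is the
STATEMENT of `df_dens_tail n` (the mass of the cylinder comes from the field `mass` on `ball 0 2`; `df_exc` is not needed).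

`dfca_cacc n K htail` is the contract `df_cacc n K` of `DfHub` VERBATIM, where `htail` is the STATEMENT of `df_dens_tail n`.
Proof: the stress identity `dgFJ_stress` (`FlId2`) with `X = ζ(z)² η(t) t e`, `ζ = flCut (3/4) (7/8)`:
`0 = ∫ ζ² k'(t) (w|∇_z v|² + ξ_w) - 2 w ζ k (∇ζ·∇_z v) ∂_t v`, `k = η(t) t`.  The discrepancy `ξ_w ≥ 0` has the good sign (`K` is not used).
On `|t| < 2ε`: `k = t`, `k' = 1`, Young.  On `|t| ≥ 2ε`: everything is `≤ C dfE ≤ C w ≤ C ε²`.  Mass of `ball 0 2` by the field `mass`.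
-/

set_option autoImplicit false
open scoped ContDiff RealInnerProductSpace
open MeasureTheory Metric Set Filter

namespace Claimed.Agent.R329

open Claimed.Agent.Gmt

variable {n : ℕ}

theorem dfca_s0_pos : 0 < dfS0 := dgFI_s0_pos

theorem dfca_ver_grad (v : E (n + 1) → ℝ) (y : E (n + 1)) :
    gmtVer (gradient v y) = fderiv ℝ v y (gmtEn n) := by
  rw [fl_ver_eq_inner, dgFI_fderiv_eq_inner]

theorem dfca_hor_grad_sq (v : E (n + 1) → ℝ) (y : E (n + 1)) :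
    ‖gmtHor (gradient v y)‖ ^ 2 = ‖fderiv ℝ v y‖ ^ 2 - (fderiv ℝ v y (gmtEn n)) ^ 2 := by
  have h := fl_norm_sq (gradient v y)
  rw [dgFI_norm_gradient, dfca_ver_grad] at h
  linarith

theorem dfca_E_eq (w : ℝ) (v : E (n + 1) → ℝ) (y : E (n + 1)) : dfE w v y = dgFJ_e w v y / dfS0 := by
  unfold dfE dgFJ_e
  ring

theorem dfca_Xi_eq (w : ℝ) (v : E (n + 1) → ℝ) (y : E (n + 1)) : dfXi w v y = dgFJ_xi w v y / dfS0 := by
  unfold dfXi dgFJ_xi
  ring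

theorem dfca_E_continuous (w : ℝ) {v : E (n + 1) → ℝ} (hv : ContDiff ℝ 1 v) : Continuous (dfE w v) := by
  have : dfE w v = fun y => dgFJ_e w v y / dfS0 := funext (dfca_E_eq w v)
  rw [this]
  exact (dgFJ_e_continuous w hv).div_const _

/-- continuous functions are integrable on the unit cylinder. -/
theorem dfca_integrableOn {f : E (n + 1) → ℝ} (hf : Continuous f) : IntegrableOn f (flCyl 1) :=
  (hf.continuousOn.integrableOn_compact (isCompact_closedBall (0 : E (n + 1)) 2)).mono_set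
    fl_cyl_subset_closedBall

/-- the integrand of the stress identity for a vertical field `a e`. -/
theorem dfca_integrand {a : E (n + 1) → ℝ} (ha : Differentiable ℝ a) (w : ℝ) (v : E (n + 1) → ℝ)
    (y : E (n + 1)) :
    dgFJ_e w v y * gmtDiv (flVert a) y - w * ⟪gradient v y, fderiv ℝ (flVert a) y (gradient v y)⟫
      = dgFJ_e w v y * fderiv ℝ a y (gmtEn n)
        - w * (fderiv ℝ a y (gradient v y) * fderiv ℝ v y (gmtEn n)) := by
  rw [fl_vert_div (ha y), fl_vert_fderiv (ha y), ContinuousLinearMap.smulRight_apply, inner_smul_right,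
    ← dgFI_fderiv_eq_inner]

/-- the stress identity for a vertical field. -/
theorem dfca_stress_vert {w : ℝ} (hw : 0 < w) {v a : E (n + 1) → ℝ} (hv : ContDiff ℝ 2 v)
    (hpde : ∀ x, w ^ 2 * Laplacian.laplacian v x = v x ^ 3 - v x) (ha : ContDiff ℝ 1 a)
    (hs : tsupport a ⊆ {y | ‖gmtHor y‖ ≤ 1 ∧ |gmtVer y| ≤ 1}) :
    ∫ y, (dgFJ_e w v y * fderiv ℝ a y (gmtEn n)
        - w * (fderiv ℝ a y (gradient v y) * fderiv ℝ v y (gmtEn n))) = 0 := by
  have hX := fl_vert_test ha hs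
  have h := dgFJ_stress hw hv hpde hX.c1 hX.cpt
  simp only [dfca_integrand (ha.differentiable one_ne_zero)] at h
  exact h

/-- the derivative of `η(t) t` is bounded. -/
theorem dfca_K_bound : ∃ C : ℝ, 0 ≤ C ∧ ∀ t, |deriv flcK t| ≤ C := by
  have hc : HasCompactSupport flcK := by
    refine HasCompactSupport.intro (isCompact_Icc (a := (-1 : ℝ)) (b := 1)) fun t ht => ?_
    refine flc_K_zero ?_
    by_contra h
    rw [not_le] at h
    exact ht ⟨by linarith [(abs_lt.1 h).1], by linarith [(abs_lt.1 h).2]⟩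
  obtain ⟨C, hC⟩ := hc.deriv.exists_bound_of_continuous (flc_K_contDiff.continuous_deriv (by simp))
  exact ⟨C, (norm_nonneg _).trans (hC 0), fun t => by simpa using hC t⟩

theorem dfca_K_abs_le (t : ℝ) : |flcK t| ≤ 1 := by
  by_cases h : 3 / 4 ≤ |t|
  · rw [flc_K_zero h]; simp
  · rw [not_le] at h
    unfold flcK
    rw [abs_mul, abs_of_nonneg (fl_eta_props.2.1 t).1]
    calc flEta t * |t| ≤ 1 * 1 := mul_le_mul (fl_eta_props.2.1 t).2 (by linarith) (abs_nonneg _) (by norm_num)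
      _ = 1 := by norm_num

/-- the derivative of `ζ(z)² k(t)`, all `t`. -/
theorem dfca_A_fderiv {ζ : E n → ℝ} (hζ : ContDiff ℝ ∞ ζ) (y ξ : E (n + 1)) :
    fderiv ℝ (flcA ζ) y ξ = 2 * ζ (gmtHor y) * fderiv ℝ ζ (gmtHor y) (gmtHor ξ) * flcK (gmtVer y)
      + ζ (gmtHor y) ^ 2 * (deriv flcK (gmtVer y) * gmtVer ξ) := by
  have hd : DifferentiableAt ℝ ζ (gmtHor y) := (hζ.differentiable (by simp)) _
  have h2 : HasFDerivAt (fun z => ζ z ^ 2) ((2 * ζ (gmtHor y)) • fderiv ℝ ζ (gmtHor y))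
      (gmtHor y) := by
    have := hd.hasFDerivAt.pow 2
    simpa using this
  unfold flcA
  rw [fl_pr_fderiv h2.differentiableAt ((flc_K_contDiff.differentiable (by simp)) _), h2.fderiv]
  simp only [_root_.smul_apply, smul_eq_mul]

/-- **the pointwise algebra.**  `e = w(p² + τ²) + x`, `x ≥ 0`; `I = ζ² k' (e - w τ²) - 2 w ζ k d τ`, `|d| ≤ Cζ p`. -/
theorem dfca_real_in {w ζ t ε p τ d x Cζ : ℝ} (hw : 0 < w) (h0 : 0 ≤ ζ) (hx : 0 ≤ x)
    (ht : |t| ≤ 2 * ε) (hd : |d| ≤ Cζ * p) :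
    ζ ^ 2 * (w * p ^ 2) / 2 - 8 * Cζ ^ 2 * ε ^ 2 * (w * τ ^ 2)
      ≤ ζ ^ 2 * (w * p ^ 2 + x) - 2 * w * ζ * t * d * τ := by
  have hε : 0 ≤ ε := by linarith [abs_nonneg t]
  have hC : 0 ≤ Cζ * p := (abs_nonneg _).trans hd
  have h1 : |ζ * t * d * τ| ≤ (ζ * p) * (2 * ε * Cζ * |τ|) := by
    rw [abs_mul, abs_mul, abs_mul, abs_of_nonneg h0]
    calc ζ * |t| * |d| * |τ| ≤ ζ * (2 * ε) * (Cζ * p) * |τ| := by gcongr
      _ = _ := by ring
  have h2 := flc_young (ζ * p) (2 * ε * Cζ * |τ|)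
  have h3 : (2 * ε * Cζ * |τ|) ^ 2 = 4 * Cζ ^ 2 * ε ^ 2 * τ ^ 2 := by
    rw [mul_pow, sq_abs]; ring
  rw [h3] at h2
  have h4 : ζ * t * d * τ ≤ (ζ * p) * (2 * ε * Cζ * |τ|) := (le_abs_self _).trans h1
  have h5 : 2 * (ζ * t * d * τ) ≤ (ζ * p) ^ 2 / 2 + 2 * (4 * Cζ ^ 2 * ε ^ 2 * τ ^ 2) := by linarith
  have h6 := mul_le_mul_of_nonneg_left h5 hw.le
  have h7 : 0 ≤ ζ ^ 2 * x := by positivity
  nlinarith

theorem dfca_real_out {w ζ k k' p τ d x Cζ Ck : ℝ} (hw : 0 < w) (h0 : 0 ≤ ζ) (h1 : ζ ≤ 1) (hx : 0 ≤ x)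
    (hCζ : 0 ≤ Cζ) (hk : |k| ≤ 1) (hk' : |k'| ≤ Ck) (hd : |d| ≤ Cζ * p) :
    ζ ^ 2 * (w * p ^ 2) / 2 - (Ck + Cζ + 1) * (w * (p ^ 2 + τ ^ 2) + x)
      ≤ ζ ^ 2 * k' * (w * p ^ 2 + x) - 2 * w * ζ * k * d * τ := by
  have hCk : 0 ≤ Ck := (abs_nonneg _).trans hk'
  have hz2 : ζ ^ 2 ≤ 1 := pow_le_one₀ h0 h1
  have hz0 : 0 ≤ ζ ^ 2 := by positivity
  have hA : 0 ≤ w * p ^ 2 + x := by positivity
  have hB : 0 ≤ w * τ ^ 2 := by positivity
  have h2 : -(Ck * (w * p ^ 2 + x)) ≤ ζ ^ 2 * k' * (w * p ^ 2 + x) := by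
    have : |ζ ^ 2 * k' * (w * p ^ 2 + x)| ≤ 1 * Ck * (w * p ^ 2 + x) := by
      rw [abs_mul, abs_mul, abs_of_nonneg hz0, abs_of_nonneg hA]
      gcongr
    have := (abs_le.1 this).1
    linarith
  have h3 : |ζ * k * d * τ| ≤ Cζ * (p * |τ|) := by
    rw [abs_mul, abs_mul, abs_mul, abs_of_nonneg h0]
    calc ζ * |k| * |d| * |τ| ≤ 1 * 1 * (Cζ * p) * |τ| := by gcongr
      _ = _ := by ring
  have h4 : 2 * (p * |τ|) ≤ p ^ 2 + τ ^ 2 := by
    have := sq_nonneg (p - |τ|)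
    rw [sub_sq, sq_abs] at this
    linarith
  have h5 : 2 * (ζ * k * d * τ) ≤ Cζ * (p ^ 2 + τ ^ 2) := by
    have := (le_abs_self _).trans h3
    have h6 := mul_le_mul_of_nonneg_left h4 hCζ
    linarith
  have h6 := mul_le_mul_of_nonneg_left h5 hw.le
  have h7 : ζ ^ 2 * (w * p ^ 2) / 2 ≤ w * p ^ 2 := by
    have : 0 ≤ w * p ^ 2 := by positivity
    nlinarith
  have h8 : 0 ≤ Ck * (w * τ ^ 2) := by positivity
  have h9 : 0 ≤ Cζ * x := by positivity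
  nlinarith

/-- **F3 (contract `df_cacc` of `DfHub`, verbatim), from the statement of `df_dens_tail`.** -/
theorem dfca_cacc (n : ℕ) (K : ℝ)
    (htail : ∃ C : ℝ, 0 < C ∧ ∀ (w ε K c₀ r₀ : ℝ) (v : E (n + 1) → ℝ), DfUnit n w ε K c₀ r₀ v →
      ∀ y ∈ ball (0 : E (n + 1)) 3, 2 * ε ≤ |gmtVer y| → dfE w v y ≤ C * w) :
    ∃ C : ℝ, 0 < C ∧ ∀ (w ε c₀ r₀ : ℝ) (v : E (n + 1) → ℝ), DfUnit n w ε K c₀ r₀ v →
      ∫ y in flCyl (3 / 4), w * (‖fderiv ℝ v y‖ ^ 2 - (fderiv ℝ v y (gmtEn n)) ^ 2) / dfS0 ≤ C * ε ^ 2 := by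
  obtain ⟨Ct, hCt, htail⟩ := htail
  obtain ⟨hζ, hζ01, hζ1, -, hζs, Cζ, hCζ, hζd⟩ :=
    fl_cut_props (n := n) (a := 3 / 4) (b := 7 / 8) (by norm_num) (by norm_num)
  obtain ⟨Ck, hCk, hk'⟩ := dfca_K_bound
  set ζ : E n → ℝ := flCut (3 / 4) (7 / 8) with hζdef
  set V : ℝ := (volume (flCyl 1 : Set (E (n + 1)))).toReal with hV
  have hV0 : 0 ≤ V := ENNReal.toReal_nonneg
  have hom : 0 ≤ gmtOm n := flx_om_nonneg n
  refine ⟨2 * (16 * Cζ ^ 2 * (gmtOm n * 2 ^ n) + (Ck + Cζ + 1) * Ct * V) + 1, by positivity, ?_⟩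
  intro w ε c₀ r₀ v H
  have hw := H.hw
  have hε0 := H.hε
  have hs0 := dfca_s0_pos
  have hv2 : ContDiff ℝ 2 v := contDiff_infty.1 H.smooth 2
  have hv1 : ContDiff ℝ 1 v := H.smooth.of_le (by simp)
  set a := flcA ζ with hadef
  have ha : ContDiff ℝ ∞ a := flc_A_contDiff hζ
  have ha1 : ContDiff ℝ 1 a := ha.of_le (by simp)
  have hsupp : tsupport a ⊆ {y | ‖gmtHor y‖ ≤ 7 / 8 ∧ |gmtVer y| ≤ 3 / 4} := by
    refine fl_pr_tsupport ?_ (fun t ht => flc_K_zero ht)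
    refine (closure_mono fun z hz => ?_).trans hζs
    intro h0
    apply hz
    show ζ z ^ 2 = 0
    rw [h0]; norm_num
  have hstress := dfca_stress_vert hw hv2 H.pde ha1
    (hsupp.trans fun y hy => ⟨hy.1.trans (by norm_num), hy.2.trans (by norm_num)⟩)
  have hoff : ∀ y, y ∉ (flCyl 1 : Set (E (n + 1))) → y ∉ tsupport a := fun y hy hy' =>
    hy ⟨lt_of_le_of_lt (hsupp hy').1 (by norm_num), lt_of_le_of_lt (hsupp hy').2 (by norm_num)⟩
  set I : E (n + 1) → ℝ := fun y => dgFJ_e w v y * fderiv ℝ a y (gmtEn n)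
        - w * (fderiv ℝ a y (gradient v y) * fderiv ℝ v y (gmtEn n)) with hI
  have hIc : Continuous I := by
    have h1 := dgFJ_e_continuous w hv1
    have h2 := ha1.continuous_fderiv one_ne_zero
    have h3 := dgFI_continuous_gradient hv1
    have h4 := hv1.continuous_fderiv one_ne_zero
    exact (h1.mul (h2.clm_apply continuous_const)).sub
      (continuous_const.mul ((h2.clm_apply h3).mul (h4.clm_apply continuous_const)))
  have e1 : ∫ y in flCyl 1, I y = 0 := by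
    rw [← hstress]
    refine setIntegral_eq_integral_of_forall_compl_eq_zero fun y hy => ?_
    show dgFJ_e w v y * fderiv ℝ a y (gmtEn n)
        - w * (fderiv ℝ a y (gradient v y) * fderiv ℝ v y (gmtEn n)) = 0
    rw [fderiv_of_notMem_tsupport ℝ (hoff y hy)]
    simp
  -- the horizontal density
  set P : E (n + 1) → ℝ := fun y => w * (‖fderiv ℝ v y‖ ^ 2 - (fderiv ℝ v y (gmtEn n)) ^ 2) with hP
  have hPc : Continuous P := by
    have h4 := hv1.continuous_fderiv one_ne_zero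
    exact continuous_const.mul ((h4.norm.pow 2).sub ((h4.clm_apply continuous_const).pow 2))
  have hP0 : ∀ y, 0 ≤ P y := fun y => by
    show 0 ≤ w * (‖fderiv ℝ v y‖ ^ 2 - (fderiv ℝ v y (gmtEn n)) ^ 2)
    rw [← dfca_hor_grad_sq]
    positivity
  have hEc := dfca_E_continuous w hv1
  have hζc : Continuous fun y : E (n + 1) => ζ (gmtHor y) := hζ.continuous.comp fl_continuous_hor
  -- the pointwise inequality
  have hpt : ∀ y ∈ (flCyl 1 : Set (E (n + 1))),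
      ζ (gmtHor y) ^ 2 * P y / 2 - (16 * Cζ ^ 2 * ε ^ 2 * (dfS0 * dfE w v y)
        + (Ck + Cζ + 1) * (dfS0 * (Ct * w))) ≤ I y := by
    intro y hy
    have hζy := hζ01 (gmtHor y)
    set p := ‖gmtHor (gradient v y)‖ with hp
    set τ := fderiv ℝ v y (gmtEn n) with hτ
    set d := fderiv ℝ ζ (gmtHor y) (gmtHor (gradient v y)) with hd
    set x := dgFJ_xi w v y with hx
    have hx0 : 0 ≤ x := by
      have := H.modica y
      rw [dfca_Xi_eq] at this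
      have h2 := mul_nonneg this hs0.le
      rwa [div_mul_cancel₀ _ hs0.ne'] at h2
    have hp0 : 0 ≤ p := norm_nonneg _
    have hpp : p ^ 2 = ‖fderiv ℝ v y‖ ^ 2 - τ ^ 2 := dfca_hor_grad_sq v y
    have hPy : P y = w * p ^ 2 := by rw [hpp]
    have hey : dgFJ_e w v y = w * (p ^ 2 + τ ^ 2) + x := by
      rw [dgFJ_e_eq_add_xi, hpp]; ring
    have hsE : dfS0 * dfE w v y = w * (p ^ 2 + τ ^ 2) + x := by
      rw [dfca_E_eq, mul_div_cancel₀ _ hs0.ne', hey]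
    have hdd : |d| ≤ Cζ * p := by
      rw [← Real.norm_eq_abs]
      exact (ContinuousLinearMap.le_opNorm _ _).trans
        (mul_le_mul_of_nonneg_right (hζd _) (norm_nonneg _))
    have hIy : I y = ζ (gmtHor y) ^ 2 * deriv flcK (gmtVer y) * (w * p ^ 2 + x)
        - 2 * w * ζ (gmtHor y) * flcK (gmtVer y) * d * τ := by
      show dgFJ_e w v y * fderiv ℝ a y (gmtEn n)
        - w * (fderiv ℝ a y (gradient v y) * fderiv ℝ v y (gmtEn n)) = _
      rw [hadef, dfca_A_fderiv hζ, dfca_A_fderiv hζ, fl_hor_en, fl_ver_en, map_zero, dfca_ver_grad, hey]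
      ring
    have hE0 : 0 ≤ w * (p ^ 2 + τ ^ 2) + x := by positivity
    have hc1 : 0 ≤ (Ck + Cζ + 1) * (dfS0 * (Ct * w)) := by positivity
    have hc2 : 0 ≤ 16 * Cζ ^ 2 * ε ^ 2 * (w * (p ^ 2 + τ ^ 2) + x) := by positivity
    rw [hIy, hPy, hsE]
    by_cases ht : |gmtVer y| < 2 * ε
    · have ht2 : |gmtVer y| < 1 / 2 := by linarith [H.hε']
      rw [flc_K_eq ht2.le, flc_K_deriv ht2, mul_one]
      have h := dfca_real_in (τ := τ) hw hζy.1 hx0 ht.le hdd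
      have h2 : 8 * Cζ ^ 2 * ε ^ 2 * (w * τ ^ 2) ≤ 16 * Cζ ^ 2 * ε ^ 2 * (w * (p ^ 2 + τ ^ 2) + x) := by
        have h3 : w * τ ^ 2 ≤ w * (p ^ 2 + τ ^ 2) + x := by
          have : 0 ≤ w * p ^ 2 := by positivity
          nlinarith
        have h4 : 0 ≤ 8 * Cζ ^ 2 * ε ^ 2 := by positivity
        have := mul_le_mul_of_nonneg_left h3 h4
        linarith
      linarith
    · rw [not_lt] at ht
      have hy3 : y ∈ ball (0 : E (n + 1)) 3 :=
        ball_subset_ball (by norm_num) (fl_cyl_subset_ball hy.1.le hy.2.le)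
      have hT := htail w ε K c₀ r₀ v H y hy3 ht
      have hT2 : w * (p ^ 2 + τ ^ 2) + x ≤ dfS0 * (Ct * w) := by
        rw [← hsE]
        exact mul_le_mul_of_nonneg_left hT hs0.le
      have h := dfca_real_out (τ := τ) hw hζy.1 hζy.2 hx0 hCζ (dfca_K_abs_le (gmtVer y))
        (hk' (gmtVer y)) hdd
      have h3 : (Ck + Cζ + 1) * (w * (p ^ 2 + τ ^ 2) + x) ≤ (Ck + Cζ + 1) * (dfS0 * (Ct * w)) :=
        mul_le_mul_of_nonneg_left hT2 (by positivity)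
      linarith
  -- integrate
  have hG : Continuous fun y => ζ (gmtHor y) ^ 2 * P y := (hζc.pow 2).mul hPc
  have hGi := dfca_integrableOn hG
  have hEi := dfca_integrableOn hEc
  have hfinV : volume (flCyl 1 : Set (E (n + 1))) ≠ ⊤ :=
    ne_top_of_le_ne_top (isCompact_closedBall (0 : E (n + 1)) 2).measure_lt_top.ne
      (measure_mono fl_cyl_subset_closedBall)
  have hci : ∀ c : ℝ, IntegrableOn (fun _ : E (n + 1) => c) (flCyl 1) := fun c =>
    integrableOn_const hfinV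
  have hR1 : IntegrableOn (fun y => 16 * Cζ ^ 2 * ε ^ 2 * (dfS0 * dfE w v y)) (flCyl 1) :=
    (hEi.const_mul dfS0).const_mul _
  have hRi : IntegrableOn (fun y => 16 * Cζ ^ 2 * ε ^ 2 * (dfS0 * dfE w v y)
      + (Ck + Cζ + 1) * (dfS0 * (Ct * w))) (flCyl 1) := hR1.add (hci _)
  have hlow : ∫ y in flCyl 1, (ζ (gmtHor y) ^ 2 * P y / 2 - (16 * Cζ ^ 2 * ε ^ 2 * (dfS0 * dfE w v y)
        + (Ck + Cζ + 1) * (dfS0 * (Ct * w)))) ≤ ∫ y in flCyl 1, I y := by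
    exact setIntegral_mono_on ((hGi.div_const 2).sub hRi) (dfca_integrableOn hIc)
      (fl_isOpen_cyl _).measurableSet hpt
  have hsplit : ∫ y in flCyl 1, (ζ (gmtHor y) ^ 2 * P y / 2 - (16 * Cζ ^ 2 * ε ^ 2 * (dfS0 * dfE w v y)
        + (Ck + Cζ + 1) * (dfS0 * (Ct * w))))
      = (∫ y in flCyl 1, ζ (gmtHor y) ^ 2 * P y) / 2
        - (16 * Cζ ^ 2 * ε ^ 2 * (dfS0 * ∫ y in flCyl 1, dfE w v y)
          + V * ((Ck + Cζ + 1) * (dfS0 * (Ct * w)))) := by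
    rw [integral_sub (hGi.div_const 2) hRi, integral_add hR1 (hci _), integral_div, integral_const_mul,
      integral_const_mul, setIntegral_const, smul_eq_mul]
    rfl
  have hmass : ∫ y in flCyl 1, dfE w v y ≤ gmtOm n * 2 ^ n := by
    refine le_trans ?_ (H.mass 0 2 (by norm_num))
    have hEb : IntegrableOn (dfE w v) (ball (0 : E (n + 1)) 2) :=
      (hEc.continuousOn.integrableOn_compact (isCompact_closedBall (0 : E (n + 1)) 2)).mono_set
        ball_subset_closedBall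
    refine setIntegral_mono_set hEb (Eventually.of_forall fun y => ?_)
      (Eventually.of_forall fun y hy => fl_cyl_subset_ball hy.1.le hy.2.le)
    rw [dfca_E_eq]
    exact div_nonneg (dgFJ_e_nonneg hw v y) hs0.le
  rw [hsplit, e1] at hlow
  have hsub : ∫ y in flCyl (3 / 4), P y ≤ ∫ y in flCyl 1, ζ (gmtHor y) ^ 2 * P y := by
    have h1 : ∫ y in flCyl (3 / 4), P y = ∫ y in flCyl (3 / 4), ζ (gmtHor y) ^ 2 * P y := by
      refine setIntegral_congr_fun (fl_isOpen_cyl _).measurableSet fun y hy => ?_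
      show P y = ζ (gmtHor y) ^ 2 * P y
      rw [hζ1 _ hy.1.le]; ring
    rw [h1]
    exact setIntegral_mono_set hGi (Eventually.of_forall fun y => mul_nonneg (sq_nonneg _) (hP0 y))
      (Eventually.of_forall (fl_cyl_mono (by norm_num)))
  have hgoal : ∫ y in flCyl (3 / 4), w * (‖fderiv ℝ v y‖ ^ 2 - (fderiv ℝ v y (gmtEn n)) ^ 2) / dfS0
      = (∫ y in flCyl (3 / 4), P y) / dfS0 := by
    rw [← integral_div]
  rw [hgoal, div_le_iff₀ hs0]
  have hwε := H.hwε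
  have k1 : 16 * Cζ ^ 2 * ε ^ 2 * (dfS0 * ∫ y in flCyl 1, dfE w v y)
      ≤ 16 * Cζ ^ 2 * ε ^ 2 * (dfS0 * (gmtOm n * 2 ^ n)) := by gcongr
  have k2 : V * ((Ck + Cζ + 1) * (dfS0 * (Ct * w))) ≤ V * ((Ck + Cζ + 1) * (dfS0 * (Ct * ε ^ 2))) := by gcongr
  have k3 : 0 ≤ ε ^ 2 * dfS0 := by positivity
  nlinarith

/-! ## `DfUnit ⇒ DfcHyp` -/

theorem dfca_setIntegral_withDensity {ρ : E (n + 1) → ℝ} (hρ : Continuous ρ) (h0 : ∀ x, 0 ≤ ρ x)
    {S : Set (E (n + 1))} (hS : MeasurableSet S) (f : E (n + 1) → ℝ) :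
    ∫ x in S, f x ∂(volume.withDensity fun x => ENNReal.ofReal (ρ x)) = ∫ x in S, ρ x * f x := by
  rw [← integral_indicator hS, dgFI_integral_withDensity hρ h0, ← integral_indicator hS]
  congr 1
  funext x
  by_cases hx : x ∈ S <;> simp [hx]

theorem dfca_withDensity_apply {ρ : E (n + 1) → ℝ} (hρ : Continuous ρ) (h0 : ∀ x, 0 ≤ ρ x)
    {S : Set (E (n + 1))} (hS : MeasurableSet S) (hb : S ⊆ flCyl 1) :
    ((volume.withDensity fun x => ENNReal.ofReal (ρ x)) S).toReal = ∫ x in S, ρ x := by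
  rw [withDensity_apply _ hS,
    ← ofReal_integral_eq_lintegral_ofReal ((dfca_integrableOn hρ).mono_set hb) (Eventually.of_forall h0),
    ENNReal.toReal_ofReal (integral_nonneg h0)]

/-- `∫_S ρ ≤ c |C_1|` if `ρ ≤ c` on `S ⊆ C_1`. -/
theorem dfca_setIntegral_le {ρ : E (n + 1) → ℝ} (hρ : Continuous ρ) {S : Set (E (n + 1))}
    (hS : MeasurableSet S) (hb : S ⊆ flCyl 1) {c : ℝ} (hc : 0 ≤ c) (h : ∀ x ∈ S, ρ x ≤ c) :
    ∫ x in S, ρ x ≤ c * (volume (flCyl 1 : Set (E (n + 1)))).toReal := by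
  have hfinV : volume (flCyl 1 : Set (E (n + 1))) ≠ ⊤ :=
    ne_top_of_le_ne_top (isCompact_closedBall (0 : E (n + 1)) 2).measure_lt_top.ne
      (measure_mono fl_cyl_subset_closedBall)
  have hfinS : volume S ≠ ⊤ := ne_top_of_le_ne_top hfinV (measure_mono hb)
  calc ∫ x in S, ρ x ≤ ∫ _x in S, c :=
        setIntegral_mono_on ((dfca_integrableOn hρ).mono_set hb) (integrableOn_const hfinS) hS h
    _ = c * (volume S).toReal := by rw [setIntegral_const, smul_eq_mul, mul_comm]; rfl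
    _ ≤ _ := mul_le_mul_of_nonneg_left (ENNReal.toReal_mono hfinV (measure_mono hb)) hc

theorem dfca_modica {w ε K c₀ r₀ : ℝ} {v : E (n + 1) → ℝ} (H : DfUnit n w ε K c₀ r₀ v) (x : E (n + 1)) :
    w ^ 2 * ‖fderiv ℝ v x‖ ^ 2 ≤ 2 * dgW (v x) := by
  have h := H.modica x
  have hw := H.hw
  unfold dfXi at h
  have h2 := mul_nonneg h dfca_s0_pos.le
  rw [div_mul_cancel₀ _ dfca_s0_pos.ne', sub_nonneg, le_div_iff₀ hw] at h2
  nlinarith

theorem dfca_range {w ε K c₀ r₀ : ℝ} {v : E (n + 1) → ℝ} (H : DfUnit n w ε K c₀ r₀ v) (x : E (n + 1)) :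
    v x ∈ Icc (-1 : ℝ) 1 := Ioo_subset_Icc_self (H.range x)

theorem dfca_A_le_E {w ε K c₀ r₀ : ℝ} {v : E (n + 1) → ℝ} (H : DfUnit n w ε K c₀ r₀ v) (x : E (n + 1)) :
    w * ‖fderiv ℝ v x‖ ^ 2 / dfS0 ≤ dfE w v x := by
  have h := H.modica x
  have e : dfE w v x = w * ‖fderiv ℝ v x‖ ^ 2 / dfS0 + dfXi w v x := by
    unfold dfE dfXi
    ring
  linarith

theorem dfca_Xi_le_E {w : ℝ} (hw : 0 < w) (v : E (n + 1) → ℝ) (x : E (n + 1)) :
    dgFJ_xi w v x / dfS0 ≤ dfE w v x := by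
  rw [dfca_E_eq]
  refine div_le_div_of_nonneg_right ?_ dfca_s0_pos.le
  rw [dgFJ_e_eq_add_xi]
  have : 0 ≤ w * ‖fderiv ℝ v x‖ ^ 2 := by positivity
  linarith

theorem dfca_mass_cyl {w ε K c₀ r₀ : ℝ} {v : E (n + 1) → ℝ} (H : DfUnit n w ε K c₀ r₀ v) :
    ∫ y in flCyl 1, dfE w v y ≤ gmtOm n * 2 ^ n := by
  have hv1 : ContDiff ℝ 1 v := H.smooth.of_le (by simp)
  have hEc := dfca_E_continuous w hv1
  refine le_trans ?_ (H.mass 0 2 (by norm_num))
  have hEb : IntegrableOn (dfE w v) (ball (0 : E (n + 1)) 2) :=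
    (hEc.continuousOn.integrableOn_compact (isCompact_closedBall (0 : E (n + 1)) 2)).mono_set
      ball_subset_closedBall
  refine setIntegral_mono_set hEb (Eventually.of_forall fun y => ?_)
    (Eventually.of_forall fun y hy => fl_cyl_subset_ball hy.1.le hy.2.le)
  rw [dfca_E_eq]
  exact div_nonneg (dgFJ_e_nonneg H.hw v y) dfca_s0_pos.le

/-- **L1 (a): the diffuse pair of a `DfUnit` satisfies `DfcHyp` with `A = τ = C ε²`.** -/
theorem dfca_hyp (n : ℕ)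
    (hdt : ∃ C : ℝ, 0 < C ∧ ∀ (w ε K c₀ r₀ : ℝ) (v : E (n + 1) → ℝ), DfUnit n w ε K c₀ r₀ v →
      ∀ y ∈ ball (0 : E (n + 1)) 3, 2 * ε ≤ |gmtVer y| → dfE w v y ≤ C * w) :
    ∃ C : ℝ, 0 < C ∧ ∀ (w ε K c₀ r₀ : ℝ) (v : E (n + 1) → ℝ), DfUnit n w ε K c₀ r₀ v →
      DfcHyp n (C * ε ^ 2) (C * ε ^ 2) (dgFJ_mu w v) (dgFJ_lam w v) (dgFI_nu v) := by
  obtain ⟨Ct, hCt, htail⟩ := hdt
  set V : ℝ := (volume (flCyl 1 : Set (E (n + 1)))).toReal with hV
  have hV0 : 0 ≤ V := ENNReal.toReal_nonneg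
  have hom : 0 ≤ gmtOm n := flx_om_nonneg n
  refine ⟨4 * (gmtOm n * 2 ^ n) + Ct * V + 1, by positivity, ?_⟩
  intro w ε K c₀ r₀ v H
  have hw := H.hw
  have hε0 := H.hε
  have hs0 := dfca_s0_pos
  have hv2 : ContDiff ℝ 2 v := contDiff_infty.1 H.smooth 2
  have hv1 : ContDiff ℝ 1 v := H.smooth.of_le (by simp)
  have hmod := dfca_modica H
  have hwε := H.hwε
  have hC0 : 0 ≤ (4 * (gmtOm n * 2 ^ n) + Ct * V + 1) * ε ^ 2 := by positivity
  have hcA : Continuous fun x => w * ‖fderiv ℝ v x‖ ^ 2 / dgFI_s0 :=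
    (continuous_const.mul ((dgFI_continuous_normD hv1).pow 2)).div_const _
  have hA0 : ∀ x, 0 ≤ w * ‖fderiv ℝ v x‖ ^ 2 / dgFI_s0 := fun x =>
    div_nonneg (mul_nonneg hw.le (sq_nonneg _)) dgFI_s0_pos.le
  have hcX : Continuous fun x => dgFJ_xi w v x / dgFI_s0 := (dgFJ_xi_continuous w hv1).div_const _
  have hX0 : ∀ x, 0 ≤ dgFJ_xi w v x / dgFI_s0 := fun x =>
    div_nonneg (dgFJ_xi_nonneg hw hmod x) dgFI_s0_pos.le
  have hEc := dfca_E_continuous w hv1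
  have hcyl3 : ∀ y ∈ (flCyl 1 : Set (E (n + 1))), y ∈ ball (0 : E (n + 1)) 3 := fun y hy =>
    ball_subset_ball (by norm_num) (fl_cyl_subset_ball hy.1.le hy.2.le)
  have hmS : MeasurableSet (flCyl 1 ∩ dfcOut n : Set (E (n + 1))) :=
    (fl_isOpen_cyl _).measurableSet.inter dfc_out_meas
  have hout : ∀ y ∈ (flCyl 1 ∩ dfcOut n : Set (E (n + 1))), dfE w v y ≤ Ct * ε ^ 2 := fun y hy => by
    have h1 : 2 * ε ≤ |gmtVer y| := le_trans (by linarith [H.hε']) hy.2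
    exact (htail w ε K c₀ r₀ v H y (hcyl3 y hy.1) h1).trans (mul_le_mul_of_nonneg_left hwε hCt.le)
  have hτle : Ct * ε ^ 2 * V ≤ (4 * (gmtOm n * 2 ^ n) + Ct * V + 1) * ε ^ 2 := by
    have : 0 ≤ (4 * (gmtOm n * 2 ^ n) + 1) * ε ^ 2 := by positivity
    nlinarith
  refine ⟨hC0, hC0, dgFI_measurable_nu hv1, dgFI_norm_nu_le v, ?_, ?_, ?_, ?_, ?_, ?_, ?_⟩
  · -- unit
    refine ae_restrict_of_ae ?_
    unfold dgFJ_mu
    rw [ae_withDensity_iff hcA.measurable.ennreal_ofReal]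
    refine Eventually.of_forall fun x hx => dgFI_norm_nu fun h0 => hx ?_
    rw [h0]
    simp
  · exact ne_top_of_le_ne_top (dgFJ_mu_compact w hv1 (isCompact_closedBall (0 : E (n + 1)) 2))
      (measure_mono fl_cyl_subset_closedBall)
  · exact ne_top_of_le_ne_top (dgFJ_lam_compact w hv1 (isCompact_closedBall (0 : E (n + 1)) 2))
      (measure_mono fl_cyl_subset_closedBall)
  · intro X hX
    exact dgFJ_fv hw hv2 H.pde hmod (hX.smooth.of_le (by simp)) hX.cpt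
  · -- second moment
    unfold dgFJ_mu
    rw [dfca_setIntegral_withDensity hcA hA0 (fl_isOpen_cyl _).measurableSet]
    have hpt : ∀ y ∈ (flCyl 1 : Set (E (n + 1))),
        w * ‖fderiv ℝ v y‖ ^ 2 / dgFI_s0 * gmtVer y ^ 2 ≤ 4 * ε ^ 2 * dfE w v y + Ct * ε ^ 2 := by
      intro y hy
      have hAE : w * ‖fderiv ℝ v y‖ ^ 2 / dgFI_s0 ≤ dfE w v y := dfca_A_le_E H y
      have hE0 : 0 ≤ dfE w v y := (hA0 y).trans hAE
      have hc : 0 ≤ Ct * ε ^ 2 := by positivity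
      by_cases ht : |gmtVer y| < 2 * ε
      · have h1 : gmtVer y ^ 2 ≤ 4 * ε ^ 2 := by
          have := pow_le_pow_left₀ (abs_nonneg _) ht.le 2
          rw [sq_abs] at this
          nlinarith
        calc w * ‖fderiv ℝ v y‖ ^ 2 / dgFI_s0 * gmtVer y ^ 2 ≤ dfE w v y * (4 * ε ^ 2) :=
              mul_le_mul hAE h1 (sq_nonneg _) hE0
          _ ≤ _ := by linarith
      · rw [not_lt] at ht
        have h1 : gmtVer y ^ 2 ≤ 1 := by
          have := pow_le_pow_left₀ (abs_nonneg _) hy.2.le 2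
          rw [sq_abs] at this
          simpa using this
        have h2 : dfE w v y ≤ Ct * ε ^ 2 :=
          (htail w ε K c₀ r₀ v H y (hcyl3 y hy) ht).trans (mul_le_mul_of_nonneg_left hwε hCt.le)
        calc w * ‖fderiv ℝ v y‖ ^ 2 / dgFI_s0 * gmtVer y ^ 2 ≤ (Ct * ε ^ 2) * 1 :=
              mul_le_mul (hAE.trans h2) h1 (sq_nonneg _) hc
          _ ≤ _ := by
            have : 0 ≤ 4 * ε ^ 2 * dfE w v y := by positivity
            linarith
    have hfinV : volume (flCyl 1 : Set (E (n + 1))) ≠ ⊤ :=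
      ne_top_of_le_ne_top (isCompact_closedBall (0 : E (n + 1)) 2).measure_lt_top.ne
        (measure_mono fl_cyl_subset_closedBall)
    have hEi := dfca_integrableOn hEc
    have hR1 : IntegrableOn (fun y => 4 * ε ^ 2 * dfE w v y) (flCyl 1) := hEi.const_mul _
    have hR : IntegrableOn (fun y => 4 * ε ^ 2 * dfE w v y + Ct * ε ^ 2) (flCyl 1) :=
      hR1.add (integrableOn_const hfinV)
    have hL : IntegrableOn (fun y : E (n + 1) => w * ‖fderiv ℝ v y‖ ^ 2 / dgFI_s0 * gmtVer y ^ 2) (flCyl 1) :=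
      dfca_integrableOn (hcA.mul (fl_continuous_ver.pow 2))
    have h1 := setIntegral_mono_on hL hR (fl_isOpen_cyl _).measurableSet hpt
    have h2 : ∫ y in flCyl 1, (4 * ε ^ 2 * dfE w v y + Ct * ε ^ 2)
        = 4 * ε ^ 2 * (∫ y in flCyl 1, dfE w v y) + V * (Ct * ε ^ 2) := by
      rw [integral_add hR1 (integrableOn_const hfinV), integral_const_mul, setIntegral_const, smul_eq_mul]
      rfl
    rw [h2] at h1
    have h3 := dfca_mass_cyl H
    have h4 : 4 * ε ^ 2 * (∫ y in flCyl 1, dfE w v y) ≤ 4 * ε ^ 2 * (gmtOm n * 2 ^ n) :=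
      mul_le_mul_of_nonneg_left h3 (by positivity)
    have h5 : 0 ≤ ε ^ 2 := by positivity
    nlinarith
  · -- tail of `μ`
    unfold dgFJ_mu
    rw [dfca_withDensity_apply hcA hA0 hmS inter_subset_left]
    refine (dfca_setIntegral_le hcA hmS inter_subset_left (by positivity : 0 ≤ Ct * ε ^ 2)
      fun y hy => (dfca_A_le_E H y).trans (hout y hy)).trans hτle
  · -- tail of `λ`
    unfold dgFJ_lam
    rw [dfca_withDensity_apply hcX hX0 hmS inter_subset_left]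
    refine (dfca_setIntegral_le hcX hmS inter_subset_left (by positivity : 0 ≤ Ct * ε ^ 2)
      fun y hy => (dfca_Xi_le_E hw v y).trans (hout y hy)).trans hτle

/-- **L1 (b): translation** of the horizontal part of the unit normal. -/
theorem dfca_transl {w : ℝ} (hw : 0 < w) {v : E (n + 1) → ℝ} (hv : ContDiff ℝ 1 v) (ρ : ℝ) :
    ∫ y in flCyl ρ, ‖gmtHor (dgFI_nu v y)‖ ^ 2 ∂(dgFJ_mu w v)
      = ∫ y in flCyl ρ, w * (‖fderiv ℝ v y‖ ^ 2 - (fderiv ℝ v y (gmtEn n)) ^ 2) / dfS0 := by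
  have hcA : Continuous fun x => w * ‖fderiv ℝ v x‖ ^ 2 / dgFI_s0 :=
    (continuous_const.mul ((dgFI_continuous_normD hv).pow 2)).div_const _
  have hA0 : ∀ x, 0 ≤ w * ‖fderiv ℝ v x‖ ^ 2 / dgFI_s0 := fun x =>
    div_nonneg (mul_nonneg hw.le (sq_nonneg _)) dgFI_s0_pos.le
  unfold dgFJ_mu
  rw [dfca_setIntegral_withDensity hcA hA0 (fl_isOpen_cyl _).measurableSet]
  refine setIntegral_congr_fun (fl_isOpen_cyl _).measurableSet fun y _ => ?_
  show w * ‖fderiv ℝ v y‖ ^ 2 / dgFI_s0 * ‖gmtHor (dgFI_nu v y)‖ ^ 2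
    = w * (‖fderiv ℝ v y‖ ^ 2 - (fderiv ℝ v y (gmtEn n)) ^ 2) / dfS0
  rw [← dfca_hor_grad_sq]
  have h := dgFI_norm_smul_nu v y
  have h2 : ‖fderiv ℝ v y‖ ^ 2 * ‖gmtHor (dgFI_nu v y)‖ ^ 2 = ‖gmtHor (gradient v y)‖ ^ 2 := by
    have e1 : gmtHor (‖fderiv ℝ v y‖ • dgFI_nu v y) = ‖fderiv ℝ v y‖ • gmtHor (dgFI_nu v y) :=
      (gmtHorL n).map_smul _ _
    have e2 : gmtHor (-gradient v y) = -gmtHor (gradient v y) := (gmtHorL n).map_neg _
    rw [h, e2] at e1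
    have e3 := congrArg (fun z => ‖z‖ ^ 2) e1
    simp only [norm_neg, norm_smul, norm_norm, mul_pow] at e3
    exact e3.symm
  calc w * ‖fderiv ℝ v y‖ ^ 2 / dgFI_s0 * ‖gmtHor (dgFI_nu v y)‖ ^ 2
      = w * (‖fderiv ℝ v y‖ ^ 2 * ‖gmtHor (dgFI_nu v y)‖ ^ 2) / dgFI_s0 := by ring
    _ = _ := by rw [h2]; rfl

/-! ## the oriented excess and the discrepancy mass, in the words of `dfc_harm` -/

theorem dfca_w_div_s0 (t : ℝ) : dgFI_w t / dgFI_s0 = 3 / 4 * (1 - t ^ 2) := by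
  unfold dgFI_w dgFI_s0
  have h0 := dgFI_sqrt2_pos
  have h := dgFI_sqrt2_sq
  rw [div_div, div_eq_iff (by positivity)]
  have e : Real.sqrt 2 * (2 * Real.sqrt 2 / 3) = 4 / 3 := by nlinarith
  rw [e]
  ring

/-- `|∇v| ν_t = -∂_t v`. -/
theorem dfca_norm_mul_ver_nu (v : E (n + 1) → ℝ) (y : E (n + 1)) :
    ‖fderiv ℝ v y‖ * gmtVer (dgFI_nu v y) = -fderiv ℝ v y (gmtEn n) := by
  have h := dgFI_norm_smul_nu v y
  have e1 : gmtVer (‖fderiv ℝ v y‖ • dgFI_nu v y) = ‖fderiv ℝ v y‖ * gmtVer (dgFI_nu v y) :=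
    (gmtVerL n).map_smul ‖fderiv ℝ v y‖ (dgFI_nu v y)
  have e2 : gmtVer (-gradient v y) = -gmtVer (gradient v y) := (gmtVerL n).map_neg _
  rw [← e1, h, e2, dfca_ver_grad]

/-- **(ii)**: `∫_{C_1} (1 - ν_t) dμ ≤ C ε²`, from the statement of `df_tilt`. -/
theorem dfca_tilt (n : ℕ)
    (htilt : ∃ C : ℝ, 0 < C ∧ ∀ (w ε K c₀ r₀ : ℝ) (v : E (n + 1) → ℝ), DfUnit n w ε K c₀ r₀ v →
      ∫ y in flCyl 1, (dfB v y + 3 / 4 * (1 - v y ^ 2) * fderiv ℝ v y (gmtEn n)) ≤ C * ε ^ 2) :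
    ∃ C : ℝ, 0 < C ∧ ∀ (w ε K c₀ r₀ : ℝ) (v : E (n + 1) → ℝ), DfUnit n w ε K c₀ r₀ v →
      ∫ y in flCyl 1, (1 - gmtVer (dgFI_nu v y)) ∂(dgFJ_mu w v) ≤ C * ε ^ 2 := by
  obtain ⟨C, hC, h⟩ := htilt
  refine ⟨C, hC, fun w ε K c₀ r₀ v H => le_trans ?_ (h w ε K c₀ r₀ v H)⟩
  have hw := H.hw
  have hv1 : ContDiff ℝ 1 v := H.smooth.of_le (by simp)
  have hcA : Continuous fun x => w * ‖fderiv ℝ v x‖ ^ 2 / dgFI_s0 :=
    (continuous_const.mul ((dgFI_continuous_normD hv1).pow 2)).div_const _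
  have hA0 : ∀ x, 0 ≤ w * ‖fderiv ℝ v x‖ ^ 2 / dgFI_s0 := fun x =>
    div_nonneg (mul_nonneg hw.le (sq_nonneg _)) dgFI_s0_pos.le
  unfold dgFJ_mu
  rw [dfca_setIntegral_withDensity hcA hA0 (fl_isOpen_cyl _).measurableSet]
  have hD := hv1.continuous_fderiv one_ne_zero
  have e : ∀ y, w * ‖fderiv ℝ v y‖ ^ 2 / dgFI_s0 * (1 - gmtVer (dgFI_nu v y))
      = w * ‖fderiv ℝ v y‖ / dgFI_s0 * (‖fderiv ℝ v y‖ + fderiv ℝ v y (gmtEn n)) := fun y => by
    have := dfca_norm_mul_ver_nu v y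
    calc w * ‖fderiv ℝ v y‖ ^ 2 / dgFI_s0 * (1 - gmtVer (dgFI_nu v y))
        = w * ‖fderiv ℝ v y‖ / dgFI_s0 * (‖fderiv ℝ v y‖ - ‖fderiv ℝ v y‖ * gmtVer (dgFI_nu v y)) := by ring
      _ = _ := by rw [this]; ring
  simp only [e]
  have hL : Continuous fun y => w * ‖fderiv ℝ v y‖ / dgFI_s0 * (‖fderiv ℝ v y‖ + fderiv ℝ v y (gmtEn n)) :=
    ((continuous_const.mul hD.norm).div_const _).mul (hD.norm.add (hD.clm_apply continuous_const))
  have hR : Continuous fun y => dfB v y + 3 / 4 * (1 - v y ^ 2) * fderiv ℝ v y (gmtEn n) := by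
    unfold dfB
    exact ((continuous_const.mul (continuous_const.sub (hv1.continuous.pow 2))).mul hD.norm).add
      ((continuous_const.mul (continuous_const.sub (hv1.continuous.pow 2))).mul
        (hD.clm_apply continuous_const))
  refine setIntegral_mono_on (dfca_integrableOn hL) (dfca_integrableOn hR)
    (fl_isOpen_cyl _).measurableSet fun y _ => ?_
  have h1 : w * ‖fderiv ℝ v y‖ / dgFI_s0 ≤ 3 / 4 * (1 - v y ^ 2) := by
    rw [← dfca_w_div_s0]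
    exact div_le_div_of_nonneg_right (dgFJ_modica_w (dfca_range H) (dfca_modica H) y) dgFI_s0_pos.le
  have h2 : 0 ≤ ‖fderiv ℝ v y‖ + fderiv ℝ v y (gmtEn n) := by
    have h3 : |fderiv ℝ v y (gmtEn n)| ≤ ‖fderiv ℝ v y‖ := by
      have := (fderiv ℝ v y).le_opNorm (gmtEn n)
      have hn : ‖gmtEn n‖ = 1 := by simp [gmtEn]
      rwa [hn, mul_one, Real.norm_eq_abs] at this
    linarith [(abs_le.1 h3).1]
  calc w * ‖fderiv ℝ v y‖ / dgFI_s0 * (‖fderiv ℝ v y‖ + fderiv ℝ v y (gmtEn n))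
      ≤ 3 / 4 * (1 - v y ^ 2) * (‖fderiv ℝ v y‖ + fderiv ℝ v y (gmtEn n)) :=
        mul_le_mul_of_nonneg_right h1 h2
    _ = _ := by unfold dfB; ring

/-- **(iv)**: `λ(C_1) ≤ K 2^{n-1} ε²`, from the field `disc`. -/
theorem dfca_lam {w ε K c₀ r₀ : ℝ} {v : E (n + 1) → ℝ} (H : DfUnit n w ε K c₀ r₀ v) :
    (dgFJ_lam w v (flCyl 1)).toReal ≤ K * 2 ^ (n - 1) * ε ^ 2 := by
  have hw := H.hw
  have hv1 : ContDiff ℝ 1 v := H.smooth.of_le (by simp)
  have hmod := dfca_modica H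
  have hcX : Continuous fun x => dgFJ_xi w v x / dgFI_s0 := (dgFJ_xi_continuous w hv1).div_const _
  have hX0 : ∀ x, 0 ≤ dgFJ_xi w v x / dgFI_s0 := fun x =>
    div_nonneg (dgFJ_xi_nonneg hw hmod x) dgFI_s0_pos.le
  unfold dgFJ_lam
  rw [dfca_withDensity_apply hcX hX0 (fl_isOpen_cyl _).measurableSet subset_rfl]
  have h1 : ∫ x in flCyl 1, dgFJ_xi w v x / dgFI_s0 ≤ ∫ x in ball (0 : E (n + 1)) 2, dfXi w v x := by
    have e : (fun x => dfXi w v x) = fun x => dgFJ_xi w v x / dgFI_s0 := funext (dfca_Xi_eq w v)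
    rw [e]
    have hb : IntegrableOn (fun x => dgFJ_xi w v x / dgFI_s0) (ball (0 : E (n + 1)) 2) :=
      (hcX.continuousOn.integrableOn_compact (isCompact_closedBall (0 : E (n + 1)) 2)).mono_set
        ball_subset_closedBall
    exact setIntegral_mono_set hb (Eventually.of_forall hX0)
      (Eventually.of_forall fun y hy => fl_cyl_subset_ball hy.1.le hy.2.le)
  refine h1.trans ((H.disc 0 2 (by norm_num)).trans ?_)
  have h2 : K * w ≤ K * ε ^ 2 := mul_le_mul_of_nonneg_left H.hwε H.hK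
  calc K * w * 2 ^ (n - 1) ≤ K * ε ^ 2 * 2 ^ (n - 1) := mul_le_mul_of_nonneg_right h2 (by positivity)
    _ = _ := by ring

/-- `FlAH` is monotone in the constant. -/
theorem dfca_AH_mono {h : E n → ℝ} {om om' : ℝ} (H : FlAH h om) (hle : om ≤ om') : FlAH h om' := by
  intro ψ hψ hs M hM hM'
  have hM0 : 0 ≤ M := (abs_nonneg _).trans (hM 0)
  exact (H ψ hψ hs M hM hM').trans (mul_le_mul_of_nonneg_right hle hM0)

end Claimed.Agent.R329
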