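import Claimed.Agent.R329.FlId
import Claimed.Agent.R329.DfDefs
import Claimed.Agent.Lib.Gmt.FlFlux

/-!
# Row 329, K7, post P4 (chief helper59, prefix `dfx`): diffuse flux identities F1, (EXC) at unit scale.

The phase function `χ : E (n+1) → ℝ` is `C¹` (in the application `χ = Φ(v)/s₀`), so the identities of `Lib/Gmt/FlFlux*` become
pure calculus: no test field, no vertical cut-off, no limit.
* `dfxMu1 χ = |Dχ| dy`, normal `dgFI_nu χ = -∇χ/|∇χ|` (of `FlId.lean`), height `dfxH χ z = ∫_{-1}^{1} χ(z,t) dt - 1`;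
* `dfx_rep`, `dfx_rep_on` (REP): `∫_A g ⟪X, ν⟫ dμ₁ = - ∫_A g Dχ(X) dy`;
* `dfx_flux` (F1, exact): `∫_{C_1} ψ(z) ν_t dμ₁ = ∫_{|z|<1} ψ(z) (χ(z,-1) - χ(z,1)) dz`;
* `dfx_exc` (EXC): `μ₁(C_1) ≤ ω_n + δ` and the tails at `t = ±1` give `∫_{C_1} (1 - ν_t) dμ₁ ≤ δ + 2 τ ω_n`; `dfx_exc_le` for `μ ≤ μ₁`.
F2 (the height function) is in `DfFluxH.lean` (helper279).
HUB CONTRACTS (words of `DfHub.lean`):  `df_exc n` closes by `dfx_hub_exc n (df_dens_tail n)`;
`df_tilt n` closes by `dfx_hub_tilt n (df_tail n) (df_exc n)`;  `df_slice_low n` closes by `dfx_hub_slice_low n (df_tail n)`.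
-/

set_option autoImplicit false
open scoped ContDiff ENNReal RealInnerProductSpace
open MeasureTheory Metric Set Filter Topology
open Claimed.Agent.Gmt

namespace Claimed.Agent.R329

variable {m n : ℕ}

/-- the Gauss-Green measure `|Dχ| dy` of a `C¹` phase function -/
noncomputable def dfxMu1 (chi : E m → ℝ) : Measure (E m) :=
  volume.withDensity fun y => ENNReal.ofReal ‖fderiv ℝ chi y‖

/-- the diffuse height function `h(z) = ∫_{-1}^{1} χ(z,t) dt - 1` -/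
noncomputable def dfxH (chi : E (n + 1) → ℝ) (z : E n) : ℝ :=
  (∫ t in Ioo (-1 : ℝ) 1, chi (gmtJoin z t)) - 1

theorem dfx_integral_mu1 {chi : E m → ℝ} (hchi : ContDiff ℝ 1 chi) (f : E m → ℝ) :
    ∫ y, f y ∂(dfxMu1 chi) = ∫ y, ‖fderiv ℝ chi y‖ * f y :=
  dgFI_integral_withDensity (dgFI_continuous_normD hchi) (fun _ => norm_nonneg _) f

theorem dfx_setIntegral_mu1 {chi : E m → ℝ} (hchi : ContDiff ℝ 1 chi) {A : Set (E m)} (hA : MeasurableSet A)
    (f : E m → ℝ) : ∫ y in A, f y ∂(dfxMu1 chi) = ∫ y in A, ‖fderiv ℝ chi y‖ * f y := by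
  rw [← integral_indicator hA, dfx_integral_mu1 hchi, ← integral_indicator hA]
  refine integral_congr_ae (Eventually.of_forall fun y => ?_)
  by_cases hy : y ∈ A
  · simp [hy]
  · simp [hy]

theorem dfx_mu1_compact {chi : E m → ℝ} (hchi : ContDiff ℝ 1 chi) {K : Set (E m)} (hK : IsCompact K) :
    dfxMu1 chi K ≠ ⊤ :=
  dgFI_withDensity_compact (dgFI_continuous_normD hchi) hK

/-- pointwise: `|Dχ| ⟪X, ν⟫ = - Dχ(X)` -/
theorem dfx_norm_mul_inner (chi : E m → ℝ) (y X : E m) :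
    ‖fderiv ℝ chi y‖ * ⟪X, dgFI_nu chi y⟫ = -fderiv ℝ chi y X := by
  rw [← real_inner_smul_right, dgFI_norm_smul_nu, inner_neg_right, real_inner_comm, dgFI_fderiv_eq_inner]

/-- (REP) on a measurable set -/
theorem dfx_rep_on {chi : E m → ℝ} (hchi : ContDiff ℝ 1 chi) {A : Set (E m)} (hA : MeasurableSet A)
    (g : E m → ℝ) (X : E m → E m) :
    ∫ y in A, g y * ⟪X y, dgFI_nu chi y⟫ ∂(dfxMu1 chi) = -∫ y in A, g y * fderiv ℝ chi y (X y) := by
  rw [dfx_setIntegral_mu1 hchi hA, ← integral_neg]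
  refine integral_congr_ae (Eventually.of_forall fun y => ?_)
  simp only
  rw [mul_left_comm, dfx_norm_mul_inner]
  ring

/-- (REP) -/
theorem dfx_rep {chi : E m → ℝ} (hchi : ContDiff ℝ 1 chi) (g : E m → ℝ) (X : E m → E m) :
    ∫ y, g y * ⟪X y, dgFI_nu chi y⟫ ∂(dfxMu1 chi) = -∫ y, g y * fderiv ℝ chi y (X y) := by
  have h := dfx_rep_on hchi MeasurableSet.univ g X
  simpa using h

/-! ## vertical lines -/

theorem dfx_line_hasDerivAt {chi : E (n + 1) → ℝ} (hchi : ContDiff ℝ 1 chi) (z : E n) (t : ℝ) :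
    HasDerivAt (fun t => chi (gmtJoin z t)) (fderiv ℝ chi (gmtJoin z t) (gmtEn n)) t := by
  have h1 : HasDerivAt (fun t : ℝ => gmtJoin z t) (gmtEn n) t := by
    have : (fun t : ℝ => gmtJoin z t) = fun t : ℝ => flInc n z + t • gmtEn n := funext fun t => fl_join_eq z t
    rw [this]
    simpa using ((hasDerivAt_id t).smul_const (gmtEn n)).const_add (flInc n z)
  exact (hchi.differentiable one_ne_zero (gmtJoin z t)).hasFDerivAt.comp_hasDerivAt t h1

theorem dfx_continuous_join (z : E n) : Continuous fun t : ℝ => gmtJoin z t :=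
  fl_continuous_join.comp (continuous_const.prodMk continuous_id)

theorem dfx_line_continuous {chi : E (n + 1) → ℝ} (hchi : ContDiff ℝ 1 chi) (z : E n) :
    Continuous fun t : ℝ => fderiv ℝ chi (gmtJoin z t) (gmtEn n) :=
  ((hchi.continuous_fderiv one_ne_zero).comp (dfx_continuous_join z)).clm_apply continuous_const

/-- FTC on a vertical line -/
theorem dfx_line_ftc {chi : E (n + 1) → ℝ} (hchi : ContDiff ℝ 1 chi) (z : E n) {a b : ℝ} (hab : a ≤ b) :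
    ∫ t in Ioo a b, fderiv ℝ chi (gmtJoin z t) (gmtEn n) = chi (gmtJoin z b) - chi (gmtJoin z a) := by
  rw [← integral_Ioc_eq_integral_Ioo, ← intervalIntegral.integral_of_le hab]
  exact intervalIntegral.integral_eq_sub_of_hasDerivAt (fun t _ => dfx_line_hasDerivAt hchi z t)
    ((dfx_line_continuous hchi z).intervalIntegrable _ _)

theorem dfx_cyl_subset (ρ : ℝ) : (flCyl ρ : Set (E (n + 1))) ⊆ closedBall 0 (|ρ| + 1) := by
  intro y hy
  have h1 := fl_norm_sq y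
  have h2 : ‖gmtHor y‖ ≤ |ρ| := hy.1.le.trans (le_abs_self ρ)
  have h3 : gmtVer y ^ 2 ≤ 1 := by
    have := hy.2.le
    rw [← sq_abs]
    nlinarith [abs_nonneg (gmtVer y)]
  rw [mem_closedBall, dist_zero_right]
  have h4 : ‖y‖ ^ 2 ≤ (|ρ| + 1) ^ 2 := by
    nlinarith [norm_nonneg (gmtHor y), abs_nonneg ρ]
  exact abs_le_of_sq_le_sq' h4 (by positivity) |>.2

theorem dfx_integrableOn_cyl {G : E (n + 1) → ℝ} (hG : Continuous G) (ρ : ℝ) : IntegrableOn G (flCyl ρ) :=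
  (hG.continuousOn.integrableOn_compact (isCompact_closedBall 0 (|ρ| + 1))).mono_set (dfx_cyl_subset ρ)

/-- Fubini on a cylinder -/
theorem dfx_integral_cyl {G : E (n + 1) → ℝ} (hG : Continuous G) (ρ : ℝ) :
    ∫ y in flCyl ρ, G y = ∫ z in ball (0 : E n) ρ, ∫ t in Ioo (-1 : ℝ) 1, G (gmtJoin z t) := by
  have hm : MeasurableSet (flCyl ρ : Set (E (n + 1))) := (fl_isOpen_cyl ρ).measurableSet
  rw [← integral_indicator hm, fl_integral_join ((integrable_indicator_iff hm).2 (dfx_integrableOn_cyl hG ρ)),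
    ← integral_indicator measurableSet_ball]
  refine integral_congr_ae (Eventually.of_forall fun z => ?_)
  simp only
  by_cases hz : ‖z‖ < ρ
  · rw [indicator_of_mem (by simpa using hz), ← integral_indicator measurableSet_Ioo]
    refine integral_congr_ae (Eventually.of_forall fun t => ?_)
    simp only
    by_cases ht : t ∈ Ioo (-1 : ℝ) 1
    · rw [indicator_of_mem ht, indicator_of_mem]
      exact ⟨by rw [fl_hor_join]; exact hz, by rw [fl_ver_join]; exact abs_lt.2 ⟨ht.1, ht.2⟩⟩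
    · rw [indicator_of_notMem ht, indicator_of_notMem]
      intro h
      have := h.2
      rw [fl_ver_join, abs_lt] at this
      exact ht ⟨this.1, this.2⟩
  · rw [indicator_of_notMem (by simpa using hz)]
    have : ∀ t : ℝ, (flCyl ρ : Set (E (n + 1))).indicator G (gmtJoin z t) = 0 := fun t => by
      rw [indicator_of_notMem]
      intro h
      have := h.1
      rw [fl_hor_join] at this
      exact hz this
    simp [this]

/-- **F1, Lebesgue form (exact).** -/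
theorem dfx_flux_leb {chi : E (n + 1) → ℝ} (hchi : ContDiff ℝ 1 chi) {ψ : E n → ℝ} (hψ : Continuous ψ) (ρ : ℝ) :
    ∫ y in flCyl ρ, ψ (gmtHor y) * fderiv ℝ chi y (gmtEn n)
      = ∫ z in ball (0 : E n) ρ, ψ z * (chi (gmtJoin z 1) - chi (gmtJoin z (-1))) := by
  have hG : Continuous fun y : E (n + 1) => ψ (gmtHor y) * fderiv ℝ chi y (gmtEn n) :=
    (hψ.comp fl_continuous_hor).mul ((hchi.continuous_fderiv one_ne_zero).clm_apply continuous_const)
  rw [dfx_integral_cyl hG]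
  refine integral_congr_ae (Eventually.of_forall fun z => ?_)
  simp only [fl_hor_join]
  rw [integral_const_mul, dfx_line_ftc hchi z (by norm_num)]

/-- **F1 (exact)**: `∫_{C_ρ} ψ(z) ν_t dμ₁ = ∫_{|z|<ρ} ψ(z) (χ(z,-1) - χ(z,1)) dz`. -/
theorem dfx_flux {chi : E (n + 1) → ℝ} (hchi : ContDiff ℝ 1 chi) {ψ : E n → ℝ} (hψ : Continuous ψ) (ρ : ℝ) :
    ∫ y in flCyl ρ, ψ (gmtHor y) * gmtVer (dgFI_nu chi y) ∂(dfxMu1 chi)
      = ∫ z in ball (0 : E n) ρ, ψ z * (chi (gmtJoin z (-1)) - chi (gmtJoin z 1)) := by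
  have h := dfx_rep_on hchi (fl_isOpen_cyl ρ).measurableSet (fun y => ψ (gmtHor y)) (fun _ => gmtEn n)
  have e : ∀ y : E (n + 1), ⟪gmtEn n, dgFI_nu chi y⟫ = gmtVer (dgFI_nu chi y) := fun y => by
    rw [fl_ver_eq_inner, real_inner_comm]
  simp only [e] at h
  rw [h, dfx_flux_leb hchi hψ, ← integral_neg]
  refine integral_congr_ae (Eventually.of_forall fun z => ?_)
  simp only
  ring

/-! ## the oriented excess -/

theorem dfx_continuous_at_height {chi : E (n + 1) → ℝ} (hchi : Continuous chi) (t : ℝ) :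
    Continuous fun z : E n => chi (gmtJoin z t) :=
  hchi.comp (fl_continuous_join.comp (continuous_id.prodMk continuous_const))

/-- the flux through the cylinder is at least `(1 - 2τ) ω_n`. -/
theorem dfx_flux_lower {chi : E (n + 1) → ℝ} (hchi : Continuous chi) {τ : ℝ}
    (hb : ∀ z : E n, ‖z‖ < 1 → 1 - τ ≤ chi (gmtJoin z (-1)))
    (ha : ∀ z : E n, ‖z‖ < 1 → chi (gmtJoin z 1) ≤ τ) :
    (1 - 2 * τ) * gmtOm n ≤ ∫ z in ball (0 : E n) 1, (chi (gmtJoin z (-1)) - chi (gmtJoin z 1)) := by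
  have hc : Continuous fun z : E n => chi (gmtJoin z (-1)) - chi (gmtJoin z 1) :=
    (dfx_continuous_at_height hchi _).sub (dfx_continuous_at_height hchi _)
  have hi : IntegrableOn (fun z : E n => chi (gmtJoin z (-1)) - chi (gmtJoin z 1)) (ball 0 1) :=
    (hc.continuousOn.integrableOn_compact (isCompact_closedBall 0 1)).mono_set ball_subset_closedBall
  have h1 : ∫ _z in ball (0 : E n) 1, (1 - 2 * τ) = (1 - 2 * τ) * gmtOm n := by
    rw [setIntegral_const, smul_eq_mul, mul_comm]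
    rfl
  rw [← h1]
  refine setIntegral_mono_on (integrableOn_const measure_ball_lt_top.ne) hi measurableSet_ball fun z hz => ?_
  have hz' : ‖z‖ < 1 := by simpa using hz
  linarith [hb z hz', ha z hz']

theorem dfx_abs_ver_nu (chi : E (n + 1) → ℝ) (y : E (n + 1)) : |gmtVer (dgFI_nu chi y)| ≤ 1 :=
  (fl_abs_ver_le _).trans (dgFI_norm_nu_le chi y)

theorem dfx_measurable_ver_nu {chi : E (n + 1) → ℝ} (hchi : ContDiff ℝ 1 chi) :
    Measurable fun y => gmtVer (dgFI_nu chi y) :=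
  fl_continuous_ver.measurable.comp (dgFI_measurable_nu hchi)

theorem dfx_mu1_cyl_lt_top {chi : E (n + 1) → ℝ} (hchi : ContDiff ℝ 1 chi) (ρ : ℝ) : dfxMu1 chi (flCyl ρ) < ⊤ :=
  lt_of_le_of_lt (measure_mono (dfx_cyl_subset ρ)) (dfx_mu1_compact hchi (isCompact_closedBall _ _)).lt_top

theorem dfx_integrableOn_ver_nu {chi : E (n + 1) → ℝ} (hchi : ContDiff ℝ 1 chi) (ρ : ℝ) :
    IntegrableOn (fun y => gmtVer (dgFI_nu chi y)) (flCyl ρ) (dfxMu1 chi) :=
  Measure.integrableOn_of_bounded (M := 1) (dfx_mu1_cyl_lt_top hchi ρ).ne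
    (dfx_measurable_ver_nu hchi).aestronglyMeasurable
    (Eventually.of_forall fun y => by rw [Real.norm_eq_abs]; exact dfx_abs_ver_nu chi y)

/-- **(EXC)**: `∫_{C_1} (1 - ν_t) dμ₁ ≤ δ + 2 τ ω_n`. -/
theorem dfx_exc {chi : E (n + 1) → ℝ} (hchi : ContDiff ℝ 1 chi) {δ τ : ℝ} (hδ : 0 ≤ δ)
    (hb : ∀ z : E n, ‖z‖ < 1 → 1 - τ ≤ chi (gmtJoin z (-1)))
    (ha : ∀ z : E n, ‖z‖ < 1 → chi (gmtJoin z 1) ≤ τ)
    (hexc : dfxMu1 chi (flCyl 1) ≤ ENNReal.ofReal (gmtOm n + δ)) :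
    ∫ y in flCyl 1, (1 - gmtVer (dgFI_nu chi y)) ∂(dfxMu1 chi) ≤ δ + 2 * τ * gmtOm n := by
  have hfin := dfx_mu1_cyl_lt_top hchi (n := n) 1
  have h1 := dfx_flux hchi (ψ := fun _ : E n => (1 : ℝ)) continuous_const 1
  simp only [one_mul] at h1
  have h2 := dfx_flux_lower hchi.continuous hb ha
  have h3 : (dfxMu1 chi (flCyl 1)).toReal ≤ gmtOm n + δ :=
    ENNReal.toReal_le_of_le_ofReal (add_nonneg (flx_om_nonneg n) hδ) hexc
  have i1 : IntegrableOn (fun _ : E (n + 1) => (1 : ℝ)) (flCyl 1) (dfxMu1 chi) := integrableOn_const hfin.ne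
  have h4 : ∫ y in flCyl 1, (1 - gmtVer (dgFI_nu chi y)) ∂(dfxMu1 chi)
      = (∫ _y in (flCyl 1 : Set (E (n + 1))), (1 : ℝ) ∂(dfxMu1 chi))
        - ∫ y in flCyl 1, gmtVer (dgFI_nu chi y) ∂(dfxMu1 chi) :=
    integral_sub i1 (dfx_integrableOn_ver_nu hchi 1)
  rw [h4, h1, setIntegral_const, smul_eq_mul, mul_one, measureReal_def]
  linarith

/-- (EXC) for a smaller measure. -/
theorem dfx_exc_le {chi : E (n + 1) → ℝ} (hchi : ContDiff ℝ 1 chi) {δ τ : ℝ} (hδ : 0 ≤ δ)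
    (hb : ∀ z : E n, ‖z‖ < 1 → 1 - τ ≤ chi (gmtJoin z (-1)))
    (ha : ∀ z : E n, ‖z‖ < 1 → chi (gmtJoin z 1) ≤ τ)
    (hexc : dfxMu1 chi (flCyl 1) ≤ ENNReal.ofReal (gmtOm n + δ))
    {μ : Measure (E (n + 1))} (hμ : μ ≤ dfxMu1 chi) :
    ∫ y in flCyl 1, (1 - gmtVer (dgFI_nu chi y)) ∂μ ≤ δ + 2 * τ * gmtOm n := by
  refine le_trans ?_ (dfx_exc hchi hδ hb ha hexc)
  refine integral_mono_measure (Measure.restrict_mono le_rfl hμ) (Eventually.of_forall fun y => ?_)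
    (Integrable.sub (integrableOn_const (dfx_mu1_cyl_lt_top hchi 1).ne) (dfx_integrableOn_ver_nu hchi 1))
  have := (abs_le.1 (dfx_abs_ver_nu chi y)).2
  simp only [Pi.zero_apply]
  linarith

/-- (EXC), Lebesgue form, for an energy density `e` (form used by F6): `∫_{C_1} (e + ∂_t χ) ≤ δ + 2 τ ω_n`. -/
theorem dfx_exc_leb {chi : E (n + 1) → ℝ} (hchi : ContDiff ℝ 1 chi) {e : E (n + 1) → ℝ} (he : Continuous e)
    {δ τ : ℝ} (hb : ∀ z : E n, ‖z‖ < 1 → 1 - τ ≤ chi (gmtJoin z (-1)))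
    (ha : ∀ z : E n, ‖z‖ < 1 → chi (gmtJoin z 1) ≤ τ)
    (hexc : ∫ y in flCyl 1, e y ≤ gmtOm n + δ) :
    ∫ y in (flCyl 1 : Set (E (n + 1))), (e y + fderiv ℝ chi y (gmtEn n)) ≤ δ + 2 * τ * gmtOm n := by
  have h1 := dfx_flux_leb hchi (ψ := fun _ : E n => (1 : ℝ)) continuous_const 1
  simp only [one_mul] at h1
  have h2 := dfx_flux_lower hchi.continuous hb ha
  have h3 : ∫ z in ball (0 : E n) 1, (chi (gmtJoin z 1) - chi (gmtJoin z (-1)))
      = -∫ z in ball (0 : E n) 1, (chi (gmtJoin z (-1)) - chi (gmtJoin z 1)) := by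
    rw [← integral_neg]
    refine integral_congr_ae (Eventually.of_forall fun z => ?_)
    simp only
    ring
  rw [integral_add (dfx_integrableOn_cyl he 1)
    (dfx_integrableOn_cyl ((hchi.continuous_fderiv one_ne_zero).clm_apply continuous_const) 1), h1, h3]
  linarith

/-! ## the contracts `df_exc`, `df_tilt` of `DfHub.lean` -/

theorem dfx_S0_pos : 0 < dfS0 := by
  unfold dfS0
  positivity

theorem dfx_continuous_normD {v : E m → ℝ} (hv : ContDiff ℝ 1 v) : Continuous fun y => ‖fderiv ℝ v y‖ :=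
  (hv.continuous_fderiv one_ne_zero).norm

theorem dfx_continuous_E {v : E m → ℝ} (hv : ContDiff ℝ 1 v) (w : ℝ) : Continuous (dfE w v) := by
  unfold dfE dgW
  have h1 := dfx_continuous_normD hv
  have h2 := hv.continuous
  fun_prop

theorem dfx_continuous_B {v : E m → ℝ} (hv : ContDiff ℝ 1 v) : Continuous (dfB v) := by
  unfold dfB
  have h1 := dfx_continuous_normD hv
  have h2 := hv.continuous
  fun_prop

theorem dfx_E_nonneg {w : ℝ} (hw : 0 < w) (v : E m → ℝ) (y : E m) : 0 ≤ dfE w v y := by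
  unfold dfE dgW
  have := dfx_S0_pos
  positivity

/-- Young: `dfB ≤ dfE`. -/
theorem dfx_B_le_E {w : ℝ} (hw : 0 < w) (v : E m → ℝ) (y : E m) : dfB v y ≤ dfE w v y := by
  unfold dfB dfE dgW dfS0
  set a := ‖fderiv ℝ v y‖
  set q := 1 - v y ^ 2
  set s := Real.sqrt 2 with hs
  have hs2 : s * s = 2 := Real.mul_self_sqrt (by norm_num)
  have hs0 : 0 < s := by rw [hs]; positivity
  rw [le_div_iff₀ (by positivity)]
  have h1 : 0 ≤ (s * w * a - q) ^ 2 / (4 * w) := by positivity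
  have h2 : (s * w * a - q) ^ 2 / (4 * w) = w * a ^ 2 / 2 + q ^ 2 / 4 / w - 3 / 4 * q * a * (2 * s / 3) := by
    have : (s * w * a - q) ^ 2 = (s * s) * w ^ 2 * a ^ 2 - 2 * s * w * a * q + q ^ 2 := by ring
    rw [this, hs2]
    field_simp
    ring
  linarith

theorem dfx_one_add_pow_le (k : ℕ) {x : ℝ} (h0 : 0 ≤ x) (h1 : x ≤ 1) : (1 + x) ^ k ≤ 1 + (2 ^ k - 1) * x := by
  induction k with
  | zero => simp
  | succ k ih =>
    have ha : (0 : ℝ) ≤ 2 ^ k - 1 := by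
      have : (1 : ℝ) ≤ 2 ^ k := one_le_pow₀ (by norm_num)
      linarith
    calc (1 + x) ^ (k + 1) = (1 + x) ^ k * (1 + x) := pow_succ _ _
      _ ≤ (1 + (2 ^ k - 1) * x) * (1 + x) := mul_le_mul_of_nonneg_right ih (by linarith)
      _ ≤ 1 + (2 ^ (k + 1) - 1) * x := by
        have : x * x ≤ x := by nlinarith
        have h2 := mul_le_mul_of_nonneg_left this ha
        rw [pow_succ]
        nlinarith

/-- **contract `df_exc`** from `df_dens_tail`. -/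
theorem dfx_hub_exc (n : ℕ)
    (htail : ∃ C : ℝ, 0 < C ∧ ∀ (w ε K c₀ r₀ : ℝ) (v : E (n + 1) → ℝ), DfUnit n w ε K c₀ r₀ v →
      ∀ y ∈ ball (0 : E (n + 1)) 3, 2 * ε ≤ |gmtVer y| → dfE w v y ≤ C * w) :
    ∃ C : ℝ, 0 < C ∧ ∀ (w ε K c₀ r₀ : ℝ) (v : E (n + 1) → ℝ), DfUnit n w ε K c₀ r₀ v →
      ∫ y in flCyl 1, dfE w v y ≤ gmtOm n + C * ε ^ 2 := by
  obtain ⟨Ct, hCt, ht⟩ := htail
  set V : ℝ := (volume (closedBall (0 : E (n + 1)) 2)).toReal with hV
  have hV0 : 0 ≤ V := ENNReal.toReal_nonneg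
  have hom := flx_om_nonneg n
  refine ⟨gmtOm n * (2 ^ n * 4) + Ct * V + 1, by positivity, ?_⟩
  intro w ε K c₀ r₀ v H
  have hv1 : ContDiff ℝ 1 v := H.smooth.of_le (by simp)
  have hc := dfx_continuous_E hv1 w
  have hnn := dfx_E_nonneg H.hw v
  have hε := H.hε
  have hε8 := H.hε'
  set A : Set (E (n + 1)) := flCyl 1 with hA
  set T : Set (E (n + 1)) := {y | 2 * ε ≤ |gmtVer y|} with hT
  have hTm : MeasurableSet T := measurableSet_le measurable_const (continuous_abs.comp fl_continuous_ver).measurable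
  have hAm : MeasurableSet A := (fl_isOpen_cyl 1).measurableSet
  have hiA : IntegrableOn (dfE w v) A := dfx_integrableOn_cyl hc 1
  have hsplit := integral_inter_add_sdiff (μ := volume) hTm hiA
  -- the tail part
  have h1 : ∫ y in A ∩ T, dfE w v y ≤ Ct * V * ε ^ 2 := by
    have hsub : A ∩ T ⊆ closedBall (0 : E (n + 1)) 2 := fun y hy => fl_cyl_subset_closedBall hy.1
    have hfin : volume (A ∩ T) ≠ ⊤ :=
      ne_top_of_le_ne_top (isCompact_closedBall _ _).measure_lt_top.ne (measure_mono hsub)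
    have e1 : ∫ y in A ∩ T, dfE w v y ≤ ∫ _y in A ∩ T, Ct * w := by
      refine setIntegral_mono_on (hiA.mono_set inter_subset_left) (integrableOn_const hfin) (hAm.inter hTm) ?_
      intro y hy
      exact ht w ε K c₀ r₀ v H y (closedBall_subset_ball (by norm_num) (hsub hy)) hy.2
    have e2 : ∫ _y in A ∩ T, Ct * w = (volume (A ∩ T)).toReal * (Ct * w) := by
      rw [setIntegral_const, smul_eq_mul]
      rfl
    have e3 : (volume (A ∩ T)).toReal ≤ V :=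
      ENNReal.toReal_mono (isCompact_closedBall _ _).measure_lt_top.ne (measure_mono hsub)
    have e4 : (volume (A ∩ T)).toReal * (Ct * w) ≤ V * (Ct * ε ^ 2) :=
      mul_le_mul e3 (mul_le_mul_of_nonneg_left H.hwε hCt.le) (by have := H.hw; positivity) hV0
    calc _ ≤ _ := e1
      _ = _ := e2
      _ ≤ _ := e4
      _ = _ := by ring
  -- the core part
  set ρ : ℝ := Real.sqrt (1 + 4 * ε ^ 2) with hρ
  have hρ0 : 0 < ρ := by rw [hρ]; positivity
  have hρsq : ρ ^ 2 = 1 + 4 * ε ^ 2 := Real.sq_sqrt (by positivity)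
  have h2 : ∫ y in A \ T, dfE w v y ≤ gmtOm n * (1 + (2 ^ n - 1) * (4 * ε ^ 2)) := by
    have hsub : A \ T ⊆ ball (0 : E (n + 1)) ρ := by
      intro y hy
      have hy2 : |gmtVer y| < 2 * ε := not_le.1 hy.2
      have hy1 : ‖gmtHor y‖ < 1 := hy.1.1
      have e1 := fl_norm_sq y
      have e2 : gmtVer y ^ 2 < 4 * ε ^ 2 := by
        rw [← sq_abs]
        nlinarith [abs_nonneg (gmtVer y)]
      have e3 : ‖gmtHor y‖ ^ 2 < 1 := by nlinarith [norm_nonneg (gmtHor y)]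
      rw [mem_ball, dist_zero_right]
      exact lt_of_pow_lt_pow_left₀ 2 hρ0.le (by rw [hρsq]; linarith)
    have hib : IntegrableOn (dfE w v) (ball (0 : E (n + 1)) ρ) :=
      (hc.continuousOn.integrableOn_compact (isCompact_closedBall 0 ρ)).mono_set ball_subset_closedBall
    have e1 : ∫ y in A \ T, dfE w v y ≤ ∫ y in ball (0 : E (n + 1)) ρ, dfE w v y :=
      setIntegral_mono_set hib (Eventually.of_forall hnn) (Eventually.of_forall hsub)
    have e2 := H.mass 0 ρ hρ0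
    have e3 : ρ ≤ 1 + 4 * ε ^ 2 := by
      have : ρ ^ 2 ≤ (1 + 4 * ε ^ 2) ^ 2 := by
        rw [hρsq]
        nlinarith [sq_nonneg ε]
      exact abs_le_of_sq_le_sq' this (by positivity) |>.2
    have e4 : ρ ^ n ≤ 1 + (2 ^ n - 1) * (4 * ε ^ 2) :=
      (pow_le_pow_left₀ hρ0.le e3 n).trans (dfx_one_add_pow_le n (by positivity) (by nlinarith))
    exact e1.trans (e2.trans (mul_le_mul_of_nonneg_left e4 hom))
  have h3 : gmtOm n * (1 + (2 ^ n - 1) * (4 * ε ^ 2)) ≤ gmtOm n + gmtOm n * (2 ^ n * 4) * ε ^ 2 := by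
    have : 0 ≤ gmtOm n * (4 * ε ^ 2) := by positivity
    nlinarith
  rw [← hsplit]
  have h4 : 0 ≤ ε ^ 2 := sq_nonneg ε
  nlinarith

theorem dfx_hasDerivAt_Chi (t : ℝ) : HasDerivAt dfChi (3 / 4 * (1 - t ^ 2)) t := by
  unfold dfChi
  have h := ((((hasDerivAt_id t).const_mul (3 : ℝ)).const_add (2 : ℝ)).sub (hasDerivAt_pow 3 t)).div_const (4 : ℝ)
  refine h.congr_deriv ?_
  simp
  ring

theorem dfx_contDiff_Chi : ContDiff ℝ 1 dfChi := by
  unfold dfChi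
  fun_prop

theorem dfx_fderiv_Chi_comp {v : E m → ℝ} (hv : ContDiff ℝ 1 v) (y X : E m) :
    fderiv ℝ (fun y => dfChi (v y)) y X = 3 / 4 * (1 - v y ^ 2) * fderiv ℝ v y X := by
  have h : HasFDerivAt (fun y => dfChi (v y)) ((3 / 4 * (1 - v y ^ 2)) • fderiv ℝ v y) y :=
    (dfx_hasDerivAt_Chi (v y)).comp_hasFDerivAt y (hv.differentiable one_ne_zero y).hasFDerivAt
  rw [h.fderiv]
  simp

/-- `1 - χ(s) = (1-s)²(2+s)/4 ≤ (3/4)(1-s)²` for `s ≤ 1`. -/
theorem dfx_one_sub_Chi_le {s : ℝ} (hs : s ≤ 1) : 1 - dfChi s ≤ 3 / 4 * (1 - s) ^ 2 := by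
  unfold dfChi
  nlinarith [mul_nonneg (sq_nonneg (1 - s)) (sub_nonneg.2 hs)]

/-- `χ(s) = (1+s)²(2-s)/4 ≤ (3/4)(1+s)²` for `-1 ≤ s`. -/
theorem dfx_Chi_le {s : ℝ} (hs : -1 ≤ s) : dfChi s ≤ 3 / 4 * (1 + s) ^ 2 := by
  unfold dfChi
  nlinarith [mul_nonneg (sq_nonneg (1 + s)) (by linarith : (0 : ℝ) ≤ 1 + s)]

/-- **contract `df_tilt`** from `df_tail` and `df_exc`. -/
theorem dfx_hub_tilt (n : ℕ)
    (htail : ∃ C : ℝ, 0 < C ∧ ∀ (w ε K c₀ r₀ : ℝ) (v : E (n + 1) → ℝ), DfUnit n w ε K c₀ r₀ v →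
      ∀ y ∈ ball (0 : E (n + 1)) 3,
        (gmtVer y ≤ -(2 * ε) → 1 - v y ≤ C * w) ∧ (2 * ε ≤ gmtVer y → 1 + v y ≤ C * w))
    (hexc : ∃ C : ℝ, 0 < C ∧ ∀ (w ε K c₀ r₀ : ℝ) (v : E (n + 1) → ℝ), DfUnit n w ε K c₀ r₀ v →
      ∫ y in flCyl 1, dfE w v y ≤ gmtOm n + C * ε ^ 2) :
    ∃ C : ℝ, 0 < C ∧ ∀ (w ε K c₀ r₀ : ℝ) (v : E (n + 1) → ℝ), DfUnit n w ε K c₀ r₀ v →
      ∫ y in flCyl 1, (dfB v y + 3 / 4 * (1 - v y ^ 2) * fderiv ℝ v y (gmtEn n)) ≤ C * ε ^ 2 := by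
  obtain ⟨Ct, hCt, ht⟩ := htail
  obtain ⟨Ce, hCe, he⟩ := hexc
  have hom := flx_om_nonneg n
  refine ⟨Ce + 2 * (3 / 4 * Ct ^ 2) * gmtOm n + 1, by positivity, ?_⟩
  intro w ε K c₀ r₀ v H
  have hv1 : ContDiff ℝ 1 v := H.smooth.of_le (by simp)
  have hε := H.hε
  have hε8 := H.hε'
  have hw := H.hw
  have hw1 : w ≤ 1 := H.hwε.trans (by nlinarith)
  have hchi : ContDiff ℝ 1 (fun y => dfChi (v y)) := dfx_contDiff_Chi.comp hv1
  have hball : ∀ (z : E n) (t : ℝ), ‖z‖ < 1 → |t| ≤ 1 → gmtJoin z t ∈ ball (0 : E (n + 1)) 3 := by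
    intro z t hz htt
    refine ball_subset_ball (by norm_num) (fl_cyl_subset_ball (y := gmtJoin z t) ?_ ?_)
    · rw [fl_hor_join]; exact hz.le
    · rw [fl_ver_join]; exact htt
  set τ : ℝ := 3 / 4 * Ct ^ 2 * ε ^ 2 with hτ
  have hsq : ∀ x : ℝ, 0 ≤ x → x ≤ Ct * w → 3 / 4 * x ^ 2 ≤ τ := by
    intro x hx0 hx
    have h1 : x ^ 2 ≤ (Ct * w) ^ 2 := pow_le_pow_left₀ hx0 hx 2
    have h2 : (Ct * w) ^ 2 ≤ Ct ^ 2 * ε ^ 2 := by
      rw [mul_pow]
      apply mul_le_mul_of_nonneg_left _ (sq_nonneg Ct)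
      calc w ^ 2 = w * w := sq w
        _ ≤ 1 * ε ^ 2 := mul_le_mul hw1 H.hwε hw.le (by norm_num)
        _ = ε ^ 2 := one_mul _
    rw [hτ]
    linarith
  have hb : ∀ z : E n, ‖z‖ < 1 → 1 - τ ≤ dfChi (v (gmtJoin z (-1))) := by
    intro z hz
    have h1 := (ht w ε K c₀ r₀ v H _ (hball z (-1) hz (by norm_num))).1 (by rw [fl_ver_join]; linarith)
    have h2 := (H.range (gmtJoin z (-1))).2
    have h3 := dfx_one_sub_Chi_le h2.le
    have h4 := hsq _ (by linarith) h1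
    linarith
  have ha : ∀ z : E n, ‖z‖ < 1 → dfChi (v (gmtJoin z 1)) ≤ τ := by
    intro z hz
    have h1 := (ht w ε K c₀ r₀ v H _ (hball z 1 hz (by norm_num))).2 (by rw [fl_ver_join]; linarith)
    have h2 := (H.range (gmtJoin z 1)).1
    have h3 := dfx_Chi_le h2.le
    have h4 := hsq _ (by linarith) h1
    linarith
  have hB : ∫ y in (flCyl 1 : Set (E (n + 1))), dfB v y ≤ gmtOm n + Ce * ε ^ 2 := by
    refine le_trans ?_ (he w ε K c₀ r₀ v H)
    exact setIntegral_mono_on (dfx_integrableOn_cyl (dfx_continuous_B hv1) 1)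
      (dfx_integrableOn_cyl (dfx_continuous_E hv1 w) 1) (fl_isOpen_cyl 1).measurableSet
      fun y _ => dfx_B_le_E hw v y
  have key := dfx_exc_leb hchi (dfx_continuous_B hv1) hb ha hB
  simp only [dfx_fderiv_Chi_comp hv1] at key
  refine key.trans ?_
  rw [hτ]
  have h4 : 0 ≤ ε ^ 2 := sq_nonneg ε
  nlinarith

/-- `-∂_t χ(v) ≤ dfB`. -/
theorem dfx_neg_dt_le_B {v : E (n + 1) → ℝ} {y : E (n + 1)} (hr : v y ∈ Ioo (-1 : ℝ) 1) :
    -(3 / 4 * (1 - v y ^ 2) * fderiv ℝ v y (gmtEn n)) ≤ dfB v y := by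
  unfold dfB
  have hq : 0 ≤ 3 / 4 * (1 - v y ^ 2) := by nlinarith [hr.1, hr.2]
  have h1 : -(fderiv ℝ v y (gmtEn n)) ≤ ‖fderiv ℝ v y‖ := by
    have h2 := (fderiv ℝ v y).le_opNorm (gmtEn n)
    have h3 : ‖(gmtEn n : E (n + 1))‖ = 1 := by simp
    rw [h3, mul_one, Real.norm_eq_abs] at h2
    exact (neg_le_abs _).trans h2
  have := mul_le_mul_of_nonneg_left h1 hq
  linarith

/-- **contract `df_slice_low`** from `df_tail`. -/
theorem dfx_hub_slice_low (n : ℕ)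
    (htail : ∃ C : ℝ, 0 < C ∧ ∀ (w ε K c₀ r₀ : ℝ) (v : E (n + 1) → ℝ), DfUnit n w ε K c₀ r₀ v →
      ∀ y ∈ ball (0 : E (n + 1)) 3,
        (gmtVer y ≤ -(2 * ε) → 1 - v y ≤ C * w) ∧ (2 * ε ≤ gmtVer y → 1 + v y ≤ C * w)) :
    ∃ C : ℝ, 0 < C ∧ ∀ (w ε K c₀ r₀ : ℝ) (v : E (n + 1) → ℝ), DfUnit n w ε K c₀ r₀ v →
      ∀ z : E n, ‖z‖ < 1 → 1 - C * w ^ 2 ≤ ∫ t in Ioo (-1 : ℝ) 1, dfE w v (gmtJoin z t) := by
  obtain ⟨Ct, hCt, ht⟩ := htail
  refine ⟨2 * (3 / 4 * Ct ^ 2), by positivity, ?_⟩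
  intro w ε K c₀ r₀ v H z hz
  have hv1 : ContDiff ℝ 1 v := H.smooth.of_le (by simp)
  have hε := H.hε
  have hε8 := H.hε'
  have hw := H.hw
  have hchi : ContDiff ℝ 1 (fun y => dfChi (v y)) := dfx_contDiff_Chi.comp hv1
  have hball : ∀ t : ℝ, |t| ≤ 1 → gmtJoin z t ∈ ball (0 : E (n + 1)) 3 := by
    intro t htt
    refine ball_subset_ball (by norm_num) (fl_cyl_subset_ball (y := gmtJoin z t) ?_ ?_)
    · rw [fl_hor_join]; exact hz.le
    · rw [fl_ver_join]; exact htt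
  have hsq : ∀ x : ℝ, 0 ≤ x → x ≤ Ct * w → 3 / 4 * x ^ 2 ≤ 3 / 4 * Ct ^ 2 * w ^ 2 := by
    intro x hx0 hx
    have h1 : x ^ 2 ≤ (Ct * w) ^ 2 := pow_le_pow_left₀ hx0 hx 2
    rw [mul_pow] at h1
    linarith
  have hb : 1 - 3 / 4 * Ct ^ 2 * w ^ 2 ≤ dfChi (v (gmtJoin z (-1))) := by
    have h1 := (ht w ε K c₀ r₀ v H _ (hball (-1) (by norm_num))).1 (by rw [fl_ver_join]; linarith)
    have h2 := (H.range (gmtJoin z (-1))).2
    have h3 := dfx_one_sub_Chi_le h2.le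
    have h4 := hsq _ (by linarith) h1
    linarith
  have ha : dfChi (v (gmtJoin z 1)) ≤ 3 / 4 * Ct ^ 2 * w ^ 2 := by
    have h1 := (ht w ε K c₀ r₀ v H _ (hball 1 (by norm_num))).2 (by rw [fl_ver_join]; linarith)
    have h2 := (H.range (gmtJoin z 1)).1
    have h3 := dfx_Chi_le h2.le
    have h4 := hsq _ (by linarith) h1
    linarith
  have hftc := dfx_line_ftc hchi z (a := -1) (b := 1) (by norm_num)
  simp only [dfx_fderiv_Chi_comp hv1] at hftc
  have hcE : Continuous fun t : ℝ => dfE w v (gmtJoin z t) := (dfx_continuous_E hv1 w).comp (dfx_continuous_join z)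
  have hcD : Continuous fun t : ℝ => 3 / 4 * (1 - v (gmtJoin z t) ^ 2) * fderiv ℝ v (gmtJoin z t) (gmtEn n) := by
    have h1 : Continuous fun t : ℝ => v (gmtJoin z t) := hv1.continuous.comp (dfx_continuous_join z)
    have h2 := dfx_line_continuous hv1 z
    exact (continuous_const.mul (continuous_const.sub (h1.pow 2))).mul h2
  have hI : ∀ {g : ℝ → ℝ}, Continuous g → IntegrableOn g (Ioo (-1 : ℝ) 1) := fun hg =>
    (hg.continuousOn.integrableOn_compact isCompact_Icc).mono_set Ioo_subset_Icc_self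
  have hmono : ∫ t in Ioo (-1 : ℝ) 1, -(3 / 4 * (1 - v (gmtJoin z t) ^ 2) * fderiv ℝ v (gmtJoin z t) (gmtEn n))
      ≤ ∫ t in Ioo (-1 : ℝ) 1, dfE w v (gmtJoin z t) := by
    refine setIntegral_mono_on (hI hcD.neg) (hI hcE) measurableSet_Ioo fun t _ => ?_
    exact (dfx_neg_dt_le_B (H.range _)).trans (dfx_B_le_E hw v _)
  rw [integral_neg, hftc] at hmono
  linarith

end Claimed.Agent.R329
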