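import Claimed.Agent.R329.DfDefs
import Claimed.Agent.R329.DfCacc
import Claimed.Agent.R329.FlId2
import Claimed.Agent.R329.DfFlux
import Claimed.Agent.R329.DfFluxH

/-!
# Row 329, K7 (diffuse port of `Lib/Gmt/Fl*`), post P5, leaf L3 (pen helper217, prefix `dfcb_`): `df_harm` VERBATIM

`dfcb_harm` = the statement of the contract `df_harm` of `DfHub.lean`, from
* `dfc_harm` (abstract F4', helper98, `DfCacc.lean`),
* `hhyp`  := the statement of `dfca_hyp` (helper42): `DfUnit ⇒ DfcHyp n (C ε²) (C ε²) μ lam ν`,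
* `htilt` := the statement of the contract `df_tilt`.
Proved here: (i) `μ ≤ μ₁ ≤ μ + lam`; (ii) `∫_{C_1} (1 - ν_t) dμ ≤ C ε²`; (iii) F2 in the words of `dgFI_mu1`, `dgFI_nu`
(`dfcb_F2`, from `dfxh_H_grad_v` of helper279, `DfFluxH.lean` v2); (iv) `lam(C_1) ≤ K 2^{n-1} ε²`; (v) `FlAH` is monotone.
-/

set_option autoImplicit false
open scoped ContDiff ENNReal RealInnerProductSpace
open MeasureTheory Metric Set Filter

namespace Claimed.Agent.R329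

open Claimed.Agent.Gmt

variable {n : ℕ}

/-- the two names of the surface tension. -/
theorem dfcb_s0 : dgFI_s0 = dfS0 := rfl

/-- `√(2W(t))/s₀ = (3/4)(1-t²)`. -/
theorem dfcb_w_div (t : ℝ) : dgFI_w t / dgFI_s0 = 3 / 4 * (1 - t ^ 2) := by
  unfold dgFI_w dgFI_s0
  have h := dgFI_sqrt2_sq
  have hp := dgFI_sqrt2_pos
  rw [div_div]
  have e : Real.sqrt 2 * (2 * Real.sqrt 2 / 3) = 4 / 3 := by nlinarith
  rw [e]
  ring

/-- Modica's bound in the words of `FlId2`. -/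
theorem dfcb_modica {w ε K c₀ r₀ : ℝ} {v : E (n + 1) → ℝ} (H : DfUnit n w ε K c₀ r₀ v) (x : E (n + 1)) :
    w ^ 2 * ‖fderiv ℝ v x‖ ^ 2 ≤ 2 * dgW (v x) := by
  have h := H.modica x
  unfold dfXi at h
  have hs : 0 < dfS0 := dfx_S0_pos
  have h1 : 0 ≤ dgW (v x) / w - w * ‖fderiv ℝ v x‖ ^ 2 / 2 := by
    by_contra hc
    exact absurd h (not_le.2 (div_neg_of_neg_of_pos (not_le.1 hc) hs))
  have hw := H.hw
  have h2 : w * (dgW (v x) / w) = dgW (v x) := by field_simp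
  nlinarith [mul_nonneg hw.le h1]

theorem dfcb_range {w ε K c₀ r₀ : ℝ} {v : E (n + 1) → ℝ} (H : DfUnit n w ε K c₀ r₀ v) (x : E (n + 1)) :
    v x ∈ Icc (-1 : ℝ) 1 := ⟨(H.range x).1.le, (H.range x).2.le⟩

/-- set integrals against `μ₁`. -/
theorem dfcb_setIntegral_mu1 {v : E (n + 1) → ℝ} (hv : ContDiff ℝ 1 v) (hr : ∀ x, v x ∈ Icc (-1 : ℝ) 1)
    {A : Set (E (n + 1))} (hA : MeasurableSet A) (f : E (n + 1) → ℝ) :
    ∫ y in A, f y ∂(dgFI_mu1 v) = ∫ y in A, 3 / 4 * (1 - v y ^ 2) * ‖fderiv ℝ v y‖ * f y := by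
  rw [← integral_indicator hA, dgFJ_integral_mu1 hv hr, ← integral_indicator hA]
  refine integral_congr_ae (Eventually.of_forall fun y => ?_)
  by_cases hy : y ∈ A
  · simp only [indicator_of_mem hy]
    rw [← dfcb_w_div]
    ring
  · simp [hy]

/-- **(iii) F2** in the words of `dgFI_mu1`, `dgFI_nu`. -/
theorem dfcb_F2 {v : E (n + 1) → ℝ} (hv : ContDiff ℝ 1 v) (hr : ∀ x, v x ∈ Icc (-1 : ℝ) 1)
    {Ψ : E n → E n} (hΨ : GmtTest (ball 0 (3 / 4)) Ψ) :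
    ∫ z, dfH v z * gmtDiv Ψ z = ∫ y in flCyl 1, ⟪Ψ (gmtHor y), gmtHor (dgFI_nu v y)⟫ ∂(dgFI_mu1 v) := by
  have hΨ1 : GmtTest (ball 0 1) Ψ := ⟨hΨ.c1, hΨ.cpt, hΨ.sub.trans (ball_subset_ball (by norm_num))⟩
  rw [dfxh_H_grad_v hv hΨ1, dfcb_setIntegral_mu1 hv hr (fl_isOpen_cyl 1).measurableSet, ← integral_neg]
  refine integral_congr_ae (Eventually.of_forall fun y => ?_)
  simp only
  have e1 : ⟪Ψ (gmtHor y), gmtHor (dgFI_nu v y)⟫ = ⟪flInc n (Ψ (gmtHor y)), dgFI_nu v y⟫ := by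
    rw [fl_inner, fl_inc_apply, fl_hor_join, fl_ver_join]
    ring
  have e2 := dfx_norm_mul_inner v y (flInc n (Ψ (gmtHor y)))
  rw [e1]
  calc -(3 / 4 * (1 - v y ^ 2) * fderiv ℝ v y (flInc n (Ψ (gmtHor y))))
      = 3 / 4 * (1 - v y ^ 2) * (‖fderiv ℝ v y‖ * ⟪flInc n (Ψ (gmtHor y)), dgFI_nu v y⟫) := by rw [e2]; ring
    _ = _ := by ring

/-- **(ii)** the oriented excess of `μ`. -/
theorem dfcb_tilt {w ε K c₀ r₀ : ℝ} {v : E (n + 1) → ℝ} (H : DfUnit n w ε K c₀ r₀ v) :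
    ∫ y in flCyl 1, (1 - gmtVer (dgFI_nu v y)) ∂(dgFJ_mu w v) ≤
      ∫ y in flCyl 1, (dfB v y + 3 / 4 * (1 - v y ^ 2) * fderiv ℝ v y (gmtEn n)) := by
  have hv : ContDiff ℝ 1 v := H.smooth.of_le (by simp)
  have hr := dfcb_range H
  have hmod := dfcb_modica H
  have hm : MeasurableSet (flCyl 1 : Set (E (n + 1))) := (fl_isOpen_cyl 1).measurableSet
  have hfin : dgFI_mu1 v (flCyl 1) < ⊤ :=
    lt_of_le_of_lt (measure_mono (dfx_cyl_subset 1))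
      (lt_top_iff_ne_top.2 (dgFI_mu1_compact hv (isCompact_closedBall 0 _)))
  have : IsFiniteMeasure ((dgFI_mu1 v).restrict (flCyl 1)) := ⟨by rwa [Measure.restrict_apply_univ]⟩
  have hmeas : Measurable fun y => 1 - gmtVer (dgFI_nu v y) :=
    measurable_const.sub (dfx_measurable_ver_nu hv)
  have hint : Integrable (fun y => 1 - gmtVer (dgFI_nu v y)) ((dgFI_mu1 v).restrict (flCyl 1)) := by
    refine dfc_ibd hmeas 2 (Eventually.of_forall fun y => ?_)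
    have := abs_le.1 (dfx_abs_ver_nu v y)
    rw [abs_le]
    constructor <;> linarith [this.1, this.2]
  have h1 : ∫ y in flCyl 1, (1 - gmtVer (dgFI_nu v y)) ∂(dgFJ_mu w v) ≤
      ∫ y in flCyl 1, (1 - gmtVer (dgFI_nu v y)) ∂(dgFI_mu1 v) := by
    refine integral_mono_measure (Measure.restrict_mono le_rfl (dgFJ_mu_le_mu1 hr hmod))
      (Eventually.of_forall fun y => ?_) hint
    have := abs_le.1 (dfx_abs_ver_nu v y)
    simp only [Pi.zero_apply]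
    linarith [this.2]
  refine h1.trans (le_of_eq ?_)
  rw [dfcb_setIntegral_mu1 hv hr hm]
  refine integral_congr_ae (Eventually.of_forall fun y => ?_)
  simp only
  have e1 : ‖fderiv ℝ v y‖ * gmtVer (dgFI_nu v y) = -fderiv ℝ v y (gmtEn n) := by
    rw [fl_ver_eq_inner, real_inner_comm, dfx_norm_mul_inner]
  unfold dfB
  calc 3 / 4 * (1 - v y ^ 2) * ‖fderiv ℝ v y‖ * (1 - gmtVer (dgFI_nu v y))
      = 3 / 4 * (1 - v y ^ 2) * ‖fderiv ℝ v y‖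
        - 3 / 4 * (1 - v y ^ 2) * (‖fderiv ℝ v y‖ * gmtVer (dgFI_nu v y)) := by ring
    _ = _ := by rw [e1]; ring

/-- `ξ_w/s₀` in the two vocabularies. -/
theorem dfcb_xi (w : ℝ) (v : E (n + 1) → ℝ) (x : E (n + 1)) : dgFJ_xi w v x / dgFI_s0 = dfXi w v x := by
  unfold dgFJ_xi dfXi
  rw [dfcb_s0]
  ring

/-- **(iv)** the discrepancy mass of the unit cylinder. -/
theorem dfcb_lam {w ε K c₀ r₀ : ℝ} {v : E (n + 1) → ℝ} (H : DfUnit n w ε K c₀ r₀ v) :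
    (dgFJ_lam w v (flCyl 1)).toReal ≤ K * 2 ^ (n - 1) * ε ^ 2 := by
  have hv : ContDiff ℝ 1 v := H.smooth.of_le (by simp)
  have hmod := dfcb_modica H
  have hsub : (flCyl 1 : Set (E (n + 1))) ⊆ ball 0 2 := fun y hy => fl_cyl_subset_ball hy.1.le hy.2.le
  have hb := dgFJ_lam_apply H.hw hv hmod (measurableSet_ball (x := (0 : E (n + 1))) (ε := 2)) isBounded_ball
  have e : (∫ x in ball (0 : E (n + 1)) 2, dgFJ_xi w v x) / dgFI_s0 = ∫ x in ball (0 : E (n + 1)) 2, dfXi w v x := by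
    rw [← integral_div]
    simp only [dfcb_xi]
  rw [e] at hb
  have h0 : 0 ≤ ∫ x in ball (0 : E (n + 1)) 2, dfXi w v x := integral_nonneg fun x => H.modica x
  have h1 : (dgFJ_lam w v (flCyl 1)).toReal ≤ (dgFJ_lam w v (ball 0 2)).toReal :=
    ENNReal.toReal_mono (by rw [hb]; exact ENNReal.ofReal_ne_top) (measure_mono hsub)
  rw [hb, ENNReal.toReal_ofReal h0] at h1
  have h2 := H.disc 0 2 (by norm_num)
  have h3 : K * w * 2 ^ (n - 1) ≤ K * 2 ^ (n - 1) * ε ^ 2 := by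
    have : K * w ≤ K * ε ^ 2 := mul_le_mul_of_nonneg_left H.hwε H.hK
    calc K * w * 2 ^ (n - 1) ≤ K * ε ^ 2 * 2 ^ (n - 1) := mul_le_mul_of_nonneg_right this (by positivity)
      _ = _ := by ring
  linarith

/-- **(v)** `FlAH` is monotone in the error. -/
theorem dfcb_AH_mono {h : E n → ℝ} {om om' : ℝ} (H : FlAH h om) (hle : om ≤ om') : FlAH h om' := by
  intro ψ hψ hs M hM hM'
  have hM0 : 0 ≤ M := (abs_nonneg _).trans (hM 0)
  exact (H ψ hψ hs M hM hM').trans (mul_le_mul_of_nonneg_right hle hM0)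

/-- **contract `df_harm`**, verbatim, from `dfca_hyp` (helper42) and the contract `df_tilt`. -/
theorem dfcb_harm (n : ℕ)
    (hhyp : ∃ C : ℝ, 0 < C ∧ ∀ (w ε K c₀ r₀ : ℝ) (v : E (n + 1) → ℝ), DfUnit n w ε K c₀ r₀ v →
      DfcHyp n (C * ε ^ 2) (C * ε ^ 2) (dgFJ_mu w v) (dgFJ_lam w v) (dgFI_nu v))
    (htilt : ∃ C : ℝ, 0 < C ∧ ∀ (w ε K c₀ r₀ : ℝ) (v : E (n + 1) → ℝ), DfUnit n w ε K c₀ r₀ v →
      ∫ y in flCyl 1, (dfB v y + 3 / 4 * (1 - v y ^ 2) * fderiv ℝ v y (gmtEn n)) ≤ C * ε ^ 2)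
    (K : ℝ) : ∃ C : ℝ, 0 < C ∧ ∀ (w ε c₀ r₀ : ℝ) (v : E (n + 1) → ℝ), DfUnit n w ε K c₀ r₀ v →
      FlAH (dfH v) (C * ε ^ 2) := by
  obtain ⟨C1, hC1, h1⟩ := dfc_harm n
  obtain ⟨C2, hC2, h2⟩ := hhyp
  obtain ⟨C3, hC3, h3⟩ := htilt
  refine ⟨C1 * (Real.sqrt (C3 * (C2 + C2)) + C2 + |K| * 2 ^ (n - 1)), by positivity, ?_⟩
  intro w ε c₀ r₀ v H
  have hv : ContDiff ℝ 1 v := H.smooth.of_le (by simp)
  have hr := dfcb_range H
  have hmod := dfcb_modica H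
  have hε := H.hε
  have key := h1 (C2 * ε ^ 2) (C2 * ε ^ 2) (C3 * ε ^ 2) (dgFJ_mu w v) (dgFI_mu1 v) (dgFJ_lam w v) (dgFI_nu v)
    (dfH v) (h2 w ε K c₀ r₀ v H) (dgFJ_mu_le_mu1 hr hmod) (dgFJ_mu1_le_add H.hw hv hmod) (by positivity)
    ((dfcb_tilt H).trans (h3 w ε K c₀ r₀ v H)) (fun Ψ hΨ => dfcb_F2 hv hr hΨ)
  refine dfcb_AH_mono key ?_
  have e1 : Real.sqrt (C3 * ε ^ 2 * (C2 * ε ^ 2 + C2 * ε ^ 2)) = Real.sqrt (C3 * (C2 + C2)) * ε ^ 2 := by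
    have : C3 * ε ^ 2 * (C2 * ε ^ 2 + C2 * ε ^ 2) = C3 * (C2 + C2) * (ε ^ 2) ^ 2 := by ring
    rw [this, Real.sqrt_mul (by positivity), Real.sqrt_sq (by positivity)]
  rw [e1]
  have h4 := dfcb_lam H
  have h5 : K * 2 ^ (n - 1) * ε ^ 2 ≤ |K| * 2 ^ (n - 1) * ε ^ 2 := by
    have := le_abs_self K
    gcongr
  calc C1 * (Real.sqrt (C3 * (C2 + C2)) * ε ^ 2 + C2 * ε ^ 2 + (dgFJ_lam w v (flCyl 1)).toReal)
      ≤ C1 * (Real.sqrt (C3 * (C2 + C2)) * ε ^ 2 + C2 * ε ^ 2 + |K| * 2 ^ (n - 1) * ε ^ 2) := by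
        apply mul_le_mul_of_nonneg_left _ hC1.le
        linarith
    _ = _ := by ring

end Claimed.Agent.R329
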