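import Claimed.Agent.R329.Defs

/-!
# Row 329, post A17 (helper47, prefix `dgro_`).  Rigid motions of `DgE n`.

For a linear isometry `L : DgE n ≃ₗᵢ[ℝ] DgE n` and a vector `c`, the rigid motion is `x ↦ L x + c`.
All notions of `Defs.lean` are invariant under `u ↦ fun x => u (L x + c)` and under `u ↦ -u`;
every unit vector is the image of a coordinate vector under some `L` (reduction to `a = e_i`).
The exits are listed at the end of the file.
-/

set_option autoImplicit false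
open MeasureTheory Metric Set Filter Topology

namespace Claimed.Agent.R329

variable {n : ℕ}

/-! ## The motion, its inverse, measure preservation -/

/-- the rigid motion as a homeomorphism -/
noncomputable def dgro_H (L : DgE n ≃ₗᵢ[ℝ] DgE n) (c : DgE n) : DgE n ≃ₜ DgE n :=
  L.toHomeomorph.trans (Homeomorph.addRight c)

@[simp] theorem dgro_H_apply (L : DgE n ≃ₗᵢ[ℝ] DgE n) (c x : DgE n) : dgro_H L c x = L x + c := rfl

theorem dgro_inv_left (L : DgE n ≃ₗᵢ[ℝ] DgE n) (c x : DgE n) :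
    L.symm (L x + c) + -(L.symm c) = x := by
  rw [map_add, L.symm_apply_apply]; abel

theorem dgro_inv_right (L : DgE n ≃ₗᵢ[ℝ] DgE n) (c y : DgE n) :
    L (L.symm y + -(L.symm c)) + c = y := by
  rw [map_add, map_neg, L.apply_symm_apply, L.apply_symm_apply]; abel

theorem dgro_measurePreserving (L : DgE n ≃ₗᵢ[ℝ] DgE n) (c : DgE n) :
    MeasurePreserving (fun x => L x + c) (volume : Measure (DgE n)) volume :=
  (measurePreserving_add_right (volume : Measure (DgE n)) c).comp L.measurePreserving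

theorem dgro_measurableEmbedding (L : DgE n ≃ₗᵢ[ℝ] DgE n) (c : DgE n) :
    MeasurableEmbedding (fun x : DgE n => L x + c) :=
  (dgro_H L c).measurableEmbedding

theorem dgro_integral_comp (L : DgE n ≃ₗᵢ[ℝ] DgE n) (c : DgE n) (F : DgE n → ℝ) :
    ∫ x, F (L x + c) = ∫ y, F y :=
  (dgro_measurePreserving L c).integral_comp (dgro_measurableEmbedding L c) F

theorem dgro_dist (L : DgE n ≃ₗᵢ[ℝ] DgE n) (c x y : DgE n) :
    dist (L x + c) (L y + c) = dist x y := by
  rw [dist_add_right, L.dist_map]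

theorem dgro_preimage_ball (L : DgE n ≃ₗᵢ[ℝ] DgE n) (c x₀ : DgE n) (R : ℝ) :
    (fun x => L x + c) ⁻¹' ball (L x₀ + c) R = ball x₀ R := by
  ext x; simp only [mem_preimage, mem_ball, dgro_dist]

theorem dgro_setIntegral_ball (L : DgE n ≃ₗᵢ[ℝ] DgE n) (c x₀ : DgE n) (R : ℝ) (F : DgE n → ℝ) :
    ∫ x in ball x₀ R, F (L x + c) = ∫ y in ball (L x₀ + c) R, F y := by
  rw [← dgro_preimage_ball L c x₀ R]
  exact (dgro_measurePreserving L c).setIntegral_preimage_emb (dgro_measurableEmbedding L c) F _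

/-! ## Derivatives -/

theorem dgro_fderiv (L : DgE n ≃ₗᵢ[ℝ] DgE n) (c : DgE n) (u : DgE n → ℝ) (x : DgE n) :
    fderiv ℝ (fun y => u (L y + c)) x =
      (fderiv ℝ u (L x + c)).comp (L.toContinuousLinearEquiv : DgE n →L[ℝ] DgE n) := by
  have h : (fun y => u (L y + c)) = (fun z => u (z + c)) ∘ L.toContinuousLinearEquiv := rfl
  rw [h, ContinuousLinearEquiv.comp_right_fderiv, fderiv_comp_add_right]
  rfl

theorem dgro_norm_fderiv (L : DgE n ≃ₗᵢ[ℝ] DgE n) (c : DgE n) (u : DgE n → ℝ) (x : DgE n) :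
    ‖fderiv ℝ (fun y => u (L y + c)) x‖ = ‖fderiv ℝ u (L x + c)‖ := by
  rw [dgro_fderiv]
  exact ContinuousLinearMap.opNorm_comp_linearIsometryEquiv _ L

theorem dgro_fderiv_apply (L : DgE n ≃ₗᵢ[ℝ] DgE n) (c : DgE n) (u : DgE n → ℝ) (x w : DgE n) :
    fderiv ℝ (fun y => u (L y + c)) x w = fderiv ℝ u (L x + c) (L w) := by
  rw [dgro_fderiv]; rfl

theorem dgro_iteratedFDeriv_two (L : DgE n ≃ₗᵢ[ℝ] DgE n) (c : DgE n) (u : DgE n → ℝ)
    (x w₁ w₂ : DgE n) :
    iteratedFDeriv ℝ 2 (fun y => u (L y + c)) x ![w₁, w₂] =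
      iteratedFDeriv ℝ 2 u (L x + c) ![L w₁, L w₂] := by
  have h : (fun y => u (L y + c)) = (fun z => u (z + c)) ∘ L.toContinuousLinearEquiv := rfl
  have h1 : iteratedFDeriv ℝ 2 ((fun z => u (z + c)) ∘ L.toContinuousLinearEquiv) x =
      (iteratedFDeriv ℝ 2 (fun z => u (z + c)) (L.toContinuousLinearEquiv x)).compContinuousLinearMap
        fun _ => (L.toContinuousLinearEquiv : DgE n →L[ℝ] DgE n) := by
    simp only [← iteratedFDerivWithin_univ]
    exact L.toContinuousLinearEquiv.iteratedFDerivWithin_comp_right _ uniqueDiffOn_univ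
      (mem_univ _) 2
  rw [h, h1, iteratedFDeriv_comp_add_right, ContinuousMultilinearMap.compContinuousLinearMap_apply]
  congr 1
  funext i
  fin_cases i <;> rfl

theorem dgro_laplacian (L : DgE n ≃ₗᵢ[ℝ] DgE n) (c : DgE n) (u : DgE n → ℝ) (x : DgE n) :
    Laplacian.laplacian (fun y => u (L y + c)) x = Laplacian.laplacian u (L x + c) := by
  rw [InnerProductSpace.laplacian_eq_iteratedFDeriv_orthonormalBasis _ (EuclideanSpace.basisFun (Fin n) ℝ),
    InnerProductSpace.laplacian_eq_iteratedFDeriv_orthonormalBasis u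
      ((EuclideanSpace.basisFun (Fin n) ℝ).map L)]
  refine Finset.sum_congr rfl fun i _ => ?_
  rw [dgro_iteratedFDeriv_two]
  rfl

theorem dgro_contDiff (L : DgE n ≃ₗᵢ[ℝ] DgE n) (c : DgE n) {u : DgE n → ℝ} {k : WithTop ℕ∞}
    (hu : ContDiff ℝ k u) : ContDiff ℝ k (fun y => u (L y + c)) :=
  hu.comp ((L.toContinuousLinearEquiv.contDiff).add contDiff_const)

/-! ## Solutions, second variation, stability -/

theorem dgro_sol (L : DgE n ≃ₗᵢ[ℝ] DgE n) (c : DgE n) {u : DgE n → ℝ} (hu : DgSol n u) :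
    DgSol n (fun x => u (L x + c)) where
  smooth := dgro_contDiff L c hu.smooth
  range := fun x => hu.range _
  pde := fun x => by rw [dgro_laplacian]; exact hu.pde _

theorem dgro_Q (L : DgE n ≃ₗᵢ[ℝ] DgE n) (c : DgE n) (v φ : DgE n → ℝ) :
    dgQ n (fun x => v (L x + c)) (fun x => φ (L x + c)) = dgQ n v φ := by
  unfold dgQ
  rw [← dgro_integral_comp L c (fun y => ‖fderiv ℝ φ y‖ ^ 2 + (3 * v y ^ 2 - 1) * φ y ^ 2)]
  refine integral_congr_ae (Eventually.of_forall fun x => ?_)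
  simp only [dgro_norm_fderiv]

theorem dgro_hasCompactSupport (L : DgE n ≃ₗᵢ[ℝ] DgE n) (c : DgE n) {φ : DgE n → ℝ}
    (hφ : HasCompactSupport φ) : HasCompactSupport (fun x => φ (L x + c)) :=
  hφ.comp_homeomorph (dgro_H L c)

theorem dgro_tsupport (L : DgE n ≃ₗᵢ[ℝ] DgE n) (c : DgE n) (φ : DgE n → ℝ) :
    tsupport (fun x => φ (L x + c)) = (fun x => L x + c) ⁻¹' tsupport φ :=
  tsupport_comp_eq_preimage φ (dgro_H L c)

theorem dgro_stable (L : DgE n ≃ₗᵢ[ℝ] DgE n) (c : DgE n) {v : DgE n → ℝ} (hv : DgStable n v) :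
    DgStable n (fun x => v (L x + c)) := by
  intro φ hφ hφc
  have h := hv (fun y => φ (L.symm y + -(L.symm c))) (dgro_contDiff L.symm _ hφ)
    (dgro_hasCompactSupport L.symm _ hφc)
  have h2 := dgro_Q L c v (fun y => φ (L.symm y + -(L.symm c)))
  simp only [dgro_inv_left] at h2
  unfold dgQ at h2
  rw [h2]
  exact h

theorem dgro_stable_iff (L : DgE n ≃ₗᵢ[ℝ] DgE n) (c : DgE n) (v : DgE n → ℝ) :
    DgStable n (fun x => v (L x + c)) ↔ DgStable n v := by
  refine ⟨fun h => ?_, dgro_stable L c⟩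
  have := dgro_stable L.symm (-(L.symm c)) h
  simpa only [dgro_inv_right] using this

theorem dgro_sol_iff (L : DgE n ≃ₗᵢ[ℝ] DgE n) (c : DgE n) (u : DgE n → ℝ) :
    DgSol n (fun x => u (L x + c)) ↔ DgSol n u := by
  refine ⟨fun h => ?_, dgro_sol L c⟩
  have := dgro_sol L.symm (-(L.symm c)) h
  simpa only [dgro_inv_right] using this

/-! ## Energy -/

theorem dgro_dens (L : DgE n ≃ₗᵢ[ℝ] DgE n) (c : DgE n) (u : DgE n → ℝ) (x : DgE n) :
    dgDens n (fun y => u (L y + c)) x = dgDens n u (L x + c) := by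
  unfold dgDens; rw [dgro_norm_fderiv]

theorem dgro_en (L : DgE n ≃ₗᵢ[ℝ] DgE n) (c : DgE n) (u : DgE n → ℝ) (x₀ : DgE n) (R : ℝ) :
    dgEn n (fun y => u (L y + c)) x₀ R = dgEn n u (L x₀ + c) R := by
  unfold dgEn
  rw [← dgro_setIntegral_ball L c x₀ R]
  simp only [dgro_dens]

theorem dgro_W_nonneg (s : ℝ) : 0 ≤ dgW s := by unfold dgW; positivity

theorem dgro_dens_nonneg (u : DgE n → ℝ) (x : DgE n) : 0 ≤ dgDens n u x := by
  unfold dgDens
  have := dgro_W_nonneg (u x)
  positivity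

theorem dgro_continuous_dens {u : DgE n → ℝ} (hu : ContDiff ℝ 1 u) : Continuous (dgDens n u) := by
  unfold dgDens dgW
  have h1 : Continuous (fderiv ℝ u) := hu.continuous_fderiv one_ne_zero
  have h2 : Continuous u := hu.continuous
  fun_prop

theorem dgro_integrableOn_dens {u : DgE n → ℝ} (hu : ContDiff ℝ 1 u) (x₀ : DgE n) (R : ℝ) :
    IntegrableOn (dgDens n u) (ball x₀ R) :=
  ((dgro_continuous_dens hu).continuousOn.integrableOn_compact
    (isCompact_closedBall x₀ R)).mono_set ball_subset_closedBall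

theorem dgro_en_nonneg (u : DgE n → ℝ) (x₀ : DgE n) (R : ℝ) : 0 ≤ dgEn n u x₀ R :=
  setIntegral_nonneg measurableSet_ball fun x _ => dgro_dens_nonneg u x

theorem dgro_en_mono {u : DgE n → ℝ} (hu : ContDiff ℝ 1 u) {x₀ x₁ : DgE n} {R R' : ℝ}
    (h : ball x₀ R ⊆ ball x₁ R') : dgEn n u x₀ R ≤ dgEn n u x₁ R' :=
  setIntegral_mono_set (dgro_integrableOn_dens hu x₁ R')
    (Eventually.of_forall fun x => dgro_dens_nonneg u x) (LE.le.eventuallyLE h)

/-- outside the closed support of the perturbation the energy densities agree -/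
theorem dgro_dens_add_of_notMem (u φ : DgE n → ℝ) {x : DgE n} (hx : x ∉ tsupport φ) :
    dgDens n (fun y => u y + φ y) x = dgDens n u x := by
  have hev : φ =ᶠ[𝓝 x] 0 := notMem_tsupport_iff_eventuallyEq.1 hx
  have h1 : (fun y => u y + φ y) =ᶠ[𝓝 x] u := by
    filter_upwards [hev] with y hy
    simp [hy]
  have h2 : u x + φ x = u x := h1.eq_of_nhds
  unfold dgDens
  rw [h1.fderiv_eq]
  simp only [h2]

/-! ## Minimisers: independence of the centre, invariance -/

/-- A global minimiser (balls centred at `0`) minimises in every ball. -/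
theorem dgro_min_ball {u : DgE n → ℝ} (hu : ContDiff ℝ 1 u) (hmin : DgMin n u) (x₀ : DgE n) (R : ℝ)
    (φ : DgE n → ℝ) (hφ : ContDiff ℝ 1 φ) (hφc : HasCompactSupport φ)
    (hsupp : tsupport φ ⊆ ball x₀ R) :
    dgEn n u x₀ R ≤ dgEn n (fun x => u x + φ x) x₀ R := by
  set R' : ℝ := R + dist x₀ 0 with hR'
  have hsub : ball x₀ R ⊆ ball (0 : DgE n) R' := ball_subset_ball' (by rw [hR'])
  have h0 := hmin R' φ hφ hφc (hsupp.trans hsub)
  have huφ : ContDiff ℝ 1 (fun x => u x + φ x) := hu.add hφ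
  have hd1 := setIntegral_sdiff (μ := (volume : Measure (DgE n))) measurableSet_ball
    (dgro_integrableOn_dens hu 0 R') hsub
  have hd2 := setIntegral_sdiff (μ := (volume : Measure (DgE n))) measurableSet_ball
    (dgro_integrableOn_dens huφ 0 R') hsub
  have hcongr : ∫ x in ball (0 : DgE n) R' \ ball x₀ R, dgDens n (fun x => u x + φ x) x =
      ∫ x in ball (0 : DgE n) R' \ ball x₀ R, dgDens n u x := by
    refine setIntegral_congr_fun (measurableSet_ball.diff measurableSet_ball) fun x hx => ?_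
    exact dgro_dens_add_of_notMem u φ fun hmem => hx.2 (hsupp hmem)
  unfold dgEn at h0 ⊢
  rw [hcongr] at hd2
  linarith

theorem dgro_min (L : DgE n ≃ₗᵢ[ℝ] DgE n) (c : DgE n) {u : DgE n → ℝ} (hu : ContDiff ℝ 1 u)
    (hmin : DgMin n u) : DgMin n (fun x => u (L x + c)) := by
  intro R φ hφ hφc hsupp
  set ψ : DgE n → ℝ := fun y => φ (L.symm y + -(L.symm c)) with hψ
  have hψ1 : ContDiff ℝ 1 ψ := dgro_contDiff L.symm _ hφ
  have hψc : HasCompactSupport ψ := dgro_hasCompactSupport L.symm _ hφc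
  have hψs : tsupport ψ ⊆ ball (L 0 + c) R := by
    rw [hψ, dgro_tsupport]
    intro y hy
    have h1 := hsupp hy
    rw [mem_ball] at h1 ⊢
    rw [← dgro_dist L c, dgro_inv_right] at h1
    exact h1
  have h := dgro_min_ball hu hmin (L 0 + c) R ψ hψ1 hψc hψs
  rw [← dgro_en L c u 0 R, ← dgro_en L c (fun x => u x + ψ x) 0 R] at h
  simpa only [hψ, dgro_inv_left] using h

theorem dgro_finDens (L : DgE n ≃ₗᵢ[ℝ] DgE n) (c : DgE n) {u : DgE n → ℝ} (hu : ContDiff ℝ 1 u)
    (h : DgFinDens n u) : DgFinDens n (fun x => u (L x + c)) := by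
  obtain ⟨C, hC⟩ := h
  set K : ℝ := 1 + dist (L 0 + c) 0 with hK
  have hK1 : 1 ≤ K := by rw [hK]; linarith [dist_nonneg (x := L 0 + c) (y := (0 : DgE n))]
  refine ⟨C * K ^ (n - 1), fun R hR => ?_⟩
  rw [dgro_en]
  have hsub : ball (L 0 + c) R ⊆ ball (0 : DgE n) (K * R) := by
    refine ball_subset_ball' ?_
    rw [hK]
    nlinarith [dist_nonneg (x := L 0 + c) (y := (0 : DgE n))]
  have h1 := dgro_en_mono hu hsub
  have h2 := hC (K * R) (by nlinarith)
  calc dgEn n u (L 0 + c) R ≤ dgEn n u 0 (K * R) := h1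
    _ ≤ C * (K * R) ^ (n - 1) := h2
    _ = C * K ^ (n - 1) * R ^ (n - 1) := by rw [mul_pow]; ring

/-! ## Planar, rigid, one-dimensional -/

theorem dgro_inner (L : DgE n ≃ₗᵢ[ℝ] DgE n) (a x : DgE n) :
    inner ℝ a (L x) = inner ℝ (L.symm a) x := by
  conv_lhs => rw [← L.apply_symm_apply a]
  exact L.inner_map_map _ _

theorem dgro_planar (L : DgE n ≃ₗᵢ[ℝ] DgE n) (c : DgE n) {v : DgE n → ℝ} (h : DgPlanar n v) :
    DgPlanar n (fun x => v (L x + c)) := by
  obtain ⟨a, ha, b, hv⟩ := h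
  refine ⟨L.symm a, by rw [L.symm.norm_map, ha], b - inner ℝ a c, fun x => ?_⟩
  show v (L x + c) = _
  rw [hv, inner_add_right, dgro_inner]
  congr 2
  ring

theorem dgro_planar_iff (L : DgE n ≃ₗᵢ[ℝ] DgE n) (c : DgE n) (v : DgE n → ℝ) :
    DgPlanar n (fun x => v (L x + c)) ↔ DgPlanar n v := by
  refine ⟨fun h => ?_, dgro_planar L c⟩
  have := dgro_planar L.symm (-(L.symm c)) h
  simpa only [dgro_inv_right] using this

theorem dgro_rigid_iff (L : DgE n ≃ₗᵢ[ℝ] DgE n) (c : DgE n) (v : DgE n → ℝ) :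
    DgRigid n (fun x => v (L x + c)) ↔ DgRigid n v := by
  unfold DgRigid
  rw [dgro_planar_iff]
  have key : ∀ s : ℝ, (∀ x, v (L x + c) = s) ↔ ∀ x, v x = s := fun s =>
    ⟨fun h y => by rw [← dgro_inv_right L c y]; exact h _, fun h x => h _⟩
  rw [key, key]

theorem dgro_oneD (L : DgE n ≃ₗᵢ[ℝ] DgE n) (c : DgE n) {v : DgE n → ℝ} (h : DgOneD n v) :
    DgOneD n (fun x => v (L x + c)) := by
  obtain ⟨a, g, ha, hv⟩ := h
  refine ⟨L.symm a, fun s => g (s + inner ℝ a c), by rw [L.symm.norm_map, ha], fun x => ?_⟩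
  show v (L x + c) = g (inner ℝ (L.symm a) x + inner ℝ a c)
  rw [hv, inner_add_right, dgro_inner]

theorem dgro_oneD_iff (L : DgE n ≃ₗᵢ[ℝ] DgE n) (c : DgE n) (v : DgE n → ℝ) :
    DgOneD n (fun x => v (L x + c)) ↔ DgOneD n v := by
  refine ⟨fun h => ?_, dgro_oneD L c⟩
  have := dgro_oneD L.symm (-(L.symm c)) h
  simpa only [dgro_inv_right] using this

/-! ## Every unit vector is a rotated coordinate vector -/

theorem dgro_exists_rot (a : DgE n) (ha : ‖a‖ = 1) (i : Fin n) :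
    ∃ L : DgE n ≃ₗᵢ[ℝ] DgE n, L (EuclideanSpace.single i 1) = a := by
  have hcard : Module.finrank ℝ (DgE n) = Fintype.card (Fin n) := by simp
  have horth : Orthonormal ℝ (({i} : Set (Fin n)).domRestrict fun _ : Fin n => a) := by
    constructor
    · intro j; exact ha
    · intro j k hjk
      exact absurd (Subtype.ext (j.2.trans k.2.symm)) hjk
  obtain ⟨b, hb⟩ := horth.exists_orthonormalBasis_extension_of_card_eq hcard
  refine ⟨b.repr.symm, ?_⟩
  rw [OrthonormalBasis.repr_symm_single]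
  exact hb i (mem_singleton i)

theorem dgro_inner_single (x : DgE n) (i : Fin n) :
    inner ℝ (EuclideanSpace.single i (1 : ℝ)) x = x i := by
  simp [EuclideanSpace.inner_single_left]

/-- reduction of a planar layer to the coordinate direction `e_i` -/
theorem dgro_planar_iff_coord (i : Fin n) (v : DgE n → ℝ) :
    DgPlanar n v ↔ ∃ (L : DgE n ≃ₗᵢ[ℝ] DgE n) (b : ℝ), ∀ x, v (L x) = dgG (x i - b) := by
  constructor
  · rintro ⟨a, ha, b, hv⟩
    obtain ⟨L, hL⟩ := dgro_exists_rot a ha i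
    refine ⟨L, b, fun x => ?_⟩
    rw [hv, dgro_inner, ← hL, L.symm_apply_apply, dgro_inner_single]
    rfl
  · rintro ⟨L, b, hv⟩
    have h1 : DgPlanar n (fun x => v (L x + 0)) := by
      refine ⟨EuclideanSpace.single i 1, by simp, b, fun x => ?_⟩
      show v (L x + 0) = _
      rw [add_zero, hv, dgro_inner_single]
      rfl
    exact (dgro_planar_iff L 0 v).1 h1

/-- reduction of a one-dimensional function to the coordinate direction `e_i` -/
theorem dgro_oneD_iff_coord (i : Fin n) (v : DgE n → ℝ) :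
    DgOneD n v ↔ ∃ (L : DgE n ≃ₗᵢ[ℝ] DgE n) (h : ℝ → ℝ), ∀ x, v (L x) = h (x i) := by
  constructor
  · rintro ⟨a, h, ha, hv⟩
    obtain ⟨L, hL⟩ := dgro_exists_rot a ha i
    refine ⟨L, h, fun x => ?_⟩
    rw [hv, dgro_inner, ← hL, L.symm_apply_apply, dgro_inner_single]
  · rintro ⟨L, h, hv⟩
    have h1 : DgOneD n (fun x => v (L x + 0)) := by
      refine ⟨EuclideanSpace.single i 1, h, by simp, fun x => ?_⟩
      show v (L x + 0) = _
      rw [add_zero, hv, dgro_inner_single]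
    exact (dgro_oneD_iff L 0 v).1 h1

/-! ## The symmetry `u ↦ -u` -/

theorem dgro_neg_fderiv (u : DgE n → ℝ) (x : DgE n) :
    fderiv ℝ (fun y => -u y) x = -fderiv ℝ u x := fderiv_fun_neg

theorem dgro_neg_laplacian (u : DgE n → ℝ) (x : DgE n) :
    Laplacian.laplacian (fun y => -u y) x = -Laplacian.laplacian u x := by
  have h : (fun y => -u y) = -u := rfl
  rw [h, InnerProductSpace.laplacian_neg]
  rfl

theorem dgro_neg_sol {u : DgE n → ℝ} (hu : DgSol n u) : DgSol n (fun x => -u x) where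
  smooth := hu.smooth.neg
  range := fun x => by
    have := hu.range x
    exact ⟨by linarith [this.2], by linarith [this.1]⟩
  pde := fun x => by rw [dgro_neg_laplacian, hu.pde]; ring

theorem dgro_neg_stable {v : DgE n → ℝ} (hv : DgStable n v) : DgStable n (fun x => -v x) := by
  intro φ hφ hφc
  simpa only [neg_sq] using hv φ hφ hφc

theorem dgro_neg_dens (u : DgE n → ℝ) (x : DgE n) :
    dgDens n (fun y => -u y) x = dgDens n u x := by
  unfold dgDens dgW
  rw [dgro_neg_fderiv, norm_neg, neg_sq]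

theorem dgro_neg_en (u : DgE n → ℝ) (x₀ : DgE n) (R : ℝ) :
    dgEn n (fun y => -u y) x₀ R = dgEn n u x₀ R := by
  unfold dgEn; simp only [dgro_neg_dens]

theorem dgro_neg_min {u : DgE n → ℝ} (hmin : DgMin n u) : DgMin n (fun x => -u x) := by
  intro R φ hφ hφc hsupp
  have hs : tsupport (fun x => -φ x) = tsupport φ := by
    unfold tsupport
    congr 1
    exact Function.support_neg φ
  have h := hmin R (fun x => -φ x) hφ.neg hφc.neg (by rw [hs]; exact hsupp)
  rw [dgro_neg_en]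
  have h2 : (fun x => -u x + φ x) = fun x => -(u x + -φ x) := by funext x; ring
  rw [h2, dgro_neg_en]
  exact h

theorem dgro_neg_planar {v : DgE n → ℝ} (h : DgPlanar n v) : DgPlanar n (fun x => -v x) := by
  obtain ⟨a, ha, b, hv⟩ := h
  refine ⟨-a, by rw [norm_neg, ha], -b, fun x => ?_⟩
  show -v x = _
  rw [hv, ← Real.tanh_neg, inner_neg_left]
  congr 1
  ring

theorem dgro_neg_rigid {v : DgE n → ℝ} (h : DgRigid n v) : DgRigid n (fun x => -v x) := by
  rcases h with h | h | h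
  · exact Or.inr (Or.inl fun x => by show -v x = -1; rw [h])
  · exact Or.inl fun x => by show -v x = 1; rw [h]; norm_num
  · exact Or.inr (Or.inr (dgro_neg_planar h))

theorem dgro_neg_finDens {u : DgE n → ℝ} (h : DgFinDens n u) : DgFinDens n (fun x => -u x) := by
  obtain ⟨C, hC⟩ := h
  exact ⟨C, fun R hR => by rw [dgro_neg_en]; exact hC R hR⟩

/-! ## EXITS

General motion `x ↦ L x + c`:
`dgro_fderiv`, `dgro_fderiv_apply`, `dgro_norm_fderiv`, `dgro_iteratedFDeriv_two`, `dgro_laplacian`,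
`dgro_contDiff`, `dgro_integral_comp`, `dgro_setIntegral_ball`, `dgro_hasCompactSupport`,
`dgro_tsupport`, `dgro_sol(_iff)`, `dgro_Q`, `dgro_stable(_iff)`, `dgro_dens`, `dgro_en`, `dgro_min`,
`dgro_finDens`, `dgro_planar(_iff)`, `dgro_rigid_iff`, `dgro_oneD(_iff)`.
Energy API: `dgro_dens_nonneg`, `dgro_continuous_dens`, `dgro_integrableOn_dens`, `dgro_en_nonneg`,
`dgro_en_mono`, `dgro_dens_add_of_notMem`, `dgro_min_ball` (a minimiser minimises in EVERY ball).
Rotations: `dgro_exists_rot`, `dgro_planar_iff_coord`, `dgro_oneD_iff_coord`.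
Sign: `dgro_neg_sol`, `dgro_neg_stable`, `dgro_neg_en`, `dgro_neg_min`, `dgro_neg_planar`,
`dgro_neg_rigid`, `dgro_neg_finDens`.
Below: the two special cases (pure translation, pure rotation) in the form in which they are used.
-/

theorem dgro_sol_translate (c : DgE n) {u : DgE n → ℝ} (hu : DgSol n u) :
    DgSol n (fun x => u (x + c)) := dgro_sol (LinearIsometryEquiv.refl ℝ (DgE n)) c hu

theorem dgro_stable_translate (c : DgE n) {v : DgE n → ℝ} (hv : DgStable n v) :
    DgStable n (fun x => v (x + c)) := dgro_stable (LinearIsometryEquiv.refl ℝ (DgE n)) c hv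

theorem dgro_min_translate (c : DgE n) {u : DgE n → ℝ} (hu : ContDiff ℝ 1 u) (hmin : DgMin n u) :
    DgMin n (fun x => u (x + c)) := dgro_min (LinearIsometryEquiv.refl ℝ (DgE n)) c hu hmin

theorem dgro_en_translate (c : DgE n) (u : DgE n → ℝ) (x₀ : DgE n) (R : ℝ) :
    dgEn n (fun x => u (x + c)) x₀ R = dgEn n u (x₀ + c) R :=
  dgro_en (LinearIsometryEquiv.refl ℝ (DgE n)) c u x₀ R

theorem dgro_finDens_translate (c : DgE n) {u : DgE n → ℝ} (hu : ContDiff ℝ 1 u)
    (h : DgFinDens n u) : DgFinDens n (fun x => u (x + c)) :=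
  dgro_finDens (LinearIsometryEquiv.refl ℝ (DgE n)) c hu h

theorem dgro_rigid_translate_iff (c : DgE n) (v : DgE n → ℝ) :
    DgRigid n (fun x => v (x + c)) ↔ DgRigid n v :=
  dgro_rigid_iff (LinearIsometryEquiv.refl ℝ (DgE n)) c v

theorem dgro_laplacian_translate (c : DgE n) (u : DgE n → ℝ) (x : DgE n) :
    Laplacian.laplacian (fun y => u (y + c)) x = Laplacian.laplacian u (x + c) :=
  dgro_laplacian (LinearIsometryEquiv.refl ℝ (DgE n)) c u x

theorem dgro_sol_rot (L : DgE n ≃ₗᵢ[ℝ] DgE n) {u : DgE n → ℝ} (hu : DgSol n u) :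
    DgSol n (fun x => u (L x)) := by simpa only [add_zero] using dgro_sol L 0 hu

theorem dgro_stable_rot (L : DgE n ≃ₗᵢ[ℝ] DgE n) {v : DgE n → ℝ} (hv : DgStable n v) :
    DgStable n (fun x => v (L x)) := by simpa only [add_zero] using dgro_stable L 0 hv

theorem dgro_min_rot (L : DgE n ≃ₗᵢ[ℝ] DgE n) {u : DgE n → ℝ} (hu : ContDiff ℝ 1 u)
    (hmin : DgMin n u) : DgMin n (fun x => u (L x)) := by
  simpa only [add_zero] using dgro_min L 0 hu hmin

theorem dgro_en_rot (L : DgE n ≃ₗᵢ[ℝ] DgE n) (u : DgE n → ℝ) (x₀ : DgE n) (R : ℝ) :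
    dgEn n (fun x => u (L x)) x₀ R = dgEn n u (L x₀) R := by
  simpa only [add_zero] using dgro_en L 0 u x₀ R

theorem dgro_rigid_rot_iff (L : DgE n ≃ₗᵢ[ℝ] DgE n) (v : DgE n → ℝ) :
    DgRigid n (fun x => v (L x)) ↔ DgRigid n v := by
  simpa only [add_zero] using dgro_rigid_iff L 0 v

theorem dgro_laplacian_rot (L : DgE n ≃ₗᵢ[ℝ] DgE n) (u : DgE n → ℝ) (x : DgE n) :
    Laplacian.laplacian (fun y => u (L y)) x = Laplacian.laplacian u (L x) := by
  simpa only [add_zero] using dgro_laplacian L 0 u x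

/-- the energy in a ball does not depend on the centre up to enlarging the radius -/
theorem dgro_en_le_centre {u : DgE n → ℝ} (hu : ContDiff ℝ 1 u) (x₀ x₁ : DgE n) (R : ℝ) :
    dgEn n u x₀ R ≤ dgEn n u x₁ (R + dist x₀ x₁) :=
  dgro_en_mono hu (ball_subset_ball' le_rfl)

end Claimed.Agent.R329
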