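/-
Row 329 (De Giorgi in dimension eight), cell C6, post A7.  Pen: helper43.  Prefix `dgA7_`.  0 sorry.

PART A.  Monotone solutions are stable, for solutions that are only `C²`
(paper, Lemma "End profiles", first paragraph; there `h = u₈` is used, which needs `u ∈ C³`;
here the difference quotients `w_h = u(· + h e) - u > 0` are used instead, they are `C²`,
so no elliptic regularity is needed).

* `dgA7_norm_sq_clm`     : `‖L‖² = ∑ (L bᵢ)²` for a functional on a Euclidean space;
* `dgA7_ibp_dir`, `dgA7_green` : `∫ ∑ ∂ᵢw ∂ᵢψ = - ∫ Δw ψ` (`w ∈ C²`, `ψ ∈ C¹_c`);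
* `dgA7_ground_state`    : `w > 0`, `w ∈ C²`  ⟹  `0 ≤ ∫ |∇φ|² + (Δw / w) φ²`;
* `dgA7_stable_of_mono`  : `Δu = u³ - u`, `∂ₑu > 0`  ⟹  `0 ≤ ∫ |∇φ|² + (3u² - 1) φ²`;
* EXITS on `Defs.lean`: `dgA7_stable` (`DgSol n u`, `∂ₑu > 0` ⟹ `DgStable n u`), `dgA7_sol_of_S0587`, `dgA7_stable_S0587`
  (the hypotheses of the frozen S0587, word for word).
-/
import Claimed.Agent.R329.Defs

set_option autoImplicit false
set_option linter.unusedSectionVars false

open MeasureTheory Filter Topology
open scoped ContDiff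

namespace Claimed.Agent.R329

noncomputable section

variable {E : Type*} [NormedAddCommGroup E] [InnerProductSpace ℝ E] [FiniteDimensional ℝ E]

/-- The square of the norm of a functional is the sum of the squares of its values on an
orthonormal basis. -/
theorem dgA7_norm_sq_clm {ι : Type*} [Fintype ι] (b : OrthonormalBasis ι ℝ E) (L : E →L[ℝ] ℝ) :
    ‖L‖ ^ 2 = ∑ i, (L (b i)) ^ 2 := by
  set a := (InnerProductSpace.toDual ℝ E).symm L with ha
  have h1 : ‖L‖ = ‖a‖ := by simp [ha]
  have h2 : ∀ v, L v = inner ℝ a v := fun v => by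
    rw [ha, InnerProductSpace.toDual_symm_apply]
  rw [h1, ← b.sum_sq_norm_inner_right a]
  refine Finset.sum_congr rfl fun i _ => ?_
  rw [h2, real_inner_comm, Real.norm_eq_abs, sq_abs]

variable [MeasurableSpace E] [BorelSpace E]

/-- Derivative of a directional derivative. -/
theorem dgA7_fderiv_dir {w : E → ℝ} (hw : ContDiff ℝ 2 w) (v : E) (x : E) :
    fderiv ℝ (fun y => fderiv ℝ w y v) x v = iteratedFDeriv ℝ 2 w x ![v, v] := by
  have hd : DifferentiableAt ℝ (fderiv ℝ w) x :=
    ((hw.fderiv_right (m := 1) (by norm_num)).differentiable (by norm_num)) x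
  rw [fderiv_clm_apply hd (differentiableAt_const v), iteratedFDeriv_two_apply]
  simp

theorem dgA7_contDiff_dir {w : E → ℝ} (hw : ContDiff ℝ 2 w) (v : E) :
    ContDiff ℝ 1 (fun y => fderiv ℝ w y v) :=
  (hw.fderiv_right (m := 1) (by norm_num)).clm_apply contDiff_const

theorem dgA7_continuous_dir {ψ : E → ℝ} (hψ : ContDiff ℝ 1 ψ) (v : E) :
    Continuous (fun y => fderiv ℝ ψ y v) :=
  (hψ.continuous_fderiv (by norm_num)).clm_apply continuous_const

theorem dgA7_hcs_dir {ψ : E → ℝ} (hψc : HasCompactSupport ψ) (v : E) :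
    HasCompactSupport (fun y => fderiv ℝ ψ y v) :=
  (hψc.fderiv ℝ).comp_left (g := fun L : E →L[ℝ] ℝ => L v) (by simp)

theorem dgA7_continuous_d2 {w : E → ℝ} (hw : ContDiff ℝ 2 w) (v : E) :
    Continuous (fun x => iteratedFDeriv ℝ 2 w x ![v, v]) := by
  have h := dgA7_continuous_dir (dgA7_contDiff_dir hw v) v
  refine h.congr fun x => ?_
  exact dgA7_fderiv_dir hw v x

/-- Integration by parts in one direction. -/
theorem dgA7_ibp_dir {w ψ : E → ℝ} (hw : ContDiff ℝ 2 w) (hψ : ContDiff ℝ 1 ψ)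
    (hψc : HasCompactSupport ψ) (v : E) :
    ∫ x, fderiv ℝ w x v * fderiv ℝ ψ x v = - ∫ x, iteratedFDeriv ℝ 2 w x ![v, v] * ψ x := by
  have hf := dgA7_contDiff_dir hw v
  have key := integral_mul_fderiv_eq_neg_fderiv_mul_of_integrable (μ := (volume : Measure E))
    (f := fun x => fderiv ℝ w x v) (g := ψ) (v := v) ?_ ?_ ?_
    (fun x _ => (hf.differentiable (by norm_num)) x)
    (fun x _ => (hψ.differentiable (by norm_num)) x)
  · rw [key]
    congr 1
    refine integral_congr_ae (Eventually.of_forall fun x => ?_)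
    simp only [dgA7_fderiv_dir hw v x]
  · exact ((dgA7_continuous_dir hf v).mul hψ.continuous).integrable_of_hasCompactSupport
      hψc.mul_left
  · exact (hf.continuous.mul (dgA7_continuous_dir hψ v)).integrable_of_hasCompactSupport
      (dgA7_hcs_dir hψc v).mul_left
  · exact (hf.continuous.mul hψ.continuous).integrable_of_hasCompactSupport hψc.mul_left

theorem dgA7_continuous_laplacian {w : E → ℝ} (hw : ContDiff ℝ 2 w) :
    Continuous (Laplacian.laplacian w) := by
  rw [InnerProductSpace.laplacian_eq_iteratedFDeriv_orthonormalBasis w (stdOrthonormalBasis ℝ E)]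
  exact continuous_finsetSum _ fun i _ => dgA7_continuous_d2 hw _

/-- Green's identity. -/
theorem dgA7_green {ι : Type*} [Fintype ι] (b : OrthonormalBasis ι ℝ E) {w ψ : E → ℝ}
    (hw : ContDiff ℝ 2 w) (hψ : ContDiff ℝ 1 ψ) (hψc : HasCompactSupport ψ) :
    ∫ x, ∑ i, fderiv ℝ w x (b i) * fderiv ℝ ψ x (b i) = - ∫ x, Laplacian.laplacian w x * ψ x := by
  rw [integral_finsetSum]
  · simp only [dgA7_ibp_dir hw hψ hψc]
    rw [Finset.sum_neg_distrib, ← integral_finsetSum]
    · congr 1
      refine integral_congr_ae (Eventually.of_forall fun x => ?_)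
      simp only [InnerProductSpace.laplacian_eq_iteratedFDeriv_orthonormalBasis w b,
        Finset.sum_mul]
    · intro i _
      exact ((dgA7_continuous_d2 hw _).mul hψ.continuous).integrable_of_hasCompactSupport
        hψc.mul_left
  · intro i _
    exact ((dgA7_contDiff_dir hw _).continuous.mul
      (dgA7_continuous_dir hψ _)).integrable_of_hasCompactSupport (dgA7_hcs_dir hψc _).mul_left

theorem dgA7_alg (a c p q : ℝ) (hq : q ≠ 0) :
    c * (2 * p / q * a - p ^ 2 / q ^ 2 * c) ≤ a ^ 2 := by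
  have : a ^ 2 - c * (2 * p / q * a - p ^ 2 / q ^ 2 * c) = (a - p / q * c) ^ 2 := by
    field_simp
    ring
  nlinarith [sq_nonneg (a - p / q * c)]

/-- Ground-state inequality: a positive `C²` function `w` makes the Schroedinger form with
potential `Δw / w` nonnegative. -/
theorem dgA7_ground_state {w φ : E → ℝ} (hw : ContDiff ℝ 2 w) (hpos : ∀ x, 0 < w x)
    (hφ : ContDiff ℝ 1 φ) (hφc : HasCompactSupport φ) :
    0 ≤ ∫ x, (‖fderiv ℝ φ x‖ ^ 2 + (Laplacian.laplacian w x / w x) * φ x ^ 2) := by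
  set b := stdOrthonormalBasis ℝ E with hb
  have hw1 : ContDiff ℝ 1 w := hw.of_le (by norm_num)
  set ψ : E → ℝ := fun x => φ x ^ 2 / w x with hψdef
  have hψ : ContDiff ℝ 1 ψ := (hφ.pow 2).div hw1 (fun x => (hpos x).ne')
  have hψc : HasCompactSupport ψ := by
    have : ψ = fun x => φ x * (φ x / w x) := by
      funext x; simp only [hψdef]; ring
    rw [this]
    exact hφc.mul_right
  have hg := dgA7_green b hw hψ hψc
  have hDψ : ∀ x v, fderiv ℝ ψ x v
      = 2 * φ x / w x * fderiv ℝ φ x v - φ x ^ 2 / w x ^ 2 * fderiv ℝ w x v := by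
    intro x v
    have h1 : HasFDerivAt φ (fderiv ℝ φ x) x := ((hφ.differentiable (by norm_num)) x).hasFDerivAt
    have h2 : HasFDerivAt w (fderiv ℝ w x) x := ((hw1.differentiable (by norm_num)) x).hasFDerivAt
    have hne := (hpos x).ne'
    have h2' : HasFDerivAt (fun y => (w y)⁻¹) ((-(w x ^ 2)⁻¹) • fderiv ℝ w x) x :=
      (hasDerivAt_inv hne).comp_hasFDerivAt x h2
    have h3 := (h1.pow 2).mul h2'
    have h4 : ψ = fun y => φ y ^ 2 * (w y)⁻¹ := by
      funext y; simp only [hψdef, div_eq_mul_inv]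
    have h3' : HasFDerivAt (fun y => φ y ^ 2 * (w y)⁻¹)
        (φ x ^ 2 • -(w x ^ 2)⁻¹ • fderiv ℝ w x + (w x)⁻¹ • (2 • φ x ^ (2 - 1)) • fderiv ℝ φ x) x := h3
    rw [h4, h3'.fderiv]
    simp only [add_apply, smul_apply, smul_eq_mul]
    field_simp
    ring
  have hpt : ∀ x, ∑ i, fderiv ℝ w x (b i) * fderiv ℝ ψ x (b i) ≤ ‖fderiv ℝ φ x‖ ^ 2 := by
    intro x
    rw [dgA7_norm_sq_clm b]
    refine Finset.sum_le_sum fun i _ => ?_
    rw [hDψ]
    exact dgA7_alg _ _ _ _ (hpos x).ne'
  have hI1 : Integrable (fun x => ‖fderiv ℝ φ x‖ ^ 2) := by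
    refine (((hφ.continuous_fderiv (by norm_num)).norm).pow 2).integrable_of_hasCompactSupport ?_
    have h := (hφc.fderiv ℝ).norm
    simp only [sq]
    exact h.mul_left
  have hI2 : Integrable (fun x => Laplacian.laplacian w x * ψ x) :=
    ((dgA7_continuous_laplacian hw).mul hψ.continuous).integrable_of_hasCompactSupport hψc.mul_left
  have hI3 : Integrable (fun x => ∑ i, fderiv ℝ w x (b i) * fderiv ℝ ψ x (b i)) := by
    refine integrable_finsetSum _ fun i _ => ?_
    exact ((dgA7_contDiff_dir hw _).continuous.mul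
      (dgA7_continuous_dir hψ _)).integrable_of_hasCompactSupport (dgA7_hcs_dir hψc _).mul_left
  have hmono := integral_mono hI3 hI1 hpt
  have heq : ∫ x, (‖fderiv ℝ φ x‖ ^ 2 + (Laplacian.laplacian w x / w x) * φ x ^ 2)
      = (∫ x, ‖fderiv ℝ φ x‖ ^ 2) + ∫ x, Laplacian.laplacian w x * ψ x := by
    rw [← integral_add hI1 hI2]
    refine integral_congr_ae (Eventually.of_forall fun x => ?_)
    simp only [hψdef]
    ring
  rw [heq]
  linarith

/-- The Laplacian commutes with translations. -/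
theorem dgA7_laplacian_translate (u : E → ℝ) (a x : E) :
    Laplacian.laplacian (fun z => u (z + a)) x = Laplacian.laplacian u (x + a) := by
  simp only [InnerProductSpace.laplacian_eq_iteratedFDeriv_orthonormalBasis _
    (stdOrthonormalBasis ℝ E), iteratedFDeriv_comp_add_right]

/-- A function with positive derivative in the direction `e` increases strictly along `e`. -/
theorem dgA7_lt_translate {u : E → ℝ} (hu : ContDiff ℝ 2 u) (e : E)
    (hmono : ∀ x, 0 < fderiv ℝ u x e) (x : E) {h : ℝ} (hh : 0 < h) : u x < u (x + h • e) := by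
  have hd : ∀ t : ℝ, HasDerivAt (fun t : ℝ => u (x + t • e)) (fderiv ℝ u (x + t • e) e) t := by
    intro t
    have h1 : HasFDerivAt u (fderiv ℝ u (x + t • e)) (x + t • e) :=
      ((hu.differentiable (by norm_num)) _).hasFDerivAt
    have h2 : HasDerivAt (fun t : ℝ => x + t • e) e t := by
      simpa using ((hasDerivAt_id t).smul_const e).const_add x
    exact h1.comp_hasDerivAt t h2
  have hs : StrictMono (fun t : ℝ => u (x + t • e)) :=
    strictMono_of_deriv_pos fun t => by rw [(hd t).deriv]; exact hmono _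
  have := hs hh
  simpa using this

/-- **Monotone solutions are stable** (solutions of class `C²`, no further regularity). -/
theorem dgA7_stable_of_mono {u : E → ℝ} (hu : ContDiff ℝ 2 u) {C : ℝ} (hC : ∀ x, |u x| ≤ C)
    (hpde : ∀ x, Laplacian.laplacian u x = u x ^ 3 - u x) (e : E)
    (hmono : ∀ x, 0 < fderiv ℝ u x e) {φ : E → ℝ} (hφ : ContDiff ℝ 1 φ)
    (hφc : HasCompactSupport φ) :
    0 ≤ ∫ x, (‖fderiv ℝ φ x‖ ^ 2 + (3 * u x ^ 2 - 1) * φ x ^ 2) := by
  -- the approximate potentials
  set c : ℕ → E → ℝ := fun k x =>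
    u (x + (1 / ((k : ℝ) + 1)) • e) ^ 2 + u (x + (1 / ((k : ℝ) + 1)) • e) * u x + u x ^ 2 - 1 with hc
  have hstep : ∀ k : ℕ, 0 ≤ ∫ x, (‖fderiv ℝ φ x‖ ^ 2 + c k x * φ x ^ 2) := by
    intro k
    have hh : (0 : ℝ) < 1 / ((k : ℝ) + 1) := by positivity
    set a : E := (1 / ((k : ℝ) + 1)) • e with ha
    have hua : ContDiff ℝ 2 (fun z => u (z + a)) := hu.comp (contDiff_id.add contDiff_const)
    have hw : ContDiff ℝ 2 (fun z => u (z + a) - u z) := hua.sub hu
    have hpos : ∀ x, 0 < u (x + a) - u x := fun x =>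
      sub_pos.2 (dgA7_lt_translate hu e hmono x hh)
    have hgs := dgA7_ground_state hw hpos hφ hφc
    have hlap : ∀ x, Laplacian.laplacian (fun z => u (z + a) - u z) x
        = (u (x + a) ^ 3 - u (x + a)) - (u x ^ 3 - u x) := by
      intro x
      have := ContDiffAt.laplacian_sub (hua.contDiffAt (x := x)) (hu.contDiffAt (x := x))
      have h2 : (fun z => u (z + a) - u z) = (fun z => u (z + a)) - u := rfl
      rw [h2, this, dgA7_laplacian_translate, hpde, hpde]
    refine hgs.trans_eq (integral_congr_ae (Eventually.of_forall fun x => ?_))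
    have hne := (hpos x).ne'
    simp only [hlap x, hc]
    congr 2
    rw [div_eq_iff hne]
    ring
  have hC0 : 0 ≤ C := (abs_nonneg _).trans (hC 0)
  have hcb : ∀ k x, |c k x| ≤ 3 * C ^ 2 + 1 := by
    intro k x
    have h1 := hC (x + (1 / ((k : ℝ) + 1)) • e)
    have h2 := hC x
    simp only [hc]
    rw [abs_le] at h1 h2 ⊢
    constructor <;> nlinarith [h1.1, h1.2, h2.1, h2.2]
  have hI1 : Integrable (fun x => ‖fderiv ℝ φ x‖ ^ 2) := by
    refine (((hφ.continuous_fderiv (by norm_num)).norm).pow 2).integrable_of_hasCompactSupport ?_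
    have h := (hφc.fderiv ℝ).norm
    simp only [sq]
    exact h.mul_left
  have hI2 : Integrable (fun x => φ x ^ 2) := by
    refine (hφ.continuous.pow 2).integrable_of_hasCompactSupport ?_
    simp only [sq]
    exact hφc.mul_left
  have hlim : Tendsto (fun k : ℕ => ∫ x, (‖fderiv ℝ φ x‖ ^ 2 + c k x * φ x ^ 2)) atTop
      (𝓝 (∫ x, (‖fderiv ℝ φ x‖ ^ 2 + (3 * u x ^ 2 - 1) * φ x ^ 2))) := by
    refine tendsto_integral_of_dominated_convergence
      (fun x => ‖fderiv ℝ φ x‖ ^ 2 + (3 * C ^ 2 + 1) * φ x ^ 2) ?_ ?_ ?_ ?_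
    · intro k
      refine Continuous.aestronglyMeasurable ?_
      have hcc : Continuous (c k) := by
        simp only [hc]
        have h1 : Continuous fun x => u (x + (1 / ((k : ℝ) + 1)) • e) :=
          hu.continuous.comp (continuous_id.add continuous_const)
        exact (((h1.pow 2).add (h1.mul hu.continuous)).add (hu.continuous.pow 2)).sub
          continuous_const
      exact (((hφ.continuous_fderiv (by norm_num)).norm).pow 2).add
        (hcc.mul (hφ.continuous.pow 2))
    · exact hI1.add (hI2.const_mul _)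
    · intro k
      refine Eventually.of_forall fun x => ?_
      rw [Real.norm_eq_abs]
      have h1 : |c k x * φ x ^ 2| ≤ (3 * C ^ 2 + 1) * φ x ^ 2 := by
        rw [abs_mul, abs_of_nonneg (sq_nonneg (φ x))]
        exact mul_le_mul_of_nonneg_right (hcb k x) (sq_nonneg _)
      calc |‖fderiv ℝ φ x‖ ^ 2 + c k x * φ x ^ 2|
          ≤ |‖fderiv ℝ φ x‖ ^ 2| + |c k x * φ x ^ 2| := abs_add_le _ _
        _ ≤ ‖fderiv ℝ φ x‖ ^ 2 + (3 * C ^ 2 + 1) * φ x ^ 2 := by
            rw [abs_of_nonneg (sq_nonneg _)]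
            linarith
    · refine Eventually.of_forall fun x => ?_
      have ht : Tendsto (fun k : ℕ => x + (1 / ((k : ℝ) + 1)) • e) atTop (𝓝 x) := by
        have h0 : Tendsto (fun k : ℕ => (1 / ((k : ℝ) + 1))) atTop (𝓝 0) :=
          tendsto_one_div_add_atTop_nhds_zero_nat
        have := (h0.smul_const e).const_add x
        simpa using this
      have hut : Tendsto (fun k : ℕ => u (x + (1 / ((k : ℝ) + 1)) • e)) atTop (𝓝 (u x)) :=
        (hu.continuous.tendsto x).comp ht
      have hct : Tendsto (fun k : ℕ => c k x) atTop (𝓝 (3 * u x ^ 2 - 1)) := by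
        have := (((hut.pow 2).add (hut.mul_const (u x))).add_const (u x ^ 2)).sub_const 1
        have he : u x ^ 2 + u x * u x + u x ^ 2 - 1 = 3 * u x ^ 2 - 1 := by ring
        rw [he] at this
        exact this
      exact (hct.mul_const _).const_add _
  exact ge_of_tendsto' hlim hstep

end

/-! ### Exits, stated on `Defs.lean` -/

/-- EXIT A7: a solution which is strictly increasing in some direction is stable. -/
theorem dgA7_stable {n : ℕ} {u : DgE n → ℝ} (hu : DgSol n u) (e : DgE n)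
    (hmono : ∀ x, 0 < fderiv ℝ u x e) : DgStable n u := by
  intro φ hφ hφc
  exact dgA7_stable_of_mono hu.smooth (C := 1) (fun x => abs_le.2 (hu.range x)) hu.pde e hmono
    hφ hφc

/-- The hypotheses of the frozen S0587 give a `DgSol`. -/
theorem dgA7_sol_of_S0587 {u : EuclideanSpace ℝ (Fin 8) → ℝ} (hu : ContDiff ℝ 2 u)
    (hrange : ∀ x, u x ∈ Set.Ioo (-1 : ℝ) 1)
    (hpde : ∀ x, Laplacian.laplacian u x = u x ^ 3 - u x) : DgSol 8 u :=
  ⟨hu, fun x => Set.Ioo_subset_Icc_self (hrange x), hpde⟩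

/-- EXIT A7, in the words of the frozen S0587. -/
theorem dgA7_stable_S0587 {u : EuclideanSpace ℝ (Fin 8) → ℝ} (hu : ContDiff ℝ 2 u)
    (hrange : ∀ x, u x ∈ Set.Ioo (-1 : ℝ) 1)
    (hpde : ∀ x, Laplacian.laplacian u x = u x ^ 3 - u x)
    (hmono : ∀ x, 0 < fderiv ℝ u x (EuclideanSpace.single 7 1)) : DgStable 8 u :=
  dgA7_stable (dgA7_sol_of_S0587 hu hrange hpde) _ hmono

end Claimed.Agent.R329
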