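/-
Row 329 (De Giorgi in dimension eight), cell C6, post B7.K (K7 task force).  Pen: helper43.  Prefix `dgKa_`.

THE DISCREPANCY HAS A RATE.   `ξ = W(u) - |Du|²/2 ≥ 0` (Modica).  For a STABLE solution with energy growth
`E(u; B_R) ≤ C₀ R^{n-1}` (`R ≥ 1`):      `∫_{B_r} ξ ≤ C(n, C₀) r^{n-1} / r`      (`r ≥ 1`),
i.e. `κ(r) = r^{-(n-1)} ∫_{B_r} ξ ≤ C / r`, with a constant that depends on `n` and `C₀` only (so it is uniform in the centre).
No exponential decay, no covering: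
 (i)   `q`-test (`dg8_q_test`), `q = 1 - u²`:  `4 ∫ q ξ η² ≤ ∫ q² |Dη|²`;
 (ii)  `L¹` bound of `q`: test `η u` in Green's identity: `∫ u² q η = ∫ η |Du|² + ∫ u ⟨Du, Dη⟩`, and `q = u² q + q²`, `q² = 4 W`;
 (iii) pointwise, for `d > 0`:  `ξ ≤ q ξ / d + d q / 4`;  take `d = 1 / r`.
-/
import Claimed.Agent.R329.StabMono
import Claimed.Agent.R329.Cutoff
import Claimed.Agent.R329.DgBase
import Claimed.Agent.R329.Base258
import Claimed.Agent.R329.Rot

set_option autoImplicit false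
set_option linter.unusedSectionVars false

open MeasureTheory Metric Set Filter Topology
open scoped ContDiff

namespace Claimed.Agent.R329

noncomputable section

variable {n : ℕ}

/-- the discrepancy `ξ = W(u) - |Du|²/2` -/
def dgXi (n : ℕ) (u : DgE n → ℝ) (x : DgE n) : ℝ := dgW (u x) - ‖fderiv ℝ u x‖ ^ 2 / 2

theorem dgKa_xi_nonneg {u : DgE n → ℝ} (hu : DgSol n u) (x : DgE n) : 0 ≤ dgXi n u x :=
  sub_nonneg.2 (dg258_exit_modica hu x)

theorem dgKa_xi_continuous {u : DgE n → ℝ} (hu : ContDiff ℝ 1 u) : Continuous (dgXi n u) := by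
  unfold dgXi dgW
  exact (((continuous_const.sub (hu.continuous.pow 2)).pow 2).div_const 4).sub
    ((((hu.continuous_fderiv (by norm_num)).norm).pow 2).div_const 2)

theorem dgKa_dens_continuous {u : DgE n → ℝ} (hu : ContDiff ℝ 1 u) : Continuous (dgDens n u) := by
  unfold dgDens dgW
  exact ((((hu.continuous_fderiv (by norm_num)).norm).pow 2).div_const 2).add
    (((continuous_const.sub (hu.continuous.pow 2)).pow 2).div_const 4)

theorem dgKa_dens_integrableOn {u : DgE n → ℝ} (hu : ContDiff ℝ 1 u) (x₀ : DgE n) (R : ℝ) :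
    IntegrableOn (dgDens n u) (ball x₀ R) :=
  ((dgKa_dens_continuous hu).continuousOn.integrableOn_compact (isCompact_closedBall x₀ R)).mono_set
    ball_subset_closedBall

/-- (iii) the pointwise split -/
theorem dgKa_split {q xi d : ℝ} (hd : 0 < d) (hq : 0 ≤ q) (hxi : 0 ≤ xi) (hle : xi ≤ q ^ 2 / 4) :
    xi ≤ q * xi / d + d * q / 4 := by
  by_cases h : d ≤ q
  · have h1 : xi ≤ q * xi / d := by
      rw [le_div_iff₀ hd]
      nlinarith
    have h2 : 0 ≤ d * q / 4 := by positivity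
    linarith
  · have h' : q < d := not_le.1 h
    have h1 : 0 ≤ q * xi / d := by positivity
    nlinarith

/-- an integral is bounded by the integral over a ball of a majorant -/
theorem dgKa_int_le_ball {f g : DgE n → ℝ} (hf : Integrable f) {R : ℝ}
    (hg : IntegrableOn g (ball 0 R)) (h : ∀ x, f x ≤ (ball (0 : DgE n) R).indicator g x) :
    ∫ x, f x ≤ ∫ x in ball 0 R, g x := by
  rw [← integral_indicator measurableSet_ball]
  exact integral_mono hf (hg.integrable_indicator measurableSet_ball) h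

theorem dgKa_alg (v a c : ℝ) (hv : v ^ 2 ≤ 1) : v * (a * c) ≤ a ^ 2 / 2 + c ^ 2 / 2 := by
  nlinarith [sq_nonneg (a - v * c), sq_nonneg c, mul_nonneg (sq_nonneg c) (sub_nonneg.2 hv)]

/-- data of a cut-off at scale `r` -/
structure DgKaCut (n : ℕ) (C r : ℝ) (η : DgE n → ℝ) : Prop where
  smooth : ContDiff ℝ 1 η
  hcs : HasCompactSupport η
  nonneg : ∀ x, 0 ≤ η x
  le_one : ∀ x, η x ≤ 1
  one : ∀ x, ‖x‖ ≤ r → η x = 1
  zero : ∀ x, 2 * r ≤ ‖x‖ → η x = 0
  grad : ∀ x, ‖fderiv ℝ η x‖ ≤ C / r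

theorem dgKa_exists_cut (n : ℕ) : ∃ C : ℝ, 0 ≤ C ∧ ∀ r : ℝ, 0 < r → ∃ η, DgKaCut n C r η := by
  obtain ⟨C, hC0, hC⟩ := dgcu_exit_smooth n
  refine ⟨C, hC0, fun r hr => ⟨dgcu_smooth r, ?_⟩⟩
  obtain ⟨h1, h2, h3, h4, h5, h6⟩ := hC r hr
  exact ⟨h1.of_le (by simp), h2, fun x => (h3 x).1, fun x => (h3 x).2, h4, h5, h6⟩

theorem DgKaCut.fderiv_zero {C r : ℝ} {η : DgE n → ℝ} (h : DgKaCut n C r η) (hr : 0 < r)
    {x : DgE n} (hx : x ∉ ball (0 : DgE n) (3 * r)) : fderiv ℝ η x = 0 := by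
  have hx' : 3 * r ≤ ‖x‖ := by simpa using hx
  have : η =ᶠ[𝓝 x] fun _ => (0 : ℝ) := by
    have ho : IsOpen {y : DgE n | 2 * r < ‖y‖} := isOpen_lt continuous_const continuous_norm
    filter_upwards [ho.mem_nhds (show 2 * r < ‖x‖ by linarith)] with y hy
    exact h.zero y (le_of_lt hy)
  rw [this.fderiv_eq]
  simp

theorem DgKaCut.zero' {C r : ℝ} {η : DgE n → ℝ} (h : DgKaCut n C r η) (hr : 0 < r)
    {x : DgE n} (hx : x ∉ ball (0 : DgE n) (3 * r)) : η x = 0 := by
  have hx' : 3 * r ≤ ‖x‖ := by simpa using hx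
  exact h.zero x (by linarith)

/-- (ii) the `L¹` bound of `q = 1 - u²`. -/
theorem dgKa_L1 {u : DgE n → ℝ} (hu : DgSol n u) {C r : ℝ} (hr : 0 < r) {η : DgE n → ℝ}
    (hη : DgKaCut n C r η) :
    ∫ x, η x * (1 - u x ^ 2) ≤ 7 * dgEn n u 0 (3 * r)
      + (C / r) ^ 2 / 2 * (volume : Measure (DgE n)).real (ball 0 (3 * r)) := by
  set b := stdOrthonormalBasis ℝ (DgE n) with hb
  have hu1 : ContDiff ℝ 1 u := hu.smooth.of_le (by norm_num)
  set ψ : DgE n → ℝ := fun x => η x * u x with hψdef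
  have hψ : ContDiff ℝ 1 ψ := hη.smooth.mul hu1
  have hψc : HasCompactSupport ψ := hη.hcs.mul_right
  have hg := dgA7_green b hu.smooth hψ hψc
  have hDψ : ∀ x v, fderiv ℝ ψ x v = η x * fderiv ℝ u x v + u x * fderiv ℝ η x v := by
    intro x v
    have h1 : HasFDerivAt η (fderiv ℝ η x) x :=
      ((hη.smooth.differentiable (by norm_num)) x).hasFDerivAt
    have h2 : HasFDerivAt u (fderiv ℝ u x) x := ((hu1.differentiable (by norm_num)) x).hasFDerivAt
    have h3 : HasFDerivAt ψ (η x • fderiv ℝ u x + u x • fderiv ℝ η x) x := h1.mul h2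
    rw [h3.fderiv]
    simp only [add_apply, smul_apply, smul_eq_mul]
  have hux : ∀ x, u x ^ 2 ≤ 1 := fun x => by
    have := hu.range x
    nlinarith [this.1, this.2]
  -- the majorant
  set g : DgE n → ℝ := fun x => 7 * dgDens n u x + (C / r) ^ 2 / 2 with hgdef
  have hgI : IntegrableOn g (ball 0 (3 * r)) :=
    ((dgKa_dens_integrableOn hu1 0 (3 * r)).const_mul 7).add
      (integrableOn_const measure_ball_lt_top.ne)
  -- the identity
  have hid : ∫ x, η x * (1 - u x ^ 2)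
      = ∫ x, ((∑ i, fderiv ℝ u x (b i) * fderiv ℝ ψ x (b i)) + η x * (1 - u x ^ 2) ^ 2) := by
    have hI3 : Integrable (fun x => ∑ i, fderiv ℝ u x (b i) * fderiv ℝ ψ x (b i)) := by
      refine integrable_finsetSum _ fun i _ => ?_
      exact ((dgA7_contDiff_dir hu.smooth _).continuous.mul
        (dgA7_continuous_dir hψ _)).integrable_of_hasCompactSupport (dgA7_hcs_dir hψc _).mul_left
    have hI5 : Integrable (fun x => η x * (1 - u x ^ 2) ^ 2) :=
      (hη.smooth.continuous.mul ((continuous_const.sub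
        (hu1.continuous.pow 2)).pow 2)).integrable_of_hasCompactSupport hη.hcs.mul_right
    have hI4 : Integrable (fun x => Laplacian.laplacian u x * ψ x) :=
      ((dgA7_continuous_laplacian hu.smooth).mul hψ.continuous).integrable_of_hasCompactSupport
        hψc.mul_left
    have hI4n : Integrable (fun x => -(Laplacian.laplacian u x * ψ x)) := hI4.neg
    rw [integral_add hI3 hI5, hg, ← integral_neg, ← integral_add hI4n hI5]
    refine integral_congr_ae (Eventually.of_forall fun x => ?_)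
    simp only [hu.pde x, hψdef]
    ring
  rw [hid]
  have hI : Integrable (fun x => (∑ i, fderiv ℝ u x (b i) * fderiv ℝ ψ x (b i))
      + η x * (1 - u x ^ 2) ^ 2) := by
    refine Integrable.add ?_ ?_
    · refine integrable_finsetSum _ fun i _ => ?_
      exact ((dgA7_contDiff_dir hu.smooth _).continuous.mul
        (dgA7_continuous_dir hψ _)).integrable_of_hasCompactSupport (dgA7_hcs_dir hψc _).mul_left
    · exact (hη.smooth.continuous.mul ((continuous_const.sub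
        (hu1.continuous.pow 2)).pow 2)).integrable_of_hasCompactSupport hη.hcs.mul_right
  have hle := dgKa_int_le_ball hI hgI (fun x => ?_)
  · refine hle.trans_eq ?_
    simp only [hgdef]
    rw [integral_add ((dgKa_dens_integrableOn hu1 0 (3 * r)).const_mul 7)
      (integrableOn_const measure_ball_lt_top.ne), integral_const_mul, setIntegral_const,
      smul_eq_mul]
    unfold dgEn
    ring
  · by_cases hx : x ∈ ball (0 : DgE n) (3 * r)
    · rw [indicator_of_mem hx]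
      have h1 : ∑ i, fderiv ℝ u x (b i) * fderiv ℝ ψ x (b i)
          ≤ η x * ‖fderiv ℝ u x‖ ^ 2 + (‖fderiv ℝ u x‖ ^ 2 / 2 + ‖fderiv ℝ η x‖ ^ 2 / 2) := by
        rw [dgA7_norm_sq_clm b (fderiv ℝ u x), dgA7_norm_sq_clm b (fderiv ℝ η x), Finset.mul_sum,
          Finset.sum_div, Finset.sum_div, ← Finset.sum_add_distrib, ← Finset.sum_add_distrib]
        refine Finset.sum_le_sum fun i _ => ?_
        rw [hDψ]
        have := dgKa_alg (u x) (fderiv ℝ u x (b i)) (fderiv ℝ η x (b i)) (hux x)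
        nlinarith
      have h2 : ‖fderiv ℝ η x‖ ^ 2 ≤ (C / r) ^ 2 := pow_le_pow_left₀ (norm_nonneg _) (hη.grad x) 2
      have h3 := hη.le_one x
      have h4 := hη.nonneg x
      have h5 : 0 ≤ ‖fderiv ℝ u x‖ ^ 2 := sq_nonneg _
      have h6 : 0 ≤ (1 - u x ^ 2) ^ 2 := sq_nonneg _
      simp only [hgdef]
      unfold dgDens dgW
      nlinarith
    · rw [indicator_of_notMem hx]
      have h0 : η x = 0 := hη.zero' hr hx
      have h1 : fderiv ℝ η x = 0 := hη.fderiv_zero hr hx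
      have h2 : ∀ i, fderiv ℝ ψ x (b i) = 0 := fun i => by rw [hDψ, h0, h1]; simp
      simp [h2, h0]

/-- the core inequality at scale `r`. -/
theorem dgKa_core {u : DgE n → ℝ} (hu : DgSol n u) (hs : DgStable n u) {C r : ℝ} (hr : 0 < r)
    {η : DgE n → ℝ} (hη : DgKaCut n C r η) :
    ∫ x in ball 0 r, dgXi n u x ≤ r * ((C / r) ^ 2 * dgEn n u 0 (3 * r))
      + 1 / (4 * r) * (7 * dgEn n u 0 (3 * r)
        + (C / r) ^ 2 / 2 * (volume : Measure (DgE n)).real (ball 0 (3 * r))) := by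
  have hu1 : ContDiff ℝ 1 u := hu.smooth.of_le (by norm_num)
  have hxc := dgKa_xi_continuous hu1
  have hηc := hη.smooth.continuous
  have hqc : Continuous fun x => 1 - u x ^ 2 := continuous_const.sub (hu1.continuous.pow 2)
  have hη2 : HasCompactSupport fun x => η x ^ 2 := by
    simp only [sq]
    exact hη.hcs.mul_left
  -- integrability
  have hJ0 : Integrable (fun x => dgXi n u x * η x ^ 2) :=
    (hxc.mul (hηc.pow 2)).integrable_of_hasCompactSupport hη2.mul_left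
  have hJ1 : Integrable (fun x => (1 - u x ^ 2) * dgXi n u x * η x ^ 2) :=
    ((hqc.mul hxc).mul (hηc.pow 2)).integrable_of_hasCompactSupport hη2.mul_left
  have hJ2 : Integrable (fun x => η x * (1 - u x ^ 2)) :=
    (hηc.mul hqc).integrable_of_hasCompactSupport hη.hcs.mul_right
  -- (a)
  have ha : ∫ x in ball 0 r, dgXi n u x ≤ ∫ x, dgXi n u x * η x ^ 2 := by
    have h1 : ∫ x in ball 0 r, dgXi n u x = ∫ x in ball 0 r, dgXi n u x * η x ^ 2 := by
      refine setIntegral_congr_fun measurableSet_ball fun x hx => ?_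
      have : ‖x‖ ≤ r := by
        have : ‖x‖ < r := by simpa using hx
        exact this.le
      simp only [hη.one x this]
      ring
    rw [h1]
    refine setIntegral_le_integral hJ0 (Eventually.of_forall fun x => ?_)
    exact mul_nonneg (dgKa_xi_nonneg hu x) (sq_nonneg _)
  -- (b)
  have hb : ∫ x, dgXi n u x * η x ^ 2
      ≤ r * (∫ x, (1 - u x ^ 2) * dgXi n u x * η x ^ 2)
        + 1 / (4 * r) * ∫ x, η x * (1 - u x ^ 2) := by
    rw [← integral_const_mul, ← integral_const_mul, ← integral_add (hJ1.const_mul r)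
      (hJ2.const_mul _)]
    refine integral_mono hJ0 ((hJ1.const_mul r).add (hJ2.const_mul _)) fun x => ?_
    have hq0 : 0 ≤ 1 - u x ^ 2 := by
      have := hu.range x
      nlinarith [this.1, this.2]
    have hx0 := dgKa_xi_nonneg hu x
    have hle : dgXi n u x ≤ (1 - u x ^ 2) ^ 2 / 4 := by
      unfold dgXi dgW
      have : 0 ≤ ‖fderiv ℝ u x‖ ^ 2 / 2 := by positivity
      linarith
    have hsp := dgKa_split (d := 1 / r) (by positivity) hq0 hx0 hle
    have e1 : (1 - u x ^ 2) * dgXi n u x / (1 / r) = r * ((1 - u x ^ 2) * dgXi n u x) := by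
      field_simp
    have e2 : 1 / r * (1 - u x ^ 2) / 4 = 1 / (4 * r) * (1 - u x ^ 2) := by
      field_simp
    rw [e1, e2] at hsp
    have h0 := hη.nonneg x
    have h1 := hη.le_one x
    have h2 : η x ^ 2 ≤ η x := by nlinarith
    have h3 : 0 ≤ η x ^ 2 := sq_nonneg _
    have h4 : 0 ≤ 1 / (4 * r) * (1 - u x ^ 2) := by positivity
    calc dgXi n u x * η x ^ 2
        ≤ (r * ((1 - u x ^ 2) * dgXi n u x) + 1 / (4 * r) * (1 - u x ^ 2)) * η x ^ 2 :=
          mul_le_mul_of_nonneg_right hsp h3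
      _ = r * ((1 - u x ^ 2) * dgXi n u x * η x ^ 2) + 1 / (4 * r) * (1 - u x ^ 2) * η x ^ 2 := by
          ring
      _ ≤ r * ((1 - u x ^ 2) * dgXi n u x * η x ^ 2) + 1 / (4 * r) * (1 - u x ^ 2) * η x := by
          have := mul_le_mul_of_nonneg_left h2 h4
          linarith
      _ = r * ((1 - u x ^ 2) * dgXi n u x * η x ^ 2) + 1 / (4 * r) * (η x * (1 - u x ^ 2)) := by
          ring
  -- (c)
  have hc : ∫ x, (1 - u x ^ 2) * dgXi n u x * η x ^ 2 ≤ (C / r) ^ 2 * dgEn n u 0 (3 * r) := by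
    have hq := dg8_q_test hu.smooth hu.pde hs hη.smooth hη.hcs
    have e1 : ∫ x, ((1 - u x ^ 2) ^ 3 - 2 * (1 - u x ^ 2) * ‖fderiv ℝ u x‖ ^ 2) * η x ^ 2
        = 4 * ∫ x, (1 - u x ^ 2) * dgXi n u x * η x ^ 2 := by
      rw [← integral_const_mul]
      refine integral_congr_ae (Eventually.of_forall fun x => ?_)
      simp only [dgXi, dgW]
      ring
    rw [e1] at hq
    have hJ3 : Integrable (fun x => (1 - u x ^ 2) ^ 2 * ‖fderiv ℝ η x‖ ^ 2) := by
      have hcc : Continuous (fun x => (1 - u x ^ 2) ^ 2 * ‖fderiv ℝ η x‖ ^ 2) :=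
        (hqc.pow 2).mul (((hη.smooth.continuous_fderiv (by norm_num)).norm).pow 2)
      refine hcc.integrable_of_hasCompactSupport ?_
      have h := (hη.hcs.fderiv ℝ).norm
      have h' : HasCompactSupport fun x => ‖fderiv ℝ η x‖ ^ 2 := by
        simp only [sq]
        exact h.mul_left
      exact h'.mul_left
    have hgI : IntegrableOn (fun x => (C / r) ^ 2 * (4 * dgDens n u x)) (ball 0 (3 * r)) :=
      ((dgKa_dens_integrableOn hu1 0 (3 * r)).const_mul 4).const_mul _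
    have hle := dgKa_int_le_ball hJ3 hgI (fun x => ?_)
    · rw [integral_const_mul, integral_const_mul] at hle
      unfold dgEn
      linarith
    · by_cases hx : x ∈ ball (0 : DgE n) (3 * r)
      · rw [indicator_of_mem hx]
        have h2 : ‖fderiv ℝ η x‖ ^ 2 ≤ (C / r) ^ 2 :=
          pow_le_pow_left₀ (norm_nonneg _) (hη.grad x) 2
        have h3 : (1 - u x ^ 2) ^ 2 ≤ 4 * dgDens n u x := by
          unfold dgDens dgW
          have : 0 ≤ ‖fderiv ℝ u x‖ ^ 2 / 2 := by positivity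
          linarith
        calc (1 - u x ^ 2) ^ 2 * ‖fderiv ℝ η x‖ ^ 2 ≤ (4 * dgDens n u x) * (C / r) ^ 2 :=
              mul_le_mul h3 h2 (sq_nonneg _) ((sq_nonneg _).trans h3)
          _ = (C / r) ^ 2 * (4 * dgDens n u x) := by ring
      · rw [indicator_of_notMem hx, hη.fderiv_zero hr hx]
        simp
  have hd := dgKa_L1 hu hr hη
  have hr4 : 0 ≤ 1 / (4 * r) := by positivity
  calc ∫ x in ball 0 r, dgXi n u x ≤ ∫ x, dgXi n u x * η x ^ 2 := ha
    _ ≤ r * (∫ x, (1 - u x ^ 2) * dgXi n u x * η x ^ 2)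
        + 1 / (4 * r) * ∫ x, η x * (1 - u x ^ 2) := hb
    _ ≤ _ := add_le_add (mul_le_mul_of_nonneg_left hc hr.le) (mul_le_mul_of_nonneg_left hd hr4)

/-- trivial bound (small radii): `ξ ≤ W ≤ 1/4`. -/
theorem dgKa_small {u : DgE n → ℝ} (hu : DgSol n u) {r : ℝ} (hr : 0 < r) :
    ∫ x in ball 0 r, dgXi n u x ≤ 1 / 4 * volume.real (ball (0 : DgE n) 1) * r ^ n := by
  have hu1 : ContDiff ℝ 1 u := hu.smooth.of_le (by norm_num)
  refine dgcu_setIntegral_le_of_bound (fun x => ?_) 0 hr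
    (((dgKa_xi_continuous hu1).continuousOn.integrableOn_compact (isCompact_closedBall 0 r)).mono_set
      ball_subset_closedBall)
  have h := hu.range x
  have h0 : 0 ≤ 1 - u x ^ 2 := by nlinarith [h.1, h.2]
  have h1 : 1 - u x ^ 2 ≤ 1 := by nlinarith [sq_nonneg (u x)]
  have h2 : 0 ≤ ‖fderiv ℝ u x‖ ^ 2 / 2 := by positivity
  unfold dgXi dgW
  nlinarith

/-- the arithmetic of the core inequality. -/
theorem dgKa_arith (m : ℕ) {C A om E V r : ℝ} (hr : 1 ≤ r) (hom : 0 ≤ om)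
    (hE : E ≤ A * r ^ (m + 1)) (hV : V = (3 * r) ^ (m + 2) * om) :
    r * ((C / r) ^ 2 * E) + 1 / (4 * r) * (7 * E + (C / r) ^ 2 / 2 * V)
      ≤ (C ^ 2 * A + 7 / 4 * A + C ^ 2 * 3 ^ (m + 2) * om / 8) * r ^ m := by
  have hr0 : 0 < r := by linarith
  have hrm : 0 < r ^ m := pow_pos hr0 m
  have h1 : r * ((C / r) ^ 2 * E) ≤ r * ((C / r) ^ 2 * (A * r ^ (m + 1))) :=
    mul_le_mul_of_nonneg_left (mul_le_mul_of_nonneg_left hE (sq_nonneg _)) hr0.le
  have e1 : r * ((C / r) ^ 2 * (A * r ^ (m + 1))) = C ^ 2 * A * r ^ m := by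
    field_simp
    ring
  have h2 : 1 / (4 * r) * (7 * E) ≤ 1 / (4 * r) * (7 * (A * r ^ (m + 1))) :=
    mul_le_mul_of_nonneg_left (by linarith) (by positivity)
  have e2 : 1 / (4 * r) * (7 * (A * r ^ (m + 1))) = 7 / 4 * A * r ^ m := by
    field_simp
    ring
  have e3 : 1 / (4 * r) * ((C / r) ^ 2 / 2 * V) = C ^ 2 * 3 ^ (m + 2) * om / 8 * (r ^ m / r) := by
    rw [hV, mul_pow]
    field_simp
    ring
  have h3 : r ^ m / r ≤ r ^ m := div_le_self hrm.le hr
  have h4 : C ^ 2 * 3 ^ (m + 2) * om / 8 * (r ^ m / r) ≤ C ^ 2 * 3 ^ (m + 2) * om / 8 * r ^ m :=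
    mul_le_mul_of_nonneg_left h3 (by positivity)
  calc r * ((C / r) ^ 2 * E) + 1 / (4 * r) * (7 * E + (C / r) ^ 2 / 2 * V)
      = r * ((C / r) ^ 2 * E) + 1 / (4 * r) * (7 * E) + 1 / (4 * r) * ((C / r) ^ 2 / 2 * V) := by
        ring
    _ ≤ C ^ 2 * A * r ^ m + 7 / 4 * A * r ^ m + C ^ 2 * 3 ^ (m + 2) * om / 8 * r ^ m := by
        rw [e3]
        linarith
    _ = _ := by ring

/-- **The rate at the centre `0`**, ambient dimension `m + 2`; `K` depends on `m`, `C₀` only. -/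
theorem dgKa_zero (m : ℕ) (C₀ : ℝ) : ∃ K : ℝ, 0 ≤ K ∧ ∀ u : DgE (m + 2) → ℝ, DgSol (m + 2) u →
    DgStable (m + 2) u → (∀ R, 1 ≤ R → dgEn (m + 2) u 0 R ≤ C₀ * R ^ (m + 1)) →
    ∀ r, 0 < r → ∫ x in ball 0 r, dgXi (m + 2) u x ≤ K * r ^ m := by
  obtain ⟨C, hC0, hC⟩ := dgKa_exists_cut (m + 2)
  set om : ℝ := volume.real (ball (0 : DgE (m + 2)) 1) with hom
  have hom0 : 0 ≤ om := measureReal_nonneg
  set A : ℝ := |C₀| * 3 ^ (m + 1) with hA
  have hA0 : 0 ≤ A := by positivity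
  refine ⟨(C ^ 2 * A + 7 / 4 * A + C ^ 2 * 3 ^ (m + 2) * om / 8) + 1 / 4 * om, by positivity,
    fun u hu hs hE r hr => ?_⟩
  have hrm : 0 < r ^ m := pow_pos hr m
  rcases le_total 1 r with h1 | h1
  · obtain ⟨η, hη⟩ := hC r hr
    have hcore := dgKa_core hu hs hr hη
    have hE' : dgEn (m + 2) u 0 (3 * r) ≤ A * r ^ (m + 1) := by
      refine (hE (3 * r) (by linarith)).trans ?_
      rw [mul_pow, hA]
      have : C₀ * (3 ^ (m + 1) * r ^ (m + 1)) ≤ |C₀| * (3 ^ (m + 1) * r ^ (m + 1)) :=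
        mul_le_mul_of_nonneg_right (le_abs_self _) (by positivity)
      linarith
    have hV : (volume : Measure (DgE (m + 2))).real (ball 0 (3 * r)) = (3 * r) ^ (m + 2) * om :=
      dgcu_volume_ball 0 (by positivity)
    have := dgKa_arith m (C := C) h1 hom0 hE' hV
    have h5 : 0 ≤ 1 / 4 * om * r ^ m := by positivity
    nlinarith
  · have hsm := dgKa_small hu hr
    have h2 : r ^ (m + 2) ≤ r ^ m := pow_le_pow_of_le_one hr.le h1 (by omega)
    have h3 : 1 / 4 * om * r ^ (m + 2) ≤ 1 / 4 * om * r ^ m :=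
      mul_le_mul_of_nonneg_left h2 (by positivity)
    have h4 : 0 ≤ (C ^ 2 * A + 7 / 4 * A + C ^ 2 * 3 ^ (m + 2) * om / 8) * r ^ m := by positivity
    nlinarith

theorem dgKa_xi_translate (u : DgE n → ℝ) (y x : DgE n) :
    dgXi n (fun z => u (z + y)) x = dgXi n u (x + y) := by
  unfold dgXi
  rw [fderiv_comp_add_right]

theorem dgKa_setIntegral_translate (f : DgE n → ℝ) (y : DgE n) (r : ℝ) :
    ∫ x in ball 0 r, f (x + y) = ∫ x in ball y r, f x := by
  have h := (measurePreserving_add_right (volume : Measure (DgE n)) y).setIntegral_preimage_emb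
    (measurableEmbedding_addRight y) f (ball y r)
  have hpre : (fun x => x + y) ⁻¹' ball y r = ball (0 : DgE n) r := by
    ext x
    simp [dist_eq_norm]
  rw [hpre] at h
  exact h

/-- **EXIT (post B7.K = P1 DISC of order C6-4).**  The discrepancy of a stable solution with energy growth
`C₀ R^{n-1}` has the rate `∫_{B_r(y)} ξ ≤ K r^{n-2}`: every centre, every radius, `K = K(n, C₀)`. -/
theorem dgKa_exit (n : ℕ) (hn : 2 ≤ n) (C₀ : ℝ) : ∃ K : ℝ, 0 ≤ K ∧ ∀ u : DgE n → ℝ, DgSol n u →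
    DgStable n u → ∀ y : DgE n, (∀ R, 1 ≤ R → dgEn n u y R ≤ C₀ * R ^ (n - 1)) →
    ∀ r, 0 < r → ∫ x in ball y r, (dgW (u x) - ‖fderiv ℝ u x‖ ^ 2 / 2) ≤ K * r ^ (n - 2) := by
  obtain ⟨m, rfl⟩ : ∃ m, n = m + 2 := ⟨n - 2, by omega⟩
  obtain ⟨K, hK0, hK⟩ := dgKa_zero m C₀
  refine ⟨K, hK0, fun u hu hs y hE r hr => ?_⟩
  have h := hK (fun x => u (x + y)) (dgro_sol_translate y hu) (dgro_stable_translate y hs)
    (fun R hR => by
      rw [dgro_en_translate, zero_add]
      exact hE R hR) r hr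
  simp only [dgKa_xi_translate] at h
  rw [dgKa_setIntegral_translate (dgXi (m + 2) u) y r] at h
  exact h

/-- the same in the words of P1 (hypothesis at all centres and radii). -/
theorem dgKa_exit_P1 (n : ℕ) (hn : 2 ≤ n) (C₀ : ℝ) : ∃ K : ℝ, 0 ≤ K ∧ ∀ u : DgE n → ℝ, DgSol n u →
    DgStable n u → (∀ (y : DgE n) (r : ℝ), 0 < r → dgEn n u y r ≤ C₀ * r ^ (n - 1)) →
    ∀ (y : DgE n) (r : ℝ), 0 < r →
      ∫ x in ball y r, (dgW (u x) - ‖fderiv ℝ u x‖ ^ 2 / 2) ≤ K * r ^ (n - 2) := by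
  obtain ⟨K, hK0, hK⟩ := dgKa_exit n hn C₀
  exact ⟨K, hK0, fun u hu hs hE y r hr =>
    hK u hu hs y (fun R hR => hE y R (by linarith)) r hr⟩

end

end Claimed.Agent.R329
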