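import Claimed.Agent.R329.Defs
import Claimed.Agent.Lib.Ell.MaxP

/-!
# Row 329, post A5: MODICA'S GRADIENT BOUND `|∇v|²/2 ≤ W(v)` for entire solutions `v : ℝⁿ → [-1,1]` of `Δ v = v³ - v`.   (pen: helper68; prefix `dgA5_`)

Source: paper, Sec. 2.1 (`eq:diffuse-modica`).   THE PROOF HERE IS NOT THE PAPER'S (translation compactness + strong maximum principle + gradient flow):
it is a bare second derivative test, so that the post needs NOTHING of A2 (strong maximum principle) and A4 (compactness); of A3 only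
the QUALITATIVE smoothness `ContDiff ℝ ∞ v` (no bound) is used, as a hypothesis of the exit.

1. (Bernstein) `Φ = (1-|z|²)² |∇v|² + λ v²`, `λ = 2n+18`, on the closed unit ball: at an interior maximum `0 ≥ ΔΦ ≥ 2|∇v|² - λ/2`.  Hence `|∇v|² ≤ 5λ/4` everywhere.
2. (modified P-function) `P_β = |∇v|²/2 - W(v) + β v²/2`.  With `F' = W'(v) - β v`:
   `|∇v|² ΔP_β ≥ |∇P_β|² + 2F' ∇v·∇P_β + β |∇v|⁴`     (Cauchy-Schwarz for `D²v ∇v`; `v W'(v) ≤ 0` on `[-1,1]`).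
   At the maximum point `y` of `P_β - ε|z|²`: `∇P_β = 2εy`, `ΔP_β ≤ 2nε`, `ε|y|² ≤ osc P_β`; so `β|∇v(y)|⁴ → 0` as `ε → 0`, and
   `P_β(0) ≤ P_β(y) ≤ |∇v(y)|²/2 + β/2`.  If `P_0(0) = δ > 0` take `β = δ`: `|∇v(y)|² ≥ δ` for all `ε`: contradiction.

EXITS (end of the file): `dgA5_grad_bound`, `dgA5_modica`, `dgA5_modica_of_reg`.
-/

set_option autoImplicit false
open scoped ContDiff RealInnerProductSpace Topology
open Metric Set Filter

namespace Claimed.Agent.R329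

open Claimed.Agent.Lib.Ell

variable {n : ℕ}

/-- coordinate vectors -/
noncomputable abbrev dgA5_e (i : Fin n) : DgE n := EuclideanSpace.single i 1

/-! ### 1. calculus of directional derivatives of smooth functions on `DgE n` -/

section kit

variable {f g : DgE n → ℝ} {x : DgE n}

theorem dgA5_sm_dd (hf : ContDiff ℝ ∞ f) (h : DgE n) : ContDiff ℝ ∞ (dd h f) :=
  (hf.fderiv_right (by simp)).clm_apply contDiff_const

theorem dgA5_diff (hf : ContDiff ℝ ∞ f) (x : DgE n) : DifferentiableAt ℝ f x :=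
  hf.differentiable (by simp) x

theorem dgA5_dd_mul (hf : DifferentiableAt ℝ f x) (hg : DifferentiableAt ℝ g x) (v : DgE n) :
    dd v (fun z => f z * g z) x = dd v f x * g x + f x * dd v g x := by
  simp only [dd]
  rw [fderiv_fun_mul hf hg]
  simp only [add_apply, smul_apply, smul_eq_mul]
  ring

theorem dgA5_dd_add (hf : DifferentiableAt ℝ f x) (hg : DifferentiableAt ℝ g x) (v : DgE n) :
    dd v (fun z => f z + g z) x = dd v f x + dd v g x := by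
  simp only [dd]
  rw [fderiv_fun_add hf hg]
  rfl

theorem dgA5_dd_sub (hf : DifferentiableAt ℝ f x) (hg : DifferentiableAt ℝ g x) (v : DgE n) :
    dd v (fun z => f z - g z) x = dd v f x - dd v g x := by
  simp only [dd]
  rw [fderiv_fun_sub hf hg]
  rfl

theorem dgA5_dd_const_mul (hf : DifferentiableAt ℝ f x) (c : ℝ) (v : DgE n) :
    dd v (fun z => c * f z) x = c * dd v f x := by
  simp only [dd]
  rw [fderiv_const_mul hf]
  rfl

theorem dgA5_dd_sum {ι : Type} (s : Finset ι) {F : ι → DgE n → ℝ} (hF : ∀ i ∈ s, DifferentiableAt ℝ (F i) x)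
    (v : DgE n) : dd v (fun z => ∑ i ∈ s, F i z) x = ∑ i ∈ s, dd v (F i) x := by
  simp only [dd]
  rw [fderiv_fun_sum hF]
  simp

theorem dgA5_dd_comp {φ : ℝ → ℝ} {a : ℝ} (hφ : HasDerivAt φ a (f x)) (hf : DifferentiableAt ℝ f x) (v : DgE n) :
    dd v (fun z => φ (f z)) x = a * dd v f x := by
  show fderiv ℝ (φ ∘ f) x v = _
  rw [(hφ.comp_hasFDerivAt x hf.hasFDerivAt).fderiv]
  rfl

theorem dgA5_dd_coord (i : Fin n) (x v : DgE n) : dd v (fun z : DgE n => z i) x = v i := by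
  simp only [dd]
  have : HasFDerivAt (fun z : DgE n => z i) (EuclideanSpace.proj i : DgE n →L[ℝ] ℝ) x :=
    (EuclideanSpace.proj i : DgE n →L[ℝ] ℝ).hasFDerivAt
  rw [this.fderiv]
  rfl

theorem dgA5_dd_const (c : ℝ) (x v : DgE n) : dd v (fun _ : DgE n => c) x = 0 := by
  simp [dd]

theorem dgA5_dd2_mul (hf : ContDiff ℝ ∞ f) (hg : ContDiff ℝ ∞ g) (x v : DgE n) :
    dd v (dd v (fun z => f z * g z)) x
      = dd v (dd v f) x * g x + 2 * (dd v f x * dd v g x) + f x * dd v (dd v g) x := by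
  have h1 : dd v (fun z => f z * g z) = fun z => dd v f z * g z + f z * dd v g z := funext fun z =>
    dgA5_dd_mul (dgA5_diff hf z) (dgA5_diff hg z) v
  rw [h1]
  have hf' := dgA5_diff (dgA5_sm_dd hf v) x
  have hg' := dgA5_diff (dgA5_sm_dd hg v) x
  have hf0 := dgA5_diff hf x
  have hg0 := dgA5_diff hg x
  rw [dgA5_dd_add (hf'.fun_mul hg0) (hf0.fun_mul hg'), dgA5_dd_mul hf' hg0, dgA5_dd_mul hf0 hg']
  ring

theorem dgA5_dd2_comp {φ φ' φ'' : ℝ → ℝ} (h1 : ∀ s, HasDerivAt φ (φ' s) s) (h2 : ∀ s, HasDerivAt φ' (φ'' s) s)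
    (hf : ContDiff ℝ ∞ f) (x v : DgE n) :
    dd v (dd v (fun z => φ (f z))) x = φ'' (f x) * dd v f x ^ 2 + φ' (f x) * dd v (dd v f) x := by
  have e1 : dd v (fun z => φ (f z)) = fun z => φ' (f z) * dd v f z := funext fun z =>
    dgA5_dd_comp (h1 _) (dgA5_diff hf z) v
  rw [e1]
  have hf' := dgA5_diff (dgA5_sm_dd hf v) x
  have hf0 := dgA5_diff hf x
  have hc : DifferentiableAt ℝ (fun z => φ' (f z)) x :=
    ((h2 (f x)).comp_hasFDerivAt x hf0.hasFDerivAt).differentiableAt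
  rw [dgA5_dd_mul hc hf', dgA5_dd_comp (h2 _) hf0]
  ring

theorem dgA5_dd_comm (hf : ContDiff ℝ ∞ f) (x a b : DgE n) : dd a (dd b f) x = dd b (dd a f) x :=
  ell_dd_comm isOpen_univ (hf.contDiffOn.of_le (by norm_cast)) (mem_univ x) a b

/-- third derivatives commute. -/
theorem dgA5_dd3 (hf : ContDiff ℝ ∞ f) (x a b : DgE n) :
    dd a (dd a (dd b f)) x = dd b (dd a (dd a f)) x := by
  rw [dgA5_dd_comm (dgA5_sm_dd hf a) x b a]
  have : dd a (dd b f) = dd b (dd a f) := funext fun z => dgA5_dd_comm hf z a b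
  rw [this]

theorem dgA5_dd2_add (hf : ContDiff ℝ ∞ f) (hg : ContDiff ℝ ∞ g) (x v : DgE n) :
    dd v (dd v (fun z => f z + g z)) x = dd v (dd v f) x + dd v (dd v g) x := by
  have h1 : dd v (fun z => f z + g z) = fun z => dd v f z + dd v g z := funext fun z =>
    dgA5_dd_add (dgA5_diff hf z) (dgA5_diff hg z) v
  rw [h1]
  exact dgA5_dd_add (dgA5_diff (dgA5_sm_dd hf v) x) (dgA5_diff (dgA5_sm_dd hg v) x) v

theorem dgA5_dd2_sub (hf : ContDiff ℝ ∞ f) (hg : ContDiff ℝ ∞ g) (x v : DgE n) :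
    dd v (dd v (fun z => f z - g z)) x = dd v (dd v f) x - dd v (dd v g) x := by
  have h1 : dd v (fun z => f z - g z) = fun z => dd v f z - dd v g z := funext fun z =>
    dgA5_dd_sub (dgA5_diff hf z) (dgA5_diff hg z) v
  rw [h1]
  exact dgA5_dd_sub (dgA5_diff (dgA5_sm_dd hf v) x) (dgA5_diff (dgA5_sm_dd hg v) x) v

theorem dgA5_dd2_const_mul (hf : ContDiff ℝ ∞ f) (c : ℝ) (x v : DgE n) :
    dd v (dd v (fun z => c * f z)) x = c * dd v (dd v f) x := by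
  have h1 : dd v (fun z => c * f z) = fun z => c * dd v f z := funext fun z =>
    dgA5_dd_const_mul (dgA5_diff hf z) c v
  rw [h1]
  exact dgA5_dd_const_mul (dgA5_diff (dgA5_sm_dd hf v) x) c v

theorem dgA5_dd2_sum {ι : Type} (s : Finset ι) {F : ι → DgE n → ℝ} (hF : ∀ i ∈ s, ContDiff ℝ ∞ (F i)) (x v : DgE n) :
    dd v (dd v (fun z => ∑ i ∈ s, F i z)) x = ∑ i ∈ s, dd v (dd v (F i)) x := by
  have h1 : dd v (fun z => ∑ i ∈ s, F i z) = fun z => ∑ i ∈ s, dd v (F i) z := funext fun z =>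
    dgA5_dd_sum s (fun i hi => dgA5_diff (hF i hi) z) v
  rw [h1]
  exact dgA5_dd_sum s (fun i hi => dgA5_diff (dgA5_sm_dd (hF i hi) v) x) v

/-- first order condition. -/
theorem dgA5_dd_eq_zero_of_max (hmax : IsLocalMax f x) (v : DgE n) : dd v f x = 0 := by
  simp only [dd, hmax.fderiv_eq_zero]; rfl

/-- second order condition. -/
theorem dgA5_dd2_nonpos_of_max (hf : ContDiff ℝ ∞ f) (hmax : IsLocalMax f x) (v : DgE n) :
    dd v (dd v f) x ≤ 0 := by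
  have h2 : ContDiffOn ℝ 2 f univ := hf.contDiffOn.of_le (by norm_cast)
  rw [← ell_d2_apply isOpen_univ h2 (mem_univ x)]
  exact ell_d2_nonpos_of_isLocalMax (h2.contDiffAt univ_mem) hmax _

theorem dgA5_dd_shift (f : DgE n → ℝ) (a h : DgE n) : dd h (fun z => f (z + a)) = fun z => dd h f (z + a) := by
  funext z
  simp only [dd]
  rw [fderiv_comp_add_right]

end kit

/-! ### 2. `|z|²`, `|Dv|²`, solutions in coordinates -/

/-- `|z|²` in coordinates. -/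
noncomputable def dgA5_N (z : DgE n) : ℝ := ∑ i, z i * z i

/-- `|Dv|²` in coordinates. -/
noncomputable def dgA5_Q (v : DgE n → ℝ) (z : DgE n) : ℝ := ∑ i, dd (dgA5_e i) v z * dd (dgA5_e i) v z

theorem dgA5_N_eq (z : DgE n) : dgA5_N z = ‖z‖ ^ 2 := by
  rw [EuclideanSpace.norm_sq_eq]
  simp [dgA5_N, pow_two]

theorem dgA5_Q_eq (v : DgE n → ℝ) (z : DgE n) : dgA5_Q v z = ‖fderiv ℝ v z‖ ^ 2 := by
  rw [← ell_norm_gradient, EuclideanSpace.norm_sq_eq]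
  unfold dgA5_Q
  refine Finset.sum_congr rfl fun i _ => ?_
  have : dd (dgA5_e i) v z = gradient v z i := by
    rw [ell_dd_eq_inner, EuclideanSpace.inner_single_right]
    simp
  rw [this, Real.norm_eq_abs, sq_abs, pow_two]

theorem dgA5_N_nonneg (z : DgE n) : 0 ≤ dgA5_N z := Finset.sum_nonneg fun _ _ => mul_self_nonneg _

theorem dgA5_Q_nonneg (v : DgE n → ℝ) (z : DgE n) : 0 ≤ dgA5_Q v z := Finset.sum_nonneg fun _ _ => mul_self_nonneg _

theorem dgA5_coord_smooth (i : Fin n) : ContDiff ℝ ∞ (fun z : DgE n => z i) :=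
  (EuclideanSpace.proj i : DgE n →L[ℝ] ℝ).contDiff

theorem dgA5_N_smooth : ContDiff ℝ ∞ (dgA5_N : DgE n → ℝ) := by
  unfold dgA5_N
  exact ContDiff.sum fun i _ => (dgA5_coord_smooth i).mul (dgA5_coord_smooth i)

theorem dgA5_e_sum (k : Fin n) (a : Fin n → ℝ) : ∑ i, a i * (dgA5_e k : DgE n) i = a k := by
  simp

theorem dgA5_dd_N (z v : DgE n) : dd v dgA5_N z = 2 * ∑ i, z i * v i := by
  unfold dgA5_N
  have hc : ∀ i : Fin n, DifferentiableAt ℝ (fun z : DgE n => z i) z := fun i => dgA5_diff (dgA5_coord_smooth i) z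
  rw [dgA5_dd_sum _ (fun i _ => (hc i).fun_mul (hc i)), Finset.mul_sum]
  refine Finset.sum_congr rfl fun i _ => ?_
  rw [dgA5_dd_mul (hc i) (hc i), dgA5_dd_coord]
  ring

theorem dgA5_dd2_N (z v : DgE n) : dd v (dd v dgA5_N) z = 2 * ∑ i, v i * v i := by
  have e : dd v (dgA5_N : DgE n → ℝ) = fun z => 2 * ∑ i, z i * v i := funext fun z => dgA5_dd_N z v
  rw [e]
  have hc : ∀ i : Fin n, DifferentiableAt ℝ (fun z : DgE n => z i) z := fun i => dgA5_diff (dgA5_coord_smooth i) z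
  have hc' : ∀ i : Fin n, DifferentiableAt ℝ (fun z : DgE n => z i * v i) z := fun i => (hc i).mul_const _
  rw [dgA5_dd_const_mul (DifferentiableAt.fun_sum fun i _ => hc' i), dgA5_dd_sum _ (fun i _ => hc' i)]
  congr 1
  refine Finset.sum_congr rfl fun i _ => ?_
  rw [dgA5_dd_mul (hc i) (differentiableAt_const _), dgA5_dd_coord, dgA5_dd_const]
  ring

theorem dgA5_dd_N_e (z : DgE n) (k : Fin n) : dd (dgA5_e k) dgA5_N z = 2 * z k := by
  rw [dgA5_dd_N, dgA5_e_sum]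

theorem dgA5_dd2_N_e (z : DgE n) (k : Fin n) : dd (dgA5_e k) (dd (dgA5_e k) dgA5_N) z = 2 := by
  rw [dgA5_dd2_N, dgA5_e_sum]
  simp

/-- smooth entire solutions with values in `[-1,1]`, in coordinates. -/
structure dgA5_Sol (n : ℕ) (v : DgE n → ℝ) : Prop where
  sm : ContDiff ℝ ∞ v
  bd : ∀ z, v z ^ 2 ≤ 1
  eq : ∀ z, ∑ k, dd (dgA5_e k) (dd (dgA5_e k) v) z = v z ^ 3 - v z

theorem dgA5_Sol.shift {v : DgE n → ℝ} (h : dgA5_Sol n v) (a : DgE n) : dgA5_Sol n fun z => v (z + a) where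
  sm := h.sm.comp (contDiff_id.add contDiff_const)
  bd := fun z => h.bd _
  eq := fun z => by
    have e : ∀ k : Fin n, dd (dgA5_e k) (dd (dgA5_e k) fun z => v (z + a)) z
        = dd (dgA5_e k) (dd (dgA5_e k) v) (z + a) := fun k => by
      rw [dgA5_dd_shift v a, dgA5_dd_shift (dd (dgA5_e k) v) a]
    simp only [e]
    exact h.eq _

section formulas

variable {v : DgE n → ℝ}

theorem dgA5_Q_smooth (hs : ContDiff ℝ ∞ v) : ContDiff ℝ ∞ (dgA5_Q v) := by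
  unfold dgA5_Q
  exact ContDiff.sum fun i _ => (dgA5_sm_dd hs _).mul (dgA5_sm_dd hs _)

theorem dgA5_dd_Q (hs : ContDiff ℝ ∞ v) (x w : DgE n) :
    dd w (dgA5_Q v) x = 2 * ∑ i, dd (dgA5_e i) v x * dd w (dd (dgA5_e i) v) x := by
  have hd : ∀ i : Fin n, DifferentiableAt ℝ (dd (dgA5_e i) v) x := fun i => dgA5_diff (dgA5_sm_dd hs _) x
  unfold dgA5_Q
  rw [dgA5_dd_sum _ (fun i _ => (hd i).fun_mul (hd i)), Finset.mul_sum]
  refine Finset.sum_congr rfl fun i _ => ?_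
  rw [dgA5_dd_mul (hd i) (hd i)]
  ring

theorem dgA5_dd2_Q (hs : ContDiff ℝ ∞ v) (x w : DgE n) :
    dd w (dd w (dgA5_Q v)) x
      = 2 * ∑ i, (dd w (dd (dgA5_e i) v) x ^ 2 + dd (dgA5_e i) v x * dd w (dd w (dd (dgA5_e i) v)) x) := by
  have hd : ∀ i : Fin n, ContDiff ℝ ∞ (dd (dgA5_e i) v) := fun i => dgA5_sm_dd hs _
  unfold dgA5_Q
  rw [dgA5_dd2_sum _ (fun i _ => (hd i).mul (hd i)), Finset.mul_sum]
  refine Finset.sum_congr rfl fun i _ => ?_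
  rw [dgA5_dd2_mul (hd i) (hd i)]
  ring

theorem dgA5_cube_deriv (s : ℝ) : HasDerivAt (fun s : ℝ => s ^ 3 - s) (3 * s ^ 2 - 1) s := by
  have := (hasDerivAt_pow 3 s).fun_sub (hasDerivAt_id' s)
  simpa using this

/-- the differentiated equation: `Δ v_i = (3v²-1) v_i`. -/
theorem dgA5_lap_di (h : dgA5_Sol n v) (x : DgE n) (i : Fin n) :
    ∑ k, dd (dgA5_e k) (dd (dgA5_e k) (dd (dgA5_e i) v)) x = (3 * v x ^ 2 - 1) * dd (dgA5_e i) v x := by
  have h1 : ∀ k : Fin n, dd (dgA5_e k) (dd (dgA5_e k) (dd (dgA5_e i) v)) x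
      = dd (dgA5_e i) (dd (dgA5_e k) (dd (dgA5_e k) v)) x := fun k => dgA5_dd3 h.sm x _ _
  simp only [h1]
  rw [← dgA5_dd_sum _ (fun k _ => dgA5_diff (dgA5_sm_dd (dgA5_sm_dd h.sm _) _) x)]
  have h2 : (fun z => ∑ k, dd (dgA5_e k) (dd (dgA5_e k) v) z) = fun z => (fun s : ℝ => s ^ 3 - s) (v z) :=
    funext fun z => h.eq z
  rw [h2]
  exact dgA5_dd_comp (dgA5_cube_deriv _) (dgA5_diff h.sm x) _

/-- `Δ |Dv|² = 2|D²v|² + 2(3v²-1)|Dv|²`. -/
theorem dgA5_lap_Q (h : dgA5_Sol n v) (x : DgE n) :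
    ∑ k, dd (dgA5_e k) (dd (dgA5_e k) (dgA5_Q v)) x
      = 2 * (∑ k, ∑ i, dd (dgA5_e k) (dd (dgA5_e i) v) x ^ 2) + 2 * ((3 * v x ^ 2 - 1) * dgA5_Q v x) := by
  simp only [dgA5_dd2_Q h.sm, Finset.sum_add_distrib, ← Finset.mul_sum]
  rw [mul_add]
  congr 2
  rw [Finset.sum_comm]
  simp only [← Finset.mul_sum, dgA5_lap_di h x]
  unfold dgA5_Q
  rw [Finset.mul_sum]
  exact Finset.sum_congr rfl fun i _ => by ring

/-- `Δ v² = 2|Dv|² + 2 v (v³ - v)`. -/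
theorem dgA5_lap_sq (h : dgA5_Sol n v) (x : DgE n) :
    ∑ k, dd (dgA5_e k) (dd (dgA5_e k) (fun z => v z ^ 2)) x = 2 * dgA5_Q v x + 2 * v x * (v x ^ 3 - v x) := by
  have h1 : ∀ s : ℝ, HasDerivAt (fun s : ℝ => s ^ 2) (2 * s) s := fun s => by
    simpa using hasDerivAt_pow 2 s
  have h2 : ∀ s : ℝ, HasDerivAt (fun s : ℝ => 2 * s) 2 s := fun s => by
    simpa using (hasDerivAt_id' s).const_mul 2
  have e : ∀ k : Fin n, dd (dgA5_e k) (dd (dgA5_e k) (fun z => v z ^ 2)) x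
      = 2 * dd (dgA5_e k) v x ^ 2 + 2 * v x * dd (dgA5_e k) (dd (dgA5_e k) v) x := fun k =>
    dgA5_dd2_comp (φ := fun s : ℝ => s ^ 2) (φ' := fun s => 2 * s) (φ'' := fun _ => 2) h1 h2 h.sm x _
  simp only [e, Finset.sum_add_distrib, ← Finset.mul_sum, h.eq x]
  unfold dgA5_Q
  congr 2
  exact Finset.sum_congr rfl fun i _ => by ring

end formulas

/-! ### 3. Bernstein's gradient bound -/

/-- the weight `(1-|z|²)²`. -/
noncomputable def dgA5_Z (z : DgE n) : ℝ := (1 - dgA5_N z) ^ 2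

theorem dgA5_Z_smooth : ContDiff ℝ ∞ (dgA5_Z : DgE n → ℝ) :=
  (contDiff_const.sub dgA5_N_smooth).pow 2

theorem dgA5_Z_d1 (s : ℝ) : HasDerivAt (fun s : ℝ => (1 - s) ^ 2) (-2 * (1 - s)) s := by
  have h1 : HasDerivAt (fun s : ℝ => 1 - s) (-1) s := by simpa using (hasDerivAt_id' s).const_sub 1
  have h2 := h1.fun_pow 2
  have e : -2 * (1 - s) = ((2 : ℕ) : ℝ) * (1 - s) ^ (2 - 1) * -1 := by
    push_cast
    ring
  rw [e]
  exact h2

theorem dgA5_Z_d2 (s : ℝ) : HasDerivAt (fun s : ℝ => -2 * (1 - s)) 2 s := by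
  have h1 : HasDerivAt (fun s : ℝ => 1 - s) (-1) s := by simpa using (hasDerivAt_id' s).const_sub 1
  have h2 := h1.const_mul (-2)
  have e : (-2 : ℝ) * -1 = 2 := by norm_num
  rw [e] at h2
  exact h2

theorem dgA5_dd_Z (z : DgE n) (k : Fin n) : dd (dgA5_e k) dgA5_Z z = -4 * (1 - dgA5_N z) * z k := by
  have := dgA5_dd_comp (f := dgA5_N) (dgA5_Z_d1 (dgA5_N z)) (dgA5_diff dgA5_N_smooth z) (dgA5_e k)
  unfold dgA5_Z
  rw [this, dgA5_dd_N_e]
  ring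

theorem dgA5_dd2_Z (z : DgE n) (k : Fin n) :
    dd (dgA5_e k) (dd (dgA5_e k) dgA5_Z) z = 8 * z k ^ 2 - 4 * (1 - dgA5_N z) := by
  have := dgA5_dd2_comp (f := dgA5_N) (φ := fun s : ℝ => (1 - s) ^ 2) (φ' := fun s => -2 * (1 - s)) (φ'' := fun _ => 2)
    dgA5_Z_d1 dgA5_Z_d2 dgA5_N_smooth z (dgA5_e k)
  unfold dgA5_Z
  rw [this, dgA5_dd_N_e, dgA5_dd2_N_e]
  ring

/-- Bernstein's function. -/
noncomputable def dgA5_Phi (lam : ℝ) (v : DgE n → ℝ) (z : DgE n) : ℝ := dgA5_Z z * dgA5_Q v z + lam * v z ^ 2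

theorem dgA5_Phi_smooth (lam : ℝ) {v : DgE n → ℝ} (hs : ContDiff ℝ ∞ v) : ContDiff ℝ ∞ (dgA5_Phi lam v) :=
  (dgA5_Z_smooth.mul (dgA5_Q_smooth hs)).add (contDiff_const.mul (hs.pow 2))

theorem dgA5_bern_alg (y u : Fin n → ℝ) (h : Fin n → Fin n → ℝ) (ζ : ℝ) :
    16 * ζ * ∑ k, y k * ∑ i, u i * h k i
      ≤ 2 * ζ ^ 2 * (∑ k, ∑ i, h k i ^ 2) + 32 * ((∑ k, y k * y k) * ∑ i, u i * u i) := by
  calc 16 * ζ * ∑ k, y k * ∑ i, u i * h k i = ∑ k, ∑ i, 16 * ζ * (y k * (u i * h k i)) := by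
        simp only [Finset.mul_sum]
    _ ≤ ∑ k, ∑ i, (2 * ζ ^ 2 * h k i ^ 2 + 32 * (y k * y k * (u i * u i))) := by
        refine Finset.sum_le_sum fun k _ => Finset.sum_le_sum fun i _ => ?_
        nlinarith [sq_nonneg (ζ * h k i - 4 * (y k * u i))]
    _ = _ := by
        rw [Finset.sum_mul_sum]
        simp only [Finset.sum_add_distrib, Finset.mul_sum]

theorem dgA5_lap_Phi (lam : ℝ) {v : DgE n → ℝ} (h : dgA5_Sol n v) (x : DgE n) :
    ∑ k, dd (dgA5_e k) (dd (dgA5_e k) (dgA5_Phi lam v)) x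
      = (8 * dgA5_N x - 4 * n * (1 - dgA5_N x)) * dgA5_Q v x
        - 16 * (1 - dgA5_N x) * (∑ k, x k * ∑ i, dd (dgA5_e i) v x * dd (dgA5_e k) (dd (dgA5_e i) v) x)
        + (1 - dgA5_N x) ^ 2 * (2 * (∑ k, ∑ i, dd (dgA5_e k) (dd (dgA5_e i) v) x ^ 2)
            + 2 * ((3 * v x ^ 2 - 1) * dgA5_Q v x))
        + lam * (2 * dgA5_Q v x + 2 * v x * (v x ^ 3 - v x)) := by
  have hQ := dgA5_Q_smooth h.sm
  have e : ∀ k : Fin n, dd (dgA5_e k) (dd (dgA5_e k) (dgA5_Phi lam v)) x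
      = (8 * x k ^ 2 - 4 * (1 - dgA5_N x)) * dgA5_Q v x
        + 2 * ((-4 * (1 - dgA5_N x) * x k) * (2 * ∑ i, dd (dgA5_e i) v x * dd (dgA5_e k) (dd (dgA5_e i) v) x))
        + (1 - dgA5_N x) ^ 2 * dd (dgA5_e k) (dd (dgA5_e k) (dgA5_Q v)) x
        + lam * dd (dgA5_e k) (dd (dgA5_e k) (fun z => v z ^ 2)) x := fun k => by
    unfold dgA5_Phi
    rw [dgA5_dd2_add (dgA5_Z_smooth.mul hQ) (contDiff_const.mul (h.sm.pow 2)), dgA5_dd2_mul dgA5_Z_smooth hQ,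
      dgA5_dd2_const_mul (h.sm.pow 2), dgA5_dd2_Z, dgA5_dd_Z, dgA5_dd_Q h.sm]
    rfl
  simp only [e, Finset.sum_add_distrib, ← Finset.mul_sum, ← Finset.sum_mul, dgA5_lap_Q h x, dgA5_lap_sq h x]
  have e1 : ∑ k : Fin n, (8 * x k ^ 2 - 4 * (1 - dgA5_N x)) = 8 * dgA5_N x - 4 * n * (1 - dgA5_N x) := by
    rw [Finset.sum_sub_distrib, ← Finset.mul_sum]
    simp only [Finset.sum_const, Finset.card_univ, Fintype.card_fin, nsmul_eq_mul]
    unfold dgA5_N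
    have : ∑ k : Fin n, x k ^ 2 = ∑ k : Fin n, x k * x k := Finset.sum_congr rfl fun i _ => by ring
    rw [this]
    ring
  have e2 : ∑ k : Fin n, -4 * (1 - dgA5_N x) * x k * (2 * ∑ i, dd (dgA5_e i) v x * dd (dgA5_e k) (dd (dgA5_e i) v) x)
      = -8 * (1 - dgA5_N x) * ∑ k, x k * ∑ i, dd (dgA5_e i) v x * dd (dgA5_e k) (dd (dgA5_e i) v) x := by
    rw [Finset.mul_sum]
    exact Finset.sum_congr rfl fun k _ => by ring
  rw [e1, e2]
  ring

theorem dgA5_bern_core {v : DgE n → ℝ} (h : dgA5_Sol n v) {y : DgE n} (hy : dgA5_N y < 1)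
    (hmax : IsLocalMax (dgA5_Phi (2 * n + 18) v) y) : dgA5_Q v y ≤ (2 * n + 18) / 4 := by
  have hlap : ∑ k, dd (dgA5_e k) (dd (dgA5_e k) (dgA5_Phi (2 * n + 18) v)) y ≤ 0 :=
    Finset.sum_nonpos fun k _ => dgA5_dd2_nonpos_of_max (dgA5_Phi_smooth _ h.sm) hmax _
  rw [dgA5_lap_Phi _ h y] at hlap
  have halg := dgA5_bern_alg (fun k => y k) (fun i => dd (dgA5_e i) v y)
    (fun k i => dd (dgA5_e k) (dd (dgA5_e i) v) y) (1 - dgA5_N y)
  have hN0 := dgA5_N_nonneg y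
  have hQ0 := dgA5_Q_nonneg v y
  have hv := h.bd y
  set N := dgA5_N y with hNdef
  set Q := dgA5_Q v y with hQdef
  set H2 := ∑ k, ∑ i, dd (dgA5_e k) (dd (dgA5_e i) v) y ^ 2 with hH2
  set C := ∑ k, y k * ∑ i, dd (dgA5_e i) v y * dd (dgA5_e k) (dd (dgA5_e i) v) y with hC
  have halg' : 16 * (1 - N) * C ≤ 2 * (1 - N) ^ 2 * H2 + 32 * (N * Q) := halg
  have hn : (0 : ℝ) ≤ n := Nat.cast_nonneg n
  have a1 : -(4 * n) * Q ≤ (8 * N - 4 * n * (1 - N)) * Q := by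
    have : -(4 * (n : ℝ)) ≤ 8 * N - 4 * n * (1 - N) := by nlinarith
    exact mul_le_mul_of_nonneg_right this hQ0
  have a2 : N * Q ≤ Q := by nlinarith
  have a3 : -Q ≤ (1 - N) ^ 2 * ((3 * v y ^ 2 - 1) * Q) := by
    have b1 : (1 - N) ^ 2 ≤ 1 := by nlinarith
    have b0 : 0 ≤ (1 - N) ^ 2 := sq_nonneg _
    have b2 : -Q ≤ (3 * v y ^ 2 - 1) * Q := by nlinarith [sq_nonneg (v y)]
    have b3 : (1 - N) ^ 2 * (-Q) ≤ (1 - N) ^ 2 * ((3 * v y ^ 2 - 1) * Q) := mul_le_mul_of_nonneg_left b2 b0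
    nlinarith
  have a4 : -(1 / 4 : ℝ) ≤ v y * (v y ^ 3 - v y) := by nlinarith [sq_nonneg (v y ^ 2 - 1 / 2)]
  have a5 : (2 * (n : ℝ) + 18) * (-(1 / 4 : ℝ)) ≤ (2 * n + 18) * (v y * (v y ^ 3 - v y)) :=
    mul_le_mul_of_nonneg_left a4 (by positivity)
  nlinarith

theorem dgA5_bern_zero {v : DgE n → ℝ} (h : dgA5_Sol n v) : dgA5_Q v 0 ≤ 5 / 4 * (2 * n + 18) := by
  have hn : (0 : ℝ) ≤ n := Nat.cast_nonneg n
  obtain ⟨y, hyK, hymax⟩ := (isCompact_closedBall (0 : DgE n) 1).exists_isMaxOn ⟨0, by simp⟩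
    (dgA5_Phi_smooth (2 * n + 18) h.sm).continuous.continuousOn
  have h0 : dgA5_Phi (2 * n + 18) v 0 ≤ dgA5_Phi (2 * n + 18) v y := hymax (by simp)
  have hN0 : dgA5_N (0 : DgE n) = 0 := by simp [dgA5_N]
  have hy1 : dgA5_N y ≤ 1 := by
    rw [dgA5_N_eq]
    have : ‖y‖ ≤ 1 := by simpa using hyK
    nlinarith [norm_nonneg y]
  have hl : dgA5_Q v 0 ≤ dgA5_Phi (2 * n + 18) v 0 := by
    unfold dgA5_Phi dgA5_Z
    rw [hN0]
    have : 0 ≤ (2 * (n : ℝ) + 18) * v 0 ^ 2 := by positivity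
    linarith
  have hv := h.bd y
  have hQ0 := dgA5_Q_nonneg v y
  have hNn := dgA5_N_nonneg y
  have hlv : (2 * (n : ℝ) + 18) * v y ^ 2 ≤ 2 * n + 18 := by nlinarith
  rcases lt_or_eq_of_le hy1 with hlt | heq
  · have hloc : IsLocalMax (dgA5_Phi (2 * n + 18) v) y := by
      refine hymax.isLocalMax (mem_of_superset (isOpen_ball.mem_nhds ?_) ball_subset_closedBall)
      rw [mem_ball_zero_iff]
      rw [dgA5_N_eq] at hlt
      nlinarith [norm_nonneg y]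
    have hc := dgA5_bern_core h hlt hloc
    have hZ : dgA5_Z y * dgA5_Q v y ≤ dgA5_Q v y := by
      have : dgA5_Z y ≤ 1 := by unfold dgA5_Z; nlinarith
      nlinarith
    have : dgA5_Phi (2 * n + 18) v y ≤ (2 * n + 18) / 4 + (2 * n + 18) := by
      unfold dgA5_Phi
      linarith
    linarith
  · have : dgA5_Phi (2 * n + 18) v y ≤ 2 * n + 18 := by
      unfold dgA5_Phi dgA5_Z
      rw [heq]
      simpa using hlv
    linarith

theorem dgA5_Q_shift (v : DgE n → ℝ) (a z : DgE n) : dgA5_Q (fun z => v (z + a)) z = dgA5_Q v (z + a) := by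
  unfold dgA5_Q
  simp only [dgA5_dd_shift v a]

/-- **gradient bound** in coordinates. -/
theorem dgA5_bern {v : DgE n → ℝ} (h : dgA5_Sol n v) (x : DgE n) : dgA5_Q v x ≤ 5 / 4 * (2 * n + 18) := by
  have := dgA5_bern_zero (h.shift x)
  rwa [dgA5_Q_shift, zero_add] at this

/-! ### 4. the modified P-function -/

/-- `φ_β(s) = -W(s) + β s²/2`. -/
noncomputable def dgA5_phi (β s : ℝ) : ℝ := -((1 - s ^ 2) ^ 2 / 4) + β / 2 * s ^ 2

theorem dgA5_phi_d1 (β s : ℝ) : HasDerivAt (dgA5_phi β) (-(s ^ 3 - s) + β * s) s := by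
  unfold dgA5_phi
  have h1 : HasDerivAt (fun s : ℝ => 1 - s ^ 2) (-(2 * s)) s := by
    simpa using ((hasDerivAt_pow 2 s).const_sub 1)
  have h2 : HasDerivAt (fun s : ℝ => (1 - s ^ 2) ^ 2 / 4) ((2 : ℕ) * (1 - s ^ 2) ^ (2 - 1) * -(2 * s) / 4) s :=
    (h1.fun_pow 2).div_const 4
  have h3 : HasDerivAt (fun s : ℝ => β / 2 * s ^ 2) (β / 2 * (2 * s)) s := by
    simpa using (hasDerivAt_pow 2 s).const_mul (β / 2)
  have h4 := h2.fun_neg.fun_add h3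
  have e : -(s ^ 3 - s) + β * s = -((2 : ℕ) * (1 - s ^ 2) ^ (2 - 1) * -(2 * s) / 4) + β / 2 * (2 * s) := by
    push_cast
    ring
  rw [e]
  exact h4

theorem dgA5_phi_d2 (β s : ℝ) : HasDerivAt (fun s : ℝ => -(s ^ 3 - s) + β * s) (-(3 * s ^ 2 - 1) + β) s := by
  have h3 : HasDerivAt (fun s : ℝ => β * s) β s := by
    simpa using (hasDerivAt_id' s).const_mul β
  exact (dgA5_cube_deriv s).fun_neg.fun_add h3

theorem dgA5_phi_smooth (β : ℝ) : ContDiff ℝ ∞ (dgA5_phi β) := by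
  unfold dgA5_phi
  fun_prop

/-- `P_β = |Dv|²/2 - W(v) + β v²/2`. -/
noncomputable def dgA5_P (β : ℝ) (v : DgE n → ℝ) (z : DgE n) : ℝ := 1 / 2 * dgA5_Q v z + dgA5_phi β (v z)

/-- `Ψ = P_β - ε |z|²`. -/
noncomputable def dgA5_Psi (β ε : ℝ) (v : DgE n → ℝ) (z : DgE n) : ℝ := dgA5_P β v z - ε * dgA5_N z

section Pfun

variable {v : DgE n → ℝ}

theorem dgA5_P_smooth (β : ℝ) (hs : ContDiff ℝ ∞ v) : ContDiff ℝ ∞ (dgA5_P β v) :=
  (contDiff_const.mul (dgA5_Q_smooth hs)).add ((dgA5_phi_smooth β).comp hs)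

theorem dgA5_Psi_smooth (β ε : ℝ) (hs : ContDiff ℝ ∞ v) : ContDiff ℝ ∞ (dgA5_Psi β ε v) :=
  (dgA5_P_smooth β hs).sub (contDiff_const.mul dgA5_N_smooth)

theorem dgA5_dd_Psi (β ε : ℝ) (hs : ContDiff ℝ ∞ v) (x : DgE n) (k : Fin n) :
    dd (dgA5_e k) (dgA5_Psi β ε v) x
      = (∑ i, dd (dgA5_e i) v x * dd (dgA5_e k) (dd (dgA5_e i) v) x)
        + (-(v x ^ 3 - v x) + β * v x) * dd (dgA5_e k) v x - ε * (2 * x k) := by
  have hQ := dgA5_diff (dgA5_Q_smooth hs) x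
  have hc : DifferentiableAt ℝ (fun z => dgA5_phi β (v z)) x := dgA5_diff ((dgA5_phi_smooth β).comp hs) x
  unfold dgA5_Psi dgA5_P
  rw [dgA5_dd_sub ((hQ.const_mul _).fun_add hc) ((dgA5_diff dgA5_N_smooth x).const_mul _),
    dgA5_dd_add (hQ.const_mul _) hc, dgA5_dd_const_mul hQ, dgA5_dd_const_mul (dgA5_diff dgA5_N_smooth x),
    dgA5_dd_comp (dgA5_phi_d1 β _) (dgA5_diff hs x), dgA5_dd_Q hs, dgA5_dd_N_e]
  ring

theorem dgA5_lap_Psi (β ε : ℝ) (h : dgA5_Sol n v) (x : DgE n) :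
    ∑ k, dd (dgA5_e k) (dd (dgA5_e k) (dgA5_Psi β ε v)) x
      = (∑ k, ∑ i, dd (dgA5_e k) (dd (dgA5_e i) v) x ^ 2) + β * dgA5_Q v x
        + (-(v x ^ 3 - v x) + β * v x) * (v x ^ 3 - v x) - 2 * n * ε := by
  have hQ := dgA5_Q_smooth h.sm
  have e : ∀ k : Fin n, dd (dgA5_e k) (dd (dgA5_e k) (dgA5_Psi β ε v)) x
      = 1 / 2 * dd (dgA5_e k) (dd (dgA5_e k) (dgA5_Q v)) x
        + ((-(3 * v x ^ 2 - 1) + β) * dd (dgA5_e k) v x ^ 2
          + (-(v x ^ 3 - v x) + β * v x) * dd (dgA5_e k) (dd (dgA5_e k) v) x) - ε * 2 := fun k => by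
    have hc : ContDiff ℝ ∞ (fun z => dgA5_phi β (v z)) := (dgA5_phi_smooth β).comp h.sm
    have hQ' : ContDiff ℝ ∞ (fun z => 1 / 2 * dgA5_Q v z) := contDiff_const.mul hQ
    have hN' : ContDiff ℝ ∞ (fun z : DgE n => ε * dgA5_N z) := contDiff_const.mul dgA5_N_smooth
    have hs' : ContDiff ℝ ∞ (fun z => 1 / 2 * dgA5_Q v z + dgA5_phi β (v z)) := hQ'.add hc
    unfold dgA5_Psi dgA5_P
    rw [dgA5_dd2_sub hs' hN', dgA5_dd2_add hQ' hc, dgA5_dd2_const_mul hQ,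
      dgA5_dd2_const_mul dgA5_N_smooth, dgA5_dd2_N_e,
      dgA5_dd2_comp (φ := dgA5_phi β) (φ' := fun s => -(s ^ 3 - s) + β * s) (φ'' := fun s => -(3 * s ^ 2 - 1) + β)
        (dgA5_phi_d1 β) (dgA5_phi_d2 β) h.sm]
  simp only [e, Finset.sum_add_distrib, Finset.sum_sub_distrib, ← Finset.mul_sum, dgA5_lap_Q h x, h.eq x]
  have e1 : ∑ k : Fin n, dd (dgA5_e k) v x ^ 2 = dgA5_Q v x := by
    unfold dgA5_Q
    exact Finset.sum_congr rfl fun i _ => by ring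
  rw [e1]
  simp only [Finset.sum_const, Finset.card_univ, Fintype.card_fin, nsmul_eq_mul]
  ring

end Pfun

theorem dgA5_cs (u : Fin n → ℝ) (h : Fin n → Fin n → ℝ) :
    ∑ k, (∑ i, u i * h k i) ^ 2 ≤ (∑ i, u i * u i) * ∑ k, ∑ i, h k i ^ 2 := by
  rw [Finset.mul_sum]
  refine Finset.sum_le_sum fun k _ => ?_
  have := Finset.sum_mul_sq_le_sq_mul_sq Finset.univ u (h k)
  have e : ∑ i, u i ^ 2 = ∑ i, u i * u i := Finset.sum_congr rfl fun i _ => by ring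
  rwa [e] at this

theorem dgA5_cs1 (p u : Fin n → ℝ) : (∑ k, p k * u k) ^ 2 ≤ (∑ k, p k * p k) * ∑ k, u k * u k := by
  have := Finset.sum_mul_sq_le_sq_mul_sq Finset.univ p u
  have e : ∑ i, u i ^ 2 = ∑ i, u i * u i := Finset.sum_congr rfl fun i _ => by ring
  have e' : ∑ i, p i ^ 2 = ∑ i, p i * p i := Finset.sum_congr rfl fun i _ => by ring
  rwa [e, e'] at this

/-- the differential inequality at a maximum point of `Ψ`:  `β |Dv|⁴ ≤ 2nε |Dv|² - 2 F' (2εy · Dv)`. -/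
theorem dgA5_mod_core {v : DgE n → ℝ} (h : dgA5_Sol n v) {β ε : ℝ} (hβ : 0 ≤ β) {y : DgE n}
    (hmax : IsLocalMax (dgA5_Psi β ε v) y) :
    β * dgA5_Q v y ^ 2 ≤ 2 * n * ε * dgA5_Q v y
      - 2 * ((v y ^ 3 - v y) - β * v y) * ∑ k, (2 * ε * y k) * dd (dgA5_e k) v y := by
  have hlap : ∑ k, dd (dgA5_e k) (dd (dgA5_e k) (dgA5_Psi β ε v)) y ≤ 0 :=
    Finset.sum_nonpos fun k _ => dgA5_dd2_nonpos_of_max (dgA5_Psi_smooth _ _ h.sm) hmax _
  rw [dgA5_lap_Psi _ _ h y] at hlap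
  have hgrad : ∀ k : Fin n, ∑ i, dd (dgA5_e i) v y * dd (dgA5_e k) (dd (dgA5_e i) v) y
      = 2 * ε * y k + ((v y ^ 3 - v y) - β * v y) * dd (dgA5_e k) v y := fun k => by
    have := dgA5_dd_eq_zero_of_max hmax (dgA5_e k)
    rw [dgA5_dd_Psi _ _ h.sm] at this
    linarith
  have hcs := dgA5_cs (fun i => dd (dgA5_e i) v y) (fun k i => dd (dgA5_e k) (dd (dgA5_e i) v) y)
  simp only [hgrad] at hcs
  have hQ0 := dgA5_Q_nonneg v y
  have hv := h.bd y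
  have hexp : ∑ k : Fin n, (2 * ε * y k + ((v y ^ 3 - v y) - β * v y) * dd (dgA5_e k) v y) ^ 2
      = (∑ k : Fin n, (2 * ε * y k) ^ 2)
        + 2 * ((v y ^ 3 - v y) - β * v y) * (∑ k, (2 * ε * y k) * dd (dgA5_e k) v y)
        + ((v y ^ 3 - v y) - β * v y) ^ 2 * dgA5_Q v y := by
    unfold dgA5_Q
    simp only [Finset.mul_sum, ← Finset.sum_add_distrib]
    exact Finset.sum_congr rfl fun k _ => by ring
  rw [hexp] at hcs
  have hS : 0 ≤ ∑ k : Fin n, (2 * ε * y k) ^ 2 := Finset.sum_nonneg fun _ _ => sq_nonneg _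
  change _ ≤ dgA5_Q v y * _ at hcs
  set Q := dgA5_Q v y with hQdef
  set H2 := ∑ k, ∑ i, dd (dgA5_e k) (dd (dgA5_e i) v) y ^ 2 with hH2
  set a := ∑ k, (2 * ε * y k) * dd (dgA5_e k) v y with ha
  set S := ∑ k : Fin n, (2 * ε * y k) ^ 2 with hSdef
  have h1 : Q * H2 ≤ Q * (2 * n * ε - β * Q - (-(v y ^ 3 - v y) + β * v y) * (v y ^ 3 - v y)) :=
    mul_le_mul_of_nonneg_left (by linarith) hQ0
  have hT : β * (v y * (v y ^ 3 - v y)) - β ^ 2 * v y ^ 2 ≤ 0 := by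
    have t1 : v y * (v y ^ 3 - v y) ≤ 0 := by nlinarith [sq_nonneg (v y)]
    have t2 : β * (v y * (v y ^ 3 - v y)) ≤ 0 := mul_nonpos_of_nonneg_of_nonpos hβ t1
    have t3 : 0 ≤ β ^ 2 * v y ^ 2 := by positivity
    linarith
  have h2 : Q * (β * (v y * (v y ^ 3 - v y)) - β ^ 2 * v y ^ 2) ≤ 0 := mul_nonpos_of_nonneg_of_nonpos hQ0 hT
  nlinarith

theorem dgA5_phi_le {β s : ℝ} (hβ : 0 ≤ β) (hs : s ^ 2 ≤ 1) : dgA5_phi β s ≤ β / 2 := by
  unfold dgA5_phi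
  nlinarith [sq_nonneg (1 - s ^ 2)]

/-- a continuous function `≤ B - ε|z|²` has a global maximum. -/
theorem dgA5_exists_max {Ψ : DgE n → ℝ} (hc : Continuous Ψ) {B ε : ℝ} (hε : 0 < ε)
    (hB : ∀ z, Ψ z ≤ B - ε * dgA5_N z) : ∃ y, ∀ z, Ψ z ≤ Ψ y := by
  have hB0 : Ψ 0 ≤ B := by
    have := hB 0
    have h0 : dgA5_N (0 : DgE n) = 0 := by simp [dgA5_N]
    rw [h0] at this
    linarith
  set R : ℝ := (B - Ψ 0) / ε + 1 with hR
  have hR1 : 1 ≤ R := by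
    have : 0 ≤ (B - Ψ 0) / ε := div_nonneg (by linarith) hε.le
    linarith
  obtain ⟨y, -, hymax⟩ := (isCompact_closedBall (0 : DgE n) R).exists_isMaxOn
    ⟨0, by simp only [mem_closedBall, dist_self]; linarith⟩ hc.continuousOn
  refine ⟨y, fun z => ?_⟩
  by_cases hz : ‖z‖ ≤ R
  · exact hymax (by simpa using hz)
  · rw [not_le] at hz
    have h0 : Ψ 0 ≤ Ψ y := hymax (by simp only [mem_closedBall, dist_self]; linarith)
    have h1 := hB z
    rw [dgA5_N_eq] at h1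
    have h2 : R ≤ ‖z‖ ^ 2 := by nlinarith
    have h3 : ε * R = B - Ψ 0 + ε := by
      rw [hR]
      field_simp
    have h4 : ε * R ≤ ε * ‖z‖ ^ 2 := mul_le_mul_of_nonneg_left h2 hε.le
    linarith

theorem dgA5_mod_eps {v : DgE n → ℝ} (h : dgA5_Sol n v) {δ : ℝ} (hδ : 0 < δ)
    (h0 : δ ≤ 1 / 2 * dgA5_Q v 0 - (1 - v 0 ^ 2) ^ 2 / 4) {ε : ℝ} (hε : 0 < ε) :
    δ ^ 3 ≤ 2 * n * ε * (5 / 4 * (2 * n + 18))
      + Real.sqrt (16 * (1 + δ) ^ 2 * ((5 / 4 * (2 * n + 18)) / 2 + δ / 2) * (5 / 4 * (2 * n + 18)) * ε) := by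
  have hn : (0 : ℝ) ≤ n := Nat.cast_nonneg n
  set G2 : ℝ := 5 / 4 * (2 * n + 18) with hG2
  have hG0 : 0 ≤ G2 := by positivity
  set B : ℝ := G2 / 2 + δ / 2 with hBdef
  have hPle : ∀ z, dgA5_P δ v z ≤ 1 / 2 * dgA5_Q v z + δ / 2 := fun z => by
    unfold dgA5_P
    linarith [dgA5_phi_le hδ.le (h.bd z)]
  have hPB : ∀ z, dgA5_P δ v z ≤ B := fun z => by
    have := hPle z
    have := dgA5_bern h z
    linarith
  have hP0 : δ ≤ dgA5_P δ v 0 := by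
    unfold dgA5_P dgA5_phi
    have : 0 ≤ δ / 2 * v 0 ^ 2 := by positivity
    linarith
  obtain ⟨y, hy⟩ := dgA5_exists_max (dgA5_Psi_smooth δ ε h.sm).continuous hε (B := B)
    (fun z => by unfold dgA5_Psi; linarith [hPB z])
  have hloc : IsLocalMax (dgA5_Psi δ ε v) y := Filter.Eventually.of_forall hy
  have hcore := dgA5_mod_core h hδ.le hloc
  have hy0 := hy 0
  have hN0 : dgA5_N (0 : DgE n) = 0 := by simp [dgA5_N]
  unfold dgA5_Psi at hy0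
  rw [hN0, mul_zero, sub_zero] at hy0
  have hNy := dgA5_N_nonneg y
  have hεN : ε * dgA5_N y ≤ B := by linarith [hPB y]
  have hεN0 : 0 ≤ ε * dgA5_N y := by positivity
  have hQy : δ ≤ dgA5_Q v y := by linarith [hPle y]
  have hQG := dgA5_bern h y
  have hv := h.bd y
  -- the cross term
  have hcs := dgA5_cs1 (fun k => 2 * ε * y k) (fun k => dd (dgA5_e k) v y)
  have hpp : ∑ k : Fin n, 2 * ε * y k * (2 * ε * y k) = 4 * ε * (ε * dgA5_N y) := by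
    unfold dgA5_N
    simp only [Finset.mul_sum]
    exact Finset.sum_congr rfl fun k _ => by ring
  rw [hpp] at hcs
  change _ ≤ _ * dgA5_Q v y at hcs
  set Q := dgA5_Q v y with hQdef
  set a := ∑ k, (2 * ε * y k) * dd (dgA5_e k) v y with ha
  set F := (v y ^ 3 - v y) - δ * v y with hF
  have ha2 : a ^ 2 ≤ 4 * ε * B * G2 := by
    have t1 : 4 * ε * (ε * dgA5_N y) ≤ 4 * ε * B := mul_le_mul_of_nonneg_left hεN (by positivity)
    have hB0 : 0 ≤ 4 * ε * B := le_trans (by positivity) t1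
    calc a ^ 2 ≤ 4 * ε * (ε * dgA5_N y) * Q := hcs
      _ ≤ 4 * ε * B * Q := mul_le_mul_of_nonneg_right t1 (by linarith)
      _ ≤ 4 * ε * B * G2 := mul_le_mul_of_nonneg_left hQG hB0
  have hvabs : |v y| ≤ 1 := by
    rw [← sq_le_one_iff_abs_le_one]
    exact hv
  have hvl := (abs_le.1 hvabs).1
  have hvu := (abs_le.1 hvabs).2
  have hF2 : F ^ 2 ≤ (1 + δ) ^ 2 := by
    have w1 : v y ^ 3 - v y ≤ 1 := by nlinarith [sq_nonneg (v y), sq_nonneg (v y + 1), sq_nonneg (v y - 1)]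
    have w2 : -1 ≤ v y ^ 3 - v y := by nlinarith [sq_nonneg (v y), sq_nonneg (v y + 1), sq_nonneg (v y - 1)]
    have w3 : δ * v y ≤ δ := by nlinarith
    have w4 : -δ ≤ δ * v y := by nlinarith
    have : |F| ≤ 1 + δ := by
      rw [abs_le, hF]
      constructor <;> linarith
    calc F ^ 2 = |F| ^ 2 := (sq_abs F).symm
      _ ≤ (1 + δ) ^ 2 := pow_le_pow_left₀ (abs_nonneg F) this 2
  have hFa : (2 * F * a) ^ 2 ≤ 16 * (1 + δ) ^ 2 * B * G2 * ε := by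
    have t0 : 0 ≤ a ^ 2 := sq_nonneg a
    have t1 : F ^ 2 * a ^ 2 ≤ (1 + δ) ^ 2 * (4 * ε * B * G2) :=
      mul_le_mul hF2 ha2 t0 (sq_nonneg _)
    calc (2 * F * a) ^ 2 = 4 * (F ^ 2 * a ^ 2) := by ring
      _ ≤ 4 * ((1 + δ) ^ 2 * (4 * ε * B * G2)) := by linarith
      _ = 16 * (1 + δ) ^ 2 * B * G2 * ε := by ring
  have habs : |2 * F * a| ≤ Real.sqrt (16 * (1 + δ) ^ 2 * B * G2 * ε) := Real.abs_le_sqrt hFa
  have hneg : -(2 * F * a) ≤ Real.sqrt (16 * (1 + δ) ^ 2 * B * G2 * ε) := (neg_le_abs _).trans habs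
  have hcube : δ ^ 3 ≤ δ * Q ^ 2 := by
    have : δ ^ 2 ≤ Q ^ 2 := pow_le_pow_left₀ hδ.le hQy 2
    calc δ ^ 3 = δ * δ ^ 2 := by ring
      _ ≤ δ * Q ^ 2 := mul_le_mul_of_nonneg_left this hδ.le
  have hlin : 2 * n * ε * Q ≤ 2 * n * ε * G2 := mul_le_mul_of_nonneg_left hQG (by positivity)
  linarith

/-- **Modica's bound at the origin**, in coordinates. -/
theorem dgA5_mod_zero {v : DgE n → ℝ} (h : dgA5_Sol n v) : 1 / 2 * dgA5_Q v 0 ≤ (1 - v 0 ^ 2) ^ 2 / 4 := by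
  by_contra hcon
  rw [not_le] at hcon
  set δ : ℝ := 1 / 2 * dgA5_Q v 0 - (1 - v 0 ^ 2) ^ 2 / 4 with hδdef
  have hδ : 0 < δ := by linarith
  set s : ℝ → ℝ := fun ε => 2 * n * ε * (5 / 4 * (2 * n + 18))
      + Real.sqrt (16 * (1 + δ) ^ 2 * ((5 / 4 * (2 * n + 18)) / 2 + δ / 2) * (5 / 4 * (2 * n + 18)) * ε) with hs
  have hcont : Continuous s := by
    rw [hs]
    fun_prop
  have hlim : Tendsto s (𝓝[>] 0) (𝓝 (s 0)) := hcont.continuousAt.tendsto.mono_left nhdsWithin_le_nhds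
  have hev : ∀ᶠ ε in 𝓝[>] (0 : ℝ), δ ^ 3 ≤ s ε :=
    eventually_of_mem self_mem_nhdsWithin fun ε hε => dgA5_mod_eps h hδ le_rfl hε
  have hle : δ ^ 3 ≤ s 0 := ge_of_tendsto hlim hev
  have hs0 : s 0 = 0 := by simp [hs]
  rw [hs0] at hle
  have : 0 < δ ^ 3 := by positivity
  linarith

/-- **Modica's bound**, in coordinates. -/
theorem dgA5_mod {v : DgE n → ℝ} (h : dgA5_Sol n v) (x : DgE n) :
    1 / 2 * dgA5_Q v x ≤ (1 - v x ^ 2) ^ 2 / 4 := by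
  have := dgA5_mod_zero (h.shift x)
  rwa [dgA5_Q_shift, zero_add] at this

/-! ### 5. from the frozen words to coordinates -/

theorem dgA5_laplacian_eq {v : DgE n → ℝ} (hv : ContDiff ℝ 2 v) (z : DgE n) :
    Laplacian.laplacian v z = ∑ k, dd (dgA5_e k) (dd (dgA5_e k) v) z := by
  have h1 := congrFun (InnerProductSpace.laplacian_eq_iteratedFDeriv_orthonormalBasis v
    (EuclideanSpace.basisFun (Fin n) ℝ)) z
  rw [h1]
  refine Finset.sum_congr rfl fun k _ => ?_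
  rw [iteratedFDeriv_two_apply, EuclideanSpace.basisFun_apply]
  exact ell_d2_apply_aux isOpen_univ hv.contDiffOn (mem_univ z) _ _

theorem dgA5_sol_of {v : DgE n → ℝ} (hv : DgSol n v) (hs : ContDiff ℝ ∞ v) : dgA5_Sol n v where
  sm := hs
  bd := fun z => by
    have := hv.range z
    rw [sq_le_one_iff_abs_le_one, abs_le]
    exact ⟨this.1, this.2⟩
  eq := fun z => by rw [← dgA5_laplacian_eq hv.smooth, hv.pde]

theorem dgA5_eqns_cite : True := by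
  have := @dgA5_e.eq_1; have := @dgA5_N.eq_1; have := @dgA5_Q.eq_1; have := @dgA5_Z.eq_1; have := @dgA5_Phi.eq_1
  have := @dgA5_phi.eq_1; have := @dgA5_P.eq_1; have := @dgA5_Psi.eq_1
  trivial

/-! ## EXITS -/

/-- **A5a: universal gradient bound** `|∇v|² ≤ 5(2n+18)/4` for smooth entire solutions with values in `[-1,1]`. -/
theorem dgA5_grad_bound {v : DgE n → ℝ} (hv : DgSol n v) (hs : ContDiff ℝ ∞ v) (x : DgE n) :
    ‖fderiv ℝ v x‖ ^ 2 ≤ 5 / 4 * (2 * n + 18) := by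
  rw [← dgA5_Q_eq]
  exact dgA5_bern (dgA5_sol_of hv hs) x

/-- **A5: Modica's gradient bound** `|∇v|²/2 ≤ W(v)`  (`eq:diffuse-modica`).  Only the qualitative smoothness of `v` (post A3) is a hypothesis. -/
theorem dgA5_modica {v : DgE n → ℝ} (hv : DgSol n v) (hs : ContDiff ℝ ∞ v) (x : DgE n) :
    ‖fderiv ℝ v x‖ ^ 2 / 2 ≤ dgW (v x) := by
  have := dgA5_mod (dgA5_sol_of hv hs) x
  rw [dgA5_Q_eq] at this
  unfold dgW
  linarith

/-- the same with the regularity contract of post A3 as a hypothesis. -/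
theorem dgA5_modica_of_reg (hreg : ∀ w : DgE n → ℝ, DgSol n w → ContDiff ℝ ∞ w) {v : DgE n → ℝ} (hv : DgSol n v)
    (x : DgE n) : ‖fderiv ℝ v x‖ ^ 2 / 2 ≤ dgW (v x) :=
  dgA5_modica hv (hreg v hv) x

/-- the energy density is at most `2 W(v)`. -/
theorem dgA5_dens_le {v : DgE n → ℝ} (hv : DgSol n v) (hs : ContDiff ℝ ∞ v) (x : DgE n) :
    dgDens n v x ≤ 2 * dgW (v x) := by
  have := dgA5_modica hv hs x
  unfold dgDens
  linarith

end Claimed.Agent.R329
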