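import Claimed.Agent.R329.Defs

/-!
# Row 329, post A6 (chief: helper18), leaf of helper288: the limit of the smooth cut-offs

* `dgpo_cut_tendsto`: `∫ smoothTransition (k (1 - ‖x - y‖² / r²)) e x → ∫_{B_r(y)} e` (dominated convergence);
* `dgpo_psi_antitone`, `dgpo_psi_contDiff`, `dgpo_psi_deriv_nonpos`, `dgpo_psi_eq_zero`: the profile
  `ψ_k(t) = smoothTransition (k (1 - t))`;
* `dgpo_K6b_zero`: the case `n = 0` of the monotonicity formula.
-/

open MeasureTheory Filter Topology Set Metric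

namespace Claimed.Agent.R329

/-- outside the open ball the cut-off vanishes. -/
theorem dgpo_cut_eq_zero {n : ℕ} (y : DgE n) {r : ℝ} (hr : 0 < r) (k : ℕ) {x : DgE n}
    (hx : x ∉ ball y r) : Real.smoothTransition ((k : ℝ) * (1 - ‖x - y‖ ^ 2 / r ^ 2)) = 0 := by
  apply Real.smoothTransition.zero_of_nonpos
  rw [mem_ball, dist_eq_norm, not_lt] at hx
  have h1 : 1 ≤ ‖x - y‖ ^ 2 / r ^ 2 := by
    rw [le_div_iff₀ (by positivity), one_mul]
    exact pow_le_pow_left₀ hr.le hx 2
  have hk : (0 : ℝ) ≤ (k : ℝ) := Nat.cast_nonneg k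
  nlinarith

/-- inside the open ball the cut-off is eventually one. -/
theorem dgpo_cut_eventually_one {n : ℕ} (y : DgE n) {r : ℝ} (hr : 0 < r) {x : DgE n}
    (hx : x ∈ ball y r) :
    ∀ᶠ k : ℕ in atTop, Real.smoothTransition ((k : ℝ) * (1 - ‖x - y‖ ^ 2 / r ^ 2)) = 1 := by
  rw [mem_ball, dist_eq_norm] at hx
  have h1 : ‖x - y‖ ^ 2 / r ^ 2 < 1 := by
    rw [div_lt_one (by positivity)]
    exact pow_lt_pow_left₀ hx (norm_nonneg _) two_ne_zero
  have h2 : 0 < 1 - ‖x - y‖ ^ 2 / r ^ 2 := by linarith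
  obtain ⟨N, hN⟩ := exists_nat_ge (1 / (1 - ‖x - y‖ ^ 2 / r ^ 2))
  filter_upwards [eventually_ge_atTop N] with k hk
  apply Real.smoothTransition.one_of_one_le
  have h3 : (N : ℝ) ≤ (k : ℝ) := by exact_mod_cast hk
  have h4 : 1 / (1 - ‖x - y‖ ^ 2 / r ^ 2) ≤ (k : ℝ) := le_trans hN h3
  rwa [div_le_iff₀ h2] at h4

/-- **The limit leaf**: the smooth cut-offs increase to the indicator of the open ball. -/
theorem dgpo_cut_tendsto {n : ℕ} {e : DgE n → ℝ} (he : Continuous e) (y : DgE n) {r : ℝ}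
    (hr : 0 < r) :
    Tendsto (fun k : ℕ => ∫ x, Real.smoothTransition ((k : ℝ) * (1 - ‖x - y‖ ^ 2 / r ^ 2)) * e x)
      atTop (𝓝 (∫ x in ball y r, e x)) := by
  rw [← integral_indicator measurableSet_ball]
  refine tendsto_integral_of_dominated_convergence
    (fun x => (closedBall y r).indicator (fun x => |e x|) x) ?_ ?_ ?_ ?_
  · intro k
    have hc : Continuous fun x : DgE n =>
        Real.smoothTransition ((k : ℝ) * (1 - ‖x - y‖ ^ 2 / r ^ 2)) * e x :=
      (Real.smoothTransition.continuous.comp (by fun_prop)).mul he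
    exact hc.aestronglyMeasurable
  · exact (he.abs.continuousOn.integrableOn_compact
      (isCompact_closedBall y r)).integrable_indicator measurableSet_closedBall
  · intro k
    refine Eventually.of_forall fun x => ?_
    by_cases hx : x ∈ ball y r
    · rw [indicator_of_mem (ball_subset_closedBall hx), norm_mul, Real.norm_eq_abs, Real.norm_eq_abs,
        abs_of_nonneg (Real.smoothTransition.nonneg _)]
      exact mul_le_of_le_one_left (abs_nonneg _) (Real.smoothTransition.le_one _)
    · rw [dgpo_cut_eq_zero y hr k hx, zero_mul, norm_zero]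
      exact indicator_nonneg (fun z _ => abs_nonneg _) x
  · refine Eventually.of_forall fun x => ?_
    by_cases hx : x ∈ ball y r
    · rw [indicator_of_mem hx]
      refine tendsto_const_nhds.congr' ?_
      filter_upwards [dgpo_cut_eventually_one y hr hx] with k hk
      rw [hk, one_mul]
    · rw [indicator_of_notMem hx]
      refine tendsto_const_nhds.congr fun k => ?_
      rw [dgpo_cut_eq_zero y hr k hx, zero_mul]

/-- the profile `ψ_k(t) = smoothTransition (k (1 - t))` is antitone. -/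
theorem dgpo_psi_antitone (k : ℕ) :
    Antitone fun t : ℝ => Real.smoothTransition ((k : ℝ) * (1 - t)) := by
  intro a b hab
  apply Real.smoothTransition.monotone
  have hk : (0 : ℝ) ≤ (k : ℝ) := Nat.cast_nonneg k
  nlinarith

theorem dgpo_psi_contDiff (k : ℕ) {m : ℕ∞} :
    ContDiff ℝ m fun t : ℝ => Real.smoothTransition ((k : ℝ) * (1 - t)) :=
  Real.smoothTransition.contDiff.comp (by fun_prop)

theorem dgpo_psi_deriv_nonpos (k : ℕ) (t : ℝ) :
    deriv (fun t : ℝ => Real.smoothTransition ((k : ℝ) * (1 - t))) t ≤ 0 :=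
  (dgpo_psi_antitone k).deriv_nonpos

theorem dgpo_psi_eq_zero (k : ℕ) {t : ℝ} (ht : 1 ≤ t) :
    Real.smoothTransition ((k : ℝ) * (1 - t)) = 0 := by
  apply Real.smoothTransition.zero_of_nonpos
  have hk : (0 : ℝ) ≤ (k : ℝ) := Nat.cast_nonneg k
  nlinarith

/-- the case `n = 0` of K6b: everything is constant. -/
theorem dgpo_K6b_zero (v : DgE 0 → ℝ) (c : ℝ) :
    MonotoneOn (fun R : ℝ => dgEn 0 v 0 R / (c * R ^ (0 - 1))) (Ioi 0) := by
  intro a ha b hb _
  have hball : ∀ R : ℝ, 0 < R → ball (0 : DgE 0) R = univ := by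
    intro R hR
    ext x
    simp only [mem_ball, mem_univ, iff_true]
    rw [Subsingleton.elim x 0, dist_self]
    exact hR
  simp only [dgEn, hball a ha, hball b hb]
  simp

end Claimed.Agent.R329
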