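import Claimed.Agent.R329.Defs
import Claimed.Agent.R329.MonoCut

/-!
# Row 329, post A6 (helper18): Modica's monotonicity formula (paper, Section 2.2), without surface integrals.

Road: Pohozaev / stress tensor identity against a `C¹_c` cut-off `η` (`dgA6_pohozaev`), radial cut-offs `η = ψ(|x-y|²/r²)`,
derivative in `r` of `A(r) = ∫ ψ(|x-y|²/r²) e`, sign by Modica's bound, limit `ψ_k ↑ 1_[0,1)`.
-/

set_option autoImplicit false
open MeasureTheory Metric Set Filter Topology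

namespace Claimed.Agent.R329

section base
variable {n : ℕ}

/-- the standard basis vector `e_i` of `ℝⁿ` -/
noncomputable abbrev dgA6_b (i : Fin n) : DgE n := EuclideanSpace.single i (1 : ℝ)

/-- expansion of a vector in the standard basis -/
theorem dgA6_sum_basis (X : DgE n) : ∑ i, X i • dgA6_b i = X := by
  have h := (EuclideanSpace.basisFun (Fin n) ℝ).sum_repr X
  simpa using h

/-- a linear functional evaluated through the standard basis -/
theorem dgA6_sum_apply (L : DgE n →L[ℝ] ℝ) (X : DgE n) : ∑ i, X i * L (dgA6_b i) = L X := by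
  conv_rhs => rw [← dgA6_sum_basis X]
  simp [map_sum]

/-- the operator norm of a functional is the Euclidean norm of its coefficients -/
theorem dgA6_norm_sq (L : DgE n →L[ℝ] ℝ) : ‖L‖ ^ 2 = ∑ i, (L (dgA6_b i)) ^ 2 := by
  set a := (InnerProductSpace.toDual ℝ (DgE n)).symm L with ha
  have h1 : ‖a‖ = ‖L‖ := LinearIsometryEquiv.norm_map _ _
  have h2 : ∀ v, L v = inner ℝ a v := fun v => by
    rw [ha, InnerProductSpace.toDual_symm_apply]
  rw [← h1, EuclideanSpace.norm_sq_eq]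
  refine Finset.sum_congr rfl fun i _ => ?_
  rw [h2]
  simp [EuclideanSpace.inner_single_right]

/-- `∫ ∂_v f = 0` for `f ∈ C¹_c` -/
theorem dgA6_integral_fderiv {f : DgE n → ℝ} (hf : ContDiff ℝ 1 f) (hc : HasCompactSupport f)
    (v : DgE n) : ∫ x, fderiv ℝ f x v = 0 := by
  have hcont : Continuous fun x => fderiv ℝ f x v :=
    (hf.continuous_fderiv one_ne_zero).clm_apply continuous_const
  have h := integral_mul_fderiv_eq_neg_fderiv_mul_of_integrable (μ := (volume : Measure (DgE n)))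
    (f := fun _ => (1 : ℝ)) (g := f) (v := v) (by simp)
    (by simpa using hcont.integrable_of_hasCompactSupport (hc.fderiv_apply (𝕜 := ℝ) v))
    (by simpa using hf.continuous.integrable_of_hasCompactSupport hc)
    (fun x _ => differentiableAt_const _) (fun x _ => hf.differentiable one_ne_zero x)
  simpa using h

/-- the coordinate function `x ↦ x i - y i` and its derivative -/
theorem dgA6_hasFDerivAt_coord (y : DgE n) (i : Fin n) (x : DgE n) :
    HasFDerivAt (fun x : DgE n => x i - y i) (EuclideanSpace.proj i : DgE n →L[ℝ] ℝ) x := by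
  have h : HasFDerivAt (fun x : DgE n => (EuclideanSpace.proj i : DgE n →L[ℝ] ℝ) x)
      (EuclideanSpace.proj i : DgE n →L[ℝ] ℝ) x :=
    (EuclideanSpace.proj i : DgE n →L[ℝ] ℝ).hasFDerivAt
  simpa using h.sub_const (y i)

theorem dgA6_contDiff_coord (y : DgE n) (i : Fin n) :
    ContDiff ℝ 1 (fun x : DgE n => x i - y i) := by
  have h : ContDiff ℝ 1 (fun x : DgE n => (EuclideanSpace.proj i : DgE n →L[ℝ] ℝ) x) :=
    (EuclideanSpace.proj i : DgE n →L[ℝ] ℝ).contDiff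
  simpa using h.sub contDiff_const

/-- Euler's identity `∫ (∇f · (x - y) + n f) = 0` for `f ∈ C¹_c` -/
theorem dgA6_euler {f : DgE n → ℝ} (hf : ContDiff ℝ 1 f) (hc : HasCompactSupport f)
    (y : DgE n) : ∫ x, (fderiv ℝ f x (x - y) + n * f x) = 0 := by
  have key : ∀ i : Fin n, ∫ x, (fderiv ℝ f x (dgA6_b i) * (x i - y i) + f x) = 0 := by
    intro i
    have hF : ContDiff ℝ 1 (fun x : DgE n => f x * (x i - y i)) := hf.mul (dgA6_contDiff_coord y i)
    have hFc : HasCompactSupport (fun x : DgE n => f x * (x i - y i)) := hc.mul_right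
    have h0 := dgA6_integral_fderiv hF hFc (dgA6_b i)
    rw [← h0]
    refine integral_congr_ae (Eventually.of_forall fun x => ?_)
    have h1 := ((hf.differentiable one_ne_zero x).hasFDerivAt.fun_mul (dgA6_hasFDerivAt_coord y i x)).fderiv
    simp only
    rw [h1]
    simp
    ring
  have hint : ∀ i : Fin n, Integrable (fun x : DgE n => fderiv ℝ f x (dgA6_b i) * (x i - y i) + f x) := by
    intro i
    have hcont : Continuous fun x => fderiv ℝ f x (dgA6_b i) :=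
      (hf.continuous_fderiv one_ne_zero).clm_apply continuous_const
    refine Integrable.add ?_ (hf.continuous.integrable_of_hasCompactSupport hc)
    exact (hcont.mul (dgA6_contDiff_coord y i).continuous).integrable_of_hasCompactSupport
      (hc.fderiv_apply (𝕜 := ℝ) _).mul_right
  have hsum : ∫ x, ∑ i : Fin n, (fderiv ℝ f x (dgA6_b i) * (x i - y i) + f x) = 0 := by
    rw [integral_finsetSum _ fun i _ => hint i]
    simp [key]
  rw [← hsum]
  refine integral_congr_ae (Eventually.of_forall fun x => ?_)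
  simp only
  rw [Finset.sum_add_distrib, ← dgA6_sum_apply (fderiv ℝ f x) (x - y)]
  simp [mul_comm]

/-- second derivative notation: `∂_v (∂_w u)` -/
theorem dgA6_hasFDerivAt_partial {u : DgE n → ℝ} (hu : ContDiff ℝ 2 u) (w x : DgE n) :
    HasFDerivAt (fun x => fderiv ℝ u x w) ((fderiv ℝ (fderiv ℝ u) x).flip w) x := by
  have h1 : ContDiff ℝ 1 (fderiv ℝ u) := hu.fderiv_right (m := 1) (by norm_num)
  have h2 := (h1.differentiable one_ne_zero x).hasFDerivAt.clm_apply (hasFDerivAt_const w x)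
  simpa using h2

theorem dgA6_contDiff_partial {u : DgE n → ℝ} (hu : ContDiff ℝ 2 u) (w : DgE n) :
    ContDiff ℝ 1 (fun x => fderiv ℝ u x w) :=
  (hu.fderiv_right (m := 1) (by norm_num)).clm_apply contDiff_const

/-- the Laplacian as the trace of the second derivative -/
theorem dgA6_laplacian (u : DgE n → ℝ) (x : DgE n) :
    Laplacian.laplacian u x = ∑ i, fderiv ℝ (fderiv ℝ u) x (dgA6_b i) (dgA6_b i) := by
  rw [InnerProductSpace.laplacian_eq_iteratedFDeriv_orthonormalBasis u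
    (EuclideanSpace.basisFun (Fin n) ℝ)]
  simp [iteratedFDeriv_two_apply]

/-- the weak form: `∫ (∇φ · ∇u + φ Δu) = 0` for `φ ∈ C¹_c`, `u ∈ C²` -/
theorem dgA6_weak {u φ : DgE n → ℝ} (hu : ContDiff ℝ 2 u) (hφ : ContDiff ℝ 1 φ)
    (hc : HasCompactSupport φ) :
    ∫ x, ((∑ i, fderiv ℝ φ x (dgA6_b i) * fderiv ℝ u x (dgA6_b i))
      + φ x * Laplacian.laplacian u x) = 0 := by
  have hcφ : ∀ i : Fin n, Continuous fun x => fderiv ℝ φ x (dgA6_b i) := fun i =>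
    (hφ.continuous_fderiv one_ne_zero).clm_apply continuous_const
  have hg : ∀ i : Fin n, ContDiff ℝ 1 (fun x => fderiv ℝ u x (dgA6_b i)) := fun i =>
    dgA6_contDiff_partial hu _
  have hcg' : ∀ i : Fin n, Continuous fun x => fderiv ℝ (fun x => fderiv ℝ u x (dgA6_b i)) x (dgA6_b i) :=
    fun i => ((hg i).continuous_fderiv one_ne_zero).clm_apply continuous_const
  have i1 : ∀ i : Fin n, Integrable (fun x => fderiv ℝ φ x (dgA6_b i) * fderiv ℝ u x (dgA6_b i)) :=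
    fun i => ((hcφ i).mul (hg i).continuous).integrable_of_hasCompactSupport
      (hc.fderiv_apply (𝕜 := ℝ) _).mul_right
  have i2 : ∀ i : Fin n, Integrable
      (fun x => φ x * fderiv ℝ (fun x => fderiv ℝ u x (dgA6_b i)) x (dgA6_b i)) :=
    fun i => (hφ.continuous.mul (hcg' i)).integrable_of_hasCompactSupport hc.mul_right
  have i3 : ∀ i : Fin n, Integrable (fun x => φ x * fderiv ℝ u x (dgA6_b i)) :=
    fun i => (hφ.continuous.mul (hg i).continuous).integrable_of_hasCompactSupport hc.mul_right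
  have key : ∀ i : Fin n, ∫ x, (fderiv ℝ φ x (dgA6_b i) * fderiv ℝ u x (dgA6_b i)
      + φ x * fderiv ℝ (fun x => fderiv ℝ u x (dgA6_b i)) x (dgA6_b i)) = 0 := by
    intro i
    have h := integral_mul_fderiv_eq_neg_fderiv_mul_of_integrable
      (μ := (volume : Measure (DgE n))) (f := φ) (g := fun x => fderiv ℝ u x (dgA6_b i))
      (v := dgA6_b i) (i1 i) (i2 i) (i3 i)
      (fun x _ => hφ.differentiable one_ne_zero x) (fun x _ => (hg i).differentiable one_ne_zero x)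
    rw [integral_add (i1 i) (i2 i), h]
    ring
  have hsum : ∫ x, ∑ i : Fin n, (fderiv ℝ φ x (dgA6_b i) * fderiv ℝ u x (dgA6_b i)
      + φ x * fderiv ℝ (fun x => fderiv ℝ u x (dgA6_b i)) x (dgA6_b i)) = 0 := by
    have i12 : ∀ i : Fin n, Integrable (fun x => fderiv ℝ φ x (dgA6_b i) * fderiv ℝ u x (dgA6_b i)
      + φ x * fderiv ℝ (fun x => fderiv ℝ u x (dgA6_b i)) x (dgA6_b i)) := fun i => (i1 i).add (i2 i)
    rw [integral_finsetSum _ fun i _ => i12 i]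
    simp [key]
  rw [← hsum]
  refine integral_congr_ae (Eventually.of_forall fun x => ?_)
  simp only
  rw [Finset.sum_add_distrib, dgA6_laplacian, Finset.mul_sum]
  congr 1
  refine Finset.sum_congr rfl fun i _ => ?_
  rw [(dgA6_hasFDerivAt_partial hu (dgA6_b i) x).fderiv]
  simp

/-- symmetry of the second derivative -/
theorem dgA6_symm {u : DgE n → ℝ} (hu : ContDiff ℝ 2 u) (x v w : DgE n) :
    fderiv ℝ (fderiv ℝ u) x v w = fderiv ℝ (fderiv ℝ u) x w v :=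
  (hu.contDiffAt.isSymmSndFDerivAt (by simp)) v w

/-- the energy density in coordinates -/
theorem dgA6_dens_eq (u : DgE n → ℝ) (x : DgE n) :
    dgDens n u x = (∑ j, (fderiv ℝ u x (dgA6_b j)) ^ 2 / 2) + (1 - u x ^ 2) ^ 2 / 4 := by
  rw [dgDens, dgW, dgA6_norm_sq, Finset.sum_div]

theorem dgA6_hasFDerivAt_dens {u : DgE n → ℝ} (hu : ContDiff ℝ 2 u) (x : DgE n) :
    HasFDerivAt (dgDens n u)
      ((∑ j, fderiv ℝ u x (dgA6_b j) • (fderiv ℝ (fderiv ℝ u) x).flip (dgA6_b j))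
        + (u x ^ 3 - u x) • fderiv ℝ u x) x := by
  have hfun : dgDens n u = fun x => (∑ j, (fderiv ℝ u x (dgA6_b j)) ^ 2 / 2)
      + (1 - u x ^ 2) ^ 2 / 4 := funext (dgA6_dens_eq u)
  rw [hfun]
  have hu1 : HasFDerivAt u (fderiv ℝ u x) x :=
    ((hu.of_le (by norm_num : (1 : WithTop ℕ∞) ≤ 2)).differentiable one_ne_zero x).hasFDerivAt
  have h1 : ∀ j : Fin n, HasFDerivAt (fun x => (fderiv ℝ u x (dgA6_b j)) ^ 2 / 2)
      (fderiv ℝ u x (dgA6_b j) • (fderiv ℝ (fderiv ℝ u) x).flip (dgA6_b j)) x := by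
    intro j
    have h := ((dgA6_hasFDerivAt_partial hu (dgA6_b j) x).pow 2).mul_const (2⁻¹ : ℝ)
    simp only [div_eq_mul_inv]
    refine h.congr_fderiv ?_
    ext v
    simp
    ring
  have h2 : HasFDerivAt (fun x => (1 - u x ^ 2) ^ 2 / 4) ((u x ^ 3 - u x) • fderiv ℝ u x) x := by
    have h := (((hu1.pow 2).const_sub 1).pow 2).mul_const (4⁻¹ : ℝ)
    simp only [div_eq_mul_inv]
    refine h.congr_fderiv ?_
    ext v
    simp
    ring
  exact (HasFDerivAt.fun_sum fun j _ => h1 j).add h2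

theorem dgA6_contDiff_dens {u : DgE n → ℝ} (hu : ContDiff ℝ 2 u) : ContDiff ℝ 1 (dgDens n u) := by
  have hfun : dgDens n u = fun x => (∑ j, (fderiv ℝ u x (dgA6_b j)) ^ 2 / 2)
      + (1 - u x ^ 2) ^ 2 / 4 := funext (dgA6_dens_eq u)
  rw [hfun]
  have hu1 : ContDiff ℝ 1 u := hu.of_le (by norm_num)
  exact (ContDiff.sum fun j _ => ((dgA6_contDiff_partial hu _).pow 2).div_const 2).add
    (((contDiff_const.sub (hu1.pow 2)).pow 2).div_const 4)

theorem dgA6_fderiv_dens {u : DgE n → ℝ} (hu : ContDiff ℝ 2 u) (x v : DgE n) :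
    fderiv ℝ (dgDens n u) x v
      = (∑ j, fderiv ℝ u x (dgA6_b j) * fderiv ℝ (fderiv ℝ u) x v (dgA6_b j))
        + (u x ^ 3 - u x) * fderiv ℝ u x v := by
  rw [(dgA6_hasFDerivAt_dens hu x).fderiv]
  simp

/-- the radial derivative `p(x) = ∇u(x) · (x - y)` -/
theorem dgA6_hasFDerivAt_rad {u : DgE n → ℝ} (hu : ContDiff ℝ 2 u) (y x : DgE n) :
    HasFDerivAt (fun x => fderiv ℝ u x (x - y))
      (fderiv ℝ u x + (fderiv ℝ (fderiv ℝ u) x).flip (x - y)) x := by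
  have h1 : ContDiff ℝ 1 (fderiv ℝ u) := hu.fderiv_right (m := 1) (by norm_num)
  have h2 := (h1.differentiable one_ne_zero x).hasFDerivAt.clm_apply
    ((hasFDerivAt_id x).sub_const y)
  simpa using h2

theorem dgA6_contDiff_rad {u : DgE n → ℝ} (hu : ContDiff ℝ 2 u) (y : DgE n) :
    ContDiff ℝ 1 (fun x => fderiv ℝ u x (x - y)) :=
  (hu.fderiv_right (m := 1) (by norm_num)).clm_apply (contDiff_id.sub contDiff_const)

theorem dgA6_hcs_apply {F : DgE n → DgE n →L[ℝ] ℝ} (h : HasCompactSupport F)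
    (g : DgE n → DgE n) : HasCompactSupport (fun x => F x (g x)) := by
  refine h.mono fun x hx => ?_
  simp only [Function.mem_support] at hx ⊢
  intro h0
  exact hx (by simp [h0])

/-- **Pohozaev / stress tensor identity with a cut-off.**  For a `C²` solution of `Δu = u³ - u`, a cut-off `η ∈ C¹_c` and a centre
`y`:  `∫ [ (∇η·X) e + n η e - (∇η·∇u)(X·∇u) - η |∇u|² ] = 0`, `X = x - y`, `e = |∇u|²/2 + W(u)`. -/
theorem dgA6_pohozaev {u η : DgE n → ℝ} (hu : ContDiff ℝ 2 u)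
    (hpde : ∀ x, Laplacian.laplacian u x = u x ^ 3 - u x)
    (hη : ContDiff ℝ 1 η) (hc : HasCompactSupport η) (y : DgE n) :
    ∫ x, (fderiv ℝ η x (x - y) * dgDens n u x + n * (η x * dgDens n u x)
      - (∑ i, fderiv ℝ η x (dgA6_b i) * fderiv ℝ u x (dgA6_b i)) * fderiv ℝ u x (x - y)
      - η x * ‖fderiv ℝ u x‖ ^ 2) = 0 := by
  have he : ContDiff ℝ 1 (dgDens n u) := dgA6_contDiff_dens hu
  have hp : ContDiff ℝ 1 (fun x => fderiv ℝ u x (x - y)) := dgA6_contDiff_rad hu y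
  have hf : ContDiff ℝ 1 (fun x => η x * dgDens n u x) := hη.mul he
  have hfc : HasCompactSupport (fun x => η x * dgDens n u x) := hc.mul_right
  have hφ : ContDiff ℝ 1 (fun x => η x * fderiv ℝ u x (x - y)) := hη.mul hp
  have hφc : HasCompactSupport (fun x => η x * fderiv ℝ u x (x - y)) := hc.mul_right
  have hA := dgA6_euler hf hfc y
  have hB := dgA6_weak hu hφ hφc
  have hlapc : Continuous (Laplacian.laplacian u) := by
    have : Laplacian.laplacian u = fun x => u x ^ 3 - u x := funext hpde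
    rw [this]
    exact (hu.continuous.pow 3).sub hu.continuous
  -- integrability
  have iA : Integrable (fun x => fderiv ℝ (fun x => η x * dgDens n u x) x (x - y)
      + n * (η x * dgDens n u x)) := by
    refine Integrable.add ?_ ?_
    · exact Continuous.integrable_of_hasCompactSupport
        ((hf.continuous_fderiv one_ne_zero).clm_apply (continuous_id.sub continuous_const))
        (dgA6_hcs_apply (hfc.fderiv (𝕜 := ℝ)) _)
    · exact (continuous_const.mul hf.continuous).integrable_of_hasCompactSupport hfc.mul_left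
  have iB : Integrable (fun x => (∑ i, fderiv ℝ (fun x => η x * fderiv ℝ u x (x - y)) x (dgA6_b i)
      * fderiv ℝ u x (dgA6_b i)) + (η x * fderiv ℝ u x (x - y)) * Laplacian.laplacian u x) := by
    refine Integrable.add ?_ ?_
    · refine integrable_finsetSum _ fun i _ => ?_
      exact Continuous.integrable_of_hasCompactSupport
        (((hφ.continuous_fderiv one_ne_zero).clm_apply continuous_const).mul
          (dgA6_contDiff_partial hu _).continuous)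
        (dgA6_hcs_apply (hφc.fderiv (𝕜 := ℝ)) _).mul_right
    · exact (hφ.continuous.mul hlapc).integrable_of_hasCompactSupport hφc.mul_right
  have hAB := integral_sub iA iB
  rw [hA, hB, sub_zero] at hAB
  rw [← hAB]
  refine integral_congr_ae (Eventually.of_forall fun x => ?_)
  simp only
  have hηd : HasFDerivAt η (fderiv ℝ η x) x := (hη.differentiable one_ne_zero x).hasFDerivAt
  have d1 : fderiv ℝ (fun x => η x * dgDens n u x) x (x - y)
      = η x * fderiv ℝ (dgDens n u) x (x - y) + dgDens n u x * fderiv ℝ η x (x - y) := by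
    rw [(hηd.fun_mul (he.differentiable one_ne_zero x).hasFDerivAt).fderiv]
    simp
  have d2 : ∀ i : Fin n, fderiv ℝ (fun x => η x * fderiv ℝ u x (x - y)) x (dgA6_b i)
      = η x * (fderiv ℝ u x (dgA6_b i) + fderiv ℝ (fderiv ℝ u) x (dgA6_b i) (x - y))
        + fderiv ℝ u x (x - y) * fderiv ℝ η x (dgA6_b i) := by
    intro i
    rw [(hηd.fun_mul (dgA6_hasFDerivAt_rad hu y x)).fderiv]
    simp
    ring
  have hsum : (∑ i, fderiv ℝ (fun x => η x * fderiv ℝ u x (x - y)) x (dgA6_b i)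
      * fderiv ℝ u x (dgA6_b i))
      = η x * (∑ i, (fderiv ℝ u x (dgA6_b i)) ^ 2)
        + η x * (∑ i, fderiv ℝ u x (dgA6_b i) * fderiv ℝ (fderiv ℝ u) x (x - y) (dgA6_b i))
        + fderiv ℝ u x (x - y) * (∑ i, fderiv ℝ η x (dgA6_b i) * fderiv ℝ u x (dgA6_b i)) := by
    rw [Finset.mul_sum, Finset.mul_sum, Finset.mul_sum, ← Finset.sum_add_distrib,
      ← Finset.sum_add_distrib]
    refine Finset.sum_congr rfl fun i _ => ?_
    rw [d2 i, dgA6_symm hu x (dgA6_b i) (x - y)]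
    ring
  rw [d1, hsum, dgA6_fderiv_dens hu, hpde, dgA6_norm_sq]
  ring

end base

section radial
variable {n : ℕ}

/-- the radial cut-off `x ↦ ψ(|x - y|² / r²)` -/
noncomputable def dgA6_cut (ψ : ℝ → ℝ) (y : DgE n) (r : ℝ) (x : DgE n) : ℝ :=
  ψ (‖x - y‖ ^ 2 / r ^ 2)

theorem dgA6_cut_contDiff {ψ : ℝ → ℝ} (hψ : ContDiff ℝ 1 ψ) (y : DgE n) (r : ℝ) :
    ContDiff ℝ 1 (dgA6_cut ψ y r) :=
  hψ.comp (((contDiff_id.sub contDiff_const).norm_sq ℝ).div_const _)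

theorem dgA6_cut_eq_zero {ψ : ℝ → ℝ} (h0 : ∀ t, 1 ≤ t → ψ t = 0) (y : DgE n) {r : ℝ} (hr : 0 < r)
    {x : DgE n} (hx : r ≤ ‖x - y‖) : dgA6_cut ψ y r x = 0 := by
  refine h0 _ ?_
  rw [le_div_iff₀ (by positivity), one_mul]
  exact pow_le_pow_left₀ hr.le hx 2

theorem dgA6_cut_hcs {ψ : ℝ → ℝ} (h0 : ∀ t, 1 ≤ t → ψ t = 0) (y : DgE n) {r : ℝ} (hr : 0 < r) :
    HasCompactSupport (dgA6_cut ψ y r) := by
  refine HasCompactSupport.intro (isCompact_closedBall y r) fun x hx => ?_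
  refine dgA6_cut_eq_zero h0 y hr ?_
  rw [mem_closedBall, dist_eq_norm, not_le] at hx
  exact hx.le

theorem dgA6_cut_hasFDerivAt {ψ : ℝ → ℝ} (hψ : ContDiff ℝ 1 ψ) (y : DgE n) (r : ℝ) (x : DgE n) :
    HasFDerivAt (dgA6_cut ψ y r)
      ((deriv ψ (‖x - y‖ ^ 2 / r ^ 2) * (2 / r ^ 2)) • innerSL ℝ (x - y)) x := by
  have h1 : HasFDerivAt (fun x : DgE n => ‖x - y‖ ^ 2) (2 • (innerSL ℝ (x - y)).comp
      (ContinuousLinearMap.id ℝ (DgE n))) x := ((hasFDerivAt_id x).sub_const y).norm_sq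
  have h2 := h1.mul_const ((r ^ 2)⁻¹)
  have h3 : HasDerivAt ψ (deriv ψ (‖x - y‖ ^ 2 / r ^ 2)) (‖x - y‖ ^ 2 * (r ^ 2)⁻¹) := by
    rw [← div_eq_mul_inv]
    exact (hψ.differentiable one_ne_zero _).hasDerivAt
  have h4 := h3.comp_hasFDerivAt x h2
  have hfun : dgA6_cut ψ y r = ψ ∘ fun x : DgE n => ‖x - y‖ ^ 2 * (r ^ 2)⁻¹ := by
    funext z
    simp [dgA6_cut, div_eq_mul_inv]
  rw [hfun]
  refine h4.congr_fderiv ?_
  ext v
  simp
  ring

theorem dgA6_cut_fderiv {ψ : ℝ → ℝ} (hψ : ContDiff ℝ 1 ψ) (y : DgE n) (r : ℝ) (x v : DgE n) :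
    fderiv ℝ (dgA6_cut ψ y r) x v
      = deriv ψ (‖x - y‖ ^ 2 / r ^ 2) * (2 / r ^ 2) * inner ℝ (x - y) v := by
  rw [(dgA6_cut_hasFDerivAt hψ y r x).fderiv]
  simp [inner_sub_left]

/-- the Pohozaev identity for the radial cut-off -/
theorem dgA6_pohozaev_cut {u : DgE n → ℝ} (hu : ContDiff ℝ 2 u)
    (hpde : ∀ x, Laplacian.laplacian u x = u x ^ 3 - u x)
    {ψ : ℝ → ℝ} (hψ : ContDiff ℝ 1 ψ) (h0 : ∀ t, 1 ≤ t → ψ t = 0) (y : DgE n) {r : ℝ} (hr : 0 < r) :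
    ∫ x, (deriv ψ (‖x - y‖ ^ 2 / r ^ 2) * (2 * ‖x - y‖ ^ 2 / r ^ 2) * dgDens n u x
      + n * (ψ (‖x - y‖ ^ 2 / r ^ 2) * dgDens n u x)
      - deriv ψ (‖x - y‖ ^ 2 / r ^ 2) * (2 / r ^ 2) * (fderiv ℝ u x (x - y)) ^ 2
      - ψ (‖x - y‖ ^ 2 / r ^ 2) * ‖fderiv ℝ u x‖ ^ 2) = 0 := by
  have h := dgA6_pohozaev hu hpde (dgA6_cut_contDiff hψ y r) (dgA6_cut_hcs h0 y hr) y
  rw [← h]
  refine integral_congr_ae (Eventually.of_forall fun x => ?_)
  simp only
  have hs : (∑ i, fderiv ℝ (dgA6_cut ψ y r) x (dgA6_b i) * fderiv ℝ u x (dgA6_b i))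
      = deriv ψ (‖x - y‖ ^ 2 / r ^ 2) * (2 / r ^ 2) * fderiv ℝ u x (x - y) := by
    rw [← dgA6_sum_apply (fderiv ℝ u x) (x - y), Finset.mul_sum]
    refine Finset.sum_congr rfl fun i _ => ?_
    rw [dgA6_cut_fderiv hψ]
    simp [EuclideanSpace.inner_single_right]
    ring
  rw [hs, dgA6_cut_fderiv hψ, real_inner_self_eq_norm_sq]
  simp only [dgA6_cut]
  ring

theorem dgA6_deriv_eq_zero {ψ : ℝ → ℝ} (h0 : ∀ t, 1 ≤ t → ψ t = 0) {t : ℝ} (ht : 1 < t) :
    deriv ψ t = 0 := by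
  have h : ψ =ᶠ[𝓝 t] fun _ => (0 : ℝ) := by
    filter_upwards [Ioi_mem_nhds ht] with s hs
    exact h0 s (le_of_lt hs)
  rw [h.deriv_eq]
  simp

theorem dgA6_hasDerivAt_scale (c : ℝ) {r : ℝ} (hr : r ≠ 0) :
    HasDerivAt (fun r : ℝ => c / r ^ 2) (-(2 * c / r ^ 3)) r := by
  have h : HasDerivAt (fun y : ℝ => c * (y ^ 2)⁻¹) (c * (-((2 : ℕ) * r ^ (2 - 1)) / (r ^ 2) ^ 2)) r :=
    ((hasDerivAt_pow 2 r).fun_inv (pow_ne_zero 2 hr)).const_mul c
  have hfun : (fun r : ℝ => c / r ^ 2) = fun y : ℝ => c * (y ^ 2)⁻¹ := by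
    funext z
    rw [div_eq_mul_inv]
  rw [hfun]
  refine h.congr_deriv ?_
  field_simp
  simp
  ring

/-- differentiation in `r` under the integral sign -/
theorem dgA6_hasDerivAt_cut {ψ : ℝ → ℝ} (hψ : ContDiff ℝ 1 ψ) (h0 : ∀ t, 1 ≤ t → ψ t = 0)
    {e : DgE n → ℝ} (he : Continuous e) (y : DgE n) {r : ℝ} (hr : 0 < r) :
    HasDerivAt (fun r : ℝ => ∫ x, ψ (‖x - y‖ ^ 2 / r ^ 2) * e x)
      (∫ x, deriv ψ (‖x - y‖ ^ 2 / r ^ 2) * (-(2 * ‖x - y‖ ^ 2 / r ^ 3)) * e x) r := by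
  have hdc : Continuous (deriv ψ) := hψ.continuous_deriv le_rfl
  obtain ⟨C, hC⟩ := (isCompact_Icc (a := (0 : ℝ)) (b := 1)).exists_bound_of_continuousOn
    hdc.continuousOn
  have hC0 : 0 ≤ C := (norm_nonneg _).trans (hC 0 (by simp))
  have hcN : ∀ ρ : ℝ, Continuous fun x : DgE n => ‖x - y‖ ^ 2 / ρ ^ 2 := fun ρ =>
    ((continuous_id.sub continuous_const).norm.pow 2).div_const _
  have hs : Ioo (r / 2) (2 * r) ∈ 𝓝 r := Ioo_mem_nhds (by linarith) (by linarith)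
  refine (hasDerivAt_integral_of_dominated_loc_of_deriv_le
    (F := fun (r : ℝ) (x : DgE n) => ψ (‖x - y‖ ^ 2 / r ^ 2) * e x)
    (F' := fun (r : ℝ) (x : DgE n) =>
      deriv ψ (‖x - y‖ ^ 2 / r ^ 2) * (-(2 * ‖x - y‖ ^ 2 / r ^ 3)) * e x)
    (bound := (closedBall y (2 * r)).indicator fun x => C * (4 / r) * |e x|)
    hs ?_ ?_ ?_ ?_ ?_ ?_).2
  · exact Eventually.of_forall fun ρ => ((hψ.continuous.comp (hcN ρ)).mul he).aestronglyMeasurable
  · exact ((hψ.continuous.comp (hcN r)).mul he).integrable_of_hasCompactSupport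
      (dgA6_cut_hcs h0 y hr).mul_right
  · exact (((hdc.comp (hcN r)).mul (((continuous_const.mul
      ((continuous_id.sub continuous_const).norm.pow 2)).div_const _).neg)).mul he).aestronglyMeasurable
  · refine Eventually.of_forall fun x ρ hρ => ?_
    have hρ0 : 0 < ρ := by have := hρ.1; linarith
    have hb0 : 0 ≤ (closedBall y (2 * r)).indicator (fun x => C * (4 / r) * |e x|) x :=
      indicator_nonneg (fun z _ => by positivity) x
    rcases lt_or_ge 1 (‖x - y‖ ^ 2 / ρ ^ 2) with ht | ht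
    · simp only [dgA6_deriv_eq_zero h0 ht, zero_mul, norm_zero]
      exact hb0
    · have hX2 : ‖x - y‖ ^ 2 ≤ ρ ^ 2 := by
        rwa [div_le_iff₀ (by positivity), one_mul] at ht
      have hX : ‖x - y‖ ≤ ρ := (abs_le_of_sq_le_sq' hX2 hρ0.le).2
      have hmem : x ∈ closedBall y (2 * r) := by
        rw [mem_closedBall, dist_eq_norm]
        exact hX.trans hρ.2.le
      rw [indicator_of_mem hmem]
      have h1 : ‖deriv ψ (‖x - y‖ ^ 2 / ρ ^ 2)‖ ≤ C := hC _ ⟨by positivity, ht⟩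
      have h2 : 2 * ‖x - y‖ ^ 2 / ρ ^ 3 ≤ 4 / r := by
        calc 2 * ‖x - y‖ ^ 2 / ρ ^ 3 ≤ 2 * ρ ^ 2 / ρ ^ 3 := by gcongr
          _ = 2 / ρ := by field_simp
          _ ≤ 2 / (r / 2) := by
              apply div_le_div_of_nonneg_left (by norm_num) (by positivity) hρ.1.le
          _ = 4 / r := by field_simp; norm_num
      rw [norm_mul, norm_mul, norm_neg, Real.norm_eq_abs (2 * ‖x - y‖ ^ 2 / ρ ^ 3),
        abs_of_nonneg (by positivity), Real.norm_eq_abs (e x)]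
      gcongr
  · refine IntegrableOn.integrable_indicator ?_ measurableSet_closedBall
    exact (continuous_const.mul he.abs).continuousOn.integrableOn_compact (isCompact_closedBall _ _)
  · refine Eventually.of_forall fun x ρ hρ => ?_
    have hρ0 : 0 < ρ := by have := hρ.1; linarith
    have h1 := dgA6_hasDerivAt_scale (‖x - y‖ ^ 2) hρ0.ne'
    have h2 : HasDerivAt ψ (deriv ψ (‖x - y‖ ^ 2 / ρ ^ 2)) (‖x - y‖ ^ 2 / ρ ^ 2) :=
      (hψ.differentiable one_ne_zero _).hasDerivAt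
    exact (h2.comp ρ h1).mul_const (e x)

theorem dgA6_cut_cont (y : DgE n) (r : ℝ) : Continuous fun x : DgE n => ‖x - y‖ ^ 2 / r ^ 2 :=
  ((continuous_id.sub continuous_const).norm.pow 2).div_const _

theorem dgA6_int_psi {ψ : ℝ → ℝ} (hψ : ContDiff ℝ 1 ψ) (h0 : ∀ t, 1 ≤ t → ψ t = 0)
    (y : DgE n) {r : ℝ} (hr : 0 < r) {h : DgE n → ℝ} (hh : Continuous h) :
    Integrable (fun x => ψ (‖x - y‖ ^ 2 / r ^ 2) * h x) :=
  ((hψ.continuous.comp (dgA6_cut_cont y r)).mul hh).integrable_of_hasCompactSupport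
    (dgA6_cut_hcs h0 y hr).mul_right

theorem dgA6_int_dpsi {ψ : ℝ → ℝ} (hψ : ContDiff ℝ 1 ψ) (h0 : ∀ t, 1 ≤ t → ψ t = 0)
    (y : DgE n) {r : ℝ} (hr : 0 < r) {a b : DgE n → ℝ} (ha : Continuous a) (hb : Continuous b) :
    Integrable (fun x => deriv ψ (‖x - y‖ ^ 2 / r ^ 2) * a x * b x) := by
  have hdc : Continuous (deriv ψ) := hψ.continuous_deriv le_rfl
  have hcs : HasCompactSupport (fun x : DgE n => deriv ψ (‖x - y‖ ^ 2 / r ^ 2)) := by
    refine HasCompactSupport.intro (isCompact_closedBall y r) fun x hx => ?_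
    rw [mem_closedBall, dist_eq_norm, not_le] at hx
    refine dgA6_deriv_eq_zero h0 ?_
    rw [lt_div_iff₀ (by positivity), one_mul]
    exact pow_lt_pow_left₀ hx hr.le two_ne_zero
  exact (((hdc.comp (dgA6_cut_cont y r)).mul ha).mul hb).integrable_of_hasCompactSupport
    hcs.mul_right.mul_right

theorem dgA6_psi_nonneg {ψ : ℝ → ℝ} (h0 : ∀ t, 1 ≤ t → ψ t = 0) (hanti : Antitone ψ) (t : ℝ) :
    0 ≤ ψ t := by
  rw [← h0 (max t 1) (le_max_right _ _)]
  exact hanti (le_max_left _ _)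

/-- the sign: `r A'(r) - m A(r) ≥ 0` in `ℝ^{m+1}` under Modica's bound -/
theorem dgA6_cut_key {m : ℕ} {u : DgE (m + 1) → ℝ} (hu : ContDiff ℝ 2 u)
    (hpde : ∀ x, Laplacian.laplacian u x = u x ^ 3 - u x)
    (hmod : ∀ x, ‖fderiv ℝ u x‖ ^ 2 / 2 ≤ dgW (u x))
    {ψ : ℝ → ℝ} (hψ : ContDiff ℝ 1 ψ) (h0 : ∀ t, 1 ≤ t → ψ t = 0) (hanti : Antitone ψ)
    (y : DgE (m + 1)) {r : ℝ} (hr : 0 < r) :
    0 ≤ r * (∫ x, deriv ψ (‖x - y‖ ^ 2 / r ^ 2) * (-(2 * ‖x - y‖ ^ 2 / r ^ 3)) * dgDens (m + 1) u x)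
      - m * ∫ x, ψ (‖x - y‖ ^ 2 / r ^ 2) * dgDens (m + 1) u x := by
  have hec : Continuous (dgDens (m + 1) u) := (dgA6_contDiff_dens hu).continuous
  have hpc : Continuous (fun x => fderiv ℝ u x (x - y)) := (dgA6_contDiff_rad hu y).continuous
  have hnc : Continuous (fun x => ‖fderiv ℝ u x‖ ^ 2) :=
    (hu.continuous_fderiv (by norm_num)).norm.pow 2
  have hXc : Continuous fun x : DgE (m + 1) => ‖x - y‖ ^ 2 :=
    (continuous_id.sub continuous_const).norm.pow 2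
  have j1 := dgA6_int_dpsi hψ h0 y hr (a := fun x => -(2 * ‖x - y‖ ^ 2 / r ^ 3))
    ((continuous_const.mul hXc).div_const _).neg hec
  have j2 := dgA6_int_psi hψ h0 y hr hec
  have i1 := dgA6_int_dpsi hψ h0 y hr (a := fun x => 2 * ‖x - y‖ ^ 2 / r ^ 2)
    ((continuous_const.mul hXc).div_const _) hec
  have i3 := dgA6_int_dpsi hψ h0 y hr (a := fun _ => 2 / r ^ 2) continuous_const (hpc.pow 2)
  have i4 := dgA6_int_psi hψ h0 y hr hnc
  have hP := dgA6_pohozaev_cut hu hpde hψ h0 y hr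
  have iP : Integrable (fun x => deriv ψ (‖x - y‖ ^ 2 / r ^ 2) * (2 * ‖x - y‖ ^ 2 / r ^ 2)
        * dgDens (m + 1) u x + ((m + 1 : ℕ) : ℝ) * (ψ (‖x - y‖ ^ 2 / r ^ 2) * dgDens (m + 1) u x)
      - deriv ψ (‖x - y‖ ^ 2 / r ^ 2) * (2 / r ^ 2) * (fderiv ℝ u x (x - y)) ^ 2
      - ψ (‖x - y‖ ^ 2 / r ^ 2) * ‖fderiv ℝ u x‖ ^ 2) :=
    ((i1.add (j2.const_mul ((m + 1 : ℕ) : ℝ))).sub i3).sub i4
  have jD : Integrable (fun x => r * (deriv ψ (‖x - y‖ ^ 2 / r ^ 2) * (-(2 * ‖x - y‖ ^ 2 / r ^ 3))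
        * dgDens (m + 1) u x) - m * (ψ (‖x - y‖ ^ 2 / r ^ 2) * dgDens (m + 1) u x)) :=
    (j1.const_mul r).sub (j2.const_mul (m : ℝ))
  have e1 : r * (∫ x, deriv ψ (‖x - y‖ ^ 2 / r ^ 2) * (-(2 * ‖x - y‖ ^ 2 / r ^ 3))
        * dgDens (m + 1) u x) - m * ∫ x, ψ (‖x - y‖ ^ 2 / r ^ 2) * dgDens (m + 1) u x
      = ∫ x, (ψ (‖x - y‖ ^ 2 / r ^ 2) * (dgW (u x) - ‖fderiv ℝ u x‖ ^ 2 / 2)
        + (-deriv ψ (‖x - y‖ ^ 2 / r ^ 2)) * (2 / r ^ 2) * (fderiv ℝ u x (x - y)) ^ 2) := by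
    rw [← integral_const_mul, ← integral_const_mul, ← integral_sub (j1.const_mul r)
      (j2.const_mul (m : ℝ)), ← add_zero (∫ x, _ - _), ← hP, ← integral_add jD iP]
    refine integral_congr_ae (Eventually.of_forall fun x => ?_)
    simp only [dgDens]
    push_cast
    field_simp
    ring
  rw [e1]
  refine integral_nonneg fun x => ?_
  have h1 : 0 ≤ ψ (‖x - y‖ ^ 2 / r ^ 2) := dgA6_psi_nonneg h0 hanti _
  have h2 : 0 ≤ dgW (u x) - ‖fderiv ℝ u x‖ ^ 2 / 2 := sub_nonneg.2 (hmod x)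
  have h3 : 0 ≤ -deriv ψ (‖x - y‖ ^ 2 / r ^ 2) := neg_nonneg.2 hanti.deriv_nonpos
  positivity

/-- monotonicity of the smoothed density `r ↦ r^{-m} ∫ ψ(|x-y|²/r²) e` -/
theorem dgA6_cut_mono {m : ℕ} {u : DgE (m + 1) → ℝ} (hu : ContDiff ℝ 2 u)
    (hpde : ∀ x, Laplacian.laplacian u x = u x ^ 3 - u x)
    (hmod : ∀ x, ‖fderiv ℝ u x‖ ^ 2 / 2 ≤ dgW (u x))
    {ψ : ℝ → ℝ} (hψ : ContDiff ℝ 1 ψ) (h0 : ∀ t, 1 ≤ t → ψ t = 0) (hanti : Antitone ψ)
    (y : DgE (m + 1)) :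
    MonotoneOn (fun r : ℝ => (∫ x, ψ (‖x - y‖ ^ 2 / r ^ 2) * dgDens (m + 1) u x) / r ^ m) (Ioi 0) := by
  have hec : Continuous (dgDens (m + 1) u) := (dgA6_contDiff_dens hu).continuous
  have hd : ∀ r : ℝ, 0 < r → HasDerivAt
      (fun r : ℝ => (∫ x, ψ (‖x - y‖ ^ 2 / r ^ 2) * dgDens (m + 1) u x) / r ^ m)
      (((∫ x, deriv ψ (‖x - y‖ ^ 2 / r ^ 2) * (-(2 * ‖x - y‖ ^ 2 / r ^ 3)) * dgDens (m + 1) u x)
          * r ^ m - (∫ x, ψ (‖x - y‖ ^ 2 / r ^ 2) * dgDens (m + 1) u x) * (m * r ^ (m - 1)))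
        / (r ^ m) ^ 2) r := fun r hr =>
    (dgA6_hasDerivAt_cut hψ h0 hec y hr).fun_div (hasDerivAt_pow m r) (pow_ne_zero m hr.ne')
  refine monotoneOn_of_deriv_nonneg (convex_Ioi 0)
    (fun r hr => (hd r hr).continuousAt.continuousWithinAt)
    (fun r hr => ?_) (fun r hr => ?_)
  · rw [interior_Ioi] at hr
    exact (hd r hr).differentiableAt.differentiableWithinAt
  · rw [interior_Ioi] at hr
    have hr0 : 0 < r := hr
    rw [(hd r hr).deriv]
    have key := dgA6_cut_key hu hpde hmod hψ h0 hanti y hr0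
    refine div_nonneg ?_ (by positivity)
    set A' := ∫ x, deriv ψ (‖x - y‖ ^ 2 / r ^ 2) * (-(2 * ‖x - y‖ ^ 2 / r ^ 3)) * dgDens (m + 1) u x
    set A := ∫ x, ψ (‖x - y‖ ^ 2 / r ^ 2) * dgDens (m + 1) u x
    rcases m with _ | k
    · simp only [Nat.cast_zero, zero_mul, sub_zero, pow_zero, mul_one, mul_zero] at key ⊢
      exact nonneg_of_mul_nonneg_right key hr0
    · have : A' * r ^ (k + 1) - A * (((k + 1 : ℕ) : ℝ) * r ^ (k + 1 - 1))
          = r ^ k * (r * A' - ((k + 1 : ℕ) : ℝ) * A) := by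
        simp only [Nat.add_sub_cancel]
        ring
      rw [this]
      exact mul_nonneg (by positivity) key

/-- **Modica's monotonicity formula** in `ℝ^{m+1}`, any centre: `r ↦ r^{-m} E(u; B_r(y))` is nondecreasing. -/
theorem dgA6_mono {m : ℕ} {u : DgE (m + 1) → ℝ} (hu : ContDiff ℝ 2 u)
    (hpde : ∀ x, Laplacian.laplacian u x = u x ^ 3 - u x)
    (hmod : ∀ x, ‖fderiv ℝ u x‖ ^ 2 / 2 ≤ dgW (u x)) (y : DgE (m + 1)) :
    MonotoneOn (fun r : ℝ => dgEn (m + 1) u y r / r ^ m) (Ioi 0) := by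
  have hec : Continuous (dgDens (m + 1) u) := (dgA6_contDiff_dens hu).continuous
  intro a ha b hb hab
  have ta := (dgpo_cut_tendsto hec y ha).div_const (a ^ m)
  have tb := (dgpo_cut_tendsto hec y hb).div_const (b ^ m)
  refine le_of_tendsto_of_tendsto' ta tb fun k => ?_
  exact dgA6_cut_mono hu hpde hmod (ψ := fun t : ℝ => Real.smoothTransition ((k : ℝ) * (1 - t)))
    (dgpo_psi_contDiff k) (fun t ht => dgpo_psi_eq_zero k ht) (dgpo_psi_antitone k) y ha hb hab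

end radial

section centre
variable {n : ℕ}

theorem dgA6_dens_nonneg (u : DgE n → ℝ) (x : DgE n) : 0 ≤ dgDens n u x := by
  unfold dgDens dgW
  positivity

theorem dgA6_En_nonneg (u : DgE n → ℝ) (y : DgE n) (r : ℝ) : 0 ≤ dgEn n u y r :=
  setIntegral_nonneg measurableSet_ball fun x _ => dgA6_dens_nonneg u x

theorem dgA6_integrableOn_ball {e : DgE n → ℝ} (he : Continuous e) (y : DgE n) (r : ℝ) :
    IntegrableOn e (ball y r) :=
  (he.continuousOn.integrableOn_compact (isCompact_closedBall y r)).mono_set ball_subset_closedBall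

/-- the energy is monotone under inclusion of balls -/
theorem dgA6_En_mono_ball {u : DgE n → ℝ} (hu : ContDiff ℝ 2 u) {y z : DgE n} {r s : ℝ}
    (h : ball y r ⊆ ball z s) : dgEn n u y r ≤ dgEn n u z s :=
  setIntegral_mono_set (dgA6_integrableOn_ball (dgA6_contDiff_dens hu).continuous z s)
    (Eventually.of_forall fun x => dgA6_dens_nonneg u x) (Eventually.of_forall h)

theorem dgA6_En_shift {u : DgE n → ℝ} (hu : ContDiff ℝ 2 u) (y z : DgE n) (r : ℝ) :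
    dgEn n u y r ≤ dgEn n u z (r + ‖y - z‖) := by
  refine dgA6_En_mono_ball hu (ball_subset_ball' ?_)
  rw [dist_eq_norm]

/-- **centre independence of the density bound**: a bound `E(u; B_R(z)) ≤ C R^m` for the large balls of ONE centre `z` gives the same
bound for all balls of all centres. -/
theorem dgA6_center {m : ℕ} {u : DgE (m + 1) → ℝ} (hu : ContDiff ℝ 2 u)
    (hpde : ∀ x, Laplacian.laplacian u x = u x ^ 3 - u x)
    (hmod : ∀ x, ‖fderiv ℝ u x‖ ^ 2 / 2 ≤ dgW (u x)) {C R₀ : ℝ} {z : DgE (m + 1)}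
    (hC : ∀ R, R₀ ≤ R → dgEn (m + 1) u z R ≤ C * R ^ m) (y : DgE (m + 1)) {r : ℝ} (hr : 0 < r) :
    dgEn (m + 1) u y r ≤ C * r ^ m := by
  have hlim : Tendsto (fun R : ℝ => C * (1 + ‖y - z‖ / R) ^ m) atTop (𝓝 (C * (1 + 0) ^ m)) := by
    refine Tendsto.const_mul C (Tendsto.pow (tendsto_const_nhds.add ?_) m)
    exact tendsto_const_nhds.div_atTop tendsto_id
  have hev : ∀ᶠ R : ℝ in atTop, dgEn (m + 1) u y r / r ^ m ≤ C * (1 + ‖y - z‖ / R) ^ m := by
    filter_upwards [eventually_ge_atTop r, eventually_ge_atTop R₀] with R hR hR0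
    have hRpos : 0 < R := hr.trans_le hR
    have h1 := dgA6_mono hu hpde hmod y (mem_Ioi.2 hr) (mem_Ioi.2 hRpos) hR
    have h2 := dgA6_En_shift hu y z R
    have h3 := hC (R + ‖y - z‖) (hR0.trans (le_add_of_nonneg_right (norm_nonneg _)))
    calc dgEn (m + 1) u y r / r ^ m ≤ dgEn (m + 1) u y R / R ^ m := h1
      _ ≤ (C * (R + ‖y - z‖) ^ m) / R ^ m := by
          exact div_le_div_of_nonneg_right (h2.trans h3) (by positivity)
      _ = C * (1 + ‖y - z‖ / R) ^ m := by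
          rw [mul_div_assoc, ← div_pow]
          congr 2
          field_simp
  have h := ge_of_tendsto hlim hev
  simp only [add_zero, one_pow, mul_one] at h
  rwa [div_le_iff₀ (by positivity)] at h

/-- the density at infinity does not depend on the centre -/
theorem dgA6_lim_center {m : ℕ} {u : DgE (m + 1) → ℝ} (hu : ContDiff ℝ 2 u) {L : ℝ}
    {z : DgE (m + 1)}
    (hL : Tendsto (fun R : ℝ => dgEn (m + 1) u z R / R ^ m) atTop (𝓝 L)) (y : DgE (m + 1)) :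
    Tendsto (fun R : ℝ => dgEn (m + 1) u y R / R ^ m) atTop (𝓝 L) := by
  set d := ‖y - z‖ with hd
  have hd' : ‖z - y‖ = d := by rw [hd, norm_sub_rev]
  have hq : ∀ c : ℝ, Tendsto (fun R : ℝ => ((R + c) / R) ^ m) atTop (𝓝 1) := by
    intro c
    have h1 : Tendsto (fun R : ℝ => (1 + c / R) ^ m) atTop (𝓝 ((1 + 0) ^ m)) :=
      Tendsto.pow (tendsto_const_nhds.add (tendsto_const_nhds.div_atTop tendsto_id)) m
    simp only [add_zero, one_pow] at h1
    refine h1.congr' ?_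
    filter_upwards [eventually_gt_atTop 0] with R hR
    congr 1
    field_simp
  have hsh : ∀ c : ℝ, Tendsto (fun R : ℝ => dgEn (m + 1) u z (R + c) / R ^ m) atTop (𝓝 L) := by
    intro c
    have h1 : Tendsto (fun R : ℝ => dgEn (m + 1) u z (R + c) / (R + c) ^ m) atTop (𝓝 L) :=
      hL.comp (tendsto_atTop_add_const_right _ c tendsto_id)
    have h2 := h1.mul (hq c)
    rw [mul_one] at h2
    refine h2.congr' ?_
    filter_upwards [eventually_gt_atTop 0, eventually_gt_atTop (-c)] with R hR hRc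
    have : 0 < R + c := by linarith
    rw [div_pow]
    field_simp
  refine tendsto_of_tendsto_of_tendsto_of_le_of_le' (hsh (-d)) (hsh d) ?_ ?_
  · filter_upwards [eventually_gt_atTop 0] with R hR
    have h := dgA6_En_shift hu z y (R + -d)
    rw [hd'] at h
    have h' : dgEn (m + 1) u z (R + -d) ≤ dgEn (m + 1) u y R := by
      simpa using h
    exact div_le_div_of_nonneg_right h' (by positivity)
  · filter_upwards [eventually_gt_atTop 0] with R hR
    exact div_le_div_of_nonneg_right (dgA6_En_shift hu y z R) (by positivity)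

/-- every normalized energy lies below the density at infinity -/
theorem dgA6_le_lim {m : ℕ} {u : DgE (m + 1) → ℝ} (hu : ContDiff ℝ 2 u)
    (hpde : ∀ x, Laplacian.laplacian u x = u x ^ 3 - u x)
    (hmod : ∀ x, ‖fderiv ℝ u x‖ ^ 2 / 2 ≤ dgW (u x)) {L : ℝ} {z : DgE (m + 1)}
    (hL : Tendsto (fun R : ℝ => dgEn (m + 1) u z R / R ^ m) atTop (𝓝 L)) (y : DgE (m + 1))
    {r : ℝ} (hr : 0 < r) : dgEn (m + 1) u y r / r ^ m ≤ L := by
  refine ge_of_tendsto (dgA6_lim_center hu hL y) ?_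
  filter_upwards [eventually_ge_atTop r] with R hR
  exact dgA6_mono hu hpde hmod y (mem_Ioi.2 hr) (mem_Ioi.2 (hr.trans_le hR)) hR

end centre


section terms

/-- the exact derivative identity: `r A'(r) - m A(r) = ∫ ψ (W - |∇u|²/2) + ∫ (-ψ') (2/r²) (∇u·X)²` -/
theorem dgA6_cut_identity {m : ℕ} {u : DgE (m + 1) → ℝ} (hu : ContDiff ℝ 2 u)
    (hpde : ∀ x, Laplacian.laplacian u x = u x ^ 3 - u x)
    {ψ : ℝ → ℝ} (hψ : ContDiff ℝ 1 ψ) (h0 : ∀ t, 1 ≤ t → ψ t = 0)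
    (y : DgE (m + 1)) {r : ℝ} (hr : 0 < r) :
    r * (∫ x, deriv ψ (‖x - y‖ ^ 2 / r ^ 2) * (-(2 * ‖x - y‖ ^ 2 / r ^ 3)) * dgDens (m + 1) u x)
      - m * ∫ x, ψ (‖x - y‖ ^ 2 / r ^ 2) * dgDens (m + 1) u x
      = ∫ x, (ψ (‖x - y‖ ^ 2 / r ^ 2) * (dgW (u x) - ‖fderiv ℝ u x‖ ^ 2 / 2)
        + (-deriv ψ (‖x - y‖ ^ 2 / r ^ 2)) * (2 / r ^ 2) * (fderiv ℝ u x (x - y)) ^ 2) := by
  have hec : Continuous (dgDens (m + 1) u) := (dgA6_contDiff_dens hu).continuous
  have hpc : Continuous (fun x => fderiv ℝ u x (x - y)) := (dgA6_contDiff_rad hu y).continuous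
  have hnc : Continuous (fun x => ‖fderiv ℝ u x‖ ^ 2) :=
    (hu.continuous_fderiv (by norm_num)).norm.pow 2
  have hXc : Continuous fun x : DgE (m + 1) => ‖x - y‖ ^ 2 :=
    (continuous_id.sub continuous_const).norm.pow 2
  have j1 := dgA6_int_dpsi hψ h0 y hr (a := fun x => -(2 * ‖x - y‖ ^ 2 / r ^ 3))
    ((continuous_const.mul hXc).div_const _).neg hec
  have j2 := dgA6_int_psi hψ h0 y hr hec
  have i1 := dgA6_int_dpsi hψ h0 y hr (a := fun x => 2 * ‖x - y‖ ^ 2 / r ^ 2)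
    ((continuous_const.mul hXc).div_const _) hec
  have i3 := dgA6_int_dpsi hψ h0 y hr (a := fun _ => 2 / r ^ 2) continuous_const (hpc.pow 2)
  have i4 := dgA6_int_psi hψ h0 y hr hnc
  have hP := dgA6_pohozaev_cut hu hpde hψ h0 y hr
  have iP : Integrable (fun x => deriv ψ (‖x - y‖ ^ 2 / r ^ 2) * (2 * ‖x - y‖ ^ 2 / r ^ 2)
        * dgDens (m + 1) u x + ((m + 1 : ℕ) : ℝ) * (ψ (‖x - y‖ ^ 2 / r ^ 2) * dgDens (m + 1) u x)
      - deriv ψ (‖x - y‖ ^ 2 / r ^ 2) * (2 / r ^ 2) * (fderiv ℝ u x (x - y)) ^ 2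
      - ψ (‖x - y‖ ^ 2 / r ^ 2) * ‖fderiv ℝ u x‖ ^ 2) :=
    ((i1.add (j2.const_mul ((m + 1 : ℕ) : ℝ))).sub i3).sub i4
  have jD : Integrable (fun x => r * (deriv ψ (‖x - y‖ ^ 2 / r ^ 2) * (-(2 * ‖x - y‖ ^ 2 / r ^ 3))
        * dgDens (m + 1) u x) - m * (ψ (‖x - y‖ ^ 2 / r ^ 2) * dgDens (m + 1) u x)) :=
    (j1.const_mul r).sub (j2.const_mul (m : ℝ))
  rw [← integral_const_mul, ← integral_const_mul, ← integral_sub (j1.const_mul r)
    (j2.const_mul (m : ℝ)), ← add_zero (∫ x, _ - _), ← hP, ← integral_add jD iP]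
  refine integral_congr_ae (Eventually.of_forall fun x => ?_)
  simp only [dgDens]
  push_cast
  field_simp
  ring

/-- the derivative of the smoothed density, in closed form -/
theorem dgA6_cut_hasDerivAt_density {m : ℕ} {u : DgE (m + 1) → ℝ} (hu : ContDiff ℝ 2 u)
    (hpde : ∀ x, Laplacian.laplacian u x = u x ^ 3 - u x)
    {ψ : ℝ → ℝ} (hψ : ContDiff ℝ 1 ψ) (h0 : ∀ t, 1 ≤ t → ψ t = 0)
    (y : DgE (m + 1)) {r : ℝ} (hr : 0 < r) :
    HasDerivAt (fun r : ℝ => (∫ x, ψ (‖x - y‖ ^ 2 / r ^ 2) * dgDens (m + 1) u x) / r ^ m)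
      ((∫ x, (ψ (‖x - y‖ ^ 2 / r ^ 2) * (dgW (u x) - ‖fderiv ℝ u x‖ ^ 2 / 2)
        + (-deriv ψ (‖x - y‖ ^ 2 / r ^ 2)) * (2 / r ^ 2) * (fderiv ℝ u x (x - y)) ^ 2))
        / r ^ (m + 1)) r := by
  have hec : Continuous (dgDens (m + 1) u) := (dgA6_contDiff_dens hu).continuous
  have hd := (dgA6_hasDerivAt_cut hψ h0 hec y hr).fun_div (hasDerivAt_pow m r)
    (pow_ne_zero m hr.ne')
  refine hd.congr_deriv ?_
  rw [← dgA6_cut_identity hu hpde hψ h0 y hr]
  set A' := ∫ x, deriv ψ (‖x - y‖ ^ 2 / r ^ 2) * (-(2 * ‖x - y‖ ^ 2 / r ^ 3)) * dgDens (m + 1) u x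
  set A := ∫ x, ψ (‖x - y‖ ^ 2 / r ^ 2) * dgDens (m + 1) u x
  rcases m with _ | k
  · simp
    field_simp
  · simp only [Nat.add_sub_cancel]
    field_simp
    ring

/-- the regularised radial density `(∇u·X)² / max(|X|, a)^{m+2}` -/
noncomputable def dgA6_rad {n : ℕ} (k : ℕ) (u : DgE n → ℝ) (y : DgE n) (a : ℝ) (x : DgE n) : ℝ :=
  (fderiv ℝ u x (x - y)) ^ 2 / (max ‖x - y‖ a) ^ k

theorem dgA6_rad_cont {n : ℕ} (k : ℕ) {u : DgE n → ℝ} (hu : ContDiff ℝ 2 u) (y : DgE n) {a : ℝ}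
    (ha : 0 < a) : Continuous (dgA6_rad k u y a) := by
  unfold dgA6_rad
  refine ((dgA6_contDiff_rad hu y).continuous.pow 2).div
    (((continuous_id.sub continuous_const).norm.max continuous_const).pow k) fun x => ?_
  exact pow_ne_zero _ (lt_of_lt_of_le ha (le_max_right _ _)).ne'

theorem dgA6_rad_nonneg {n : ℕ} (k : ℕ) (u : DgE n → ℝ) (y : DgE n) {a : ℝ} (ha : 0 < a)
    (x : DgE n) : 0 ≤ dgA6_rad k u y a x := by
  unfold dgA6_rad
  have : 0 < max ‖x - y‖ a := lt_of_lt_of_le ha (le_max_right _ _)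
  positivity

/-- monotonicity with the radial term kept -/
theorem dgA6_cut_mono_rad {m : ℕ} {u : DgE (m + 1) → ℝ} (hu : ContDiff ℝ 2 u)
    (hpde : ∀ x, Laplacian.laplacian u x = u x ^ 3 - u x)
    (hmod : ∀ x, ‖fderiv ℝ u x‖ ^ 2 / 2 ≤ dgW (u x))
    {ψ : ℝ → ℝ} (hψ : ContDiff ℝ 1 ψ) (h0 : ∀ t, 1 ≤ t → ψ t = 0) (hanti : Antitone ψ)
    {θ a : ℝ} (hθ0 : 0 < θ) (hθ : ∀ τ, τ < θ ^ 2 → deriv ψ τ = 0) (ha : 0 < a)
    (y : DgE (m + 1)) :
    MonotoneOn (fun t : ℝ => (∫ x, ψ (‖x - y‖ ^ 2 / t ^ 2) * dgDens (m + 1) u x) / t ^ m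
      - θ ^ m * ∫ x, ψ (‖x - y‖ ^ 2 / t ^ 2) * dgA6_rad (m + 2) u y a x) (Ici (a / θ)) := by
  have hgc : Continuous (dgA6_rad (m + 2) u y a) := dgA6_rad_cont _ hu y ha
  have hpos : ∀ t ∈ Ici (a / θ), 0 < t := fun t ht => lt_of_lt_of_le (by positivity) (mem_Ici.1 ht)
  have hd : ∀ t : ℝ, 0 < t → HasDerivAt
      (fun t : ℝ => (∫ x, ψ (‖x - y‖ ^ 2 / t ^ 2) * dgDens (m + 1) u x) / t ^ m
        - θ ^ m * ∫ x, ψ (‖x - y‖ ^ 2 / t ^ 2) * dgA6_rad (m + 2) u y a x)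
      ((∫ x, (ψ (‖x - y‖ ^ 2 / t ^ 2) * (dgW (u x) - ‖fderiv ℝ u x‖ ^ 2 / 2)
        + (-deriv ψ (‖x - y‖ ^ 2 / t ^ 2)) * (2 / t ^ 2) * (fderiv ℝ u x (x - y)) ^ 2))
        / t ^ (m + 1)
        - θ ^ m * ∫ x, deriv ψ (‖x - y‖ ^ 2 / t ^ 2) * (-(2 * ‖x - y‖ ^ 2 / t ^ 3))
          * dgA6_rad (m + 2) u y a x) t := fun t ht =>
    (dgA6_cut_hasDerivAt_density hu hpde hψ h0 y ht).sub
      ((dgA6_hasDerivAt_cut hψ h0 hgc y ht).const_mul (θ ^ m))
  refine monotoneOn_of_deriv_nonneg (convex_Ici _)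
    (fun t ht => (hd t (hpos t ht)).continuousAt.continuousWithinAt)
    (fun t ht => ?_) (fun t ht => ?_)
  · exact (hd t (hpos t (interior_subset ht))).differentiableAt.differentiableWithinAt
  · have htm : t ∈ Ici (a / θ) := interior_subset ht
    have ht0 : 0 < t := hpos t htm
    have hat : a ≤ θ * t := by
      have := mem_Ici.1 htm
      rwa [div_le_iff₀ hθ0, mul_comm] at this
    rw [(hd t ht0).deriv, sub_nonneg, ← integral_const_mul, ← integral_div]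
    have hpc : Continuous (fun x => fderiv ℝ u x (x - y)) := (dgA6_contDiff_rad hu y).continuous
    have hXc : Continuous fun x : DgE (m + 1) => ‖x - y‖ ^ 2 :=
      (continuous_id.sub continuous_const).norm.pow 2
    have hdc : Continuous fun x => dgW (u x) - ‖fderiv ℝ u x‖ ^ 2 / 2 := by
      unfold dgW
      exact (((continuous_const.sub (hu.continuous.pow 2)).pow 2).div_const _).sub
        (((hu.continuous_fderiv (by norm_num)).norm.pow 2).div_const _)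
    have k1 := (dgA6_int_dpsi hψ h0 y ht0 (a := fun x => -(2 * ‖x - y‖ ^ 2 / t ^ 3))
      ((continuous_const.mul hXc).div_const _).neg hgc).const_mul (θ ^ m)
    have k2 := dgA6_int_psi hψ h0 y ht0 hdc
    have k3 := (dgA6_int_dpsi hψ h0 y ht0 (a := fun _ => 2 / t ^ 2) continuous_const
      (hpc.pow 2)).neg
    have k4 : Integrable (fun x => (ψ (‖x - y‖ ^ 2 / t ^ 2) * (dgW (u x) - ‖fderiv ℝ u x‖ ^ 2 / 2)
        + (-deriv ψ (‖x - y‖ ^ 2 / t ^ 2)) * (2 / t ^ 2) * (fderiv ℝ u x (x - y)) ^ 2)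
        / t ^ (m + 1)) := by
      refine (k2.add (k3.congr (Eventually.of_forall fun x => ?_))).div_const _
      simp only [Pi.neg_apply, Pi.pow_apply]
      ring
    refine integral_mono k1 k4 fun x => ?_
    simp only
    set D := deriv ψ (‖x - y‖ ^ 2 / t ^ 2) with hD
    have hD0 : 0 ≤ -D := neg_nonneg.2 hanti.deriv_nonpos
    have h1 : 0 ≤ ψ (‖x - y‖ ^ 2 / t ^ 2) := dgA6_psi_nonneg h0 hanti _
    have h2 : 0 ≤ dgW (u x) - ‖fderiv ℝ u x‖ ^ 2 / 2 := sub_nonneg.2 (hmod x)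
    by_cases hDz : D = 0
    · rw [hDz]
      simp only [zero_mul, mul_zero, neg_zero, add_zero]
      positivity
    · have hτ : θ ^ 2 ≤ ‖x - y‖ ^ 2 / t ^ 2 := by
        by_contra hcon
        exact hDz (hθ _ (not_le.1 hcon))
      have hρ2 : (θ * t) ^ 2 ≤ ‖x - y‖ ^ 2 := by
        rw [le_div_iff₀ (by positivity)] at hτ
        rwa [mul_pow]
      have hρ : θ * t ≤ ‖x - y‖ := (abs_le_of_sq_le_sq' hρ2 (norm_nonneg _)).2
      have hρ0 : 0 < ‖x - y‖ := lt_of_lt_of_le (by positivity) hρ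
      have hmax : max ‖x - y‖ a = ‖x - y‖ := max_eq_left (hat.trans hρ)
      have hk : (θ ^ m * t ^ m) / ‖x - y‖ ^ m ≤ 1 := by
        rw [div_le_one (by positivity), ← mul_pow]
        exact pow_le_pow_left₀ (by positivity) hρ m
      have hX : 0 ≤ ((-D) * (2 / t ^ 2) * (fderiv ℝ u x (x - y)) ^ 2) / t ^ (m + 1) := by positivity
      calc θ ^ m * (D * (-(2 * ‖x - y‖ ^ 2 / t ^ 3)) * dgA6_rad (m + 2) u y a x)
          = ((-D) * (2 / t ^ 2) * (fderiv ℝ u x (x - y)) ^ 2) / t ^ (m + 1)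
            * ((θ ^ m * t ^ m) / ‖x - y‖ ^ m) := by
            unfold dgA6_rad
            rw [hmax]
            field_simp
            ring
        _ ≤ ((-D) * (2 / t ^ 2) * (fderiv ℝ u x (x - y)) ^ 2) / t ^ (m + 1) * 1 :=
            mul_le_mul_of_nonneg_left hk hX
        _ ≤ _ := by
            rw [mul_one]
            refine div_le_div_of_nonneg_right ?_ (by positivity)
            have := mul_nonneg h1 h2
            linarith

theorem dgA6_psik_deriv_zero (k : ℕ) {τ : ℝ} (hτ : τ < 1 - 1 / (k : ℝ)) (hk : 0 < k) :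
    deriv (fun t : ℝ => Real.smoothTransition ((k : ℝ) * (1 - t))) τ = 0 := by
  have hk' : (0 : ℝ) < k := Nat.cast_pos.2 hk
  have h : (fun t : ℝ => Real.smoothTransition ((k : ℝ) * (1 - t))) =ᶠ[𝓝 τ] fun _ => (1 : ℝ) := by
    filter_upwards [Iio_mem_nhds hτ] with s hs
    refine Real.smoothTransition.one_of_one_le ?_
    have hs' : s < 1 - 1 / (k : ℝ) := hs
    have : 1 / (k : ℝ) ≤ 1 - s := by linarith
    rw [div_le_iff₀ hk'] at this
    linarith
  rw [h.deriv_eq]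
  simp

/-- **the radial term of the monotonicity formula** (integrated form, no spheres): for `0 < r ≤ s`
`∫_{B_s(y) \ B_r(y)} (∇u·(x-y))² / |x-y|^{m+2} ≤ s^{-m} E(u;B_s(y)) - r^{-m} E(u;B_r(y))`. -/
theorem dgA6_radial_le {m : ℕ} {u : DgE (m + 1) → ℝ} (hu : ContDiff ℝ 2 u)
    (hpde : ∀ x, Laplacian.laplacian u x = u x ^ 3 - u x)
    (hmod : ∀ x, ‖fderiv ℝ u x‖ ^ 2 / 2 ≤ dgW (u x)) (y : DgE (m + 1)) {r s : ℝ} (hr : 0 < r)
    (hrs : r ≤ s) :
    ∫ x in ball y s \ ball y r, (fderiv ℝ u x (x - y)) ^ 2 / ‖x - y‖ ^ (m + 2)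
      ≤ dgEn (m + 1) u y s / s ^ m - dgEn (m + 1) u y r / r ^ m := by
  have hs : 0 < s := hr.trans_le hrs
  have ha : 0 < r / 2 := by positivity
  have hec : Continuous (dgDens (m + 1) u) := (dgA6_contDiff_dens hu).continuous
  have hgc : Continuous (dgA6_rad (m + 2) u y (r / 2)) := dgA6_rad_cont _ hu y ha
  -- the constants `θ_k = √(1 - 1/k)`
  have hc : Tendsto (fun k : ℕ => (Real.sqrt (1 - 1 / (k : ℝ))) ^ m) atTop (𝓝 1) := by
    have h1 : Tendsto (fun k : ℕ => (1 : ℝ) - 1 / (k : ℝ)) atTop (𝓝 (1 - 0)) :=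
      tendsto_const_nhds.sub tendsto_one_div_atTop_nhds_zero_nat
    have h2 := (h1.sqrt).pow m
    simpa using h2
  have lim : ∀ t : ℝ, 0 < t → Tendsto (fun k : ℕ =>
      (∫ x, Real.smoothTransition ((k : ℝ) * (1 - ‖x - y‖ ^ 2 / t ^ 2)) * dgDens (m + 1) u x) / t ^ m
      - (Real.sqrt (1 - 1 / (k : ℝ))) ^ m
        * ∫ x, Real.smoothTransition ((k : ℝ) * (1 - ‖x - y‖ ^ 2 / t ^ 2))
          * dgA6_rad (m + 2) u y (r / 2) x) atTop
      (𝓝 (dgEn (m + 1) u y t / t ^ m - 1 * ∫ x in ball y t, dgA6_rad (m + 2) u y (r / 2) x)) :=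
    fun t ht => ((dgpo_cut_tendsto hec y ht).div_const (t ^ m)).sub
      (hc.mul (dgpo_cut_tendsto hgc y ht))
  have hle : dgEn (m + 1) u y r / r ^ m - 1 * ∫ x in ball y r, dgA6_rad (m + 2) u y (r / 2) x
      ≤ dgEn (m + 1) u y s / s ^ m - 1 * ∫ x in ball y s, dgA6_rad (m + 2) u y (r / 2) x := by
    refine le_of_tendsto_of_tendsto (lim r hr) (lim s hs) ?_
    filter_upwards [eventually_ge_atTop 2] with k hk
    have hk0 : 0 < k := by omega
    have hk2 : (2 : ℝ) ≤ k := by exact_mod_cast hk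
    have hkinv : 1 / (k : ℝ) ≤ 1 / 2 := by
      apply one_div_le_one_div_of_le (by norm_num) hk2
    have hnn : (0 : ℝ) ≤ 1 - 1 / (k : ℝ) := by linarith
    have hθ : (1 / 2 : ℝ) ≤ Real.sqrt (1 - 1 / (k : ℝ)) := by
      apply Real.le_sqrt_of_sq_le
      have : ((1 : ℝ) / 2) ^ 2 = 1 / 4 := by norm_num
      rw [this]
      linarith
    have hθ0 : 0 < Real.sqrt (1 - 1 / (k : ℝ)) := lt_of_lt_of_le (by norm_num) hθ
    have hmem : ∀ t : ℝ, r ≤ t → t ∈ Ici (r / 2 / Real.sqrt (1 - 1 / (k : ℝ))) := by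
      intro t ht
      rw [mem_Ici, div_le_iff₀ hθ0]
      nlinarith
    exact dgA6_cut_mono_rad hu hpde hmod
      (ψ := fun t : ℝ => Real.smoothTransition ((k : ℝ) * (1 - t)))
      (dgpo_psi_contDiff k) (fun t ht => dgpo_psi_eq_zero k ht) (dgpo_psi_antitone k) hθ0
      (fun τ hτ => dgA6_psik_deriv_zero k (by rwa [Real.sq_sqrt hnn] at hτ) hk0) ha y
      (hmem r le_rfl) (hmem s hrs) hrs
  have hdiff : ∫ x in ball y s \ ball y r, dgA6_rad (m + 2) u y (r / 2) x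
      = (∫ x in ball y s, dgA6_rad (m + 2) u y (r / 2) x)
        - ∫ x in ball y r, dgA6_rad (m + 2) u y (r / 2) x :=
    setIntegral_sdiff measurableSet_ball (dgA6_integrableOn_ball hgc y s) (ball_subset_ball hrs)
  have hcongr : ∫ x in ball y s \ ball y r, (fderiv ℝ u x (x - y)) ^ 2 / ‖x - y‖ ^ (m + 2)
      = ∫ x in ball y s \ ball y r, dgA6_rad (m + 2) u y (r / 2) x := by
    refine setIntegral_congr_fun (measurableSet_ball.diff measurableSet_ball) fun x hx => ?_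
    have hx2 : r ≤ ‖x - y‖ := by
      have := hx.2
      rwa [mem_ball, dist_eq_norm, not_lt] at this
    simp only [dgA6_rad]
    rw [max_eq_left (by linarith)]
  rw [hcongr, hdiff]
  linarith

theorem dgA6_hasDerivAt_const_div_pow (c : ℝ) (m : ℕ) {t : ℝ} (ht : t ≠ 0) :
    HasDerivAt (fun t : ℝ => c / t ^ m) (-(m * c) / t ^ (m + 1)) t := by
  have h := (hasDerivAt_const t c).fun_div (hasDerivAt_pow m t) (pow_ne_zero m ht)
  refine h.congr_deriv ?_
  rcases m with _ | k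
  · simp
  · simp only [Nat.add_sub_cancel]
    field_simp
    ring

theorem dgA6_disc_cont {n : ℕ} {u : DgE n → ℝ} (hu : ContDiff ℝ 2 u) :
    Continuous fun x => dgW (u x) - ‖fderiv ℝ u x‖ ^ 2 / 2 := by
  unfold dgW
  exact (((continuous_const.sub (hu.continuous.pow 2)).pow 2).div_const _).sub
    (((hu.continuous_fderiv (by norm_num)).norm.pow 2).div_const _)

/-- monotonicity with the discrepancy term kept -/
theorem dgA6_cut_mono_disc {m : ℕ} {u : DgE (m + 1) → ℝ} (hu : ContDiff ℝ 2 u)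
    (hpde : ∀ x, Laplacian.laplacian u x = u x ^ 3 - u x)
    (hmod : ∀ x, ‖fderiv ℝ u x‖ ^ 2 / 2 ≤ dgW (u x))
    {ψ : ℝ → ℝ} (hψ : ContDiff ℝ 1 ψ) (h0 : ∀ t, 1 ≤ t → ψ t = 0) (hanti : Antitone ψ)
    (y : DgE (m + 1)) {r : ℝ} (hr : 0 < r) :
    MonotoneOn (fun t : ℝ => m * ((∫ x, ψ (‖x - y‖ ^ 2 / t ^ 2) * dgDens (m + 1) u x) / t ^ m)
      + (∫ x, ψ (‖x - y‖ ^ 2 / r ^ 2) * (dgW (u x) - ‖fderiv ℝ u x‖ ^ 2 / 2)) / t ^ m) (Ici r) := by
  set Dr := ∫ x, ψ (‖x - y‖ ^ 2 / r ^ 2) * (dgW (u x) - ‖fderiv ℝ u x‖ ^ 2 / 2) with hDr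
  have hpos : ∀ t ∈ Ici r, 0 < t := fun t ht => lt_of_lt_of_le hr (mem_Ici.1 ht)
  have hd : ∀ t : ℝ, 0 < t → HasDerivAt
      (fun t : ℝ => m * ((∫ x, ψ (‖x - y‖ ^ 2 / t ^ 2) * dgDens (m + 1) u x) / t ^ m) + Dr / t ^ m)
      (m * ((∫ x, (ψ (‖x - y‖ ^ 2 / t ^ 2) * (dgW (u x) - ‖fderiv ℝ u x‖ ^ 2 / 2)
        + (-deriv ψ (‖x - y‖ ^ 2 / t ^ 2)) * (2 / t ^ 2) * (fderiv ℝ u x (x - y)) ^ 2))
        / t ^ (m + 1)) + -(m * Dr) / t ^ (m + 1)) t := fun t ht =>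
    ((dgA6_cut_hasDerivAt_density hu hpde hψ h0 y ht).const_mul (m : ℝ)).add
      (dgA6_hasDerivAt_const_div_pow Dr m ht.ne')
  refine monotoneOn_of_deriv_nonneg (convex_Ici _)
    (fun t ht => (hd t (hpos t ht)).continuousAt.continuousWithinAt)
    (fun t ht => ?_) (fun t ht => ?_)
  · exact (hd t (hpos t (interior_subset ht))).differentiableAt.differentiableWithinAt
  · have htm : r ≤ t := mem_Ici.1 (interior_subset ht)
    have ht0 : 0 < t := hr.trans_le htm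
    rw [(hd t ht0).deriv]
    have hpc : Continuous (fun x => fderiv ℝ u x (x - y)) := (dgA6_contDiff_rad hu y).continuous
    have hdc := dgA6_disc_cont hu
    have k0 := dgA6_int_psi hψ h0 y hr hdc
    have k2 := dgA6_int_psi hψ h0 y ht0 hdc
    have k3 := (dgA6_int_dpsi hψ h0 y ht0 (a := fun _ => 2 / t ^ 2) continuous_const
      (hpc.pow 2)).neg
    have k4 : Integrable (fun x => ψ (‖x - y‖ ^ 2 / t ^ 2) * (dgW (u x) - ‖fderiv ℝ u x‖ ^ 2 / 2)
        + (-deriv ψ (‖x - y‖ ^ 2 / t ^ 2)) * (2 / t ^ 2) * (fderiv ℝ u x (x - y)) ^ 2) := by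
      refine k2.add (k3.congr (Eventually.of_forall fun x => ?_))
      simp only [Pi.neg_apply, Pi.pow_apply]
      ring
    have hle : Dr ≤ ∫ x, (ψ (‖x - y‖ ^ 2 / t ^ 2) * (dgW (u x) - ‖fderiv ℝ u x‖ ^ 2 / 2)
        + (-deriv ψ (‖x - y‖ ^ 2 / t ^ 2)) * (2 / t ^ 2) * (fderiv ℝ u x (x - y)) ^ 2) := by
      refine integral_mono k0 k4 fun x => ?_
      simp only
      have hD0 : 0 ≤ -deriv ψ (‖x - y‖ ^ 2 / t ^ 2) := neg_nonneg.2 hanti.deriv_nonpos
      have h2 : 0 ≤ dgW (u x) - ‖fderiv ℝ u x‖ ^ 2 / 2 := sub_nonneg.2 (hmod x)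
      have h3 : ψ (‖x - y‖ ^ 2 / r ^ 2) ≤ ψ (‖x - y‖ ^ 2 / t ^ 2) := by
        apply hanti
        gcongr
      have h4 : 0 ≤ (-deriv ψ (‖x - y‖ ^ 2 / t ^ 2)) * (2 / t ^ 2) * (fderiv ℝ u x (x - y)) ^ 2 := by
        positivity
      have h5 := mul_le_mul_of_nonneg_right h3 h2
      linarith
    rw [← mul_div_assoc, ← add_div]
    refine div_nonneg ?_ (by positivity)
    have hm : (0 : ℝ) ≤ m := Nat.cast_nonneg m
    nlinarith [mul_le_mul_of_nonneg_left hle hm]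

/-- **the discrepancy term of the monotonicity formula** (integrated form): for `0 < r ≤ s`
`(∫_{B_r(y)} (W(u) - |∇u|²/2)) (r^{-m} - s^{-m}) ≤ m (s^{-m} E(u;B_s(y)) - r^{-m} E(u;B_r(y)))`. -/
theorem dgA6_disc_le {m : ℕ} {u : DgE (m + 1) → ℝ} (hu : ContDiff ℝ 2 u)
    (hpde : ∀ x, Laplacian.laplacian u x = u x ^ 3 - u x)
    (hmod : ∀ x, ‖fderiv ℝ u x‖ ^ 2 / 2 ≤ dgW (u x)) (y : DgE (m + 1)) {r s : ℝ} (hr : 0 < r)
    (hrs : r ≤ s) :
    (∫ x in ball y r, (dgW (u x) - ‖fderiv ℝ u x‖ ^ 2 / 2)) * (1 / r ^ m - 1 / s ^ m)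
      ≤ m * (dgEn (m + 1) u y s / s ^ m - dgEn (m + 1) u y r / r ^ m) := by
  have hs : 0 < s := hr.trans_le hrs
  have hec : Continuous (dgDens (m + 1) u) := (dgA6_contDiff_dens hu).continuous
  have hdc := dgA6_disc_cont hu
  have lim : ∀ t : ℝ, 0 < t → Tendsto (fun k : ℕ =>
      m * ((∫ x, Real.smoothTransition ((k : ℝ) * (1 - ‖x - y‖ ^ 2 / t ^ 2)) * dgDens (m + 1) u x)
        / t ^ m)
      + (∫ x, Real.smoothTransition ((k : ℝ) * (1 - ‖x - y‖ ^ 2 / r ^ 2))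
          * (dgW (u x) - ‖fderiv ℝ u x‖ ^ 2 / 2)) / t ^ m) atTop
      (𝓝 (m * (dgEn (m + 1) u y t / t ^ m)
        + (∫ x in ball y r, (dgW (u x) - ‖fderiv ℝ u x‖ ^ 2 / 2)) / t ^ m)) :=
    fun t ht => (((dgpo_cut_tendsto hec y ht).div_const (t ^ m)).const_mul (m : ℝ)).add
      ((dgpo_cut_tendsto hdc y hr).div_const (t ^ m))
  have hle := le_of_tendsto_of_tendsto' (lim r hr) (lim s hs) fun k =>
    dgA6_cut_mono_disc hu hpde hmod
      (ψ := fun t : ℝ => Real.smoothTransition ((k : ℝ) * (1 - t)))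
      (dgpo_psi_contDiff k) (fun t ht => dgpo_psi_eq_zero k ht) (dgpo_psi_antitone k) y hr
      (mem_Ici.2 le_rfl) (mem_Ici.2 hrs) hrs
  have e1 : ∀ (c t : ℝ), c * (1 / t) = c / t := fun c t => by ring
  rw [mul_sub, mul_sub, e1, e1]
  linarith

end terms


/-! ## EXITS -/

/-- **K6b** (the Hub's `dgHub_K6b` is the case `y = 0`, `c = dgS0 * ω_{n-1}`): the normalized energy is nondecreasing. -/
theorem dgA6_K6b {n : ℕ} {v : DgE n → ℝ} (hv : DgSol n v)
    (hmod : ∀ x, ‖fderiv ℝ v x‖ ^ 2 / 2 ≤ dgW (v x)) {c : ℝ} (hc : 0 ≤ c) :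
    MonotoneOn (fun R : ℝ => dgEn n v 0 R / (c * R ^ (n - 1))) (Ioi 0) := by
  rcases n with _ | m
  · exact dgpo_K6b_zero v c
  · intro a ha b hb hab
    have h := dgA6_mono hv.smooth hv.pde hmod 0 ha hb hab
    simp only [Nat.add_sub_cancel] at h ⊢
    rw [mul_comm c, mul_comm c, ← div_div, ← div_div]
    exact div_le_div_of_nonneg_right h hc


/-- centre independence on `DgSol`: finite density at the origin gives ONE constant for all balls of all centres. -/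
theorem dgA6_exit_center {n : ℕ} {v : DgE n → ℝ} (hv : DgSol n v)
    (hmod : ∀ x, ‖fderiv ℝ v x‖ ^ 2 / 2 ≤ dgW (v x)) (hd : DgFinDens n v) (hn : 1 ≤ n) :
    ∃ C : ℝ, ∀ (y : DgE n) (r : ℝ), 0 < r → dgEn n v y r ≤ C * r ^ (n - 1) := by
  obtain ⟨C, hC⟩ := hd
  obtain ⟨m, rfl⟩ : ∃ m, n = m + 1 := ⟨n - 1, by omega⟩
  exact ⟨C, fun y r hr => dgA6_center hv.smooth hv.pde hmod (R₀ := 1) (z := 0) hC y hr⟩

/-- the radial term on `DgSol`, against the density at infinity `L` (not normalized: `L = lim R^{-m} E(v; B_R(z))`). -/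
theorem dgA6_exit_radial {m : ℕ} {v : DgE (m + 1) → ℝ} (hv : DgSol (m + 1) v)
    (hmod : ∀ x, ‖fderiv ℝ v x‖ ^ 2 / 2 ≤ dgW (v x)) {L : ℝ} {z : DgE (m + 1)}
    (hL : Tendsto (fun R : ℝ => dgEn (m + 1) v z R / R ^ m) atTop (𝓝 L)) (y : DgE (m + 1))
    {r s : ℝ} (hr : 0 < r) (hrs : r ≤ s) :
    ∫ x in ball y s \ ball y r, (fderiv ℝ v x (x - y)) ^ 2 / ‖x - y‖ ^ (m + 2)
      ≤ L - dgEn (m + 1) v y r / r ^ m :=
  (dgA6_radial_le hv.smooth hv.pde hmod y hr hrs).trans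
    (sub_le_sub_right (dgA6_le_lim hv.smooth hv.pde hmod hL y (hr.trans_le hrs)) _)

/-- **P13**: unit density at infinity at the centre `0` (normalising constant `c`) bounds ALL balls of ALL centres. -/
theorem dgA6_P13 {n : ℕ} {v : DgE n → ℝ} (hv : DgSol n v)
    (hmod : ∀ x, ‖fderiv ℝ v x‖ ^ 2 / 2 ≤ dgW (v x)) (hn : 1 ≤ n) {c : ℝ} (hc : 0 < c)
    (hL : Tendsto (fun R : ℝ => dgEn n v 0 R / (c * R ^ (n - 1))) atTop (𝓝 1))
    (y : DgE n) {r : ℝ} (hr : 0 < r) : dgEn n v y r ≤ c * r ^ (n - 1) := by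
  obtain ⟨m, rfl⟩ : ∃ m, n = m + 1 := ⟨n - 1, by omega⟩
  simp only [Nat.add_sub_cancel] at hL ⊢
  have h1 : Tendsto (fun R : ℝ => dgEn (m + 1) v 0 R / R ^ m) atTop (𝓝 c) := by
    have h2 := hL.const_mul c
    rw [mul_one] at h2
    refine h2.congr fun R => ?_
    rw [mul_comm c (R ^ m), ← div_div]
    field_simp
  have h3 := dgA6_le_lim hv.smooth hv.pde hmod h1 y hr
  rwa [div_le_iff₀ (by positivity)] at h3

/-- Modica's bound makes a solution `1`-Lipschitz. -/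
theorem dgA6_lipschitz {n : ℕ} {v : DgE n → ℝ} (hv : DgSol n v)
    (hmod : ∀ x, ‖fderiv ℝ v x‖ ^ 2 / 2 ≤ dgW (v x)) (x y : DgE n) : |v x - v y| ≤ ‖x - y‖ := by
  have hb : ∀ z, ‖fderiv ℝ v z‖ ≤ 1 := by
    intro z
    have h1 := hmod z
    have h2 : dgW (v z) ≤ 1 / 4 := by
      unfold dgW
      have h3 := (hv.range z).1
      have h4 := (hv.range z).2
      have h5 : 0 ≤ 1 - v z ^ 2 := by nlinarith
      have h6 : 1 - v z ^ 2 ≤ 1 := by nlinarith [sq_nonneg (v z)]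
      nlinarith
    have h7 : ‖fderiv ℝ v z‖ ^ 2 ≤ 1 ^ 2 := by linarith
    exact (abs_le_of_sq_le_sq' h7 zero_le_one).2
  have h := Convex.norm_image_sub_le_of_norm_fderiv_le (𝕜 := ℝ) (f := v) (s := univ) (C := 1)
    (fun z _ => (hv.smooth.differentiable (by norm_num)) z) (fun z _ => hb z) convex_univ
    (mem_univ y) (mem_univ x)
  simpa using h

/-- **P14**: lower density bound at interface points `|v y| ≤ lam < 1`, constant depending only on the dimension and `lam`. -/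
theorem dgA6_P14 (n : ℕ) (hn : 1 ≤ n) {lam : ℝ} (hl0 : 0 ≤ lam) (hl1 : lam < 1) :
    ∃ c₀ : ℝ, 0 < c₀ ∧ ∀ v : DgE n → ℝ, DgSol n v → (∀ x, ‖fderiv ℝ v x‖ ^ 2 / 2 ≤ dgW (v x)) →
      ∀ y : DgE n, |v y| ≤ lam → ∀ r : ℝ, (1 - lam) / 2 ≤ r → c₀ * r ^ (n - 1) ≤ dgEn n v y r := by
  obtain ⟨m, rfl⟩ : ∃ m, n = m + 1 := ⟨n - 1, by omega⟩
  simp only [Nat.add_sub_cancel]
  set δ : ℝ := (1 - lam) / 2 with hδ
  set μ : ℝ := (1 + lam) / 2 with hμ
  have hδ0 : 0 < δ := by rw [hδ]; linarith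
  have hμ1 : μ < 1 := by rw [hμ]; linarith
  have hμ0 : 0 ≤ μ := by rw [hμ]; linarith
  set κ : ℝ := (1 - μ ^ 2) ^ 2 / 4 with hκ
  have hκ0 : 0 < κ := by
    have : 0 < 1 - μ ^ 2 := by nlinarith
    rw [hκ]; positivity
  have hvol : 0 < (volume : Measure (DgE (m + 1))).real (ball 0 δ) :=
    ENNReal.toReal_pos (measure_ball_pos _ _ hδ0).ne' measure_ball_lt_top.ne
  refine ⟨κ * (volume : Measure (DgE (m + 1))).real (ball 0 δ) / δ ^ m, by positivity, ?_⟩
  intro v hv hmod y hy r hr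
  have hr0 : 0 < r := hδ0.trans_le hr
  have hec : Continuous (dgDens (m + 1) v) := (dgA6_contDiff_dens hv.smooth).continuous
  have h1 : κ * (volume : Measure (DgE (m + 1))).real (ball y δ) ≤ dgEn (m + 1) v y δ := by
    refine setIntegral_ge_of_const_le_real measurableSet_ball measure_ball_lt_top.ne (fun x hx => ?_)
      (dgA6_integrableOn_ball hec y δ)
    have hx' : ‖x - y‖ < δ := by rwa [mem_ball, dist_eq_norm] at hx
    have h2 := dgA6_lipschitz hv hmod x y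
    have h3 : |v x| ≤ μ := by
      have : |v x| ≤ |v x - v y| + |v y| := by
        have := abs_add_le (v x - v y) (v y)
        simpa using this
      rw [hμ]
      rw [hδ] at hx'
      linarith
    have h4 : v x ^ 2 ≤ μ ^ 2 := by
      rw [← sq_abs (v x)]
      exact pow_le_pow_left₀ (abs_nonneg _) h3 2
    have h5 : 0 ≤ 1 - μ ^ 2 := by nlinarith
    have h6 : κ ≤ dgW (v x) := by
      rw [hκ]
      unfold dgW
      have : (1 - μ ^ 2) ^ 2 ≤ (1 - v x ^ 2) ^ 2 := pow_le_pow_left₀ h5 (by linarith) 2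
      linarith
    unfold dgDens
    have : 0 ≤ ‖fderiv ℝ v x‖ ^ 2 / 2 := by positivity
    linarith
  have hcenter : (volume : Measure (DgE (m + 1))).real (ball y δ)
      = (volume : Measure (DgE (m + 1))).real (ball 0 δ) := by
    unfold Measure.real
    rw [Measure.addHaar_ball_center]
  rw [hcenter] at h1
  have h2 := dgA6_mono hv.smooth hv.pde hmod y (mem_Ioi.2 hδ0) (mem_Ioi.2 hr0) hr
  simp only at h2
  rw [div_le_div_iff₀ (by positivity) (by positivity)] at h2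
  rw [div_mul_eq_mul_div, div_le_iff₀ (by positivity)]
  calc κ * (volume : Measure (DgE (m + 1))).real (ball 0 δ) * r ^ m
      ≤ dgEn (m + 1) v y δ * r ^ m := mul_le_mul_of_nonneg_right h1 (by positivity)
    _ ≤ dgEn (m + 1) v y r * δ ^ m := h2

end Claimed.Agent.R329
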