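import Claimed.Agent.R329.DfDefs
import Claimed.Agent.R329.Mono
import Claimed.Agent.R329.Kappa
import Claimed.Agent.R329.Modica
import Claimed.Agent.R329.Reg
import Claimed.Agent.R329.Smp

/-!
# Row 329, K7, post P16: the global facts `DfClass n K c₀ u` from the landed exits.      (pen: helper38)

* `dfcl_stable_of_min` : a global minimiser is stable (symmetrised second variation: no first variation, no Taylor remainder);
* `dfcl_class`         : `DgSol + DgStable +` unit density at infinity `⇒ DfClass n K c₀ u`, `K`, `c₀` depending only on `n`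
  (A3 smoothness, A2 strict range, A5 Modica, P13 mass, P1 = Kappa discrepancy, P14 lower density);
* `dfcl_class_of_min`  : the same for minimisers (the hypotheses of the Hub's K7).
-/

set_option autoImplicit false
open scoped ContDiff RealInnerProductSpace Topology
open MeasureTheory Metric Set Filter

namespace Claimed.Agent.R329

open Claimed.Agent.Gmt

variable {n : ℕ}

/-! ## 1. minimisers are stable -/

theorem dfcl_parallelogram (L M : DgE n →L[ℝ] ℝ) (t : ℝ) :
    ‖L + t • M‖ ^ 2 + ‖L + (-t) • M‖ ^ 2 = 2 * ‖L‖ ^ 2 + 2 * t ^ 2 * ‖M‖ ^ 2 := by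
  simp only [dgA6_norm_sq, add_apply, smul_apply, smul_eq_mul]
  rw [← Finset.sum_add_distrib, Finset.mul_sum, Finset.mul_sum, ← Finset.sum_add_distrib]
  exact Finset.sum_congr rfl fun i _ => by ring

theorem dfcl_fderiv_add_mul {u φ : DgE n → ℝ} (hu : Differentiable ℝ u) (hφ : Differentiable ℝ φ)
    (t : ℝ) (x : DgE n) :
    fderiv ℝ (fun y => u y + t * φ y) x = fderiv ℝ u x + t • fderiv ℝ φ x := by
  rw [fderiv_fun_add (hu x) ((hφ x).const_mul t), fderiv_const_mul (hφ x)]

/-- the symmetrised second difference of the energy density is an exact polynomial. -/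
theorem dfcl_dens_sym {u φ : DgE n → ℝ} (hu : Differentiable ℝ u) (hφ : Differentiable ℝ φ)
    (t : ℝ) (x : DgE n) :
    dgDens n (fun y => u y + t * φ y) x + dgDens n (fun y => u y + (-t) * φ y) x
      = 2 * dgDens n u x + (t ^ 2 * (‖fderiv ℝ φ x‖ ^ 2 + (3 * u x ^ 2 - 1) * φ x ^ 2)
        + t ^ 4 / 2 * φ x ^ 4) := by
  unfold dgDens dgW
  rw [dfcl_fderiv_add_mul hu hφ, dfcl_fderiv_add_mul hu hφ]
  have h := dfcl_parallelogram (fderiv ℝ u x) (fderiv ℝ φ x) t
  have e : ‖fderiv ℝ u x + t • fderiv ℝ φ x‖ ^ 2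
      = 2 * ‖fderiv ℝ u x‖ ^ 2 + 2 * t ^ 2 * ‖fderiv ℝ φ x‖ ^ 2
        - ‖fderiv ℝ u x + (-t) • fderiv ℝ φ x‖ ^ 2 := by linarith
  rw [e]
  ring

theorem dfcl_stable_of_min {u : DgE n → ℝ} (hu : ContDiff ℝ 1 u) (hmin : DgMin n u) :
    DgStable n u := by
  intro φ hφ hc
  obtain ⟨R, hR⟩ := hc.isCompact.isBounded.subset_ball (0 : DgE n)
  have hud : Differentiable ℝ u := hu.differentiable one_ne_zero
  have hφd : Differentiable ℝ φ := hφ.differentiable one_ne_zero
  have hcd : ∀ {w : DgE n → ℝ}, ContDiff ℝ 1 w → Continuous (dgDens n w) := fun hw =>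
    dgKa_dens_continuous hw
  have hw : ∀ t : ℝ, ContDiff ℝ 1 fun y => u y + t * φ y := fun t =>
    hu.add (contDiff_const.mul hφ)
  have hI : ∀ {e : DgE n → ℝ}, Continuous e → IntegrableOn e (ball (0 : DgE n) R) := fun he =>
    dgA6_integrableOn_ball he 0 R
  set q : DgE n → ℝ := fun x => ‖fderiv ℝ φ x‖ ^ 2 + (3 * u x ^ 2 - 1) * φ x ^ 2 with hq
  have hqc : Continuous q := by
    have h1 : Continuous fun x => fderiv ℝ φ x := hφ.continuous_fderiv one_ne_zero
    have h2 := hu.continuous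
    have h3 := hφ.continuous
    rw [hq]
    fun_prop
  have hp4 : Continuous fun x => φ x ^ 4 := hφ.continuous.pow 4
  set Q : ℝ := ∫ x in ball (0 : DgE n) R, q x with hQ
  set P : ℝ := ∫ x in ball (0 : DgE n) R, φ x ^ 4 with hP
  have hP0 : 0 ≤ P := setIntegral_nonneg measurableSet_ball fun x _ => by positivity
  -- the polynomial inequality
  have key : ∀ t : ℝ, 0 ≤ t ^ 2 * Q + t ^ 4 / 2 * P := by
    intro t
    have hm : ∀ s : ℝ, dgEn n u 0 R ≤ dgEn n (fun x => u x + s * φ x) 0 R := fun s =>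
      hmin R (fun x => s * φ x) (contDiff_const.mul hφ) hc.mul_left
        ((tsupport_mul_subset_right (f := fun _ => s) (g := φ)).trans hR)
    have h1 := hm t
    have h2 := hm (-t)
    have h3 : dgEn n (fun x => u x + t * φ x) 0 R + dgEn n (fun x => u x + (-t) * φ x) 0 R
        = 2 * dgEn n u 0 R + (t ^ 2 * Q + t ^ 4 / 2 * P) := by
      unfold dgEn
      have i1 : IntegrableOn (fun x => 2 * dgDens n u x) (ball (0 : DgE n) R) :=
        (hI (hcd hu)).const_mul _
      have i2 : IntegrableOn (fun x => t ^ 2 * q x) (ball (0 : DgE n) R) := (hI hqc).const_mul _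
      have i3 : IntegrableOn (fun x => t ^ 4 / 2 * φ x ^ 4) (ball (0 : DgE n) R) :=
        (hI hp4).const_mul _
      have i4 : IntegrableOn (fun x => t ^ 2 * q x + t ^ 4 / 2 * φ x ^ 4) (ball (0 : DgE n) R) :=
        i2.add i3
      rw [← integral_add (hI (hcd (hw t))) (hI (hcd (hw (-t)))), hQ, hP, ← integral_const_mul,
        ← integral_const_mul, ← integral_const_mul, ← integral_add i2 i3, ← integral_add i1 i4]
      refine integral_congr_ae (Eventually.of_forall fun x => ?_)
      exact dfcl_dens_sym hud hφd t x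
    linarith
  have hQ0 : 0 ≤ Q := by
    by_contra hneg
    have hneg' : Q < 0 := not_le.1 hneg
    set s : ℝ := -Q / (P + 1) with hs
    have hP1 : 0 < P + 1 := by linarith
    have hs0 : 0 < s := div_pos (by linarith) hP1
    have hsP : s * (P + 1) = -Q := by rw [hs]; field_simp
    have h1 := key (Real.sqrt s)
    have e2 : Real.sqrt s ^ 2 = s := Real.sq_sqrt hs0.le
    have e4 : Real.sqrt s ^ 4 = s ^ 2 := by
      rw [show (4 : ℕ) = 2 * 2 by norm_num, pow_mul, e2]
    rw [e2, e4] at h1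
    have h2 : s * Q + s ^ 2 / 2 * P = -(s ^ 2 * (P / 2 + 1)) := by
      have : Q = -(s * (P + 1)) := by linarith
      rw [this]; ring
    rw [h2] at h1
    have h3 : 0 < s ^ 2 * (P / 2 + 1) := by positivity
    linarith
  have hfull : ∫ x, q x = Q := by
    rw [hQ]
    refine (setIntegral_eq_integral_of_forall_compl_eq_zero fun x hx => ?_).symm
    have hxs : x ∉ tsupport φ := fun h => hx (hR h)
    simp only [hq]
    rw [fderiv_of_notMem_tsupport ℝ hxs, image_eq_zero_of_notMem_tsupport hxs]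
    simp
  show 0 ≤ ∫ x, q x
  rw [hfull]
  exact hQ0

/-! ## 2. the class -/

theorem dfcl_En_const {c : ℝ} (hc : dgW c = 0) (y : DgE n) (R : ℝ) :
    dgEn n (fun _ => c) y R = 0 := by
  unfold dgEn dgDens
  simp [hc]

/-- strict range from a nonzero density at infinity. -/
theorem dfcl_range {u : DgE n → ℝ} (hu : DgSol n u) {g : ℝ → ℝ}
    (hL : Tendsto (fun R : ℝ => dgEn n u 0 R / g R) atTop (𝓝 1)) :
    ∀ x, u x ∈ Ioo (-1 : ℝ) 1 := by
  have hno : ∀ c : ℝ, dgW c = 0 → ¬ ∀ x, u x = c := by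
    intro c hc h
    have hu' : u = fun _ => c := funext h
    rw [hu'] at hL
    simp only [dfcl_En_const hc, zero_div] at hL
    exact zero_ne_one (tendsto_nhds_unique tendsto_const_nhds hL)
  rcases hu.dgA2_trichotomy with h | h | h
  · exact absurd h (hno 1 (by unfold dgW; norm_num))
  · exact absurd h (hno (-1) (by unfold dgW; norm_num))
  · exact h

/-! ## EXITS -/

/-- **P16**. -/
theorem dfcl_class (n : ℕ) (hn : 1 ≤ n) : ∃ K c₀ : ℝ, ∀ u : E (n + 1) → ℝ, DgSol (n + 1) u →
    DgStable (n + 1) u →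
    Tendsto (fun R : ℝ => dgEn (n + 1) u 0 R / (dfS0 * gmtOm n * R ^ n)) atTop (𝓝 1) →
    DfClass n K c₀ u := by
  have hs0 : 0 < dfS0 := by unfold dfS0; positivity
  have hom : 0 < gmtOm n := by
    unfold gmtOm
    exact ENNReal.toReal_pos (measure_ball_pos _ _ one_pos).ne' measure_ball_lt_top.ne
  have hc : 0 < dfS0 * gmtOm n := mul_pos hs0 hom
  obtain ⟨K, hK0, hK⟩ := dgKa_exit_P1 (n + 1) (by omega) (dfS0 * gmtOm n)
  obtain ⟨c₀, hc₀, hlow⟩ := dgA6_P14 (n + 1) (by omega) (lam := 7 / 8) (by norm_num) (by norm_num)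
  refine ⟨K, c₀, fun u hu hs hL => ?_⟩
  have hsm : ContDiff ℝ ∞ u := dgA3_smooth hu.smooth hu.range hu.pde
  have hmod : ∀ x, ‖fderiv ℝ u x‖ ^ 2 / 2 ≤ dgW (u x) := dgA5_modica hu hsm
  have hmass : ∀ (y : E (n + 1)) (r : ℝ), 0 < r → dgEn (n + 1) u y r ≤ dfS0 * gmtOm n * r ^ n := by
    intro y r hr
    have := dgA6_P13 hu hmod (by omega) hc (by simpa only [Nat.add_sub_cancel] using hL) y hr
    simpa only [Nat.add_sub_cancel] using this
  have e2 : n + 1 - 2 = n - 1 := by omega
  exact
    { hK := hK0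
      hc := hc₀
      smooth := hsm
      range := dfcl_range hu hL
      pde := hu.pde
      modica := hmod
      mass := hmass
      disc := fun y r hr => by
        have := hK u hu hs (fun y r hr => by simpa only [Nat.add_sub_cancel] using hmass y r hr) y r hr
        rwa [e2] at this
      low := fun y hy r hr => by
        have := hlow u hu hmod y hy r (by linarith)
        simpa only [Nat.add_sub_cancel] using this }

/-- the same under the hypotheses of the Hub's K7 (minimiser, unit density at infinity). -/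
theorem dfcl_class_of_min (n : ℕ) (hn : 1 ≤ n) : ∃ K c₀ : ℝ, ∀ u : E (n + 1) → ℝ, DgSol (n + 1) u →
    DgMin (n + 1) u →
    Tendsto (fun R : ℝ => dgEn (n + 1) u 0 R / (dfS0 * gmtOm n * R ^ n)) atTop (𝓝 1) →
    DfClass n K c₀ u := by
  obtain ⟨K, c₀, h⟩ := dfcl_class n hn
  exact ⟨K, c₀, fun u hu hmin hL =>
    h u hu (dfcl_stable_of_min (hu.smooth.of_le (by norm_num)) hmin) hL⟩

end Claimed.Agent.R329
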