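import Claimed.Agent.R329.Diffuse
import Claimed.Agent.R329.Cutoff
import Claimed.Agent.R329.Modica

/-!
# Row 329, cell C6, K7 (the diffuse Fl-port), post P1 DISC, second pen.   Pen: helper228.   Prefix `dfq_`.   0 sorry.

THE DISCREPANCY HAS ONE POWER LESS THAN THE ENERGY.   `q = 1 - u²`, `P = q² - 2|∇u|² = 4 (W(u) - |∇u|²/2) ≥ 0` (Modica).
* (b) `dfq_qP_le`: stable + `E(B_r(y)) ≤ C₀ r^{n-1}`  ⟹  `∫_{B_r(y)} q P ≤ K r^{n-1}/r²`   (the `q`-test with a cut-off).
* (c) `dfq_split`: `P ≤ q P / d + q d` for every `d > 0`.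
* assembly `dfq_disc_of`: with (a) `∫_{B_r(y)} q ≤ C₁ r^{n-1}` (167, `DfDisc.lean`) as a hypothesis:
  `∫_{B_r(y)} (W(u) - |∇u|²/2) ≤ K r^{n-2}` for all `y`, `r > 0`.
-/

set_option autoImplicit false
open scoped Topology ContDiff
open MeasureTheory Metric Set Filter

namespace Claimed.Agent.R329

variable {n : ℕ}

/-- the translated smooth cut-off: `1` on `closedBall y r`, `0` off `ball y (2r)`. -/
noncomputable def dfq_eta (y : DgE n) (r : ℝ) (x : DgE n) : ℝ := dgcu_smooth r (x - y)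

theorem dfq_eta_contDiff (y : DgE n) (r : ℝ) : ContDiff ℝ 1 (dfq_eta y r) :=
  ((dgcu_smooth_contDiff (n := n) r).of_le (by norm_cast)).comp (contDiff_id.sub contDiff_const)

theorem dfq_eta_eq_one (y : DgE n) {r : ℝ} (hr : 0 < r) {x : DgE n} (hx : x ∈ ball y r) :
    dfq_eta y r x = 1 :=
  dgcu_smooth_eq_one hr (by have : ‖x - y‖ < r := by simpa [dist_eq_norm] using hx
                            exact this.le)

theorem dfq_eta_eq_zero (y : DgE n) {r : ℝ} (hr : 0 < r) {x : DgE n} (hx : x ∉ closedBall y (2 * r)) :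
    dfq_eta y r x = 0 :=
  dgcu_smooth_eq_zero hr (by have : ¬ ‖x - y‖ ≤ 2 * r := by simpa [dist_eq_norm] using hx
                             linarith)

theorem dfq_eta_hcs (y : DgE n) {r : ℝ} (hr : 0 < r) : HasCompactSupport (dfq_eta y r) :=
  HasCompactSupport.intro (isCompact_closedBall y (2 * r)) fun _ hx => dfq_eta_eq_zero y hr hx

theorem dfq_eta_fderiv (y : DgE n) (r : ℝ) (x : DgE n) :
    fderiv ℝ (dfq_eta y r) x = fderiv ℝ (dgcu_smooth (n := n) r) (x - y) :=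
  fderiv_comp_sub y

theorem dfq_eta_fderiv_zero (y : DgE n) {r : ℝ} (hr : 0 < r) {x : DgE n}
    (hx : x ∉ closedBall y (2 * r)) : fderiv ℝ (dfq_eta y r) x = 0 := by
  have h : dfq_eta y r =ᶠ[𝓝 x] fun _ => (0 : ℝ) := by
    filter_upwards [isClosed_closedBall.isOpen_compl.mem_nhds hx] with z hz
    exact dfq_eta_eq_zero y hr hz
  rw [h.fderiv_eq]
  simp

theorem dfq_intOn {F : DgE n → ℝ} (hF : Continuous F) (y : DgE n) (r : ℝ) :
    IntegrableOn F (closedBall y r) :=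
  hF.continuousOn.integrableOn_compact (isCompact_closedBall y r)

theorem dfq_intOn_ball {F : DgE n → ℝ} (hF : Continuous F) (y : DgE n) (r : ℝ) :
    IntegrableOn F (ball y r) :=
  (dfq_intOn hF y r).mono_set ball_subset_closedBall

theorem dfq_dens_cont {u : DgE n → ℝ} (hu : DgSol n u) : Continuous (dgDens n u) := by
  unfold dgDens dgW
  have h1 := hu.smooth.continuous
  have h2 := dg8_continuous_norm_fderiv_sq (hu.smooth.of_le (by norm_num))
  fun_prop

/-- `∫_{closedBall y ρ} q² ≤ 4 E(B_{ρ'}(y))` for `ρ < ρ'`. -/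
theorem dfq_int_q_sq {u : DgE n → ℝ} (hu : DgSol n u) (y : DgE n) {ρ ρ' : ℝ} (h : ρ < ρ') :
    ∫ x in closedBall y ρ, dgC1_q u x ^ 2 ≤ 4 * dgEn n u y ρ' := by
  have hq : Continuous fun x => dgC1_q u x ^ 2 := (dgC1_q_cont hu).pow 2
  have h1 : ∫ x in closedBall y ρ, dgC1_q u x ^ 2 ≤ ∫ x in ball y ρ', dgC1_q u x ^ 2 :=
    setIntegral_mono_set (dfq_intOn_ball hq y ρ') (Eventually.of_forall fun x => by positivity)
      (Eventually.of_forall fun x hx => closedBall_subset_ball h hx)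
  have h2 : ∫ x in ball y ρ', dgC1_q u x ^ 2 ≤ ∫ x in ball y ρ', 4 * dgDens n u x := by
    refine setIntegral_mono_on (dfq_intOn_ball hq y ρ')
      (dfq_intOn_ball (continuous_const.mul (dfq_dens_cont hu)) y ρ') measurableSet_ball
      fun x _ => ?_
    unfold dgC1_q dgDens dgW
    have : 0 ≤ ‖fderiv ℝ u x‖ ^ 2 := by positivity
    linarith
  rw [integral_const_mul] at h2
  exact le_trans h1 h2

/-- (b) **the weighted defect has three powers less than the volume.** -/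
theorem dfq_qP_le (n : ℕ) : ∃ A : ℝ, 0 ≤ A ∧ ∀ (u : DgE n → ℝ), DgSol n u → DgStable n u →
    (∀ x, 0 ≤ dgC1_P u x) → ∀ C₀ : ℝ, (∀ y r, 0 < r → dgEn n u y r ≤ C₀ * r ^ (n - 1)) →
    ∀ y r, 0 < r → ∫ x in ball y r, dgC1_q u x * dgC1_P u x ≤ A * C₀ * r ^ (n - 1) / r ^ 2 := by
  obtain ⟨C, hC0, hC⟩ := dgcu_smooth_norm_fderiv_le n
  refine ⟨4 * C ^ 2 * 3 ^ (n - 1), by positivity, fun u hu hs hmod C₀ hE y r hr => ?_⟩
  set η := dfq_eta y r with hη
  have hη1 := dfq_eta_contDiff y r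
  have hηc := dfq_eta_hcs y hr
  have htest := dgC1_q_test hu hs hη1 hηc
  have hqP : Continuous fun x => dgC1_q u x * dgC1_P u x := (dgC1_q_cont hu).mul (dgC1_P_cont hu)
  have hη2c : HasCompactSupport (fun x => η x ^ 2) := by
    have : (fun y => η y ^ 2) = fun y => η y * η y := by funext y; ring
    rw [this]; exact hηc.mul_left
  -- left side
  have hL : ∫ x in ball y r, dgC1_q u x * dgC1_P u x
      ≤ ∫ x, (dgC1_q u x * dgC1_P u x) * η x ^ 2 := by
    have e : ∫ x in ball y r, dgC1_q u x * dgC1_P u x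
        = ∫ x in ball y r, (dgC1_q u x * dgC1_P u x) * η x ^ 2 := by
      refine setIntegral_congr_fun measurableSet_ball fun x hx => ?_
      simp only [hη, dfq_eta_eq_one y hr hx]; ring
    rw [e]
    refine setIntegral_le_integral
      (Continuous.integrable_of_hasCompactSupport (hqP.mul (hη1.continuous.pow 2)) hη2c.mul_left)
      (Eventually.of_forall fun x => ?_)
    have := mul_nonneg (dgC1_q_nonneg hu x) (hmod x)
    show 0 ≤ (dgC1_q u x * dgC1_P u x) * η x ^ 2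
    positivity
  -- right side
  have hq2 : Continuous fun x => dgC1_q u x ^ 2 := (dgC1_q_cont hu).pow 2
  have hg : Continuous fun x => ‖fderiv ℝ η x‖ ^ 2 := dg8_continuous_norm_fderiv_sq hη1
  have hR : ∫ x, dgC1_q u x ^ 2 * ‖fderiv ℝ η x‖ ^ 2
      ≤ (C / r) ^ 2 * ∫ x in closedBall y (2 * r), dgC1_q u x ^ 2 := by
    rw [← setIntegral_eq_integral_of_forall_compl_eq_zero (s := closedBall y (2 * r))
      (fun x hx => by rw [hη, dfq_eta_fderiv_zero y hr hx]; simp), ← integral_const_mul]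
    refine setIntegral_mono_on (dfq_intOn (hq2.mul hg) y _)
      (dfq_intOn (continuous_const.mul hq2) y _) measurableSet_closedBall fun x _ => ?_
    have h1 : ‖fderiv ℝ η x‖ ≤ C / r := by rw [hη, dfq_eta_fderiv]; exact hC r hr _
    have h2 : ‖fderiv ℝ η x‖ ^ 2 ≤ (C / r) ^ 2 := pow_le_pow_left₀ (norm_nonneg _) h1 2
    have h3 : 0 ≤ dgC1_q u x ^ 2 := by positivity
    nlinarith
  have hq3 := dfq_int_q_sq hu y (ρ := 2 * r) (ρ' := 3 * r) (by linarith)
  have hE3 := hE y (3 * r) (by linarith)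
  have hfin : (C / r) ^ 2 * ∫ x in closedBall y (2 * r), dgC1_q u x ^ 2
      ≤ (C / r) ^ 2 * (4 * (C₀ * (3 * r) ^ (n - 1))) :=
    mul_le_mul_of_nonneg_left (by linarith) (by positivity)
  have e : (C / r) ^ 2 * (4 * (C₀ * (3 * r) ^ (n - 1)))
      = 4 * C ^ 2 * 3 ^ (n - 1) * C₀ * r ^ (n - 1) / r ^ 2 := by
    rw [mul_pow, div_pow]; ring
  linarith

/-- (c) the pointwise split. -/
theorem dfq_split {q P d : ℝ} (hd : 0 < d) (hq : 0 ≤ q) (hP : 0 ≤ P) (hPq : P ≤ q ^ 2) :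
    P ≤ q * P / d + q * d := by
  rcases le_or_gt d q with h | h
  · have h1 : P ≤ q * P / d := by
      rw [le_div_iff₀ hd]; nlinarith
    have : 0 ≤ q * d := by positivity
    linarith
  · have h1 : P ≤ q * d := by nlinarith
    have : 0 ≤ q * P / d := by positivity
    linarith

/-- **assembly**: the discrepancy bound of P1 from (a) and (b). -/
theorem dfq_disc_of (n : ℕ) (hn : 2 ≤ n) : ∃ A : ℝ, 0 ≤ A ∧ ∀ (u : DgE n → ℝ), DgSol n u →
    DgStable n u → ∀ C₀ C₁ : ℝ, (∀ y r, 0 < r → dgEn n u y r ≤ C₀ * r ^ (n - 1)) →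
    (∀ y r, 0 < r → ∫ x in ball y r, (1 - u x ^ 2) ≤ C₁ * r ^ (n - 1)) →
    ∀ y r, 0 < r → ∫ x in ball y r, (dgW (u x) - ‖fderiv ℝ u x‖ ^ 2 / 2)
      ≤ (A * C₀ + C₁) / 4 * r ^ (n - 2) := by
  obtain ⟨A, hA0, hA⟩ := dfq_qP_le n
  refine ⟨A, hA0, fun u hu hs C₀ C₁ hE ha y r hr => ?_⟩
  have hsm : ContDiff ℝ ∞ u := dgC1_v_smooth hu
  have hmod : ∀ x, 0 ≤ dgC1_P u x := by
    intro x
    rw [dgC1_P_eq]
    have := dgA5_modica hu hsm x
    linarith
  have hb := hA u hu hs hmod C₀ hE y r hr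
  have ha' := ha y r hr
  have hqc := dgC1_q_cont hu
  have hPc := dgC1_P_cont hu
  have e1 : ∫ x in ball y r, (dgW (u x) - ‖fderiv ℝ u x‖ ^ 2 / 2)
      = (1 / 4) * ∫ x in ball y r, dgC1_P u x := by
    rw [← integral_const_mul]
    refine setIntegral_congr_fun measurableSet_ball fun x _ => ?_
    simp only [dgC1_P_eq]; ring
  have h1 : ∫ x in ball y r, dgC1_P u x
      ≤ ∫ x in ball y r, (r * (dgC1_q u x * dgC1_P u x) + (1 / r) * dgC1_q u x) := by
    refine setIntegral_mono_on (dfq_intOn_ball hPc y r)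
      (dfq_intOn_ball ((continuous_const.mul (hqc.mul hPc)).add (continuous_const.mul hqc)) y r)
      measurableSet_ball fun x _ => ?_
    have h2 := dfq_split (d := 1 / r) (by positivity) (dgC1_q_nonneg hu x) (hmod x)
      (by unfold dgC1_P dgC1_q
          have : 0 ≤ ‖fderiv ℝ u x‖ ^ 2 := by positivity
          linarith)
    have e : dgC1_q u x * dgC1_P u x / (1 / r) + dgC1_q u x * (1 / r)
        = r * (dgC1_q u x * dgC1_P u x) + (1 / r) * dgC1_q u x := by
      field_simp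
    linarith
  have i1 : IntegrableOn (fun x => r * (dgC1_q u x * dgC1_P u x)) (ball y r) :=
    dfq_intOn_ball (continuous_const.mul (hqc.mul hPc)) y r
  have i2 : IntegrableOn (fun x => (1 / r) * dgC1_q u x) (ball y r) :=
    dfq_intOn_ball (continuous_const.mul hqc) y r
  rw [integral_add i1 i2, integral_const_mul, integral_const_mul] at h1
  have hpow : r ^ (n - 1) = r ^ (n - 2) * r := by
    rw [← pow_succ]; congr 1; omega
  have h3 : r * ∫ x in ball y r, dgC1_q u x * dgC1_P u x ≤ A * C₀ * r ^ (n - 2) := by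
    have := mul_le_mul_of_nonneg_left hb hr.le
    have e : r * (A * C₀ * r ^ (n - 1) / r ^ 2) = A * C₀ * r ^ (n - 2) := by
      rw [hpow]; field_simp
    linarith
  have h4 : (1 / r) * ∫ x in ball y r, dgC1_q u x ≤ C₁ * r ^ (n - 2) := by
    have h5 : ∫ x in ball y r, dgC1_q u x ≤ C₁ * r ^ (n - 1) := ha'
    have := mul_le_mul_of_nonneg_left h5 (by positivity : 0 ≤ 1 / r)
    have e : 1 / r * (C₁ * r ^ (n - 1)) = C₁ * r ^ (n - 2) := by
      rw [hpow]; field_simp
    linarith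
  rw [e1]
  nlinarith

theorem dfq_eqns_cite : True := by
  have := @dfq_eta.eq_1
  trivial

end Claimed.Agent.R329
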