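import Claimed.Agent.R329.Defs

/-!
# Row 329 (De Giorgi in dimension eight): weak forms

* `dg98_green` : Green's identity `∫ ∑ᵢ ∂ᵢv ∂ᵢζ = - ∫ Δv ζ` for `v ∈ C²`, `ζ ∈ C¹_c`;
* `dg98_picone` : a positive `C²` solution `w` of `Δ w = c w` makes the quadratic form
  `∫ ‖∇φ‖² + c φ²` non-negative on `C¹_c`;
* `dg98_stable_of_monotone` : a `C²` solution of `Δ u = u³ - u` with values in `[-1, 1]` which is strictly
  increasing in a direction `e` is stable (first step of Section 2 of the paper), proved with the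
  difference `u (· + h e) - u` in place of `∂ₑ u`, so that no regularity beyond `C²` is needed.
-/

set_option autoImplicit false
set_option linter.unusedSectionVars false

open MeasureTheory InnerProductSpace Filter Topology

namespace Claimed.Agent.R329

variable {E : Type*} [NormedAddCommGroup E] [InnerProductSpace ℝ E] [FiniteDimensional ℝ E]

/-- The squared norm of a linear form is the sum of the squares of its values on an orthonormal
basis. -/
theorem dg98_norm_sq_clm {ι : Type*} [Fintype ι] (b : OrthonormalBasis ι ℝ E) (L : E →L[ℝ] ℝ) :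
    ‖L‖ ^ 2 = ∑ i, (L (b i)) ^ 2 := by
  have h1 : ‖(InnerProductSpace.toDual ℝ E).symm L‖ = ‖L‖ := LinearIsometryEquiv.norm_map _ _
  have h2 : ∀ x, L x = inner ℝ ((InnerProductSpace.toDual ℝ E).symm L) x := fun x =>
    (InnerProductSpace.toDual_symm_apply).symm
  rw [← h1, ← b.sum_sq_norm_inner_right]
  refine Finset.sum_congr rfl fun i _ => ?_
  rw [h2, Real.norm_eq_abs, sq_abs, real_inner_comm]

/-- The second derivative in the direction `a`, as the derivative of the first one. -/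
theorem dg98_fderiv_fderiv_apply {v : E → ℝ} (hv : ContDiff ℝ 2 v) (x a : E) :
    fderiv ℝ (fun y => fderiv ℝ v y a) x a = iteratedFDeriv ℝ 2 v x ![a, a] := by
  have hd : DifferentiableAt ℝ (fderiv ℝ v) x :=
    ((hv.fderiv_right (m := 1) (by norm_num)).differentiable (by norm_num)) x
  rw [iteratedFDeriv_two_apply]
  have h := (hd.hasFDerivAt.clm_apply (hasFDerivAt_const a x)).fderiv
  rw [h]
  simp

theorem dg98_laplacian_eq {ι : Type*} [Fintype ι] (b : OrthonormalBasis ι ℝ E) {v : E → ℝ}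
    (hv : ContDiff ℝ 2 v) (x : E) :
    Laplacian.laplacian v x = ∑ i, fderiv ℝ (fun y => fderiv ℝ v y (b i)) x (b i) := by
  rw [laplacian_eq_iteratedFDeriv_orthonormalBasis v b]
  exact Finset.sum_congr rfl fun i _ => (dg98_fderiv_fderiv_apply hv x (b i)).symm

theorem dg98_contDiff_fderiv_apply {v : E → ℝ} (hv : ContDiff ℝ 2 v) (a : E) :
    ContDiff ℝ 1 (fun y => fderiv ℝ v y a) :=
  (hv.fderiv_right (m := 1) (by norm_num)).clm_apply contDiff_const

theorem dg98_continuous_fderiv_apply {v : E → ℝ} (hv : ContDiff ℝ 1 v) (a : E) :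
    Continuous (fun y => fderiv ℝ v y a) :=
  (hv.continuous_fderiv (by norm_num)).clm_apply continuous_const

variable [MeasurableSpace E] [BorelSpace E]

/-- Integration by parts in one direction. -/
theorem dg98_green_dir {v ζ : E → ℝ} (hv : ContDiff ℝ 2 v) (hζ : ContDiff ℝ 1 ζ)
    (hζc : HasCompactSupport ζ) (a : E) :
    ∫ x, fderiv ℝ v x a * fderiv ℝ ζ x a =
      - ∫ x, fderiv ℝ (fun y => fderiv ℝ v y a) x a * ζ x := by
  have h1 := dg98_contDiff_fderiv_apply hv a
  refine integral_mul_fderiv_eq_neg_fderiv_mul_of_integrable ?_ ?_ ?_ ?_ ?_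
  · exact ((dg98_continuous_fderiv_apply h1 a).mul hζ.continuous).integrable_of_hasCompactSupport
      hζc.mul_left
  · exact (h1.continuous.mul (dg98_continuous_fderiv_apply hζ a)).integrable_of_hasCompactSupport
      (hζc.fderiv_apply (𝕜 := ℝ) a).mul_left
  · exact (h1.continuous.mul hζ.continuous).integrable_of_hasCompactSupport hζc.mul_left
  · exact fun x _ => (h1.differentiable (by norm_num)) x
  · exact fun x _ => (hζ.differentiable (by norm_num)) x

/-- **Green's identity.** -/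
theorem dg98_green {ι : Type*} [Fintype ι] (b : OrthonormalBasis ι ℝ E) {v ζ : E → ℝ}
    (hv : ContDiff ℝ 2 v) (hζ : ContDiff ℝ 1 ζ) (hζc : HasCompactSupport ζ) :
    ∫ x, ∑ i, fderiv ℝ v x (b i) * fderiv ℝ ζ x (b i) = - ∫ x, Laplacian.laplacian v x * ζ x := by
  have hv1 : ContDiff ℝ 1 v := hv.of_le (by norm_num)
  rw [integral_finsetSum]
  · simp only [dg98_green_dir hv hζ hζc, dg98_laplacian_eq b hv, Finset.sum_mul]
    rw [integral_finsetSum, Finset.sum_neg_distrib]
    intro i _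
    exact ((dg98_continuous_fderiv_apply (dg98_contDiff_fderiv_apply hv (b i)) (b i)).mul
      hζ.continuous).integrable_of_hasCompactSupport hζc.mul_left
  · intro i _
    exact ((dg98_continuous_fderiv_apply hv1 (b i)).mul
      (dg98_continuous_fderiv_apply hζ (b i))).integrable_of_hasCompactSupport
      (hζc.fderiv_apply (𝕜 := ℝ) (b i)).mul_left

/-- **Picone's inequality.**  A positive `C²` solution `w` of `Δ w = c w` makes the quadratic form
`∫ ‖∇φ‖² + c φ²` non-negative on `C¹_c`. -/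
theorem dg98_picone {w c φ : E → ℝ} (hw : ContDiff ℝ 2 w) (hpos : ∀ x, 0 < w x)
    (hc : Continuous c) (heq : ∀ x, Laplacian.laplacian w x = c x * w x)
    (hφ : ContDiff ℝ 1 φ) (hφc : HasCompactSupport φ) :
    0 ≤ ∫ x, (‖fderiv ℝ φ x‖ ^ 2 + c x * φ x ^ 2) := by
  have hw1 : ContDiff ℝ 1 w := hw.of_le (by norm_num)
  have hne : ∀ x, w x ≠ 0 := fun x => (hpos x).ne'
  -- `ψ = φ / w` and the test function `ζ = ψ φ`
  obtain ⟨ψ, hψdef⟩ : ∃ ψ : E → ℝ, ψ = fun x => φ x / w x := ⟨_, rfl⟩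
  have hψ : ContDiff ℝ 1 ψ := by
    rw [hψdef]
    exact hφ.div hw1 hne
  have hφψ : ∀ x, φ x = ψ x * w x := fun x => by
    rw [hψdef]
    field_simp [hne x]
  have hζ : ContDiff ℝ 1 (fun x => ψ x * φ x) := hψ.mul hφ
  have hζc : HasCompactSupport (fun x => ψ x * φ x) := hφc.mul_left
  have hdψ : ∀ x, DifferentiableAt ℝ ψ x := fun x => (hψ.differentiable (by norm_num)) x
  have hdφ : ∀ x, DifferentiableAt ℝ φ x := fun x => (hφ.differentiable (by norm_num)) x
  have hdw : ∀ x, DifferentiableAt ℝ w x := fun x => (hw1.differentiable (by norm_num)) x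
  have e1 : ∀ x a, fderiv ℝ φ x a = ψ x * fderiv ℝ w x a + w x * fderiv ℝ ψ x a := by
    intro x a
    have h0 : φ = fun y => ψ y * w y := funext hφψ
    rw [h0, fderiv_fun_mul (hdψ x) (hdw x)]
    simp
  have e2 : ∀ x a, fderiv ℝ (fun y => ψ y * φ y) x a =
      ψ x * fderiv ℝ φ x a + φ x * fderiv ℝ ψ x a := by
    intro x a
    rw [fderiv_fun_mul (hdψ x) (hdφ x)]
    simp
  have hgreen := dg98_green (stdOrthonormalBasis ℝ E) hw hζ hζc
  have hrhs : ∀ x, Laplacian.laplacian w x * (ψ x * φ x) = c x * φ x ^ 2 := by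
    intro x
    rw [heq, hφψ x]
    ring
  simp only [hrhs] at hgreen
  -- integrability
  have s1 : HasCompactSupport (fun x => ‖fderiv ℝ φ x‖ ^ 2) := by
    refine (hφc.fderiv (𝕜 := ℝ)).mono fun x hx => ?_
    rw [Function.mem_support] at hx ⊢
    intro h0
    apply hx
    rw [h0, norm_zero]
    norm_num
  have i1 : Integrable (fun x => ‖fderiv ℝ φ x‖ ^ 2) :=
    ((hφ.continuous_fderiv (by norm_num)).norm.pow 2).integrable_of_hasCompactSupport s1
  have s2 : HasCompactSupport (fun x => c x * φ x ^ 2) := by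
    refine hφc.mono fun x hx => ?_
    rw [Function.mem_support] at hx ⊢
    intro h0
    apply hx
    rw [h0]
    norm_num
  have i2 : Integrable (fun x => c x * φ x ^ 2) :=
    (hc.mul (hφ.continuous.pow 2)).integrable_of_hasCompactSupport s2
  have i3 : Integrable (fun x => ∑ i, fderiv ℝ w x (stdOrthonormalBasis ℝ E i) *
      fderiv ℝ (fun y => ψ y * φ y) x (stdOrthonormalBasis ℝ E i)) := by
    refine integrable_finsetSum _ fun i _ => ?_
    exact ((dg98_continuous_fderiv_apply hw1 _).mul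
      (dg98_continuous_fderiv_apply hζ _)).integrable_of_hasCompactSupport
      (hζc.fderiv_apply (𝕜 := ℝ) _).mul_left
  have hle : ∫ x, ∑ i, fderiv ℝ w x (stdOrthonormalBasis ℝ E i) *
      fderiv ℝ (fun y => ψ y * φ y) x (stdOrthonormalBasis ℝ E i) ≤ ∫ x, ‖fderiv ℝ φ x‖ ^ 2 := by
    refine integral_mono i3 i1 fun x => ?_
    change ∑ i, fderiv ℝ w x (stdOrthonormalBasis ℝ E i) *
      fderiv ℝ (fun y => ψ y * φ y) x (stdOrthonormalBasis ℝ E i) ≤ ‖fderiv ℝ φ x‖ ^ 2
    rw [dg98_norm_sq_clm (stdOrthonormalBasis ℝ E)]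
    refine Finset.sum_le_sum fun i _ => ?_
    rw [e2, e1, hφψ x]
    generalize fderiv ℝ w x (stdOrthonormalBasis ℝ E i) = A
    generalize fderiv ℝ ψ x (stdOrthonormalBasis ℝ E i) = B
    generalize ψ x = P
    generalize w x = W
    nlinarith [sq_nonneg (W * B)]
  rw [integral_add i1 i2]
  linarith

/-- A function with positive derivative in the direction `e` is strictly increasing along `e`. -/
theorem dg98_lt_of_fderiv_pos {u : E → ℝ} (hu : Differentiable ℝ u) {e : E}
    (hmono : ∀ x, 0 < fderiv ℝ u x e) (x : E) {h : ℝ} (hh : 0 < h) : u x < u (x + h • e) := by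
  have hderiv : ∀ t : ℝ, HasDerivAt (fun t : ℝ => u (x + t • e)) (fderiv ℝ u (x + t • e) e) t := by
    intro t
    have h1 : HasDerivAt (fun t : ℝ => x + t • e) e t := by
      simpa using ((hasDerivAt_id t).smul_const e).const_add x
    exact (hu (x + t • e)).hasFDerivAt.comp_hasDerivAt t h1
  have hsm : StrictMono (fun t : ℝ => u (x + t • e)) :=
    strictMono_of_deriv_pos fun t => by
      rw [(hderiv t).deriv]
      exact hmono _
  simpa using hsm hh

theorem dg98_laplacian_comp_add_right (u : E → ℝ) (a x : E) :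
    Laplacian.laplacian (fun y => u (y + a)) x = Laplacian.laplacian u (x + a) := by
  simp only [laplacian_eq_iteratedFDeriv_stdOrthonormalBasis, iteratedFDeriv_comp_add_right]

/-- Stability with the difference quotient of the potential in place of its derivative. -/
theorem dg98_stable_diff {u : E → ℝ} (hu : ContDiff ℝ 2 u)
    (hpde : ∀ x, Laplacian.laplacian u x = u x ^ 3 - u x) {e : E}
    (hmono : ∀ x, 0 < fderiv ℝ u x e) {h : ℝ} (hh : 0 < h) {φ : E → ℝ} (hφ : ContDiff ℝ 1 φ)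
    (hφc : HasCompactSupport φ) :
    0 ≤ ∫ x, (‖fderiv ℝ φ x‖ ^ 2 +
      (u (x + h • e) ^ 2 + u (x + h • e) * u x + u x ^ 2 - 1) * φ x ^ 2) := by
  have hut : ContDiff ℝ 2 (fun x => u (x + h • e)) := hu.comp (contDiff_id.add contDiff_const)
  refine dg98_picone (w := fun x => u (x + h • e) - u x) (hut.sub hu) ?_ ?_ ?_ hφ hφc
  · intro x
    exact sub_pos.mpr (dg98_lt_of_fderiv_pos (hu.differentiable (by norm_num)) hmono x hh)
  · have h1 := hu.continuous
    have h2 := hut.continuous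
    fun_prop
  · intro x
    have h1 := ContDiffAt.laplacian_sub (hut.contDiffAt (x := x)) (hu.contDiffAt (x := x))
    have h2 : Laplacian.laplacian (fun x => u (x + h • e) - u x) x =
        Laplacian.laplacian (fun x => u (x + h • e)) x - Laplacian.laplacian u x := h1
    rw [h2, dg98_laplacian_comp_add_right, hpde, hpde]
    ring

/-- **Monotone solutions are stable.**  A `C²` solution of `Δ u = u³ - u` with values in `[-1, 1]` and
positive derivative in a direction `e` is stable. -/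
theorem dg98_stable_of_monotone {u : E → ℝ} (hu : ContDiff ℝ 2 u)
    (hrange : ∀ x, u x ∈ Set.Icc (-1 : ℝ) 1)
    (hpde : ∀ x, Laplacian.laplacian u x = u x ^ 3 - u x) {e : E}
    (hmono : ∀ x, 0 < fderiv ℝ u x e) :
    ∀ φ : E → ℝ, ContDiff ℝ 1 φ → HasCompactSupport φ →
      0 ≤ ∫ x, (‖fderiv ℝ φ x‖ ^ 2 + (3 * u x ^ 2 - 1) * φ x ^ 2) := by
  intro φ hφ hφc
  have hcu := hu.continuous
  have hcφ := hφ.continuous
  have hcd : Continuous (fun x => ‖fderiv ℝ φ x‖ ^ 2) :=
    (hφ.continuous_fderiv (by norm_num)).norm.pow 2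
  have s1 : HasCompactSupport (fun x => ‖fderiv ℝ φ x‖ ^ 2 + 4 * φ x ^ 2) := by
    have hsub : Function.support (fun x => ‖fderiv ℝ φ x‖ ^ 2 + 4 * φ x ^ 2) ⊆ tsupport φ := by
      intro x hx
      by_contra hcon
      apply hx
      have h1 : φ x = 0 := image_eq_zero_of_notMem_tsupport hcon
      have h2 : fderiv ℝ φ x = 0 := by
        by_contra h3
        exact hcon (support_fderiv_subset ℝ h3)
      simp [h1, h2]
    exact HasCompactSupport.intro hφc (fun x hx => by
      by_contra h0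
      exact hx (hsub h0))
  have hlim : Tendsto (fun n : ℕ => ∫ x, (‖fderiv ℝ φ x‖ ^ 2 +
      (u (x + (1 / ((n : ℝ) + 1)) • e) ^ 2 + u (x + (1 / ((n : ℝ) + 1)) • e) * u x + u x ^ 2 - 1) *
        φ x ^ 2)) atTop (𝓝 (∫ x, (‖fderiv ℝ φ x‖ ^ 2 + (3 * u x ^ 2 - 1) * φ x ^ 2))) := by
    refine tendsto_integral_of_dominated_convergence
      (fun x => ‖fderiv ℝ φ x‖ ^ 2 + 4 * φ x ^ 2) ?_ ?_ ?_ ?_
    · intro n
      refine Continuous.aestronglyMeasurable ?_
      fun_prop
    · exact (hcd.add (continuous_const.mul (hcφ.pow 2))).integrable_of_hasCompactSupport s1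
    · intro n
      refine Eventually.of_forall fun x => ?_
      have ha := hrange (x + (1 / ((n : ℝ) + 1)) • e)
      have hb := hrange x
      generalize u (x + (1 / ((n : ℝ) + 1)) • e) = a at ha
      generalize u x = b at hb
      have hA : 0 ≤ ‖fderiv ℝ φ x‖ ^ 2 := by positivity
      have hp : 0 ≤ φ x ^ 2 := by positivity
      generalize ‖fderiv ℝ φ x‖ ^ 2 = A at hA
      generalize φ x ^ 2 = p at hp
      have hc1 : a ^ 2 + a * b + b ^ 2 - 1 ≤ 4 := by nlinarith [ha.1, ha.2, hb.1, hb.2]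
      have hc2 : -4 ≤ a ^ 2 + a * b + b ^ 2 - 1 := by
        nlinarith [sq_nonneg (a + b), sq_nonneg a, sq_nonneg b]
      rw [Real.norm_eq_abs, abs_le]
      constructor <;> nlinarith
    · refine Eventually.of_forall fun x => ?_
      have hc : Continuous (fun t : ℝ => u (x + t • e)) := by fun_prop
      have h0 := (hc.tendsto 0).comp tendsto_one_div_add_atTop_nhds_zero_nat
      rw [zero_smul, add_zero] at h0
      have hG : Continuous (fun a : ℝ => ‖fderiv ℝ φ x‖ ^ 2 +
          (a ^ 2 + a * u x + u x ^ 2 - 1) * φ x ^ 2) := by fun_prop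
      have h1 := (hG.tendsto (u x)).comp h0
      have e1 : ‖fderiv ℝ φ x‖ ^ 2 + (u x ^ 2 + u x * u x + u x ^ 2 - 1) * φ x ^ 2 =
          ‖fderiv ℝ φ x‖ ^ 2 + (3 * u x ^ 2 - 1) * φ x ^ 2 := by ring
      rw [e1] at h1
      exact h1
  exact ge_of_tendsto' hlim fun n => dg98_stable_diff hu hpde hmono (by positivity) hφ hφc

/-- The hypotheses of the frozen statement S0587 imply stability, in the form of the hypothesis
`hstable` of S0588 (in dimension eight). -/
theorem dg98_stable_dim_eight (u : EuclideanSpace ℝ (Fin 8) → ℝ) (hu : ContDiff ℝ 2 u)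
    (hrange : ∀ x, u x ∈ Set.Ioo (-1 : ℝ) 1)
    (hpde : ∀ x, Laplacian.laplacian u x = u x ^ 3 - u x)
    (hmono : ∀ x, 0 < fderiv ℝ u x (EuclideanSpace.single 7 1)) :
    ∀ φ : EuclideanSpace ℝ (Fin 8) → ℝ, ContDiff ℝ 1 φ → HasCompactSupport φ →
      0 ≤ ∫ x, (‖fderiv ℝ φ x‖ ^ 2 + (3 * u x ^ 2 - 1) * φ x ^ 2) :=
  dg98_stable_of_monotone hu (fun x => Set.Ioo_subset_Icc_self (hrange x)) hpde hmono

/-! ### The ground state transform and the `q`-test (identity (1.6) of the paper) -/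

/-- **Ground state transform.**  `∫ ‖∇(q η)‖² = ∫ q² ‖∇η‖² - ∫ q Δq η²` for `q ∈ C²`, `η ∈ C¹_c`. -/
theorem dg98_ground_state {q η : E → ℝ} (hq : ContDiff ℝ 2 q) (hη : ContDiff ℝ 1 η)
    (hηc : HasCompactSupport η) :
    ∫ x, ‖fderiv ℝ (fun y => q y * η y) x‖ ^ 2 =
      (∫ x, q x ^ 2 * ‖fderiv ℝ η x‖ ^ 2) - ∫ x, q x * Laplacian.laplacian q x * η x ^ 2 := by
  have hq1 : ContDiff ℝ 1 q := hq.of_le (by norm_num)
  have hdq : ∀ x, DifferentiableAt ℝ q x := fun x => (hq1.differentiable (by norm_num)) x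
  have hdη : ∀ x, DifferentiableAt ℝ η x := fun x => (hη.differentiable (by norm_num)) x
  have hζ : ContDiff ℝ 1 (fun x => q x * η x * η x) := (hq1.mul hη).mul hη
  have hζc : HasCompactSupport (fun x => q x * η x * η x) := hηc.mul_left
  have e1 : ∀ x a, fderiv ℝ (fun y => q y * η y) x a =
      q x * fderiv ℝ η x a + η x * fderiv ℝ q x a := by
    intro x a
    rw [fderiv_fun_mul (hdq x) (hdη x)]
    simp
  have e2 : ∀ x a, fderiv ℝ (fun y => q y * η y * η y) x a =
      q x * η x * fderiv ℝ η x a + η x * (q x * fderiv ℝ η x a + η x * fderiv ℝ q x a) := by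
    intro x a
    have hd : DifferentiableAt ℝ (fun y => q y * η y) x := (hdq x).mul (hdη x)
    rw [fderiv_fun_mul hd (hdη x)]
    simp [e1]
  have hgreen := dg98_green (stdOrthonormalBasis ℝ E) hq hζ hζc
  have hpt : ∀ x, ‖fderiv ℝ (fun y => q y * η y) x‖ ^ 2 = q x ^ 2 * ‖fderiv ℝ η x‖ ^ 2 +
      ∑ i, fderiv ℝ q x (stdOrthonormalBasis ℝ E i) *
        fderiv ℝ (fun y => q y * η y * η y) x (stdOrthonormalBasis ℝ E i) := by
    intro x
    rw [dg98_norm_sq_clm (stdOrthonormalBasis ℝ E), dg98_norm_sq_clm (stdOrthonormalBasis ℝ E),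
      Finset.mul_sum, ← Finset.sum_add_distrib]
    refine Finset.sum_congr rfl fun i _ => ?_
    rw [e1, e2]
    ring
  have s1 : HasCompactSupport (fun x => q x ^ 2 * ‖fderiv ℝ η x‖ ^ 2) := by
    refine (hηc.fderiv (𝕜 := ℝ)).mono fun x hx => ?_
    rw [Function.mem_support] at hx ⊢
    intro h0
    apply hx
    rw [h0, norm_zero]
    norm_num
  have i1 : Integrable (fun x => q x ^ 2 * ‖fderiv ℝ η x‖ ^ 2) :=
    ((hq.continuous.pow 2).mul
      ((hη.continuous_fderiv (by norm_num)).norm.pow 2)).integrable_of_hasCompactSupport s1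
  have i3 : Integrable (fun x => ∑ i, fderiv ℝ q x (stdOrthonormalBasis ℝ E i) *
      fderiv ℝ (fun y => q y * η y * η y) x (stdOrthonormalBasis ℝ E i)) := by
    refine integrable_finsetSum _ fun i _ => ?_
    exact ((dg98_continuous_fderiv_apply hq1 _).mul
      (dg98_continuous_fderiv_apply hζ _)).integrable_of_hasCompactSupport
      (hζc.fderiv_apply (𝕜 := ℝ) _).mul_left
  simp only [hpt]
  rw [integral_add i1 i3, hgreen, sub_eq_add_neg]
  congr 2
  refine integral_congr_ae (Eventually.of_forall fun x => ?_)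
  change Laplacian.laplacian q x * (q x * η x * η x) = q x * Laplacian.laplacian q x * η x ^ 2
  ring

/-- The Laplacian of `1 - v²`. -/
theorem dg98_laplacian_one_sub_sq {v : E → ℝ} (hv : ContDiff ℝ 2 v) (x : E) :
    Laplacian.laplacian (fun y : E => (1 - v y ^ 2 : ℝ)) x =
      - 2 * ‖fderiv ℝ v x‖ ^ 2 - 2 * v x * Laplacian.laplacian v x := by
  have hv1 : ContDiff ℝ 1 v := hv.of_le (by norm_num)
  have hq : ContDiff ℝ 2 (fun y => 1 - v y ^ 2) := contDiff_const.sub (hv.pow 2)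
  have hdv : ∀ y, DifferentiableAt ℝ v y := fun y => (hv1.differentiable (by norm_num)) y
  rw [dg98_laplacian_eq (stdOrthonormalBasis ℝ E) hq, dg98_laplacian_eq (stdOrthonormalBasis ℝ E) hv,
    dg98_norm_sq_clm (stdOrthonormalBasis ℝ E), Finset.mul_sum, Finset.mul_sum,
    ← Finset.sum_sub_distrib]
  refine Finset.sum_congr rfl fun i _ => ?_
  have e1 : (fun y => fderiv ℝ (fun z => 1 - v z ^ 2) y (stdOrthonormalBasis ℝ E i)) =
      fun y => (-2 * v y) * fderiv ℝ v y (stdOrthonormalBasis ℝ E i) := by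
    funext y
    have h1 := ((hdv y).hasFDerivAt.pow 2).const_sub 1
    rw [h1.fderiv]
    simp
  have hd1 : DifferentiableAt ℝ (fun y => fderiv ℝ v y (stdOrthonormalBasis ℝ E i)) x :=
    ((dg98_contDiff_fderiv_apply hv _).differentiable (by norm_num)) x
  rw [e1, fderiv_fun_mul ((hdv x).const_mul (-2)) hd1, fderiv_const_mul (hdv x)]
  simp
  ring

/-- **The `q`-test** (identity (1.6) of the paper, with `q³ D = q³ - 2 q ‖∇v‖²`): for a `C²` solution of
`Δ v = v³ - v`, `q = 1 - v²` and `η ∈ C¹_c`,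
`Q_v(q η) = ∫ q² ‖∇η‖² - ∫ (q³ - 2 q ‖∇v‖²) η²`. -/
theorem dg98_q_test {v η : E → ℝ} (hv : ContDiff ℝ 2 v)
    (hpde : ∀ x, Laplacian.laplacian v x = v x ^ 3 - v x) (hη : ContDiff ℝ 1 η)
    (hηc : HasCompactSupport η) :
    ∫ x, (‖fderiv ℝ (fun y => (1 - v y ^ 2) * η y) x‖ ^ 2 +
        (3 * v x ^ 2 - 1) * ((1 - v x ^ 2) * η x) ^ 2) =
      (∫ x, (1 - v x ^ 2) ^ 2 * ‖fderiv ℝ η x‖ ^ 2) -
        ∫ x, ((1 - v x ^ 2) ^ 3 - 2 * (1 - v x ^ 2) * ‖fderiv ℝ v x‖ ^ 2) * η x ^ 2 := by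
  have hv1 : ContDiff ℝ 1 v := hv.of_le (by norm_num)
  have hq : ContDiff ℝ 2 (fun y => 1 - v y ^ 2) := contDiff_const.sub (hv.pow 2)
  have hq1 : ContDiff ℝ 1 (fun y => 1 - v y ^ 2) := hq.of_le (by norm_num)
  have hcv := hv.continuous
  have hcη := hη.continuous
  have hcdv : Continuous (fun x => ‖fderiv ℝ v x‖ ^ 2) :=
    (hv1.continuous_fderiv (by norm_num)).norm.pow 2
  have hφ : ContDiff ℝ 1 (fun y => (1 - v y ^ 2) * η y) := hq1.mul hη
  have hφc : HasCompactSupport (fun y => (1 - v y ^ 2) * η y) := hηc.mul_left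
  have hsupp : ∀ F : E → ℝ, HasCompactSupport (fun x => F x * η x ^ 2) := by
    intro F
    refine hηc.mono fun x hx => ?_
    rw [Function.mem_support] at hx ⊢
    intro h0
    apply hx
    rw [h0]
    norm_num
  have s1 : HasCompactSupport (fun x => ‖fderiv ℝ (fun y => (1 - v y ^ 2) * η y) x‖ ^ 2) := by
    refine (hφc.fderiv (𝕜 := ℝ)).mono fun x hx => ?_
    rw [Function.mem_support] at hx ⊢
    intro h0
    apply hx
    rw [h0, norm_zero]
    norm_num
  have i1 : Integrable (fun x => ‖fderiv ℝ (fun y => (1 - v y ^ 2) * η y) x‖ ^ 2) :=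
    ((hφ.continuous_fderiv (by norm_num)).norm.pow 2).integrable_of_hasCompactSupport s1
  have i2 : Integrable (fun x => (3 * v x ^ 2 - 1) * (1 - v x ^ 2) ^ 2 * η x ^ 2) :=
    Continuous.integrable_of_hasCompactSupport (by fun_prop) (hsupp _)
  have i4 : Integrable (fun x => (1 - v x ^ 2) *
      (- 2 * ‖fderiv ℝ v x‖ ^ 2 - 2 * v x * (v x ^ 3 - v x)) * η x ^ 2) :=
    Continuous.integrable_of_hasCompactSupport (by fun_prop) (hsupp _)
  have hgs := dg98_ground_state hq hη hηc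
  simp only [dg98_laplacian_one_sub_sq hv, hpde] at hgs
  have e0 : ∀ x, (3 * v x ^ 2 - 1) * ((1 - v x ^ 2) * η x) ^ 2 =
      (3 * v x ^ 2 - 1) * (1 - v x ^ 2) ^ 2 * η x ^ 2 := fun x => by ring
  simp only [e0]
  rw [integral_add i1 i2, hgs, sub_add, ← integral_sub i4 i2]
  congr 2
  funext x
  ring

/-! ## EXITS -/

/-- EXIT (contract K1 of the Hub, general `n` and direction `e`). -/
theorem dg98_exit_stable {n : ℕ} {u : DgE n → ℝ} (hu : DgSol n u) (e : DgE n)
    (hmono : ∀ x, 0 < fderiv ℝ u x e) : DgStable n u :=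
  dg98_stable_of_monotone hu.smooth hu.range hu.pde hmono

/-- EXIT: Green's identity on `DgE n`, in coordinates. -/
theorem dg98_exit_green {n : ℕ} {v ζ : DgE n → ℝ} (hv : ContDiff ℝ 2 v) (hζ : ContDiff ℝ 1 ζ)
    (hζc : HasCompactSupport ζ) :
    ∫ x, ∑ i, fderiv ℝ v x (EuclideanSpace.basisFun (Fin n) ℝ i) *
        fderiv ℝ ζ x (EuclideanSpace.basisFun (Fin n) ℝ i) =
      - ∫ x, Laplacian.laplacian v x * ζ x :=
  dg98_green (EuclideanSpace.basisFun (Fin n) ℝ) hv hζ hζc

/-- EXIT: the weak form of the equation. -/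
theorem dg98_exit_weak {n : ℕ} {v ζ : DgE n → ℝ} (hv : DgSol n v) (hζ : ContDiff ℝ 1 ζ)
    (hζc : HasCompactSupport ζ) :
    ∫ x, ∑ i, fderiv ℝ v x (EuclideanSpace.basisFun (Fin n) ℝ i) *
        fderiv ℝ ζ x (EuclideanSpace.basisFun (Fin n) ℝ i) =
      - ∫ x, (v x ^ 3 - v x) * ζ x := by
  rw [dg98_exit_green hv.smooth hζ hζc]
  simp only [hv.pde]

/-- EXIT: identity (1.6), the `q`-test. -/
theorem dg98_exit_q_test {n : ℕ} {v η : DgE n → ℝ} (hv : DgSol n v) (hη : ContDiff ℝ 1 η)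
    (hηc : HasCompactSupport η) :
    dgQ n v (fun x => (1 - v x ^ 2) * η x) =
      (∫ x, (1 - v x ^ 2) ^ 2 * ‖fderiv ℝ η x‖ ^ 2) -
        ∫ x, ((1 - v x ^ 2) ^ 3 - 2 * (1 - v x ^ 2) * ‖fderiv ℝ v x‖ ^ 2) * η x ^ 2 :=
  dg98_q_test hv.smooth hv.pde hη hηc

end Claimed.Agent.R329
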