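import Claimed.Agent.R329.Defs
import Claimed.Agent.R329.WeakForm
import Claimed.Agent.R329.Cutoff
import Claimed.Agent.R329.DfDiscQ

/-!
# Row 329, K7 (diffuse Fl-port), post P1 DISC (helper167, prefix `dfd_`)

PART (a): for an entire solution with surface-order energy growth at every centre,
`∫_{B_r(y)} (1 - u²) ≤ C₁ r^{n-1}` for all `y`, `r > 0`.
Proof: the weak form of the equation tested with `u η` gives
`∫ u² q η = ∫ η |∇u|² + ∫ u ⟨∇u, ∇η⟩`, and `q = u² q + q²`, `q² = 4 W(u)`.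
-/

set_option autoImplicit false
open MeasureTheory Metric Set Filter

namespace Claimed.Agent.R329

variable {n : ℕ}

/-- the smooth cut-off centred at `y`: `1` on `B̄_r(y)`, `0` outside `B_{2r}(y)`. -/
noncomputable def dfd_eta (y : DgE n) (r : ℝ) (x : DgE n) : ℝ := dgcu_smooth r (x - y)

theorem dfd_eta_contDiff (y : DgE n) (r : ℝ) : ContDiff ℝ 1 (dfd_eta y r) := by
  have h : ContDiff ℝ 1 (dgcu_smooth (n := n) r) := (dgcu_smooth_contDiff r).of_le (by norm_cast)
  exact h.comp (contDiff_id.sub contDiff_const)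

theorem dfd_eta_nonneg (y : DgE n) (r : ℝ) (x : DgE n) : 0 ≤ dfd_eta y r x := dgcu_smooth_nonneg _ _

theorem dfd_eta_le_one (y : DgE n) (r : ℝ) (x : DgE n) : dfd_eta y r x ≤ 1 := dgcu_smooth_le_one _ _

theorem dfd_eta_eq_one {y : DgE n} {r : ℝ} (hr : 0 < r) {x : DgE n} (hx : x ∈ ball y r) :
    dfd_eta y r x = 1 := by
  refine dgcu_smooth_eq_one hr ?_
  rw [mem_ball, dist_eq_norm] at hx
  exact hx.le

theorem dfd_eta_eq_zero {y : DgE n} {r : ℝ} (hr : 0 < r) {x : DgE n} (hx : x ∉ closedBall y (2 * r)) :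
    dfd_eta y r x = 0 := by
  refine dgcu_smooth_eq_zero hr ?_
  rw [mem_closedBall, dist_eq_norm, not_le] at hx
  exact hx.le

theorem dfd_eta_hasCompactSupport (y : DgE n) {r : ℝ} (hr : 0 < r) :
    HasCompactSupport (dfd_eta y r) :=
  HasCompactSupport.intro (isCompact_closedBall y (2 * r)) fun _ hx => dfd_eta_eq_zero hr hx

theorem dfd_eta_tsupport (y : DgE n) {r : ℝ} (hr : 0 < r) :
    tsupport (dfd_eta y r) ⊆ closedBall y (2 * r) := by
  refine closure_minimal (fun x hx => ?_) isClosed_closedBall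
  by_contra h
  exact hx (dfd_eta_eq_zero hr h)

theorem dfd_eta_fderiv (y : DgE n) (r : ℝ) (x : DgE n) :
    fderiv ℝ (dfd_eta y r) x = fderiv ℝ (dgcu_smooth (n := n) r) (x - y) :=
  fderiv_comp_sub (𝕜 := ℝ) (f := dgcu_smooth (n := n) r) y

theorem dfd_eta_fderiv_eq_zero {y : DgE n} {r : ℝ} (hr : 0 < r) {x : DgE n}
    (hx : x ∉ closedBall y (2 * r)) : fderiv ℝ (dfd_eta y r) x = 0 := by
  by_contra h
  exact hx (dfd_eta_tsupport y hr (support_fderiv_subset ℝ h))

/-- continuous functions are integrable on balls. -/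
theorem dfd_intOn {f : DgE n → ℝ} (hf : Continuous f) (y : DgE n) (ρ : ℝ) :
    IntegrableOn f (ball y ρ) :=
  (hf.continuousOn.integrableOn_compact (isCompact_closedBall y ρ)).mono_set ball_subset_closedBall

theorem dfd_dens_cont {u : DgE n → ℝ} (hu : ContDiff ℝ 1 u) : Continuous (dgDens n u) := by
  unfold dgDens dgW
  have h1 : Continuous u := hu.continuous
  have h2 : Continuous (fun x => fderiv ℝ u x) := hu.continuous_fderiv (by norm_num)
  fun_prop

theorem dfd_dens_nonneg (u : DgE n → ℝ) (x : DgE n) : 0 ≤ dgDens n u x := by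
  unfold dgDens dgW; positivity

/-- **(a0)** the basic estimate, no growth hypothesis: `C` is the gradient constant of the cut-off. -/
theorem dfd_q_le {u : DgE n → ℝ} (hu : DgSol n u) {C : ℝ}
    (hC : ∀ R : ℝ, 0 < R → ∀ x : DgE n, ‖fderiv ℝ (dgcu_smooth (n := n) R) x‖ ≤ C / R)
    (y : DgE n) {r : ℝ} (hr : 0 < r) :
    ∫ x in ball y r, (1 - u x ^ 2) ≤
      4 * dgEn n u y (3 * r) + (C / r) ^ 2 / 2 * volume.real (ball y (3 * r)) := by
  classical
  set b := EuclideanSpace.basisFun (Fin n) ℝ with hb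
  set η : DgE n → ℝ := dfd_eta y r with hη
  set S : Set (DgE n) := ball y (3 * r) with hS
  have hu1 : ContDiff ℝ 1 u := hu.smooth.of_le (by norm_num)
  have huc : Continuous u := hu.smooth.continuous
  have hη1 : ContDiff ℝ 1 η := dfd_eta_contDiff y r
  have hηc : Continuous η := hη1.continuous
  have hηs : HasCompactSupport η := dfd_eta_hasCompactSupport y hr
  set ζ : DgE n → ℝ := fun x => u x * η x with hζ
  have hζ1 : ContDiff ℝ 1 ζ := hu1.mul hη1
  have hζs : HasCompactSupport ζ := hηs.mul_left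
  have hweak := dg98_exit_weak hu hζ1 hζs
  set G : DgE n → ℝ := fun x => ∑ i, fderiv ℝ u x (b i) * fderiv ℝ ζ x (b i) with hG
  have hGc : Continuous G := by
    refine continuous_finsetSum _ fun i _ => ?_
    exact (dg98_continuous_fderiv_apply hu1 (b i)).mul (dg98_continuous_fderiv_apply hζ1 (b i))
  have hout : ∀ x, x ∉ S → x ∉ closedBall y (2 * r) := by
    intro x hx h
    apply hx
    rw [hS, mem_ball]
    rw [mem_closedBall] at h
    linarith
  have hζd : ∀ x, fderiv ℝ ζ x = u x • fderiv ℝ η x + η x • fderiv ℝ u x := by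
    intro x
    exact fderiv_mul (hu1.differentiable (by norm_num) x) (hη1.differentiable (by norm_num) x)
  have hGeq : ∀ x, G x = u x * (∑ i, fderiv ℝ u x (b i) * fderiv ℝ η x (b i))
      + η x * ‖fderiv ℝ u x‖ ^ 2 := by
    intro x
    rw [dg98_norm_sq_clm b (fderiv ℝ u x), Finset.mul_sum, Finset.mul_sum, ← Finset.sum_add_distrib]
    refine Finset.sum_congr rfl fun i _ => ?_
    rw [hζd x]
    simp only [_root_.add_apply, _root_.smul_apply, smul_eq_mul]
    ring
  have hG0 : ∀ x, x ∉ S → G x = 0 := by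
    intro x hx
    rw [hGeq x, hη, dfd_eta_fderiv_eq_zero hr (hout x hx), dfd_eta_eq_zero hr (hout x hx)]
    simp
  have hubd : ∀ x, |u x| ≤ 1 := fun x => abs_le.2 ⟨(hu.range x).1, (hu.range x).2⟩
  have hq0 : ∀ x, 0 ≤ 1 - u x ^ 2 := by
    intro x
    have := hu.range x
    nlinarith [this.1, this.2]
  have hηd : ∀ x, ‖fderiv ℝ η x‖ ≤ C / r := by
    intro x
    rw [hη, dfd_eta_fderiv]
    exact hC r hr _
  -- pointwise bound of the integrand
  have hGle : ∀ x, G x + (1 - u x ^ 2) ^ 2 * η x ≤ 4 * dgDens n u x + (C / r) ^ 2 / 2 := by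
    intro x
    have h1 : u x * (∑ i, fderiv ℝ u x (b i) * fderiv ℝ η x (b i))
        ≤ (‖fderiv ℝ u x‖ ^ 2 + ‖fderiv ℝ η x‖ ^ 2) / 2 := by
      rw [dg98_norm_sq_clm b (fderiv ℝ u x), dg98_norm_sq_clm b (fderiv ℝ η x),
        ← Finset.sum_add_distrib, Finset.mul_sum, Finset.sum_div]
      refine Finset.sum_le_sum fun i _ => ?_
      set a := fderiv ℝ u x (b i)
      set c := fderiv ℝ η x (b i)
      have h2 : u x * (a * c) ≤ |a * c| := by
        calc u x * (a * c) ≤ |u x * (a * c)| := le_abs_self _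
          _ = |u x| * |a * c| := abs_mul _ _
          _ ≤ 1 * |a * c| := mul_le_mul_of_nonneg_right (hubd x) (abs_nonneg _)
          _ = |a * c| := one_mul _
      have h3 : |a * c| ≤ (a ^ 2 + c ^ 2) / 2 := by
        rw [abs_le]
        constructor <;> nlinarith [sq_nonneg (a - c), sq_nonneg (a + c)]
      exact h2.trans h3
    have h4 : ‖fderiv ℝ η x‖ ^ 2 ≤ (C / r) ^ 2 :=
      pow_le_pow_left₀ (norm_nonneg _) (hηd x) 2
    have h5 : η x * ‖fderiv ℝ u x‖ ^ 2 ≤ ‖fderiv ℝ u x‖ ^ 2 :=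
      mul_le_of_le_one_left (by positivity) (dfd_eta_le_one y r x)
    have h6 : (1 - u x ^ 2) ^ 2 * η x ≤ (1 - u x ^ 2) ^ 2 :=
      mul_le_of_le_one_right (by positivity) (dfd_eta_le_one y r x)
    rw [hGeq x]
    unfold dgDens dgW
    nlinarith [sq_nonneg ‖fderiv ℝ u x‖]
  -- the chain
  have hc1 : Continuous fun x => (1 - u x ^ 2) * η x := by fun_prop
  have hc2 : Continuous fun x => (1 - u x ^ 2) ^ 2 * η x := by fun_prop
  have hc3 : Continuous fun x => u x ^ 2 * (1 - u x ^ 2) * η x := by fun_prop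
  have s1 : ∫ x in ball y r, (1 - u x ^ 2) ≤ ∫ x in S, (1 - u x ^ 2) * η x := by
    have e1 : ∫ x in ball y r, (1 - u x ^ 2) = ∫ x in ball y r, (1 - u x ^ 2) * η x := by
      refine setIntegral_congr_fun measurableSet_ball fun x hx => ?_
      simp only [hη, dfd_eta_eq_one hr hx, mul_one]
    rw [e1]
    refine setIntegral_mono_set (dfd_intOn hc1 y (3 * r)) ?_ ?_
    · exact Eventually.of_forall fun x => mul_nonneg (hq0 x) (dfd_eta_nonneg y r x)
    · exact (ball_subset_ball (by linarith)).eventuallyLE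
  have s2 : ∫ x in S, (1 - u x ^ 2) * η x
      = (∫ x in S, u x ^ 2 * (1 - u x ^ 2) * η x) + ∫ x in S, (1 - u x ^ 2) ^ 2 * η x := by
    rw [← integral_add (dfd_intOn hc3 y (3 * r)) (dfd_intOn hc2 y (3 * r))]
    refine integral_congr_ae (Eventually.of_forall fun x => ?_)
    simp only
    ring
  have s3 : ∫ x in S, u x ^ 2 * (1 - u x ^ 2) * η x = ∫ x in S, G x := by
    have e1 : ∫ x in S, u x ^ 2 * (1 - u x ^ 2) * η x = ∫ x, u x ^ 2 * (1 - u x ^ 2) * η x := by
      refine setIntegral_eq_integral_of_forall_compl_eq_zero fun x hx => ?_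
      rw [hη, dfd_eta_eq_zero hr (hout x hx), mul_zero]
    have e2 : ∫ x in S, G x = ∫ x, G x :=
      setIntegral_eq_integral_of_forall_compl_eq_zero hG0
    rw [e1, e2, hG, hweak, ← integral_neg]
    refine integral_congr_ae (Eventually.of_forall fun x => ?_)
    simp only [hζ]
    ring
  have s4 : (∫ x in S, G x) + ∫ x in S, (1 - u x ^ 2) ^ 2 * η x
      ≤ 4 * dgEn n u y (3 * r) + (C / r) ^ 2 / 2 * volume.real S := by
    rw [← integral_add (dfd_intOn hGc y (3 * r)) (dfd_intOn hc2 y (3 * r))]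
    have hd : IntegrableOn (dgDens n u) S := dfd_intOn (dfd_dens_cont hu1) y (3 * r)
    have hk : IntegrableOn (fun _ : DgE n => (C / r) ^ 2 / 2) S :=
      integrableOn_const measure_ball_lt_top.ne
    have e1 : 4 * dgEn n u y (3 * r) + (C / r) ^ 2 / 2 * volume.real S
        = ∫ x in S, (4 * dgDens n u x + (C / r) ^ 2 / 2) := by
      rw [integral_add (hd.const_mul 4) hk, integral_const_mul, setIntegral_const, smul_eq_mul]
      unfold dgEn
      ring
    rw [e1]
    refine setIntegral_mono ((dfd_intOn hGc y (3 * r)).add (dfd_intOn hc2 y (3 * r)))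
      ((hd.const_mul 4).add hk) hGle
  calc ∫ x in ball y r, (1 - u x ^ 2) ≤ ∫ x in S, (1 - u x ^ 2) * η x := s1
    _ = (∫ x in S, G x) + ∫ x in S, (1 - u x ^ 2) ^ 2 * η x := by rw [s2, s3]
    _ ≤ _ := s4

/-- **(a)** `∫_{B_r(y)} (1 - u²) ≤ C₁ r^{n-1}` for all centres and all radii; `C₁ = A (C₀ + 1)`, `A` dimensional. -/
theorem dfd_q_growth (n : ℕ) (hn : 1 ≤ n) : ∃ A : ℝ, 0 ≤ A ∧ ∀ (u : DgE n → ℝ), DgSol n u → ∀ C0 : ℝ,
    (∀ (y : DgE n) (r : ℝ), 0 < r → dgEn n u y r ≤ C0 * r ^ (n - 1)) →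
    ∀ (y : DgE n) (r : ℝ), 0 < r → ∫ x in ball y r, (1 - u x ^ 2) ≤ A * (C0 + 1) * r ^ (n - 1) := by
  obtain ⟨C, hC0, hC⟩ := dgcu_smooth_norm_fderiv_le n
  set ω : ℝ := volume.real (ball (0 : DgE n) 1) with hω
  have hω0 : 0 ≤ ω := measureReal_nonneg
  set A : ℝ := 4 * 3 ^ (n - 1) + C ^ 2 / 2 * 3 ^ n * ω + ω with hA
  have hA0 : 0 ≤ A := by positivity
  refine ⟨A, hA0, fun u hu C0 hE y r hr => ?_⟩
  have hC00 : 0 ≤ C0 := by
    have h1 := hE 0 1 one_pos
    rw [one_pow, mul_one] at h1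
    refine le_trans ?_ h1
    unfold dgEn
    exact integral_nonneg fun x => dfd_dens_nonneg u x
  have hpow : r ^ n = r * r ^ (n - 1) := by
    obtain ⟨m, rfl⟩ : ∃ m, n = m + 1 := ⟨n - 1, by omega⟩
    simp [pow_succ, mul_comm]
  have hrp : 0 < r ^ (n - 1) := pow_pos hr _
  rcases le_or_gt 1 r with h1 | h1
  · have h := dfd_q_le hu hC y hr
    have h2 := hE y (3 * r) (by positivity)
    rw [dgcu_volume_ball y (by positivity : (0 : ℝ) < 3 * r)] at h
    rw [mul_pow] at h h2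
    have h3 : (C / r) ^ 2 / 2 * (3 ^ n * r ^ n * ω) ≤ C ^ 2 / 2 * 3 ^ n * ω * r ^ (n - 1) := by
      have e : (C / r) ^ 2 / 2 * (3 ^ n * r ^ n * ω)
          = C ^ 2 / 2 * 3 ^ n * ω * r ^ (n - 1) * (1 / r) := by
        rw [hpow]; field_simp
      rw [e]
      refine mul_le_of_le_one_right (by positivity) ?_
      rw [div_le_one hr]; exact h1
    calc ∫ x in ball y r, (1 - u x ^ 2)
        ≤ 4 * (C0 * (3 ^ (n - 1) * r ^ (n - 1))) + C ^ 2 / 2 * 3 ^ n * ω * r ^ (n - 1) := by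
          linarith
      _ ≤ A * (C0 + 1) * r ^ (n - 1) := by
          have e : A * (C0 + 1) * r ^ (n - 1) - (4 * (C0 * (3 ^ (n - 1) * r ^ (n - 1)))
              + C ^ 2 / 2 * 3 ^ n * ω * r ^ (n - 1))
              = (4 * 3 ^ (n - 1) + (C ^ 2 / 2 * 3 ^ n * ω) * C0 + ω * (C0 + 1)) * r ^ (n - 1) := by
            rw [hA]; ring
          have : 0 ≤ (4 * 3 ^ (n - 1) + (C ^ 2 / 2 * 3 ^ n * ω) * C0 + ω * (C0 + 1)) * r ^ (n - 1) := by
            positivity
          linarith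
  · have hc : Continuous fun x => 1 - u x ^ 2 := by
      have := hu.smooth.continuous
      fun_prop
    have h := dgcu_setIntegral_le_of_bound (F := fun x => 1 - u x ^ 2) (M := 1)
      (fun x => by nlinarith [sq_nonneg (u x)]) y hr (dfd_intOn hc y r)
    rw [one_mul, hpow] at h
    calc ∫ x in ball y r, (1 - u x ^ 2) ≤ ω * (r * r ^ (n - 1)) := h
      _ ≤ ω * (1 * r ^ (n - 1)) := by
          refine mul_le_mul_of_nonneg_left ?_ hω0
          exact mul_le_mul_of_nonneg_right h1.le hrp.le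
      _ ≤ A * (C0 + 1) * r ^ (n - 1) := by
          rw [one_mul]
          refine mul_le_mul_of_nonneg_right ?_ hrp.le
          have e : A * (C0 + 1) - ω
              = (4 * 3 ^ (n - 1) + C ^ 2 / 2 * 3 ^ n * ω) * (C0 + 1) + ω * C0 := by
            rw [hA]; ring
          have : 0 ≤ (4 * 3 ^ (n - 1) + C ^ 2 / 2 * 3 ^ n * ω) * (C0 + 1) + ω * C0 := by positivity
          linarith

/-- **EXIT P1 (DISC).**  The discrepancy `ξ = W(u) - |∇u|²/2` of a stable solution with surface-order energy at all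
centres and radii has one power less: `∫_{B_r(y)} ξ ≤ K r^{n-2}`; `K = B (C₀ + 1)` with `B` dimensional. -/
theorem dfd_exit_disc (n : ℕ) (hn : 2 ≤ n) : ∃ B : ℝ, 0 ≤ B ∧ ∀ (u : DgE n → ℝ), DgSol n u → DgStable n u →
    ∀ C0 : ℝ, (∀ (y : DgE n) (r : ℝ), 0 < r → dgEn n u y r ≤ C0 * r ^ (n - 1)) →
    ∀ (y : DgE n) (r : ℝ), 0 < r →
      ∫ x in ball y r, (dgW (u x) - ‖fderiv ℝ u x‖ ^ 2 / 2) ≤ B * (C0 + 1) * r ^ (n - 2) := by
  obtain ⟨A1, hA1, h1⟩ := dfq_disc_of n hn
  obtain ⟨A2, hA2, h2⟩ := dfd_q_growth n (by omega)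
  refine ⟨(A1 + A2) / 4, by positivity, fun u hu hs C0 hE y r hr => ?_⟩
  have hC00 : 0 ≤ C0 := by
    have h1 := hE 0 1 one_pos
    rw [one_pow, mul_one] at h1
    refine le_trans ?_ h1
    unfold dgEn
    exact integral_nonneg fun x => dfd_dens_nonneg u x
  have h := h1 u hu hs C0 (A2 * (C0 + 1)) hE (h2 u hu C0 hE) y r hr
  refine h.trans (mul_le_mul_of_nonneg_right ?_ (pow_pos hr _).le)
  nlinarith

/-- the same in the words of the order C6-4: `∃ K`. -/
theorem dfd_exit_disc' {n : ℕ} (hn : 2 ≤ n) {u : DgE n → ℝ} (hu : DgSol n u) (hs : DgStable n u) {C0 : ℝ}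
    (hE : ∀ (y : DgE n) (r : ℝ), 0 < r → dgEn n u y r ≤ C0 * r ^ (n - 1)) :
    ∃ K : ℝ, 0 ≤ K ∧ ∀ (y : DgE n) (r : ℝ), 0 < r →
      ∫ x in ball y r, (dgW (u x) - ‖fderiv ℝ u x‖ ^ 2 / 2) ≤ K * r ^ (n - 2) := by
  obtain ⟨B, hB, h⟩ := dfd_exit_disc n hn
  have hC00 : 0 ≤ C0 := by
    have h1 := hE 0 1 one_pos
    rw [one_pow, mul_one] at h1
    refine le_trans ?_ h1
    unfold dgEn
    exact integral_nonneg fun x => dfd_dens_nonneg u x
  exact ⟨B * (C0 + 1), by positivity, h u hu hs C0 hE⟩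

end Claimed.Agent.R329
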