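/-
Row 329, cell C6, contract K7 (diffuse port of Lib/Gmt Fl*), post P6 = F6 (chief helper68).   THE 1-D SLICE LEMMA.   Pen: helper138, prefix `dfsl_`.

On a vertical slice: `f(t) = χ(z,t) ∈ [0,1]` (`χ = Φ(v)/s₀`), `e(t)` = density of the normalised energy measure, `|f'| ≤ e`,
`e ≥ b` on the core `{θ ≤ f ≤ 1-θ}`;  `h = ∫_{-1}^1 f - 1` (height), `E = ∫_{-1}^1 (e + f') ≥ 0` (slice excess).
If `f(-a) ≥ 1-θ`, `f(a) ≤ θ`, `∫_{-1}^{-a} (1-f) ≤ σ`, `∫_a^1 f ≤ σ`, `∫_{|t|>a} e ≤ σe`, then for every `ℓ`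

  `∫_{-1}^1 (t-ℓ)² e dt ≤ (h-ℓ)² + [8σ + 32θa² + 4a(1+E)/b + 2a²E/θ] + (a+|ℓ|)² E + 2(1+|ℓ|)² σe`.

No good / bad sets, no measure of sets: the bound is pointwise in the slice parameter.
 (1) `e = -f' + (e+f')`, `0 ≤ e+f' ≤ 2e`.
 (2) integration by parts: `-∫ (t-ℓ)² f' ≤ (1+ℓ)² + ∫ 2(t-ℓ) f = (h-ℓ)² + (1-h²+2I₁)`, `I₁ = ∫ t f`.
 (3) for every `c`: `2V(c) := 2∫_{-1}^c (c-t)(1-f) + 2∫_c^1 (t-c) f = (1-h²+2I₁) + (c-h)²`.
 (4) `E ≤ 2θ`: `f(t) ≤ f(s)+θ` for `s ≤ t`; `c ∈ [-a,a]` with `f(c) = 1-2θ`; `1-f ≤ 3θ` on the left of `c`, `f ≤ θ + e/b` on the right.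
 (5) `E > 2θ`: `V(0) ≤ 2a² + 2σ ≤ 2σ + a²E/θ`.
-/
import Mathlib

set_option autoImplicit false

open MeasureTheory Set Filter Topology

namespace Claimed.Agent.R329

/-- the data of a slice -/
structure DfslData (f f' e : ℝ → ℝ) : Prop where
  der : ∀ t, HasDerivAt f (f' t) t
  cf' : Continuous f'
  ce : Continuous e
  f0 : ∀ t, 0 ≤ f t
  f1 : ∀ t, f t ≤ 1
  le : ∀ t, |f' t| ≤ e t

namespace DfslData

variable {f f' e : ℝ → ℝ}

theorem cf (H : DfslData f f' e) : Continuous f :=
  continuous_iff_continuousAt.2 fun t => (H.der t).continuousAt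

theorem ex_nonneg (H : DfslData f f' e) (t : ℝ) : 0 ≤ e t + f' t := by
  have := (abs_le.1 (H.le t)).1; linarith

theorem ex_le (H : DfslData f f' e) (t : ℝ) : e t + f' t ≤ 2 * e t := by
  have := (abs_le.1 (H.le t)).2; linarith

theorem e_nonneg (H : DfslData f f' e) (t : ℝ) : 0 ≤ e t := (abs_nonneg _).trans (H.le t)

end DfslData

/-- the height of the slice -/
noncomputable def dfslH (f : ℝ → ℝ) : ℝ := (∫ t in (-1 : ℝ)..1, f t) - 1

/-- the excess of the slice -/
noncomputable def dfslE (f' e : ℝ → ℝ) : ℝ := ∫ t in (-1 : ℝ)..1, (e t + f' t)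

section
variable {f f' e : ℝ → ℝ}

theorem dfsl_sub_le {g : ℝ → ℝ} (hg : Continuous g) (h0 : ∀ t, 0 ≤ g t) {s t : ℝ} (hs : -1 ≤ s) (hst : s ≤ t)
    (ht : t ≤ 1) : ∫ x in s..t, g x ≤ ∫ x in (-1 : ℝ)..1, g x :=
  intervalIntegral.integral_mono_interval hs hst ht (Eventually.of_forall fun x => h0 x) (hg.intervalIntegrable _ _)

theorem dfsl_E_nonneg (H : DfslData f f' e) : 0 ≤ dfslE f' e :=
  intervalIntegral.integral_nonneg (by norm_num) fun t _ => H.ex_nonneg t

/-- `∫ e ≤ 1 + E` -/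
theorem dfsl_int_e_le (H : DfslData f f' e) : ∫ t in (-1 : ℝ)..1, e t ≤ 1 + dfslE f' e := by
  have h1 : ∫ t in (-1 : ℝ)..1, f' t = f 1 - f (-1) :=
    intervalIntegral.integral_eq_sub_of_hasDerivAt (fun t _ => H.der t) (H.cf'.intervalIntegrable _ _)
  have h2 : dfslE f' e = (∫ t in (-1 : ℝ)..1, e t) + ∫ t in (-1 : ℝ)..1, f' t :=
    intervalIntegral.integral_add (H.ce.intervalIntegrable _ _) (H.cf'.intervalIntegrable _ _)
  have := H.f0 1
  have := H.f1 (-1)
  linarith

/-- almost monotonicity -/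
theorem dfsl_almost_mono (H : DfslData f f' e) {s t : ℝ} (hs : -1 ≤ s) (hst : s ≤ t) (ht : t ≤ 1) :
    f t ≤ f s + dfslE f' e / 2 := by
  have hce := H.ce
  have hcf' := H.cf'
  have hc2 : Continuous fun x => (e x + f' x) / 2 := by fun_prop
  have h1 : ∫ x in s..t, f' x = f t - f s :=
    intervalIntegral.integral_eq_sub_of_hasDerivAt (fun x _ => H.der x) (H.cf'.intervalIntegrable _ _)
  have h2 : ∫ x in s..t, f' x ≤ ∫ x in s..t, (e x + f' x) / 2 :=
    intervalIntegral.integral_mono_on hst (H.cf'.intervalIntegrable _ _) (hc2.intervalIntegrable _ _)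
      fun x _ => by have := (abs_le.1 (H.le x)).2; linarith
  have h3 : ∫ x in s..t, (e x + f' x) / 2 ≤ ∫ x in (-1 : ℝ)..1, (e x + f' x) / 2 :=
    dfsl_sub_le hc2 (fun x => by have := H.ex_nonneg x; linarith) hs hst ht
  have h4 : ∫ x in (-1 : ℝ)..1, (e x + f' x) / 2 = dfslE f' e / 2 := by
    unfold dfslE; rw [intervalIntegral.integral_div]
  linarith

/-- the two one-sided moments about `c` -/
noncomputable def dfslV (f : ℝ → ℝ) (c : ℝ) : ℝ :=
  (∫ t in (-1 : ℝ)..c, (c - t) * (1 - f t)) + ∫ t in c..1, (t - c) * f t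

/-- step (3): `2 V(c) = (1 - h² + 2 I₁) + (c-h)²` -/
theorem dfsl_V_eq (hf : Continuous f) (c : ℝ) :
    2 * dfslV f c = (1 - dfslH f ^ 2 + 2 * ∫ t in (-1 : ℝ)..1, t * f t) + (c - dfslH f) ^ 2 := by
  have c1 : Continuous fun t : ℝ => (t - c) * f t := by fun_prop
  have c2 : Continuous fun t : ℝ => c - t := by fun_prop
  have c3 : Continuous fun t : ℝ => t * f t := by fun_prop
  have c4 : Continuous fun t : ℝ => c * f t := by fun_prop
  have i1 : ∀ a b : ℝ, IntervalIntegrable (fun t : ℝ => (t - c) * f t) volume a b := fun a b =>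
    c1.intervalIntegrable _ _
  have h1 : ∫ t in (-1 : ℝ)..c, (c - t) * (1 - f t)
      = (∫ t in (-1 : ℝ)..c, (c - t)) + ∫ t in (-1 : ℝ)..c, (t - c) * f t := by
    rw [← intervalIntegral.integral_add (c2.intervalIntegrable _ _) (i1 _ _)]
    congr 1; funext t; ring
  have h2 : ∫ t in (-1 : ℝ)..c, (c - t) = (1 + c) ^ 2 / 2 := by
    have e1 : ∀ x ∈ uIcc (-1 : ℝ) c, HasDerivAt (fun t : ℝ => -(c - t) ^ 2 / 2) (c - x) x := fun x _ => by
      have := (((hasDerivAt_id x).const_sub c).fun_pow 2).neg.div_const 2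
      refine this.congr_deriv ?_
      simp
    rw [intervalIntegral.integral_eq_sub_of_hasDerivAt e1 (c2.intervalIntegrable _ _)]
    ring
  have h3 : (∫ t in (-1 : ℝ)..c, (t - c) * f t) + ∫ t in c..1, (t - c) * f t = ∫ t in (-1 : ℝ)..1, (t - c) * f t :=
    intervalIntegral.integral_add_adjacent_intervals (i1 _ _) (i1 _ _)
  have h4 : ∫ t in (-1 : ℝ)..1, (t - c) * f t = (∫ t in (-1 : ℝ)..1, t * f t) - c * ∫ t in (-1 : ℝ)..1, f t := by
    rw [← intervalIntegral.integral_const_mul, ← intervalIntegral.integral_sub (c3.intervalIntegrable _ _)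
      (c4.intervalIntegrable _ _)]
    congr 1; funext t; ring
  unfold dfslV dfslH
  rw [h1, h2]
  have h5 : (1 + c) ^ 2 / 2 + (∫ t in (-1 : ℝ)..c, (t - c) * f t) + ∫ t in c..1, (t - c) * f t
      = (1 + c) ^ 2 / 2 + ((∫ t in (-1 : ℝ)..1, t * f t) - c * ∫ t in (-1 : ℝ)..1, f t) := by
    rw [add_assoc, h3, h4]
  rw [h5]
  ring

/-- step (2): integration by parts -/
theorem dfsl_parts (H : DfslData f f' e) (l : ℝ) :
    -∫ t in (-1 : ℝ)..1, (t - l) ^ 2 * f' t
      ≤ (dfslH f - l) ^ 2 + (1 - dfslH f ^ 2 + 2 * ∫ t in (-1 : ℝ)..1, t * f t) := by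
  have hu : ∀ x ∈ uIcc (-1 : ℝ) 1, HasDerivAt (fun t : ℝ => (t - l) ^ 2) (2 * (x - l)) x := fun x _ => by
    have := ((hasDerivAt_id x).sub_const l).fun_pow 2
    simpa using this
  have hcf := H.cf
  have c1 : Continuous fun t : ℝ => 2 * (t - l) := by fun_prop
  have c3 : Continuous fun t : ℝ => 2 * (t * f t) := by fun_prop
  have c4 : Continuous fun t : ℝ => 2 * l * f t := by fun_prop
  have h1 := intervalIntegral.integral_mul_deriv_eq_deriv_mul (a := (-1 : ℝ)) (b := 1) (u := fun t : ℝ => (t - l) ^ 2)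
    (u' := fun t => 2 * (t - l)) (v := f) (v' := f') hu (fun x _ => H.der x)
    (c1.intervalIntegrable _ _) (H.cf'.intervalIntegrable _ _)
  have h2 : ∫ t in (-1 : ℝ)..1, 2 * (t - l) * f t
      = 2 * (∫ t in (-1 : ℝ)..1, t * f t) - 2 * l * ∫ t in (-1 : ℝ)..1, f t := by
    rw [← intervalIntegral.integral_const_mul, ← intervalIntegral.integral_const_mul,
      ← intervalIntegral.integral_sub (c3.intervalIntegrable _ _) (c4.intervalIntegrable _ _)]
    congr 1; funext t; ring
  rw [h1, h2]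
  unfold dfslH
  have a1 := H.f1 (-1)
  have a2 := H.f0 1
  have b1 : (-1 - l) ^ 2 * f (-1) ≤ (-1 - l) ^ 2 := by nlinarith [sq_nonneg (-1 - l)]
  have b2 : 0 ≤ (1 - l) ^ 2 * f 1 := by positivity
  nlinarith

/-- the slab, the tails and the core of a slice -/
structure DfslTail (f e : ℝ → ℝ) (θ a b σ σe : ℝ) : Prop where
  hθ : 0 < θ
  hθ' : θ ≤ 1 / 4
  ha : 0 < a
  ha' : a ≤ 1
  hb : 0 < b
  lo : 1 - θ ≤ f (-a)
  hi : f a ≤ θ
  tl : ∫ t in (-1 : ℝ)..(-a), (1 - f t) ≤ σ
  tr : ∫ t in a..1, f t ≤ σ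
  te : (∫ t in (-1 : ℝ)..(-a), e t) + ∫ t in a..1, e t ≤ σe
  core : ∀ t, θ ≤ f t → f t ≤ 1 - θ → b ≤ e t

variable {θ a b σ σe : ℝ}

theorem dfsl_sigma_nonneg (H : DfslData f f' e) (T : DfslTail f e θ a b σ σe) : 0 ≤ σ :=
  (intervalIntegral.integral_nonneg T.ha' fun t _ => H.f0 t).trans T.tr

/-- the left tail of `V(c)` -/
theorem dfsl_VL_tail (H : DfslData f f' e) (T : DfslTail f e θ a b σ σe) {c : ℝ} (hc : c ≤ 1) :
    ∫ t in (-1 : ℝ)..(-a), (c - t) * (1 - f t) ≤ 2 * σ := by
  have hcf := H.cf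
  have c1 : Continuous fun t : ℝ => (c - t) * (1 - f t) := by fun_prop
  have c2 : Continuous fun t : ℝ => 2 * (1 - f t) := by fun_prop
  have h1 : ∫ t in (-1 : ℝ)..(-a), (c - t) * (1 - f t) ≤ ∫ t in (-1 : ℝ)..(-a), 2 * (1 - f t) :=
    intervalIntegral.integral_mono_on (by linarith [T.ha']) (c1.intervalIntegrable _ _) (c2.intervalIntegrable _ _)
      fun t ht => by
        have := H.f1 t
        exact mul_le_mul_of_nonneg_right (by linarith [ht.1]) (by linarith)
  rw [intervalIntegral.integral_const_mul] at h1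
  linarith [T.tl]

/-- the right tail of `V(c)` -/
theorem dfsl_VR_tail (H : DfslData f f' e) (T : DfslTail f e θ a b σ σe) {c : ℝ} (hc : -1 ≤ c) :
    ∫ t in a..1, (t - c) * f t ≤ 2 * σ := by
  have hcf := H.cf
  have c1 : Continuous fun t : ℝ => (t - c) * f t := by fun_prop
  have c2 : Continuous fun t : ℝ => 2 * f t := by fun_prop
  have h1 : ∫ t in a..1, (t - c) * f t ≤ ∫ t in a..1, 2 * f t :=
    intervalIntegral.integral_mono_on T.ha' (c1.intervalIntegrable _ _) (c2.intervalIntegrable _ _)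
      fun t ht => mul_le_mul_of_nonneg_right (by linarith [ht.2]) (H.f0 t)
  rw [intervalIntegral.integral_const_mul] at h1
  linarith [T.tr]

/-- step (4): a slice with small excess -/
theorem dfsl_V_good (H : DfslData f f' e) (T : DfslTail f e θ a b σ σe) (hE : dfslE f' e ≤ 2 * θ) :
    ∃ c : ℝ, dfslV f c ≤ 4 * σ + 16 * θ * a ^ 2 + 2 * a / b * (1 + dfslE f' e) := by
  have hcf := H.cf
  have hce := H.ce
  have hθ := T.hθ
  have hθ' := T.hθ'
  have ha := T.ha
  have ha' := T.ha'
  have hb := T.hb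
  obtain ⟨c, hc, hfc⟩ : (1 - 2 * θ) ∈ f '' Icc (-a) a :=
    intermediate_value_Icc' (by linarith) hcf.continuousOn ⟨by linarith [T.hi], by linarith [T.lo]⟩
  refine ⟨c, ?_⟩
  have hc1 : -a ≤ c := hc.1
  have hc2 : c ≤ a := hc.2
  have c1 : Continuous fun t : ℝ => (c - t) * (1 - f t) := by fun_prop
  have c2 : Continuous fun t : ℝ => (t - c) * f t := by fun_prop
  have c3 : Continuous fun t : ℝ => 2 * a * θ + 2 * a / b * e t := by fun_prop
  have c4 : Continuous fun t : ℝ => 2 * a / b * e t := by fun_prop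
  -- left of `c`
  have L1 := dfsl_VL_tail H T (c := c) (by linarith)
  have L2 : ∫ t in (-a)..c, (c - t) * (1 - f t) ≤ 12 * θ * a ^ 2 := by
    have h1 : ∫ t in (-a)..c, (c - t) * (1 - f t) ≤ ∫ _t in (-a)..c, 6 * a * θ :=
      intervalIntegral.integral_mono_on hc1 (c1.intervalIntegrable _ _) (continuous_const.intervalIntegrable _ _)
        fun t ht => by
          have m := dfsl_almost_mono H (s := t) (t := c) (by linarith [ht.1]) ht.2 (by linarith)
          have h3 : 1 - f t ≤ 3 * θ := by linarith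
          have h4 : 0 ≤ 1 - f t := by linarith [H.f1 t]
          have h5 : c - t ≤ 2 * a := by linarith [ht.1]
          have h6 : 0 ≤ c - t := by linarith [ht.2]
          calc (c - t) * (1 - f t) ≤ (2 * a) * (3 * θ) := mul_le_mul h5 h3 h4 (by linarith)
            _ = 6 * a * θ := by ring
    rw [intervalIntegral.integral_const, smul_eq_mul] at h1
    have h2 : (c - -a) * (6 * a * θ) ≤ (2 * a) * (6 * a * θ) :=
      mul_le_mul_of_nonneg_right (by linarith) (by positivity)
    nlinarith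
  have L : ∫ t in (-1 : ℝ)..c, (c - t) * (1 - f t) ≤ 2 * σ + 12 * θ * a ^ 2 := by
    rw [← intervalIntegral.integral_add_adjacent_intervals (c1.intervalIntegrable (-1) (-a))
      (c1.intervalIntegrable (-a) c)]
    linarith
  -- right of `c`
  have R1 := dfsl_VR_tail H T (c := c) (by linarith)
  have R2 : ∫ t in c..a, (t - c) * f t ≤ 4 * θ * a ^ 2 + 2 * a / b * (1 + dfslE f' e) := by
    have h1 : ∫ t in c..a, (t - c) * f t ≤ ∫ t in c..a, (2 * a * θ + 2 * a / b * e t) :=
      intervalIntegral.integral_mono_on hc2 (c2.intervalIntegrable _ _) (c3.intervalIntegrable _ _)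
        fun t ht => by
          have m := dfsl_almost_mono H (s := c) (t := t) (by linarith) ht.1 (by linarith [ht.2])
          have h3 : f t ≤ 1 - θ := by linarith
          have h4 : f t ≤ θ + e t / b := by
            rcases lt_or_ge (f t) θ with h | h
            · have : 0 ≤ e t / b := div_nonneg (H.e_nonneg t) hb.le
              linarith
            · have h5 := T.core t h h3
              have : 1 ≤ e t / b := by rw [le_div_iff₀ hb]; linarith
              linarith [H.f1 t]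
          have h5 : t - c ≤ 2 * a := by linarith [ht.2]
          have h6 : 0 ≤ t - c := by linarith [ht.1]
          have h7 : 0 ≤ θ + e t / b := (H.f0 t).trans h4
          calc (t - c) * f t ≤ (2 * a) * (θ + e t / b) := mul_le_mul h5 h4 (H.f0 t) (by linarith)
            _ = 2 * a * θ + 2 * a / b * e t := by ring
    rw [intervalIntegral.integral_add (continuous_const.intervalIntegrable _ _) (c4.intervalIntegrable _ _),
      intervalIntegral.integral_const, smul_eq_mul, intervalIntegral.integral_const_mul] at h1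
    have h2 : (a - c) * (2 * a * θ) ≤ (2 * a) * (2 * a * θ) :=
      mul_le_mul_of_nonneg_right (by linarith) (by positivity)
    have h3 : ∫ t in c..a, e t ≤ 1 + dfslE f' e :=
      (dfsl_sub_le hce H.e_nonneg (by linarith) hc2 ha').trans (dfsl_int_e_le H)
    have h4 : 2 * a / b * ∫ t in c..a, e t ≤ 2 * a / b * (1 + dfslE f' e) :=
      mul_le_mul_of_nonneg_left h3 (by positivity)
    nlinarith
  have R : ∫ t in c..1, (t - c) * f t ≤ 2 * σ + (4 * θ * a ^ 2 + 2 * a / b * (1 + dfslE f' e)) := by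
    rw [← intervalIntegral.integral_add_adjacent_intervals (c2.intervalIntegrable c a)
      (c2.intervalIntegrable a 1)]
    linarith
  unfold dfslV
  linarith

/-- step (5): any slice -/
theorem dfsl_V_bad (H : DfslData f f' e) (T : DfslTail f e θ a b σ σe) :
    dfslV f 0 ≤ 4 * σ + 2 * a ^ 2 := by
  have hcf := H.cf
  have ha := T.ha
  have ha' := T.ha'
  have c1 : Continuous fun t : ℝ => (0 - t) * (1 - f t) := by fun_prop
  have c2 : Continuous fun t : ℝ => (t - 0) * f t := by fun_prop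
  have L1 := dfsl_VL_tail H T (c := 0) (by norm_num)
  have R1 := dfsl_VR_tail H T (c := 0) (by norm_num)
  have L2 : ∫ t in (-a)..0, (0 - t) * (1 - f t) ≤ a ^ 2 := by
    have h1 : ∫ t in (-a)..0, (0 - t) * (1 - f t) ≤ ∫ _t in (-a)..0, a :=
      intervalIntegral.integral_mono_on (by linarith) (c1.intervalIntegrable _ _)
        (continuous_const.intervalIntegrable _ _) fun t ht => by
          have h3 : 1 - f t ≤ 1 := by linarith [H.f0 t]
          have h4 : 0 ≤ 1 - f t := by linarith [H.f1 t]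
          calc (0 - t) * (1 - f t) ≤ a * 1 := mul_le_mul (by linarith [ht.1]) h3 h4 ha.le
            _ = a := mul_one a
    rw [intervalIntegral.integral_const, smul_eq_mul] at h1
    nlinarith
  have R2 : ∫ t in (0 : ℝ)..a, (t - 0) * f t ≤ a ^ 2 := by
    have h1 : ∫ t in (0 : ℝ)..a, (t - 0) * f t ≤ ∫ _t in (0 : ℝ)..a, a :=
      intervalIntegral.integral_mono_on ha.le (c2.intervalIntegrable _ _)
        (continuous_const.intervalIntegrable _ _) fun t ht => by
          calc (t - 0) * f t ≤ a * 1 := mul_le_mul (by linarith [ht.2]) (H.f1 t) (H.f0 t) ha.le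
            _ = a := mul_one a
    rw [intervalIntegral.integral_const, smul_eq_mul] at h1
    nlinarith
  unfold dfslV
  rw [← intervalIntegral.integral_add_adjacent_intervals (c1.intervalIntegrable (-1) (-a))
    (c1.intervalIntegrable (-a) 0), ← intervalIntegral.integral_add_adjacent_intervals (c2.intervalIntegrable 0 a)
    (c2.intervalIntegrable a 1)]
  linarith

/-- steps (3), (4), (5) together: the "variance" of a slice -/
theorem dfsl_var (H : DfslData f f' e) (T : DfslTail f e θ a b σ σe) :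
    1 - dfslH f ^ 2 + 2 * ∫ t in (-1 : ℝ)..1, t * f t
      ≤ 8 * σ + 32 * θ * a ^ 2 + 4 * a / b * (1 + dfslE f' e) + 2 * a ^ 2 * dfslE f' e / θ := by
  have hθ := T.hθ
  have ha := T.ha
  have hb := T.hb
  have hE := dfsl_E_nonneg H
  have hσ := dfsl_sigma_nonneg H T
  have t1 : 0 ≤ 4 * a / b * (1 + dfslE f' e) := by positivity
  have t2 : 0 ≤ 2 * a ^ 2 * dfslE f' e / θ := by positivity
  have t3 : 0 ≤ 32 * θ * a ^ 2 := by positivity
  rcases le_or_gt (dfslE f' e) (2 * θ) with h | h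
  · obtain ⟨c, hc⟩ := dfsl_V_good H T h
    have h1 := dfsl_V_eq H.cf c
    have h2 : 4 * a / b * (1 + dfslE f' e) = 2 * (2 * a / b * (1 + dfslE f' e)) := by ring
    nlinarith [sq_nonneg (c - dfslH f)]
  · have hc := dfsl_V_bad H T
    have h1 := dfsl_V_eq H.cf 0
    have h2 : 4 * a ^ 2 ≤ 2 * a ^ 2 * dfslE f' e / θ := by
      rw [le_div_iff₀ hθ]
      nlinarith [sq_nonneg a, mul_pos ha ha]
    nlinarith [sq_nonneg (0 - dfslH f)]

/-- **THE SLICE LEMMA.** -/
theorem dfsl_slice (H : DfslData f f' e) (T : DfslTail f e θ a b σ σe) (l : ℝ) :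
    ∫ t in (-1 : ℝ)..1, (t - l) ^ 2 * e t
      ≤ (dfslH f - l) ^ 2
        + (8 * σ + 32 * θ * a ^ 2 + 4 * a / b * (1 + dfslE f' e) + 2 * a ^ 2 * dfslE f' e / θ)
        + (a + |l|) ^ 2 * dfslE f' e + 2 * (1 + |l|) ^ 2 * σe := by
  have hce := H.ce
  have hcf' := H.cf'
  have ha := T.ha
  have ha' := T.ha'
  have c1 : Continuous fun t : ℝ => (t - l) ^ 2 * e t := by fun_prop
  have c2 : Continuous fun t : ℝ => (t - l) ^ 2 * f' t := by fun_prop
  have c3 : Continuous fun t : ℝ => (t - l) ^ 2 * (e t + f' t) := by fun_prop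
  have c4 : Continuous fun t : ℝ => e t + f' t := by fun_prop
  have c5 : Continuous fun t : ℝ => 2 * (1 + |l|) ^ 2 * e t := by fun_prop
  have c6 : Continuous fun t : ℝ => (a + |l|) ^ 2 * (e t + f' t) := by fun_prop
  have h0 : ∫ t in (-1 : ℝ)..1, (t - l) ^ 2 * e t
      = (∫ t in (-1 : ℝ)..1, (t - l) ^ 2 * (e t + f' t)) - ∫ t in (-1 : ℝ)..1, (t - l) ^ 2 * f' t := by
    rw [← intervalIntegral.integral_sub (c3.intervalIntegrable _ _) (c2.intervalIntegrable _ _)]
    congr 1; funext t; ring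
  have sqb : ∀ t r : ℝ, |t| ≤ r → (t - l) ^ 2 ≤ (r + |l|) ^ 2 := fun t r ht => by
    have h1 : |t - l| ≤ r + |l| := (abs_sub _ _).trans (by linarith)
    have := pow_le_pow_left₀ (abs_nonneg _) h1 2
    rwa [sq_abs] at this
  -- the three pieces of the excess term
  have tailb : ∀ p q : ℝ, -1 ≤ p → p ≤ q → q ≤ 1 →
      ∫ t in p..q, (t - l) ^ 2 * (e t + f' t) ≤ 2 * (1 + |l|) ^ 2 * ∫ t in p..q, e t := fun p q hp hpq hq => by
    rw [← intervalIntegral.integral_const_mul]
    refine intervalIntegral.integral_mono_on hpq (c3.intervalIntegrable _ _) (c5.intervalIntegrable _ _) fun t ht => ?_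
    have h1 := sqb t 1 (abs_le.2 ⟨by linarith [ht.1], by linarith [ht.2]⟩)
    calc (t - l) ^ 2 * (e t + f' t) ≤ (1 + |l|) ^ 2 * (2 * e t) :=
          mul_le_mul h1 (H.ex_le t) (H.ex_nonneg t) (by positivity)
      _ = 2 * (1 + |l|) ^ 2 * e t := by ring
  have m1 := tailb (-1) (-a) le_rfl (by linarith) (by linarith)
  have m3 := tailb a 1 (by linarith) ha' le_rfl
  have m2 : ∫ t in (-a)..a, (t - l) ^ 2 * (e t + f' t) ≤ (a + |l|) ^ 2 * dfslE f' e := by
    have h1 : ∫ t in (-a)..a, (t - l) ^ 2 * (e t + f' t) ≤ ∫ t in (-a)..a, (a + |l|) ^ 2 * (e t + f' t) :=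
      intervalIntegral.integral_mono_on (by linarith) (c3.intervalIntegrable _ _) (c6.intervalIntegrable _ _)
        fun t ht => mul_le_mul_of_nonneg_right (sqb t a (abs_le.2 ⟨ht.1, ht.2⟩)) (H.ex_nonneg t)
    rw [intervalIntegral.integral_const_mul] at h1
    have h2 : ∫ t in (-a)..a, (e t + f' t) ≤ dfslE f' e :=
      dfsl_sub_le c4 H.ex_nonneg (by linarith) (by linarith) ha'
    exact h1.trans (mul_le_mul_of_nonneg_left h2 (by positivity))
  have hsplit : ∫ t in (-1 : ℝ)..1, (t - l) ^ 2 * (e t + f' t)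
      = (∫ t in (-1 : ℝ)..(-a), (t - l) ^ 2 * (e t + f' t)) + (∫ t in (-a)..a, (t - l) ^ 2 * (e t + f' t))
        + ∫ t in a..1, (t - l) ^ 2 * (e t + f' t) := by
    rw [intervalIntegral.integral_add_adjacent_intervals (c3.intervalIntegrable _ _) (c3.intervalIntegrable _ _),
      intervalIntegral.integral_add_adjacent_intervals (c3.intervalIntegrable _ _) (c3.intervalIntegrable _ _)]
  have hte : 2 * (1 + |l|) ^ 2 * (∫ t in (-1 : ℝ)..(-a), e t) + 2 * (1 + |l|) ^ 2 * (∫ t in a..1, e t)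
      ≤ 2 * (1 + |l|) ^ 2 * σe := by
    rw [← mul_add]
    exact mul_le_mul_of_nonneg_left T.te (by positivity)
  have hp := dfsl_parts H l
  have hv := dfsl_var H T
  rw [h0, hsplit]
  linarith

/-! ## The sharp form (Hoeffding's identity; helpers 68, 268) -/

/-- `A(t) = ∫_{-1}^t (1-f)` -/
noncomputable def dfslA (f : ℝ → ℝ) (t : ℝ) : ℝ := ∫ s in (-1 : ℝ)..t, (1 - f s)

theorem dfsl_A_hasDerivAt (hf : Continuous f) (t : ℝ) : HasDerivAt (dfslA f) (1 - f t) t := by
  have c1 : Continuous fun s : ℝ => 1 - f s := by fun_prop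
  exact intervalIntegral.integral_hasDerivAt_right (c1.intervalIntegrable _ _)
    (c1.stronglyMeasurableAtFilter _ _) c1.continuousAt

theorem dfsl_A_continuous (hf : Continuous f) : Continuous (dfslA f) :=
  continuous_iff_continuousAt.2 fun t => (dfsl_A_hasDerivAt hf t).continuousAt

/-- **Hoeffding's identity**: `1 - h² + 2 ∫ t f = ∫ 2 A f`. -/
theorem dfsl_hoeffding (hf : Continuous f) :
    1 - dfslH f ^ 2 + 2 * ∫ t in (-1 : ℝ)..1, t * f t = ∫ t in (-1 : ℝ)..1, 2 * (dfslA f t * f t) := by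
  have hA := dfsl_A_continuous hf
  have c1 : Continuous fun t : ℝ => 2 * (dfslA f t * f t) := by fun_prop
  have c2 : Continuous fun t : ℝ => 2 * t - 2 * (t * f t) := by fun_prop
  have c3 : Continuous fun t : ℝ => 2 * (dfslA f t * f t) + (2 * t - 2 * (t * f t)) := c1.add c2
  have c4 : Continuous fun t : ℝ => 2 * t := by fun_prop
  have c5 : Continuous fun t : ℝ => 2 * (t * f t) := by fun_prop
  have hG : ∀ t ∈ uIcc (-1 : ℝ) 1, HasDerivAt (fun t : ℝ => 2 * t * dfslA f t - dfslA f t ^ 2)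
      (2 * (dfslA f t * f t) + (2 * t - 2 * (t * f t))) t := fun t _ => by
    have h1 := dfsl_A_hasDerivAt hf t
    have h2 := (((hasDerivAt_id t).const_mul 2).mul h1).sub (h1.fun_pow 2)
    refine h2.congr_deriv ?_
    simp only [id]
    ring
  have h1 := intervalIntegral.integral_eq_sub_of_hasDerivAt hG (c3.intervalIntegrable _ _)
  rw [intervalIntegral.integral_add (c1.intervalIntegrable _ _) (c2.intervalIntegrable _ _),
    intervalIntegral.integral_sub (c4.intervalIntegrable _ _) (c5.intervalIntegrable _ _),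
    intervalIntegral.integral_const_mul, intervalIntegral.integral_const_mul 2 (fun t => t * f t)] at h1
  have h2 : ∫ t in (-1 : ℝ)..1, 2 * t = 0 := by rw [intervalIntegral.integral_const_mul]; simp
  have h3 : dfslA f (-1) = 0 := by simp [dfslA]
  have h4 : dfslA f 1 = 1 - dfslH f := by
    unfold dfslA dfslH
    rw [intervalIntegral.integral_sub (continuous_const.intervalIntegrable _ _) (hf.intervalIntegrable _ _)]
    simp only [intervalIntegral.integral_const, smul_eq_mul]
    ring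
  rw [h2, h3, h4] at h1
  rw [intervalIntegral.integral_const_mul]
  linarith

/-- the slab and the tails of a slice (sharp form: no core, no `θ`) -/
structure DfslTail2 (f e : ℝ → ℝ) (a σ σe : ℝ) : Prop where
  ha : 0 < a
  ha' : a ≤ 1
  tl : ∫ t in (-1 : ℝ)..(-a), (1 - f t) ≤ σ
  tr : ∫ t in a..1, f t ≤ σ
  te : (∫ t in (-1 : ℝ)..(-a), e t) + ∫ t in a..1, e t ≤ σe

/-- the width of the slice -/
noncomputable def dfslQ (f : ℝ → ℝ) : ℝ := ∫ t in (-1 : ℝ)..1, f t * (1 - f t)

theorem dfsl_hoeff_le (H : DfslData f f' e) (T : DfslTail2 f e a σ σe) :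
    ∫ t in (-1 : ℝ)..1, 2 * (dfslA f t * f t) ≤ 10 * σ + 4 * a ^ 2 * dfslE f' e + 4 * a * dfslQ f := by
  have hcf := H.cf
  have hA := dfsl_A_continuous hcf
  have ha := T.ha
  have ha' := T.ha'
  have hE := dfsl_E_nonneg H
  have c0 : Continuous fun s : ℝ => 1 - f s := by fun_prop
  have c1 : Continuous fun t : ℝ => dfslA f t * f t := by fun_prop
  have c2 : Continuous fun t : ℝ => f t * (1 - f t) := by fun_prop
  have c3 : Continuous fun t : ℝ => σ + a * dfslE f' e + 2 * a * (f t * (1 - f t)) := by fun_prop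
  have c4 : Continuous fun t : ℝ => 2 * f t := by fun_prop
  have c5 : Continuous fun t : ℝ => 2 * a * (f t * (1 - f t)) := by fun_prop
  have n0 : ∀ s, 0 ≤ 1 - f s := fun s => by linarith [H.f1 s]
  have hσ : 0 ≤ σ := (intervalIntegral.integral_nonneg T.ha' fun t _ => H.f0 t).trans T.tr
  have hq0 : ∀ t, 0 ≤ f t * (1 - f t) := fun t => mul_nonneg (H.f0 t) (n0 t)
  -- `A` on the three intervals
  have A0 : ∀ t, -1 ≤ t → 0 ≤ dfslA f t := fun t ht => intervalIntegral.integral_nonneg ht fun s _ => n0 s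
  have A1 : ∀ t, -1 ≤ t → t ≤ -a → dfslA f t ≤ σ := fun t ht hta =>
    (intervalIntegral.integral_mono_interval le_rfl ht hta (Eventually.of_forall fun x => n0 x)
      (c0.intervalIntegrable _ _)).trans T.tl
  have A3 : ∀ t, -1 ≤ t → t ≤ 1 → dfslA f t ≤ 2 := fun t ht ht1 => by
    have h1 : dfslA f t ≤ ∫ _s in (-1 : ℝ)..t, (1 : ℝ) :=
      intervalIntegral.integral_mono_on ht (c0.intervalIntegrable _ _) (continuous_const.intervalIntegrable _ _)
        fun s _ => by linarith [H.f0 s]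
    rw [intervalIntegral.integral_const, smul_eq_mul] at h1
    linarith
  have P1 : ∫ t in (-1 : ℝ)..(-a), dfslA f t * f t ≤ σ := by
    have h1 : ∫ t in (-1 : ℝ)..(-a), dfslA f t * f t ≤ ∫ _t in (-1 : ℝ)..(-a), σ :=
      intervalIntegral.integral_mono_on (by linarith) (c1.intervalIntegrable _ _)
        (continuous_const.intervalIntegrable _ _) fun t ht => by
          calc dfslA f t * f t ≤ σ * 1 := mul_le_mul (A1 t ht.1 ht.2) (H.f1 t) (H.f0 t) hσ
            _ = σ := mul_one σ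
    rw [intervalIntegral.integral_const, smul_eq_mul] at h1
    nlinarith
  have P2 : ∫ t in (-a)..a, dfslA f t * f t
      ≤ 2 * a * σ + 2 * a ^ 2 * dfslE f' e + 2 * a * dfslQ f := by
    have h1 : ∫ t in (-a)..a, dfslA f t * f t ≤ ∫ t in (-a)..a, (σ + a * dfslE f' e + 2 * a * (f t * (1 - f t))) :=
      intervalIntegral.integral_mono_on (by linarith) (c1.intervalIntegrable _ _) (c3.intervalIntegrable _ _)
        fun t ht => by
          have e1 : dfslA f t = dfslA f (-a) + ∫ s in (-a)..t, (1 - f s) :=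
            (intervalIntegral.integral_add_adjacent_intervals (c0.intervalIntegrable _ _)
              (c0.intervalIntegrable _ _)).symm
          have e2 : (∫ s in (-a)..t, (1 - f s)) * f t = ∫ s in (-a)..t, (1 - f s) * f t :=
            (intervalIntegral.integral_mul_const _ _).symm
          have c6 : Continuous fun s : ℝ => (1 - f s) * f t := by fun_prop
          have e3 : ∫ s in (-a)..t, (1 - f s) * f t ≤ ∫ _s in (-a)..t, (dfslE f' e / 2 + f t * (1 - f t)) :=
            intervalIntegral.integral_mono_on ht.1 (c6.intervalIntegrable _ _)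
              (continuous_const.intervalIntegrable _ _) fun s hs => by
                have m := dfsl_almost_mono H (s := s) (t := t) (by linarith [hs.1]) hs.2 (by linarith [ht.2])
                have h5 : f t * (f t - f s) ≤ 1 * (dfslE f' e / 2) := by
                  rcases le_total (f t - f s) 0 with h | h
                  · have := mul_nonpos_of_nonneg_of_nonpos (H.f0 t) h
                    linarith
                  · exact mul_le_mul (H.f1 t) (by linarith) h (by norm_num)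
                nlinarith
          rw [intervalIntegral.integral_const, smul_eq_mul] at e3
          have e4 : (t - -a) * (dfslE f' e / 2 + f t * (1 - f t)) ≤ (2 * a) * (dfslE f' e / 2 + f t * (1 - f t)) :=
            mul_le_mul_of_nonneg_right (by linarith [ht.2]) (by have := hq0 t; positivity)
          have e5 : dfslA f (-a) * f t ≤ σ * 1 :=
            mul_le_mul (A1 (-a) (by linarith) le_rfl) (H.f1 t) (H.f0 t) hσ
          rw [e1, add_mul, e2]
          nlinarith
    rw [intervalIntegral.integral_add (continuous_const.intervalIntegrable _ _) (c5.intervalIntegrable _ _),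
      intervalIntegral.integral_const, smul_eq_mul, intervalIntegral.integral_const_mul] at h1
    have h2 : ∫ t in (-a)..a, f t * (1 - f t) ≤ dfslQ f := dfsl_sub_le c2 hq0 (by linarith) (by linarith) ha'
    have h3 : 2 * a * ∫ t in (-a)..a, f t * (1 - f t) ≤ 2 * a * dfslQ f :=
      mul_le_mul_of_nonneg_left h2 (by positivity)
    nlinarith
  have P3 : ∫ t in a..1, dfslA f t * f t ≤ 2 * σ := by
    have h1 : ∫ t in a..1, dfslA f t * f t ≤ ∫ t in a..1, 2 * f t :=
      intervalIntegral.integral_mono_on ha' (c1.intervalIntegrable _ _) (c4.intervalIntegrable _ _)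
        fun t ht => mul_le_mul_of_nonneg_right (A3 t (by linarith [ht.1]) ht.2) (H.f0 t)
    rw [intervalIntegral.integral_const_mul] at h1
    linarith [T.tr]
  rw [intervalIntegral.integral_const_mul,
    ← intervalIntegral.integral_add_adjacent_intervals (c1.intervalIntegrable (-1) a) (c1.intervalIntegrable a 1),
    ← intervalIntegral.integral_add_adjacent_intervals (c1.intervalIntegrable (-1) (-a)) (c1.intervalIntegrable (-a) a)]
  nlinarith

/-- the excess part -/
theorem dfsl_excess_part (H : DfslData f f' e) (T : DfslTail2 f e a σ σe) (l : ℝ) :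
    ∫ t in (-1 : ℝ)..1, (t - l) ^ 2 * (e t + f' t) ≤ (a + |l|) ^ 2 * dfslE f' e + 2 * (1 + |l|) ^ 2 * σe := by
  have hce := H.ce
  have hcf' := H.cf'
  have ha := T.ha
  have ha' := T.ha'
  have c3 : Continuous fun t : ℝ => (t - l) ^ 2 * (e t + f' t) := by fun_prop
  have c4 : Continuous fun t : ℝ => e t + f' t := by fun_prop
  have c5 : Continuous fun t : ℝ => 2 * (1 + |l|) ^ 2 * e t := by fun_prop
  have c6 : Continuous fun t : ℝ => (a + |l|) ^ 2 * (e t + f' t) := by fun_prop
  have sqb : ∀ t r : ℝ, |t| ≤ r → (t - l) ^ 2 ≤ (r + |l|) ^ 2 := fun t r ht => by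
    have h1 : |t - l| ≤ r + |l| := (abs_sub _ _).trans (by linarith)
    have := pow_le_pow_left₀ (abs_nonneg _) h1 2
    rwa [sq_abs] at this
  have tailb : ∀ p q : ℝ, -1 ≤ p → p ≤ q → q ≤ 1 →
      ∫ t in p..q, (t - l) ^ 2 * (e t + f' t) ≤ 2 * (1 + |l|) ^ 2 * ∫ t in p..q, e t := fun p q hp hpq hq => by
    rw [← intervalIntegral.integral_const_mul]
    refine intervalIntegral.integral_mono_on hpq (c3.intervalIntegrable _ _) (c5.intervalIntegrable _ _) fun t ht => ?_
    have h1 := sqb t 1 (abs_le.2 ⟨by linarith [ht.1], by linarith [ht.2]⟩)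
    calc (t - l) ^ 2 * (e t + f' t) ≤ (1 + |l|) ^ 2 * (2 * e t) :=
          mul_le_mul h1 (H.ex_le t) (H.ex_nonneg t) (by positivity)
      _ = 2 * (1 + |l|) ^ 2 * e t := by ring
  have m1 := tailb (-1) (-a) le_rfl (by linarith) (by linarith)
  have m3 := tailb a 1 (by linarith) ha' le_rfl
  have m2 : ∫ t in (-a)..a, (t - l) ^ 2 * (e t + f' t) ≤ (a + |l|) ^ 2 * dfslE f' e := by
    have h1 : ∫ t in (-a)..a, (t - l) ^ 2 * (e t + f' t) ≤ ∫ t in (-a)..a, (a + |l|) ^ 2 * (e t + f' t) :=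
      intervalIntegral.integral_mono_on (by linarith) (c3.intervalIntegrable _ _) (c6.intervalIntegrable _ _)
        fun t ht => mul_le_mul_of_nonneg_right (sqb t a (abs_le.2 ⟨ht.1, ht.2⟩)) (H.ex_nonneg t)
    rw [intervalIntegral.integral_const_mul] at h1
    have h2 : ∫ t in (-a)..a, (e t + f' t) ≤ dfslE f' e :=
      dfsl_sub_le c4 H.ex_nonneg (by linarith) (by linarith) ha'
    exact h1.trans (mul_le_mul_of_nonneg_left h2 (by positivity))
  have hsplit : ∫ t in (-1 : ℝ)..1, (t - l) ^ 2 * (e t + f' t)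
      = (∫ t in (-1 : ℝ)..(-a), (t - l) ^ 2 * (e t + f' t)) + (∫ t in (-a)..a, (t - l) ^ 2 * (e t + f' t))
        + ∫ t in a..1, (t - l) ^ 2 * (e t + f' t) := by
    rw [intervalIntegral.integral_add_adjacent_intervals (c3.intervalIntegrable _ _) (c3.intervalIntegrable _ _),
      intervalIntegral.integral_add_adjacent_intervals (c3.intervalIntegrable _ _) (c3.intervalIntegrable _ _)]
  have hte : 2 * (1 + |l|) ^ 2 * (∫ t in (-1 : ℝ)..(-a), e t) + 2 * (1 + |l|) ^ 2 * (∫ t in a..1, e t)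
      ≤ 2 * (1 + |l|) ^ 2 * σe := by
    rw [← mul_add]
    exact mul_le_mul_of_nonneg_left T.te (by positivity)
  rw [hsplit]
  linarith

/-- **THE SLICE LEMMA, SHARP FORM.** -/
theorem dfsl_slice2 (H : DfslData f f' e) (T : DfslTail2 f e a σ σe) (l : ℝ) :
    ∫ t in (-1 : ℝ)..1, (t - l) ^ 2 * e t
      ≤ (dfslH f - l) ^ 2 + (4 * a ^ 2 + (a + |l|) ^ 2) * dfslE f' e + 4 * a * dfslQ f
        + (10 * σ + 2 * σe * (1 + |l|) ^ 2) := by
  have hce := H.ce
  have hcf' := H.cf'
  have c2 : Continuous fun t : ℝ => (t - l) ^ 2 * f' t := by fun_prop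
  have c3 : Continuous fun t : ℝ => (t - l) ^ 2 * (e t + f' t) := by fun_prop
  have h0 : ∫ t in (-1 : ℝ)..1, (t - l) ^ 2 * e t
      = (∫ t in (-1 : ℝ)..1, (t - l) ^ 2 * (e t + f' t)) - ∫ t in (-1 : ℝ)..1, (t - l) ^ 2 * f' t := by
    rw [← intervalIntegral.integral_sub (c3.intervalIntegrable _ _) (c2.intervalIntegrable _ _)]
    congr 1; funext t; ring
  have hp := dfsl_parts H l
  have hh := dfsl_hoeffding H.cf
  have hv := dfsl_hoeff_le H T
  have hx := dfsl_excess_part H T l
  rw [h0]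
  nlinarith

end

end Claimed.Agent.R329
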