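import Claimed.Agent.Lib.Gmt.FlCoord
import Claimed.Agent.R329.DfSlice

/-!
# Row 329, K7 (the diffuse Fl-port), post P6 `DfHeight`: THE FUBINI LAYER      (pen: helper28, prefix `dffu_`)

Words of `Lib/Gmt`: `y = gmtJoin z t`, `z = gmtHor y`, `t = gmtVer y`, `flCyl ρ = {|z| < ρ, |t| < 1}`.

* `dffuSl G a b z = ∫ t in a..b, G (z,t)`: the slice integral; continuous in `z` for continuous `G`.
* `dffu_integral_cyl`: `∫_{C_ρ} F = ∫_{D_ρ} ∫_{-1}^{1} F(z,t) dt dz` for continuous `F`.
* `dffu_ftc`: `∫_a^b ∂_t f (z,t) dt = f(z,b) - f(z,a)` for `f ∈ C¹`.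
* `dffu_excess`: the slice excess `E(z) = ∫_{-1}^{1} (e + ∂_t f)` has `∫_{D_1} E ≤ δ + 2 τ ω_n`.
* `dffu_height`: integration of a pointwise slice inequality against `φ(z) ≥ 0`.
-/

set_option autoImplicit false
open scoped ContDiff ENNReal RealInnerProductSpace
open MeasureTheory Metric Set

namespace Claimed.Agent.R329

open Claimed.Agent.Gmt

variable {n : ℕ}

/-- the slice integral `∫_a^b G(z,t) dt`. -/
noncomputable def dffuSl (G : E (n + 1) → ℝ) (a b : ℝ) (z : E n) : ℝ := ∫ t in a..b, G (gmtJoin z t)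

theorem dffu_continuous_uncurry {G : E (n + 1) → ℝ} (hG : Continuous G) :
    Continuous (Function.uncurry fun (z : E n) (t : ℝ) => G (gmtJoin z t)) :=
  hG.comp fl_continuous_join

theorem dffu_continuous_slice {G : E (n + 1) → ℝ} (hG : Continuous G) (z : E n) :
    Continuous fun t : ℝ => G (gmtJoin z t) :=
  (dffu_continuous_uncurry hG).comp (Continuous.prodMk continuous_const continuous_id)

theorem dffu_sl_continuous {G : E (n + 1) → ℝ} (hG : Continuous G) (a b : ℝ) :
    Continuous (dffuSl G a b) :=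
  intervalIntegral.continuous_parametric_intervalIntegral_of_continuous' (dffu_continuous_uncurry hG) a b

theorem dffu_sl_intervalIntegrable {G : E (n + 1) → ℝ} (hG : Continuous G) (a b : ℝ) (z : E n) :
    IntervalIntegrable (fun t : ℝ => G (gmtJoin z t)) volume a b :=
  (dffu_continuous_slice hG z).intervalIntegrable a b

theorem dffu_sl_add {G H : E (n + 1) → ℝ} (hG : Continuous G) (hH : Continuous H) (a b : ℝ) (z : E n) :
    dffuSl (fun y => G y + H y) a b z = dffuSl G a b z + dffuSl H a b z :=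
  intervalIntegral.integral_add (dffu_sl_intervalIntegrable hG a b z) (dffu_sl_intervalIntegrable hH a b z)

theorem dffu_sl_nonneg {G : E (n + 1) → ℝ} (h0 : ∀ y, 0 ≤ G y) {a b : ℝ} (hab : a ≤ b) (z : E n) :
    0 ≤ dffuSl G a b z :=
  intervalIntegral.integral_nonneg hab fun _ _ => h0 _

theorem dffu_sl_mono {G H : E (n + 1) → ℝ} (hG : Continuous G) (hH : Continuous H) (h : ∀ y, G y ≤ H y)
    {a b : ℝ} (hab : a ≤ b) (z : E n) : dffuSl G a b z ≤ dffuSl H a b z :=
  intervalIntegral.integral_mono_on hab (dffu_sl_intervalIntegrable hG a b z)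
    (dffu_sl_intervalIntegrable hH a b z) fun _ _ => h _

/-- a continuous function is integrable on a ball of `E n`. -/
theorem dffu_integrableOn_ball {m : ℕ} {g : E m → ℝ} (hg : Continuous g) (x : E m) (ρ : ℝ) :
    IntegrableOn g (ball x ρ) :=
  (hg.continuousOn.integrableOn_compact (isCompact_closedBall x ρ)).mono_set ball_subset_closedBall

theorem dffu_cyl_subset (ρ : ℝ) : (flCyl ρ : Set (E (n + 1))) ⊆ closedBall 0 (|ρ| + 1) := by
  intro y hy
  have h := fl_norm_sq y
  have h1 : ‖gmtHor y‖ ≤ |ρ| := hy.1.le.trans (le_abs_self ρ)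
  have h2 : gmtVer y ^ 2 ≤ 1 := by
    rw [← sq_abs]; nlinarith [abs_nonneg (gmtVer y), hy.2]
  have h3 : ‖gmtHor y‖ ^ 2 ≤ |ρ| ^ 2 := by nlinarith [norm_nonneg (gmtHor y)]
  simp only [mem_closedBall, dist_zero_right]
  nlinarith [norm_nonneg y, abs_nonneg ρ]

theorem dffu_integrableOn_cyl {F : E (n + 1) → ℝ} (hF : Continuous F) (ρ : ℝ) :
    IntegrableOn F (flCyl ρ) :=
  (hF.continuousOn.integrableOn_compact (isCompact_closedBall 0 (|ρ| + 1))).mono_set (dffu_cyl_subset ρ)

theorem dffu_measurableSet_cyl (ρ : ℝ) : MeasurableSet (flCyl ρ : Set (E (n + 1))) :=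
  (fl_isOpen_cyl ρ).measurableSet

/-- FUBINI on the cylinder. -/
theorem dffu_integral_cyl {F : E (n + 1) → ℝ} (hF : Continuous F) (ρ : ℝ) :
    ∫ y in flCyl ρ, F y = ∫ z in ball (0 : E n) ρ, dffuSl F (-1) 1 z := by
  rw [← integral_indicator (dffu_measurableSet_cyl ρ),
    fl_integral_join ((dffu_integrableOn_cyl hF ρ).integrable_indicator (dffu_measurableSet_cyl ρ)),
    ← integral_indicator measurableSet_ball]
  refine integral_congr_ae (Filter.Eventually.of_forall fun z => ?_)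
  show (∫ t, (flCyl ρ).indicator F (gmtJoin z t)) = (ball (0 : E n) ρ).indicator (dffuSl F (-1) 1) z
  by_cases hz : z ∈ ball (0 : E n) ρ
  · rw [indicator_of_mem hz]
    have hz' : ‖z‖ < ρ := by simpa using hz
    have e : (fun t : ℝ => (flCyl ρ).indicator F (gmtJoin z t)) =
        (Ioo (-1 : ℝ) 1).indicator fun t => F (gmtJoin z t) := by
      funext t
      by_cases ht : t ∈ Ioo (-1 : ℝ) 1
      · rw [indicator_of_mem ht, indicator_of_mem]
        exact ⟨by rw [fl_hor_join]; exact hz', by rw [fl_ver_join]; exact abs_lt.2 ht⟩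
      · rw [indicator_of_notMem ht, indicator_of_notMem]
        intro h
        have := h.2
        rw [fl_ver_join] at this
        exact ht (abs_lt.1 this)
    rw [e, integral_indicator measurableSet_Ioo, dffuSl, intervalIntegral.integral_of_le (by norm_num),
      integral_Ioc_eq_integral_Ioo]
  · rw [indicator_of_notMem hz]
    have e : (fun t : ℝ => (flCyl ρ).indicator F (gmtJoin z t)) = fun _ => 0 := by
      funext t
      rw [indicator_of_notMem]
      intro h
      have := h.1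
      rw [fl_hor_join] at this
      exact hz (by simpa using this)
    rw [e, integral_zero]

/-- FUBINI with a horizontal weight supported in the disc. -/
theorem dffu_integral_cyl_weight {G : E (n + 1) → ℝ} (hG : Continuous G) {φ : E n → ℝ} (hφ : Continuous φ)
    {ρ : ℝ} (hs : ∀ z, z ∉ ball (0 : E n) ρ → φ z = 0) :
    ∫ y in flCyl ρ, φ (gmtHor y) * G y = ∫ z, φ z * dffuSl G (-1) 1 z := by
  have hc : Continuous fun y : E (n + 1) => φ (gmtHor y) * G y := (hφ.comp fl_continuous_hor).mul hG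
  rw [dffu_integral_cyl hc ρ]
  have e : ∀ z, dffuSl (fun y => φ (gmtHor y) * G y) (-1) 1 z = φ z * dffuSl G (-1) 1 z := by
    intro z
    simp only [dffuSl, fl_hor_join]
    exact intervalIntegral.integral_const_mul _ _
  simp only [e]
  exact setIntegral_eq_integral_of_forall_compl_eq_zero fun z hz => by rw [hs z hz, zero_mul]

/-- derivative along the vertical line. -/
theorem dffu_hasDerivAt {f : E (n + 1) → ℝ} (hf : ContDiff ℝ 1 f) (z : E n) (t : ℝ) :
    HasDerivAt (fun s : ℝ => f (gmtJoin z s)) (fderiv ℝ f (gmtJoin z t) (gmtEn n)) t := by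
  have hd : HasFDerivAt f (fderiv ℝ f (gmtJoin z t)) (gmtJoin z t) :=
    (hf.differentiable (by simp) _).hasFDerivAt
  have hline : HasDerivAt (fun s : ℝ => gmtJoin z s) (gmtEn n) t := by
    have e : (fun s : ℝ => gmtJoin z s) = fun s : ℝ => flInc n z + s • gmtEn n := by
      funext s; exact fl_join_eq z s
    rw [e]
    simpa using ((hasDerivAt_id t).smul_const (gmtEn n)).const_add (flInc n z)
  exact hd.comp_hasDerivAt t hline

/-- the vertical derivative. -/
noncomputable def dffuDt (f : E (n + 1) → ℝ) (y : E (n + 1)) : ℝ := fderiv ℝ f y (gmtEn n)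

theorem dffu_dt_continuous {f : E (n + 1) → ℝ} (hf : ContDiff ℝ 1 f) : Continuous (dffuDt f) :=
  (hf.continuous_fderiv (by simp)).clm_apply continuous_const

/-- FTC on the slices. -/
theorem dffu_ftc {f : E (n + 1) → ℝ} (hf : ContDiff ℝ 1 f) (a b : ℝ) (z : E n) :
    dffuSl (dffuDt f) a b z = f (gmtJoin z b) - f (gmtJoin z a) :=
  intervalIntegral.integral_eq_sub_of_hasDerivAt (fun t _ => dffu_hasDerivAt hf z t)
    (dffu_sl_intervalIntegrable (dffu_dt_continuous hf) a b z)

/-- the diffuse height `h(z) = ∫_{-1}^{1} f(z,t) dt - 1`. -/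
noncomputable def dffuH (f : E (n + 1) → ℝ) (z : E n) : ℝ := dffuSl f (-1) 1 z - 1

/-- the slice excess `E(z) = ∫_{-1}^{1} (e + ∂_t f)(z,t) dt`. -/
noncomputable def dffuEx (f e : E (n + 1) → ℝ) (z : E n) : ℝ := dffuSl (fun y => e y + dffuDt f y) (-1) 1 z

theorem dffu_H_continuous {f : E (n + 1) → ℝ} (hf : Continuous f) : Continuous (dffuH f) :=
  (dffu_sl_continuous hf _ _).sub continuous_const

theorem dffu_H_abs_le {f : E (n + 1) → ℝ} (hf : Continuous f) (h0 : ∀ y, 0 ≤ f y) (h1 : ∀ y, f y ≤ 1)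
    (z : E n) : |dffuH f z| ≤ 1 := by
  have a := dffu_sl_nonneg h0 (a := -1) (b := 1) (by norm_num) z
  have b := dffu_sl_mono hf continuous_const h1 (a := -1) (b := 1) (by norm_num) z
  have c : dffuSl (fun _ : E (n + 1) => (1 : ℝ)) (-1) 1 z = 2 := by
    simp only [dffuSl, intervalIntegral.integral_const, smul_eq_mul]; norm_num
  rw [c] at b
  rw [dffuH, abs_le]
  constructor <;> linarith

theorem dffu_Ex_continuous {f e : E (n + 1) → ℝ} (hf : ContDiff ℝ 1 f) (he : Continuous e) :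
    Continuous (dffuEx f e) :=
  dffu_sl_continuous (he.add (dffu_dt_continuous hf)) _ _

theorem dffu_Ex_nonneg {f e : E (n + 1) → ℝ} (h : ∀ y, |dffuDt f y| ≤ e y) (z : E n) : 0 ≤ dffuEx f e z :=
  dffu_sl_nonneg (fun y => by have := (abs_le.1 (h y)).1; linarith) (by norm_num) z

theorem dffu_Ex_eq {f e : E (n + 1) → ℝ} (hf : ContDiff ℝ 1 f) (he : Continuous e) (z : E n) :
    dffuEx f e z = dffuSl e (-1) 1 z + (f (gmtJoin z 1) - f (gmtJoin z (-1))) := by
  rw [dffuEx, dffu_sl_add he (dffu_dt_continuous hf), dffu_ftc hf]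

theorem dffu_integral_ball_const (c : ℝ) : ∫ _z in ball (0 : E n) 1, c = c * gmtOm n := by
  rw [setIntegral_const, smul_eq_mul, mul_comm]
  rfl

/-- the slice excess is small in the mean: `∫_{D_1} E ≤ δ + 2 τ ω_n`. -/
theorem dffu_excess {f e : E (n + 1) → ℝ} (hf : ContDiff ℝ 1 f) (he : Continuous e) {δ τ : ℝ}
    (hexc : ∫ y in flCyl 1, e y ≤ gmtOm n + δ)
    (hlo : ∀ z ∈ ball (0 : E n) 1, 1 - τ ≤ f (gmtJoin z (-1)))
    (hup : ∀ z ∈ ball (0 : E n) 1, f (gmtJoin z 1) ≤ τ) :
    ∫ z in ball (0 : E n) 1, dffuEx f e z ≤ δ + 2 * τ * gmtOm n := by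
  have h1 : ∫ z in ball (0 : E n) 1, dffuEx f e z ≤
      ∫ z in ball (0 : E n) 1, (dffuSl e (-1) 1 z + (2 * τ - 1)) := by
    refine setIntegral_mono_on (dffu_integrableOn_ball (dffu_Ex_continuous hf he) _ _)
      (dffu_integrableOn_ball ((dffu_sl_continuous he _ _).add continuous_const) _ _) measurableSet_ball ?_
    intro z hz
    rw [dffu_Ex_eq hf he]
    have := hlo z hz
    have := hup z hz
    linarith
  rw [integral_add (dffu_integrableOn_ball (dffu_sl_continuous he _ _) _ _)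
    (dffu_integrableOn_ball continuous_const _ _), ← dffu_integral_cyl he, dffu_integral_ball_const] at h1
  nlinarith

/-! ### integration of a pointwise slice inequality -/

theorem dffu_integral_ball_le {g : E n → ℝ} (hg : Continuous g) (h0 : ∀ z, 0 ≤ g z) {ρ : ℝ} (hρ : ρ ≤ 1) :
    ∫ z in ball (0 : E n) ρ, g z ≤ ∫ z in ball (0 : E n) 1, g z :=
  setIntegral_mono_set (dffu_integrableOn_ball hg _ _) (Filter.Eventually.of_forall h0)
    (ball_subset_ball hρ).eventuallyLE

theorem dffu_om_nonneg : 0 ≤ gmtOm n := ENNReal.toReal_nonneg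

theorem dffu_abs_affine_le (a : ℝ) (p : E n) {z : E n} (hz : ‖z‖ ≤ 1) : |a + ⟪p, z⟫| ≤ |a| + ‖p‖ := by
  have h1 : |⟪p, z⟫| ≤ ‖p‖ * ‖z‖ := abs_real_inner_le_norm p z
  have h2 : ‖p‖ * ‖z‖ ≤ ‖p‖ := by nlinarith [norm_nonneg p]
  exact (abs_add_le _ _).trans (by linarith)

/-- **INTEGRATION OF THE SLICE INEQUALITY** (abstract, no PDE).  `X = χ(v)`, `e` = a density, `d(z) = dffuEx X e z` the slice excess,
`q(z) = ∫_{-1}^{1} Q(z,t) dt` a second nonnegative error density.  If on every vertical line over the unit disc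
`∫ (t-c)² e ≤ (h-c)² + (α + (β+|c|)²) d(z) + γ q(z) + (κ₀ + κ₁ (1+|c|)²)` for every `c`, then the inequality integrates. -/
theorem dffu_height_of_slice {X e Q : E (n + 1) → ℝ} (hX : ContDiff ℝ 1 X) (he : Continuous e) (hQ : Continuous Q)
    (hder : ∀ y, |dffuDt X y| ≤ e y) (hQ0 : ∀ y, 0 ≤ Q y)
    {α β γ κ₀ κ₁ δ A : ℝ} (hα : 0 ≤ α) (hβ : 0 ≤ β) (hγ : 0 ≤ γ) (hκ₀ : 0 ≤ κ₀) (hκ₁ : 0 ≤ κ₁)
    (hexc : ∫ y in flCyl 1, (e y + dffuDt X y) ≤ δ)
    (hwid : ∫ y in flCyl 1, Q y ≤ A)
    (hslice : ∀ z ∈ ball (0 : E n) 1, ∀ c : ℝ,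
      ∫ t in (-1 : ℝ)..1, (t - c) ^ 2 * e (gmtJoin z t) ≤
        (dffuH X z - c) ^ 2 + (α + (β + |c|) ^ 2) * dffuEx X e z + γ * dffuSl Q (-1) 1 z
          + (κ₀ + κ₁ * (1 + |c|) ^ 2))
    (a : ℝ) (p : E n) {ρ : ℝ} (hρ : ρ ≤ 1) :
    ∫ y in flCyl ρ, (gmtVer y - a - ⟪p, gmtHor y⟫) ^ 2 * e y ≤
      (∫ z in ball (0 : E n) ρ, (dffuH X z - a - ⟪p, z⟫) ^ 2)
        + (α + (β + |a| + ‖p‖) ^ 2) * δ + γ * A + gmtOm n * (κ₀ + κ₁ * (1 + |a| + ‖p‖) ^ 2) := by
  set Λ : ℝ := |a| + ‖p‖ with hΛ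
  have hΛ0 : 0 ≤ Λ := by positivity
  have hcd : Continuous (dffuEx X e) := dffu_Ex_continuous hX he
  have hcq : Continuous (dffuSl Q (-1) 1) := dffu_sl_continuous hQ _ _
  have hch : Continuous fun z : E n => (dffuH X z - a - ⟪p, z⟫) ^ 2 :=
    (((dffu_H_continuous hX.continuous).sub continuous_const).sub (continuous_const.inner continuous_id)).pow 2
  have hd0 : ∀ z, 0 ≤ dffuEx X e z := dffu_Ex_nonneg hder
  have hq0 : ∀ z, 0 ≤ dffuSl Q (-1) 1 z := fun z => dffu_sl_nonneg hQ0 (by norm_num) z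
  have hcF : Continuous fun y : E (n + 1) => (gmtVer y - a - ⟪p, gmtHor y⟫) ^ 2 * e y :=
    (((fl_continuous_ver.sub continuous_const).sub (continuous_const.inner fl_continuous_hor)).pow 2).mul he
  rw [dffu_integral_cyl hcF ρ]
  -- the pointwise bound
  have hpt : ∀ z ∈ ball (0 : E n) ρ,
      dffuSl (fun y : E (n + 1) => (gmtVer y - a - ⟪p, gmtHor y⟫) ^ 2 * e y) (-1) 1 z ≤
        (dffuH X z - a - ⟪p, z⟫) ^ 2 + ((α + (β + Λ) ^ 2) * dffuEx X e z + (γ * dffuSl Q (-1) 1 z
          + (κ₀ + κ₁ * (1 + Λ) ^ 2))) := by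
    intro z hz
    have hz1 : z ∈ ball (0 : E n) 1 := ball_subset_ball hρ hz
    have hz' : ‖z‖ ≤ 1 := by
      have : ‖z‖ < 1 := by simpa using hz1
      exact this.le
    have hc := dffu_abs_affine_le a p hz'
    have h := hslice z hz1 (a + ⟪p, z⟫)
    have e1 : dffuSl (fun y : E (n + 1) => (gmtVer y - a - ⟪p, gmtHor y⟫) ^ 2 * e y) (-1) 1 z =
        ∫ t in (-1 : ℝ)..1, (t - (a + ⟪p, z⟫)) ^ 2 * e (gmtJoin z t) := by
      simp only [dffuSl, fl_hor_join, fl_ver_join, sub_sub]
    rw [e1]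
    have e2 : (dffuH X z - (a + ⟪p, z⟫)) ^ 2 = (dffuH X z - a - ⟪p, z⟫) ^ 2 := by ring
    rw [e2] at h
    have h3 : (β + |a + ⟪p, z⟫|) ^ 2 ≤ (β + Λ) ^ 2 :=
      pow_le_pow_left₀ (by positivity) (by linarith) 2
    have h4 : (1 + |a + ⟪p, z⟫|) ^ 2 ≤ (1 + Λ) ^ 2 :=
      pow_le_pow_left₀ (by positivity) (by linarith) 2
    have h5 : (α + (β + |a + ⟪p, z⟫|) ^ 2) * dffuEx X e z ≤ (α + (β + Λ) ^ 2) * dffuEx X e z :=
      mul_le_mul_of_nonneg_right (by linarith) (hd0 z)
    have h6 : κ₁ * (1 + |a + ⟪p, z⟫|) ^ 2 ≤ κ₁ * (1 + Λ) ^ 2 := mul_le_mul_of_nonneg_left h4 hκ₁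
    linarith
  have hcR : Continuous fun z : E n => ((α + (β + Λ) ^ 2) * dffuEx X e z + (γ * dffuSl Q (-1) 1 z
          + (κ₀ + κ₁ * (1 + Λ) ^ 2))) :=
    (continuous_const.mul hcd).add ((continuous_const.mul hcq).add continuous_const)
  have h1 := setIntegral_mono_on (dffu_integrableOn_ball (dffu_sl_continuous hcF (-1) 1) (0 : E n) ρ)
    (dffu_integrableOn_ball (hch.add hcR) (0 : E n) ρ) measurableSet_ball hpt
  refine h1.trans ?_
  rw [integral_add' (dffu_integrableOn_ball hch _ _) (dffu_integrableOn_ball hcR _ _)]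
  have hR0 : ∀ z : E n, 0 ≤ ((α + (β + Λ) ^ 2) * dffuEx X e z + (γ * dffuSl Q (-1) 1 z
          + (κ₀ + κ₁ * (1 + Λ) ^ 2))) := fun z => by
    have := hd0 z
    have := hq0 z
    positivity
  have h2 := dffu_integral_ball_le hcR hR0 hρ
  have hc1 : Continuous fun z : E n => (α + (β + Λ) ^ 2) * dffuEx X e z := continuous_const.mul hcd
  have hc2 : Continuous fun z : E n => γ * dffuSl Q (-1) 1 z := continuous_const.mul hcq
  have hc3 : Continuous fun z : E n => γ * dffuSl Q (-1) 1 z + (κ₀ + κ₁ * (1 + Λ) ^ 2) := hc2.add continuous_const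
  have e0 : ∫ z in ball (0 : E n) 1, ((α + (β + Λ) ^ 2) * dffuEx X e z + (γ * dffuSl Q (-1) 1 z
          + (κ₀ + κ₁ * (1 + Λ) ^ 2))) =
      (α + (β + Λ) ^ 2) * (∫ z in ball (0 : E n) 1, dffuEx X e z) + (γ * (∫ z in ball (0 : E n) 1, dffuSl Q (-1) 1 z)
        + (κ₀ + κ₁ * (1 + Λ) ^ 2) * gmtOm n) := by
    rw [integral_add (dffu_integrableOn_ball hc1 _ _) (dffu_integrableOn_ball hc3 _ _),
      integral_add (dffu_integrableOn_ball hc2 _ _) (dffu_integrableOn_ball continuous_const _ _),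
      integral_const_mul, integral_const_mul, dffu_integral_ball_const]
  rw [e0] at h2
  have h3 : ∫ z in ball (0 : E n) 1, dffuEx X e z ≤ δ := by
    have := dffu_integral_cyl (he.add (dffu_dt_continuous hX)) (n := n) 1
    have e3 : ∫ z in ball (0 : E n) 1, dffuEx X e z = ∫ y in flCyl 1, (e y + dffuDt X y) := this.symm
    rw [e3]; exact hexc
  have h4 : ∫ z in ball (0 : E n) 1, dffuSl Q (-1) 1 z ≤ A := by
    rw [← dffu_integral_cyl hQ]; exact hwid
  have h5 : (α + (β + Λ) ^ 2) * ∫ z in ball (0 : E n) 1, dffuEx X e z ≤ (α + (β + Λ) ^ 2) * δ :=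
    mul_le_mul_of_nonneg_left h3 (by positivity)
  have h6 : γ * ∫ z in ball (0 : E n) 1, dffuSl Q (-1) 1 z ≤ γ * A := mul_le_mul_of_nonneg_left h4 hγ
  have e7 : β + |a| + ‖p‖ = β + Λ := by rw [hΛ]; ring
  have e8 : 1 + |a| + ‖p‖ = 1 + Λ := by rw [hΛ]; ring
  rw [e7, e8]
  linarith

/-! ### the 1-D half of F6 (on `DfSlice.lean` of helper138) -/

section
variable {f f' e : ℝ → ℝ}

/-- sup-tails of a slice. -/
structure DffuTail (f e : ℝ → ℝ) (a th : ℝ) : Prop where
  ha : 0 < a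
  ha' : a ≤ 1
  hth : 0 ≤ th
  tl : ∀ t, -1 ≤ t → t ≤ -a → 1 - f t ≤ th
  tr : ∀ t, a ≤ t → t ≤ 1 → f t ≤ th
  te : ∀ t, a ≤ |t| → |t| ≤ 1 → e t ≤ th

variable {a th : ℝ}

/-- the width of the slice. -/
noncomputable def dffuQ (f : ℝ → ℝ) : ℝ := ∫ t in (-1 : ℝ)..1, f t * (1 - f t)

/-- the variance term: `1 - h² + 2 I₁ ≤ 8 th + 8 a q + 8 a² d`. -/
theorem dffu_var (H : DfslData f f' e) (T : DffuTail f e a th) :
    1 - dfslH f ^ 2 + 2 * ∫ t in (-1 : ℝ)..1, t * f t ≤ 8 * th + 8 * a * dffuQ f + 8 * a ^ 2 * dfslE f' e := by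
  have hcf := H.cf
  have ha := T.ha
  have ha' := T.ha'
  have hth := T.hth
  have hd := dfsl_E_nonneg H
  set d := dfslE f' e with hdd
  have cq : Continuous fun t : ℝ => f t * (1 - f t) := by fun_prop
  have hq0 : ∀ t, 0 ≤ f t * (1 - f t) := fun t => mul_nonneg (H.f0 t) (by linarith [H.f1 t])
  have hq : 0 ≤ dffuQ f := intervalIntegral.integral_nonneg (by norm_num) fun t _ => hq0 t
  rcases le_or_gt (1 / 2) th with hbig | hsmall
  · -- trivial bound
    have h1 := dfsl_V_eq hcf 0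
    have c1 : Continuous fun t : ℝ => (0 - t) * (1 - f t) := by fun_prop
    have c2 : Continuous fun t : ℝ => (t - 0) * f t := by fun_prop
    have b1 : ∫ t in (-1 : ℝ)..0, (0 - t) * (1 - f t) ≤ ∫ _t in (-1 : ℝ)..0, (1 : ℝ) :=
      intervalIntegral.integral_mono_on (by norm_num) (c1.intervalIntegrable _ _)
        (continuous_const.intervalIntegrable _ _) fun t ht => by
          have := H.f0 t; have := H.f1 t
          nlinarith [ht.1, ht.2]
    have b2 : ∫ t in (0 : ℝ)..1, (t - 0) * f t ≤ ∫ _t in (0 : ℝ)..1, (1 : ℝ) :=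
      intervalIntegral.integral_mono_on (by norm_num) (c2.intervalIntegrable _ _)
        (continuous_const.intervalIntegrable _ _) fun t ht => by
          have := H.f0 t; have := H.f1 t
          nlinarith [ht.1, ht.2]
    simp only [intervalIntegral.integral_const, smul_eq_mul] at b1 b2
    have hV : dfslV f 0 ≤ 2 := by unfold dfslV; linarith
    have t1 : 0 ≤ 8 * a * dffuQ f := by positivity
    have t2 : 0 ≤ 8 * a ^ 2 * d := by positivity
    nlinarith [sq_nonneg (0 - dfslH f)]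
  · -- IVT
    have hlo : 1 / 2 ≤ f (-a) := by have := T.tl (-a) (by linarith) le_rfl; linarith
    have hhi : f a ≤ 1 / 2 := by have := T.tr a le_rfl ha'; linarith
    obtain ⟨c, hc, hfc⟩ : ∃ c ∈ Icc (-a) a, f c = 1 / 2 :=
      intermediate_value_Icc' (by linarith) hcf.continuousOn ⟨hhi, hlo⟩
    have hc1 : -1 ≤ c := by linarith [hc.1]
    have hc2 : c ≤ 1 := by linarith [hc.2]
    have h1 := dfsl_V_eq hcf c
    have c1 : Continuous fun t : ℝ => (c - t) * (1 - f t) := by fun_prop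
    have c2 : Continuous fun t : ℝ => (t - c) * f t := by fun_prop
    have c3 : Continuous fun t : ℝ => 2 * a * (2 * (f t * (1 - f t)) + d) := by fun_prop
    have c7 : Continuous fun t : ℝ => 2 * (f t * (1 - f t)) := by fun_prop
    -- tails
    have L1 : ∫ t in (-1 : ℝ)..(-a), (c - t) * (1 - f t) ≤ ∫ _t in (-1 : ℝ)..(-a), 2 * th :=
      intervalIntegral.integral_mono_on (by linarith) (c1.intervalIntegrable _ _)
        (continuous_const.intervalIntegrable _ _) fun t ht => by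
          have h2 := T.tl t ht.1 ht.2
          have h3 := H.f1 t
          have h4 : c - t ≤ 2 := by linarith [ht.1]
          have h5 : 0 ≤ c - t := by linarith [ht.2, hc.1]
          nlinarith
    have R1 : ∫ t in a..1, (t - c) * f t ≤ ∫ _t in a..(1 : ℝ), 2 * th :=
      intervalIntegral.integral_mono_on ha' (c2.intervalIntegrable _ _)
        (continuous_const.intervalIntegrable _ _) fun t ht => by
          have h2 := T.tr t ht.1 ht.2
          have h3 := H.f0 t
          have h4 : t - c ≤ 2 := by linarith [ht.2]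
          have h5 : 0 ≤ t - c := by linarith [ht.1, hc.2]
          nlinarith
    simp only [intervalIntegral.integral_const, smul_eq_mul] at L1 R1
    -- core
    have L2 : ∫ t in (-a)..c, (c - t) * (1 - f t) ≤ ∫ t in (-a)..c, 2 * a * (2 * (f t * (1 - f t)) + d) :=
      intervalIntegral.integral_mono_on hc.1 (c1.intervalIntegrable _ _) (c3.intervalIntegrable _ _) fun t ht => by
        have hm := dfsl_almost_mono H (s := t) (t := c) (by linarith [ht.1]) ht.2 hc2
        rw [hfc] at hm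
        have h3 := H.f1 t
        have h0 := H.f0 t
        have h4 : c - t ≤ 2 * a := by linarith [ht.1, hc.2]
        have h5 : 0 ≤ c - t := by linarith [ht.2]
        have h6 : 1 - f t ≤ 2 * (f t * (1 - f t)) + d := by nlinarith
        have h7 : 0 ≤ 1 - f t := by linarith
        calc (c - t) * (1 - f t) ≤ 2 * a * (1 - f t) := mul_le_mul_of_nonneg_right h4 h7
          _ ≤ 2 * a * (2 * (f t * (1 - f t)) + d) := mul_le_mul_of_nonneg_left h6 (by positivity)
    have R2 : ∫ t in c..a, (t - c) * f t ≤ ∫ t in c..a, 2 * a * (2 * (f t * (1 - f t)) + d) :=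
      intervalIntegral.integral_mono_on hc.2 (c2.intervalIntegrable _ _) (c3.intervalIntegrable _ _) fun t ht => by
        have hm := dfsl_almost_mono H (s := c) (t := t) hc1 ht.1 (by linarith [ht.2])
        rw [hfc] at hm
        have h3 := H.f1 t
        have h0 := H.f0 t
        have h4 : t - c ≤ 2 * a := by linarith [ht.2, hc.1]
        have h5 : 0 ≤ t - c := by linarith [ht.1]
        have h6 : f t ≤ 2 * (f t * (1 - f t)) + d := by nlinarith
        calc (t - c) * f t ≤ 2 * a * f t := mul_le_mul_of_nonneg_right h4 h0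
          _ ≤ 2 * a * (2 * (f t * (1 - f t)) + d) := mul_le_mul_of_nonneg_left h6 (by positivity)
    have M : (∫ t in (-a)..c, 2 * a * (2 * (f t * (1 - f t)) + d)) + ∫ t in c..a, 2 * a * (2 * (f t * (1 - f t)) + d)
        ≤ 4 * a * dffuQ f + 4 * a ^ 2 * d := by
      rw [intervalIntegral.integral_add_adjacent_intervals (c3.intervalIntegrable _ _) (c3.intervalIntegrable _ _),
        intervalIntegral.integral_const_mul,
        intervalIntegral.integral_add (c7.intervalIntegrable _ _)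
          (continuous_const.intervalIntegrable _ _), intervalIntegral.integral_const_mul,
        intervalIntegral.integral_const, smul_eq_mul]
      have h2 : ∫ t in (-a)..a, f t * (1 - f t) ≤ dffuQ f := dfsl_sub_le cq hq0 (by linarith) (by linarith) ha'
      have h3 : 2 * a * (2 * ∫ t in (-a)..a, f t * (1 - f t)) ≤ 2 * a * (2 * dffuQ f) :=
        mul_le_mul_of_nonneg_left (by linarith) (by positivity)
      nlinarith
    have sL : ∫ t in (-1 : ℝ)..c, (c - t) * (1 - f t)
        = (∫ t in (-1 : ℝ)..(-a), (c - t) * (1 - f t)) + ∫ t in (-a)..c, (c - t) * (1 - f t) :=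
      (intervalIntegral.integral_add_adjacent_intervals (c1.intervalIntegrable _ _) (c1.intervalIntegrable _ _)).symm
    have sR : ∫ t in c..1, (t - c) * f t = (∫ t in c..a, (t - c) * f t) + ∫ t in a..1, (t - c) * f t :=
      (intervalIntegral.integral_add_adjacent_intervals (c2.intervalIntegrable _ _) (c2.intervalIntegrable _ _)).symm
    have hV : dfslV f c ≤ 4 * th + 4 * a * dffuQ f + 4 * a ^ 2 * d := by
      unfold dfslV
      rw [sL, sR]
      have e1 : (-a - -1) * (2 * th) ≤ 2 * th := by nlinarith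
      have e2 : (1 - a) * (2 * th) ≤ 2 * th := by nlinarith
      linarith
    nlinarith [sq_nonneg (c - dfslH f)]

/-- **the slice inequality with sup-tails and the width** (the 1-D half of F6). -/
theorem dffu_slice1 (H : DfslData f f' e) (T : DffuTail f e a th) (l : ℝ) :
    ∫ t in (-1 : ℝ)..1, (t - l) ^ 2 * e t
      ≤ (dfslH f - l) ^ 2 + (8 * a ^ 2 + (a + |l|) ^ 2) * dfslE f' e + 8 * a * dffuQ f
        + (8 * th + 4 * th * (1 + |l|) ^ 2) := by
  have hce := H.ce
  have hcf' := H.cf'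
  have ha := T.ha
  have ha' := T.ha'
  have hth := T.hth
  have c1 : Continuous fun t : ℝ => (t - l) ^ 2 * e t := by fun_prop
  have c2 : Continuous fun t : ℝ => (t - l) ^ 2 * f' t := by fun_prop
  have c3 : Continuous fun t : ℝ => (t - l) ^ 2 * (e t + f' t) := by fun_prop
  have c4 : Continuous fun t : ℝ => e t + f' t := by fun_prop
  have c6 : Continuous fun t : ℝ => (a + |l|) ^ 2 * (e t + f' t) := by fun_prop
  have h0 : ∫ t in (-1 : ℝ)..1, (t - l) ^ 2 * e t
      = (∫ t in (-1 : ℝ)..1, (t - l) ^ 2 * (e t + f' t)) - ∫ t in (-1 : ℝ)..1, (t - l) ^ 2 * f' t := by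
    rw [← intervalIntegral.integral_sub (c3.intervalIntegrable _ _) (c2.intervalIntegrable _ _)]
    congr 1; funext t; ring
  have sqb : ∀ t r : ℝ, |t| ≤ r → (t - l) ^ 2 ≤ (r + |l|) ^ 2 := fun t r ht => by
    have h1 : |t - l| ≤ r + |l| := (abs_sub _ _).trans (by linarith)
    have := pow_le_pow_left₀ (abs_nonneg _) h1 2
    rwa [sq_abs] at this
  have tailb : ∀ p q : ℝ, -1 ≤ p → p ≤ q → q ≤ 1 → q - p ≤ 1 → (∀ t ∈ Icc p q, a ≤ |t|) →
      ∫ t in p..q, (t - l) ^ 2 * (e t + f' t) ≤ 2 * th * (1 + |l|) ^ 2 := fun p q hp hpq hq hlen hout => by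
    have h1 : ∫ t in p..q, (t - l) ^ 2 * (e t + f' t) ≤ ∫ _t in p..q, 2 * th * (1 + |l|) ^ 2 :=
      intervalIntegral.integral_mono_on hpq (c3.intervalIntegrable _ _) (continuous_const.intervalIntegrable _ _)
        fun t ht => by
          have hab : |t| ≤ 1 := abs_le.2 ⟨by linarith [ht.1], by linarith [ht.2]⟩
          have h1 := sqb t 1 hab
          have h2 := T.te t (hout t ht) hab
          calc (t - l) ^ 2 * (e t + f' t) ≤ (1 + |l|) ^ 2 * (2 * th) :=
                mul_le_mul h1 ((H.ex_le t).trans (by linarith)) (H.ex_nonneg t) (by positivity)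
            _ = 2 * th * (1 + |l|) ^ 2 := by ring
    rw [intervalIntegral.integral_const, smul_eq_mul] at h1
    have h3 : 0 ≤ 2 * th * (1 + |l|) ^ 2 := by positivity
    nlinarith
  have m1 := tailb (-1) (-a) le_rfl (by linarith) (by linarith) (by linarith) fun t ht => by
    rw [abs_of_nonpos (by linarith [ht.2])]; linarith [ht.2]
  have m3 := tailb a 1 (by linarith) ha' le_rfl (by linarith) fun t ht => by
    rw [abs_of_nonneg (by linarith [ht.1])]; exact ht.1
  have m2 : ∫ t in (-a)..a, (t - l) ^ 2 * (e t + f' t) ≤ (a + |l|) ^ 2 * dfslE f' e := by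
    have h1 : ∫ t in (-a)..a, (t - l) ^ 2 * (e t + f' t) ≤ ∫ t in (-a)..a, (a + |l|) ^ 2 * (e t + f' t) :=
      intervalIntegral.integral_mono_on (by linarith) (c3.intervalIntegrable _ _) (c6.intervalIntegrable _ _)
        fun t ht => mul_le_mul_of_nonneg_right (sqb t a (abs_le.2 ⟨ht.1, ht.2⟩)) (H.ex_nonneg t)
    rw [intervalIntegral.integral_const_mul] at h1
    have h2 : ∫ t in (-a)..a, (e t + f' t) ≤ dfslE f' e :=
      dfsl_sub_le c4 H.ex_nonneg (by linarith) (by linarith) ha'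
    exact h1.trans (mul_le_mul_of_nonneg_left h2 (by positivity))
  have hsplit : ∫ t in (-1 : ℝ)..1, (t - l) ^ 2 * (e t + f' t)
      = (∫ t in (-1 : ℝ)..(-a), (t - l) ^ 2 * (e t + f' t)) + (∫ t in (-a)..a, (t - l) ^ 2 * (e t + f' t))
        + ∫ t in a..1, (t - l) ^ 2 * (e t + f' t) := by
    rw [intervalIntegral.integral_add_adjacent_intervals (c3.intervalIntegrable _ _) (c3.intervalIntegrable _ _),
      intervalIntegral.integral_add_adjacent_intervals (c3.intervalIntegrable _ _) (c3.intervalIntegrable _ _)]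
  have hp := dfsl_parts H l
  have hv := dffu_var H T
  rw [h0, hsplit]
  nlinarith

end


end Claimed.Agent.R329
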