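import Claimed.Agent.R329.Defs

/-!
# Row 329, K7, post P10 (`DfIter`): from the improvement of flatness to a FIXED direction.      (pen: helper38)

Pure bookkeeping: nothing of the PDE is used.  `dgIt_Flat α u x₀ r ε e` is the flatness of order C6-4 (`u ≥ 3/4` below the slab
`|⟨x - x₀, e⟩| ≤ ε r`, `u ≤ -3/4` above it, inside `ball x₀ r`).  Interface points: `|u x| < 3/4` (strict: such a centre lies in the slab).

* geometry: `dgIt_mono`, `dgIt_tilt`, `dgIt_unique` (`‖e - e'‖ ≤ 4 ε`), `dgIt_recentre`, `dgIt_close`;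
* `dgIt_chain`: directions at the scales `r` and `4^j r` differ by `≤ 16 κ(r)` if `κ(4 s) ≤ κ(s)/2`;
* `dgIt_fixed_dir`, `dgIt_Fprime`: one direction for all centres and all scales;
* `dgIt_iter`, `dgIt_down`: the iteration from infinity downwards (abstract stopping rule `η r ≤ ε ≤ ε₀`);
* EXITS `dgIt_exit`, `dgIt_exit_FEF`.
-/

set_option autoImplicit false
open MeasureTheory Metric Set Filter Topology

namespace Claimed.Agent.R329

variable {n : ℕ}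

/-- flatness of `u` in `ball x₀ r`, height `ε r`, direction `e` (`u > 0` BELOW). -/
def dgIt_Flat (α : ℝ) (u : DgE n → ℝ) (x₀ : DgE n) (r ε : ℝ) (e : DgE n) : Prop :=
  ‖e‖ = 1 ∧ ∀ x ∈ ball x₀ r,
    (inner ℝ (x - x₀) e < -(ε * r) → α ≤ u x) ∧ (ε * r < inner ℝ (x - x₀) e → u x ≤ -α)

variable {α : ℝ} {u : DgE n → ℝ} {x₀ x₁ e e' : DgE n} {r r' ε ε' : ℝ}

/-! ## 1. geometry -/

theorem dgIt_mono (h : dgIt_Flat α u x₀ r ε e) (hr : r' ≤ r) (hε : ε * r ≤ ε' * r') :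
    dgIt_Flat α u x₀ r' ε' e :=
  ⟨h.1, fun x hx => ⟨fun h1 => (h.2 x (ball_subset_ball hr hx)).1 (by linarith),
    fun h1 => (h.2 x (ball_subset_ball hr hx)).2 (by linarith)⟩⟩

theorem dgIt_tilt (h : dgIt_Flat α u x₀ r ε e) (he' : ‖e'‖ = 1) {δ : ℝ} (hδ : ‖e - e'‖ ≤ δ) :
    dgIt_Flat α u x₀ r (ε + δ) e' := by
  refine ⟨he', fun x hx => ?_⟩
  have hx' : ‖x - x₀‖ < r := by rwa [mem_ball, dist_eq_norm] at hx
  have hr : 0 < r := lt_of_le_of_lt (norm_nonneg _) hx'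
  have h1 : |inner ℝ (x - x₀) (e - e')| ≤ r * δ :=
    (abs_real_inner_le_norm _ _).trans (mul_le_mul hx'.le hδ (norm_nonneg _) hr.le)
  have h2 : inner ℝ (x - x₀) e = inner ℝ (x - x₀) e' + inner ℝ (x - x₀) (e - e') := by
    rw [inner_sub_right]; ring
  have h3 := abs_le.1 h1
  have h4 : (ε + δ) * r = ε * r + r * δ := by ring
  exact ⟨fun h5 => (h.2 x hx).1 (by rw [h2]; linarith [h3.2]),
    fun h5 => (h.2 x hx).2 (by rw [h2]; linarith [h3.1])⟩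

/-- the direction of flatness is unique up to `4 ε`. -/
theorem dgIt_unique (hα : 0 < α) (hr : 0 < r) (hε : 0 ≤ ε) (h : dgIt_Flat α u x₀ r ε e)
    (h' : dgIt_Flat α u x₀ r ε e') : ‖e - e'‖ ≤ 4 * ε := by
  by_contra hcon
  have hcon' : 4 * ε < ‖e - e'‖ := not_le.1 hcon
  set δ : ℝ := ‖e - e'‖ with hδ
  have hδ0 : 0 < δ := by linarith
  have hsq : δ ^ 2 = 2 - 2 * inner ℝ e e' := by
    rw [hδ, @norm_sub_sq_real, h.1, h'.1]; ring
  set x : DgE n := x₀ + (r / (2 * δ)) • (e' - e) with hx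
  have hxs : x - x₀ = (r / (2 * δ)) • (e' - e) := by rw [hx, add_sub_cancel_left]
  have hxb : x ∈ ball x₀ r := by
    rw [mem_ball, dist_eq_norm, hxs, norm_smul, Real.norm_eq_abs,
      abs_of_pos (by positivity : 0 < r / (2 * δ)), norm_sub_rev e' e, ← hδ]
    have : r / (2 * δ) * δ = r / 2 := by field_simp
    rw [this]; linarith
  have hee : inner ℝ e e = (1 : ℝ) := by rw [real_inner_self_eq_norm_sq, h.1]; norm_num
  have hee' : inner ℝ e' e' = (1 : ℝ) := by rw [real_inner_self_eq_norm_sq, h'.1]; norm_num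
  have hc : inner ℝ e' e = inner ℝ e e' := real_inner_comm _ _
  have h1 : inner ℝ (x - x₀) e = -(r * δ / 4) := by
    rw [hxs, real_inner_smul_left, inner_sub_left, hee, hc]
    have : inner ℝ e e' - 1 = -(δ ^ 2 / 2) := by rw [hsq]; ring
    rw [this]; field_simp; ring
  have h2 : inner ℝ (x - x₀) e' = r * δ / 4 := by
    rw [hxs, real_inner_smul_left, inner_sub_left, hee']
    have : 1 - inner ℝ e e' = δ ^ 2 / 2 := by rw [hsq]; ring
    rw [this]; field_simp; ring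
  have h3 : ε * r < r * δ / 4 := by nlinarith
  have h4 := (h.2 x hxb).1 (by rw [h1]; linarith)
  have h5 := (h'.2 x hxb).2 (by rw [h2]; linarith)
  linarith

/-- an interface point of the ball lies in the slab. -/
theorem dgIt_slab (h : dgIt_Flat α u x₀ r ε e) (hx₁ : |u x₁| < α) (hb : x₁ ∈ ball x₀ r) :
    |inner ℝ (x₁ - x₀) e| ≤ ε * r := by
  by_contra hc
  have hu := abs_lt.1 hx₁
  rcases lt_abs.1 (not_le.1 hc) with h1 | h1
  · have := (h.2 x₁ hb).2 h1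
    linarith [hu.1]
  · have := (h.2 x₁ hb).1 (by linarith)
    linarith [hu.2]

theorem dgIt_recentre (h : dgIt_Flat α u x₀ r ε e) (hx₁ : |u x₁| < α) (hr' : 0 < r')
    (hd : ‖x₁ - x₀‖ + r' ≤ r) (hε : 2 * (ε * r) ≤ ε' * r') : dgIt_Flat α u x₁ r' ε' e := by
  have hb : x₁ ∈ ball x₀ r := by rw [mem_ball, dist_eq_norm]; linarith
  have hs := abs_le.1 (dgIt_slab h hx₁ hb)
  refine ⟨h.1, fun x hx => ?_⟩
  have hxb : x ∈ ball x₀ r := by
    rw [mem_ball] at hx ⊢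
    have := dist_triangle x x₁ x₀
    rw [dist_eq_norm x₁ x₀] at this
    linarith
  have e1 : inner ℝ (x - x₀) e = inner ℝ (x - x₁) e + inner ℝ (x₁ - x₀) e := by
    rw [← inner_add_left]; congr 1; abel
  exact ⟨fun h5 => (h.2 x hxb).1 (by rw [e1]; linarith [hs.2]),
    fun h5 => (h.2 x hxb).2 (by rw [e1]; linarith [hs.1])⟩

/-- comparison of the directions at two centres and two comparable scales. -/
theorem dgIt_close (hα : 0 < α) {s t q : ℝ} (ht : 0 < t) (hx₁ : |u x₁| < α) (hd : ‖x₁ - x₀‖ + t ≤ s)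
    (hq : s ≤ q * t) (hε : 0 ≤ ε) (hε' : 0 ≤ ε') (h : dgIt_Flat α u x₀ s ε e)
    (h' : dgIt_Flat α u x₁ t ε' e') : ‖e - e'‖ ≤ 4 * (2 * ε * q + ε') := by
  have hq0 : 0 ≤ q := by
    have hs : 0 < s := by linarith [norm_nonneg (x₁ - x₀)]
    by_contra hneg
    have : q * t < 0 := mul_neg_of_neg_of_pos (not_le.1 hneg) ht
    linarith
  have h1 : dgIt_Flat α u x₁ t (2 * ε * q + ε') e :=
    dgIt_recentre h hx₁ ht hd (by nlinarith [mul_le_mul_of_nonneg_left hq hε, mul_nonneg hε' ht.le])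
  have h2 : dgIt_Flat α u x₁ t (2 * ε * q + ε') e' :=
    dgIt_mono h' le_rfl (by nlinarith [mul_nonneg (mul_nonneg hε hq0) ht.le])
  exact dgIt_unique hα ht (by positivity) h1 h2

/-! ## 2. the chain of scales -/

theorem dgIt_chain (hα : 0 < α) {κ : ℝ → ℝ} {rs : ℝ} (hrs : 0 < rs) (hκ0 : ∀ s, 0 ≤ κ s)
    (hκ4 : ∀ s, rs ≤ s → κ (4 * s) ≤ κ s / 2) {x : DgE n}
    (hA : ∀ s, rs ≤ s → ∃ e, dgIt_Flat α u x s (κ s) e) (j : ℕ) :
    ∀ r, rs ≤ r → ∀ e e', dgIt_Flat α u x r (κ r) e →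
      dgIt_Flat α u x (4 ^ j * r) (κ (4 ^ j * r)) e' → ‖e - e'‖ ≤ 16 * κ r := by
  induction j with
  | zero =>
    intro r hr e e' h h'
    rw [pow_zero, one_mul] at h'
    have := dgIt_unique hα (lt_of_lt_of_le hrs hr) (hκ0 r) h h'
    linarith [hκ0 r]
  | succ j ih =>
    intro r hr e e' h h'
    have hr0 : 0 < r := lt_of_lt_of_le hrs hr
    have h4r : rs ≤ 4 * r := by linarith
    obtain ⟨e'', h''⟩ := hA (4 * r) h4r
    have e1 : (4 : ℝ) ^ (j + 1) * r = 4 ^ j * (4 * r) := by ring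
    rw [e1] at h'
    have h1 := ih (4 * r) h4r e'' e' h'' h'
    have hk := hκ4 r hr
    have h2 : dgIt_Flat α u x r (2 * κ r) e'' :=
      dgIt_mono h'' (by linarith) (by nlinarith)
    have h3 : dgIt_Flat α u x r (2 * κ r) e :=
      dgIt_mono h le_rfl (by nlinarith [hκ0 r])
    have h4 := dgIt_unique hα hr0 (by linarith [hκ0 r]) h3 h2
    calc ‖e - e'‖ ≤ ‖e - e''‖ + ‖e'' - e'‖ := norm_sub_le_norm_sub_add_norm_sub _ _ _
      _ ≤ 16 * κ r := by linarith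

/-! ## 3. one direction for all centres and all scales -/

theorem dgIt_scale_tendsto {r : ℝ} (hr : 0 < r) :
    Tendsto (fun j : ℕ => (4 : ℝ) ^ j * r) atTop atTop :=
  (tendsto_pow_atTop_atTop_of_one_lt (by norm_num : (1 : ℝ) < 4)).atTop_mul_const hr

theorem dgIt_scale_ge {rs r : ℝ} (hrs : 0 < rs) (hr : rs ≤ r) (j : ℕ) : rs ≤ (4 : ℝ) ^ j * r := by
  have h1 : (1 : ℝ) ≤ 4 ^ j := one_le_pow₀ (by norm_num)
  nlinarith

/-- **one direction**: if at every interface point and every scale `s ≥ rs` the function is `κ(s)`-flat in SOME direction, and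
`κ(4 s) ≤ κ(s)/2`, `κ → 0`, then it is `17 κ(s)`-flat in ONE direction. -/
theorem dgIt_fixed_dir (hα : 0 < α) (hn : 0 < n) {κ : ℝ → ℝ} {rs : ℝ} (hrs : 0 < rs) (hκ0 : ∀ s, 0 ≤ κ s)
    (hκ4 : ∀ s, rs ≤ s → κ (4 * s) ≤ κ s / 2) (hκl : Tendsto κ atTop (𝓝 0))
    (hA : ∀ x, |u x| < α → ∀ s, rs ≤ s → ∃ e, dgIt_Flat α u x s (κ s) e) :
    ∃ e : DgE n, ‖e‖ = 1 ∧ ∀ x, |u x| < α → ∀ r, rs ≤ r → dgIt_Flat α u x r (17 * κ r) e := by
  by_cases hI : ∃ xs, |u xs| < α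
  swap
  · refine ⟨EuclideanSpace.single ⟨0, hn⟩ 1, by simp, fun x hx => absurd ⟨x, hx⟩ hI⟩
  obtain ⟨xs, hxs⟩ := hI
  choose a ha using fun j : ℕ => hA xs hxs ((4 : ℝ) ^ j * rs) (dgIt_scale_ge hrs le_rfl j)
  have hκs : ∀ {r : ℝ}, 0 < r → Tendsto (fun j : ℕ => κ ((4 : ℝ) ^ j * r)) atTop (𝓝 0) :=
    fun hr => hκl.comp (dgIt_scale_tendsto hr)
  -- the sequence of directions at `xs` is Cauchy
  have hstep : ∀ N i : ℕ, ‖a N - a (N + i)‖ ≤ 16 * κ ((4 : ℝ) ^ N * rs) := by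
    intro N i
    refine dgIt_chain hα hrs hκ0 hκ4 (hA xs hxs) i _ (dgIt_scale_ge hrs le_rfl N) _ _ (ha N) ?_
    have e1 : (4 : ℝ) ^ i * (4 ^ N * rs) = 4 ^ (N + i) * rs := by rw [pow_add]; ring
    rw [e1]
    exact ha (N + i)
  have hcau : CauchySeq a := by
    refine cauchySeq_of_le_tendsto_0 (fun N => 32 * κ ((4 : ℝ) ^ N * rs)) ?_ ?_
    · intro k m N hk hm
      obtain ⟨i, rfl⟩ := Nat.exists_eq_add_of_le hk
      obtain ⟨i', rfl⟩ := Nat.exists_eq_add_of_le hm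
      have h1 := hstep N i
      have h2 := hstep N i'
      rw [dist_eq_norm]
      have h3 : ‖a (N + i) - a (N + i')‖ ≤ ‖a (N + i) - a N‖ + ‖a N - a (N + i')‖ :=
        norm_sub_le_norm_sub_add_norm_sub _ _ _
      rw [norm_sub_rev (a (N + i)) (a N)] at h3
      linarith
    · simpa using (hκs hrs).const_mul 32
  obtain ⟨ei, hlim⟩ := cauchySeq_tendsto_of_complete hcau
  have hei : ‖ei‖ = 1 := by
    have h1 : Tendsto (fun j => ‖a j‖) atTop (𝓝 ‖ei‖) := (continuous_norm.tendsto _).comp hlim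
    have h2 : Tendsto (fun j => ‖a j‖) atTop (𝓝 1) :=
      tendsto_const_nhds.congr fun j => (ha j).1.symm
    exact tendsto_nhds_unique h1 h2
  refine ⟨ei, hei, fun x hx r hr => ?_⟩
  have hr0 : 0 < r := lt_of_lt_of_le hrs hr
  obtain ⟨e, he⟩ := hA x hx r hr
  suffices hclaim : ‖e - ei‖ ≤ 16 * κ r by
    have := dgIt_tilt he hei hclaim
    have e1 : κ r + 16 * κ r = 17 * κ r := by ring
    rwa [e1] at this
  choose b hb using fun j : ℕ => hA x hx ((4 : ℝ) ^ j * r) (dgIt_scale_ge hrs hr j)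
  obtain ⟨m, hm⟩ := pow_unbounded_of_one_lt (2 * r / rs) (by norm_num : (1 : ℝ) < 4)
  have hm' : 2 * r ≤ 4 ^ m * rs := by
    rw [div_lt_iff₀ hrs] at hm
    exact hm.le
  set q : ℝ := 4 ^ m * rs / r with hq
  have hlimit : Tendsto (fun j : ℕ => 16 * κ r
      + 4 * (2 * κ ((4 : ℝ) ^ (j + m) * rs) * q + κ ((4 : ℝ) ^ j * r)) + ‖a (j + m) - ei‖)
      atTop (𝓝 (16 * κ r + 4 * (2 * 0 * q + 0) + 0)) := by
    have h1 : Tendsto (fun j : ℕ => κ ((4 : ℝ) ^ (j + m) * rs)) atTop (𝓝 0) :=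
      (hκs hrs).comp (tendsto_add_atTop_nat m)
    have h2 : Tendsto (fun j : ℕ => ‖a (j + m) - ei‖) atTop (𝓝 0) := by
      have h3 : Tendsto (fun j : ℕ => a (j + m)) atTop (𝓝 ei) := hlim.comp (tendsto_add_atTop_nat m)
      have h4 := (h3.sub_const ei).norm
      simpa using h4
    exact (tendsto_const_nhds.add ((((h1.const_mul 2).mul_const q).add (hκs hr0)).const_mul 4)).add h2
  have hev : ∀ᶠ j : ℕ in atTop, ‖e - ei‖ ≤ 16 * κ r
      + 4 * (2 * κ ((4 : ℝ) ^ (j + m) * rs) * q + κ ((4 : ℝ) ^ j * r)) + ‖a (j + m) - ei‖ := by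
    filter_upwards [(dgIt_scale_tendsto hr0).eventually_ge_atTop ‖x - xs‖] with j hj
    have hp : (0 : ℝ) < 4 ^ j := by positivity
    have ht : 0 < (4 : ℝ) ^ j * r := by positivity
    have h1 : ‖e - b j‖ ≤ 16 * κ r :=
      dgIt_chain hα hrs hκ0 hκ4 (hA x hx) j r hr e (b j) he (hb j)
    have hs : (4 : ℝ) ^ (j + m) * rs = 4 ^ j * (4 ^ m * rs) := by rw [pow_add]; ring
    have h2 : ‖a (j + m) - b j‖ ≤ 4 * (2 * κ ((4 : ℝ) ^ (j + m) * rs) * q + κ ((4 : ℝ) ^ j * r)) := by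
      refine dgIt_close hα ht hx ?_ ?_ (hκ0 _) (hκ0 _) (ha (j + m)) (hb j)
      · rw [hs]
        nlinarith
      · rw [hs, hq]
        apply le_of_eq
        field_simp
    calc ‖e - ei‖ ≤ ‖e - b j‖ + ‖b j - ei‖ := norm_sub_le_norm_sub_add_norm_sub _ _ _
      _ ≤ ‖e - b j‖ + (‖b j - a (j + m)‖ + ‖a (j + m) - ei‖) := by
          gcongr
          exact norm_sub_le_norm_sub_add_norm_sub _ _ _
      _ ≤ _ := by
          rw [norm_sub_rev (b j) (a (j + m))]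
          linarith
  have := ge_of_tendsto hlimit hev
  simpa using this

/-- (F'): fixed direction, flatness `→ 0`, uniformly in the centre. -/
theorem dgIt_Fprime (hα : 0 < α) (hn : 0 < n) {κ : ℝ → ℝ} {rs : ℝ} (hrs : 0 < rs) (hκ0 : ∀ s, 0 ≤ κ s)
    (hκ4 : ∀ s, rs ≤ s → κ (4 * s) ≤ κ s / 2) (hκl : Tendsto κ atTop (𝓝 0))
    (hA : ∀ x, |u x| < α → ∀ s, rs ≤ s → ∃ e, dgIt_Flat α u x s (κ s) e) :
    ∃ e : DgE n, ‖e‖ = 1 ∧ ∀ ε : ℝ, 0 < ε → ∃ r₀ : ℝ, 0 < r₀ ∧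
      ∀ x, |u x| < α → ∀ r, r₀ ≤ r → dgIt_Flat α u x r ε e := by
  obtain ⟨e, he, h⟩ := dgIt_fixed_dir hα hn hrs hκ0 hκ4 hκl hA
  refine ⟨e, he, fun ε hε => ?_⟩
  have h1 : Tendsto (fun s => 17 * κ s) atTop (𝓝 0) := by simpa using hκl.const_mul 17
  obtain ⟨r₁, hr₁⟩ := Filter.eventually_atTop.1 (h1.eventually (Iio_mem_nhds hε))
  refine ⟨max rs r₁, lt_max_of_lt_left hrs, fun x hx r hr => ?_⟩
  have hr0 : 0 < r := lt_of_lt_of_le (lt_max_of_lt_left hrs) hr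
  have h2 : 17 * κ r < ε := hr₁ r ((le_max_right _ _).trans hr)
  exact dgIt_mono (h x hx r ((le_max_left _ _).trans hr)) le_rfl
    (mul_le_mul_of_nonneg_right h2.le hr0.le)

/-! ## 4. from infinity downwards -/

/-- the iteration of the improvement of flatness: `k` steps down from the scale `R`. -/
theorem dgIt_iter {θ ε₀ : ℝ} {η : ℝ → ℝ} (hθ0 : 0 < θ) (hθ1 : θ < 1)
    (hηanti : ∀ r r', 0 < r → r ≤ r' → η r' ≤ η r)
    (hηpos : ∀ r, 0 < r → 0 < η r)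
    {x : DgE n}
    (hstep : ∀ r ε e, 0 < r → η r ≤ ε → ε ≤ ε₀ → dgIt_Flat α u x r ε e →
      ∃ e', dgIt_Flat α u x (θ * r) (ε / 2) e')
    {R : ℝ} (hR : 0 < R) {e₀ : DgE n} (h0 : dgIt_Flat α u x R ε₀ e₀) (hε₀ : 0 < ε₀) (k : ℕ) :
    η (θ ^ k * R) ≤ ε₀ →
      ∃ e, dgIt_Flat α u x (θ ^ k * R) (max ((1 / 2) ^ k * ε₀) (η (θ ^ k * R))) e := by
  induction k with
  | zero =>
    intro _
    refine ⟨e₀, ?_⟩
    rw [pow_zero, one_mul, pow_zero, one_mul]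
    exact dgIt_mono h0 le_rfl (mul_le_mul_of_nonneg_right (le_max_left _ _) hR.le)
  | succ k ih =>
    intro hk
    have hrk : 0 < θ ^ k * R := by positivity
    have hrk1 : 0 < θ ^ (k + 1) * R := by positivity
    have e1 : θ ^ (k + 1) * R = θ * (θ ^ k * R) := by ring
    have hle : θ ^ (k + 1) * R ≤ θ ^ k * R := by
      rw [e1]
      exact mul_le_of_le_one_left hrk.le hθ1.le
    have hη : η (θ ^ k * R) ≤ η (θ ^ (k + 1) * R) := hηanti _ _ hrk1 hle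
    obtain ⟨e, he⟩ := ih (hη.trans hk)
    have hhalf : ((1 : ℝ) / 2) ^ k * ε₀ ≤ ε₀ :=
      mul_le_of_le_one_left hε₀.le (pow_le_one₀ (by norm_num) (by norm_num))
    obtain ⟨e', he'⟩ := hstep _ _ e hrk (le_max_right _ _) (max_le hhalf (hη.trans hk)) he
    refine ⟨e', ?_⟩
    rw [← e1] at he'
    refine dgIt_mono he' le_rfl (mul_le_mul_of_nonneg_right ?_ hrk1.le)
    rw [div_le_iff₀ (by norm_num : (0 : ℝ) < 2)]
    apply max_le
    · have : ((1 : ℝ) / 2) ^ k * ε₀ = ((1 / 2) ^ (k + 1) * ε₀) * 2 := by ring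
      rw [this]
      exact mul_le_mul_of_nonneg_right (le_max_left _ _) (by norm_num)
    · have h1 : η (θ ^ (k + 1) * R) ≤ max ((1 / 2) ^ (k + 1) * ε₀) (η (θ ^ (k + 1) * R)) :=
        le_max_right _ _
      have h2 := hηpos _ hrk1
      linarith

/-- **(A)**: at every interface point and every scale `s` with `η s ≤ ε₀` the function is `η(s)/θ`-flat. -/
theorem dgIt_down {θ ε₀ : ℝ} {η : ℝ → ℝ} (hθ0 : 0 < θ) (hθ1 : θ < 1) (hε₀ : 0 < ε₀)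
    (hηpos : ∀ r, 0 < r → 0 < η r) (hηanti : ∀ r r', 0 < r → r ≤ r' → η r' ≤ η r)
    (hstep : ∀ x₀, |u x₀| < α → ∀ r ε e, 0 < r → η r ≤ ε → ε ≤ ε₀ → dgIt_Flat α u x₀ r ε e →
      ∃ e', dgIt_Flat α u x₀ (θ * r) (ε / 2) e')
    (hstart : ∀ R₀ : ℝ, ∃ R, R₀ ≤ R ∧ ∃ e, dgIt_Flat α u 0 R (ε₀ / 4) e)
    {x : DgE n} (hx : |u x| < α) {s : ℝ} (hs : 0 < s) (hηs : η s ≤ ε₀) :
    ∃ e, dgIt_Flat α u x s (η s / θ) e := by
  have hsθ : 0 < s / θ := by positivity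
  obtain ⟨k₀, hk₀⟩ := exists_pow_lt_of_lt_one (div_pos (hηpos _ hsθ) hε₀)
    (by norm_num : (1 / 2 : ℝ) < 1)
  rw [lt_div_iff₀ hε₀] at hk₀
  obtain ⟨R, hR, e₀, h0⟩ := hstart (2 * (‖x‖ + s / θ ^ k₀ + s + 1))
  have hpk : 0 < θ ^ k₀ := by positivity
  have hq : 0 < s / θ ^ k₀ := by positivity
  have hnx := norm_nonneg x
  set R' : ℝ := R / 2 with hR'
  have hR'1 : ‖x‖ + s / θ ^ k₀ + s + 1 ≤ R' := by rw [hR']; linarith
  have hR'0 : 0 < R' := by linarith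
  have h1 : dgIt_Flat α u x R' ε₀ e₀ := by
    refine dgIt_recentre h0 hx hR'0 ?_ ?_
    · rw [sub_zero, hR']; linarith
    · rw [hR']; apply le_of_eq; ring
  have hlt1 : s / R' < 1 := by rw [div_lt_one hR'0]; linarith
  obtain ⟨k, hk1, hk2⟩ := exists_nat_pow_near_of_lt_one (div_pos hs hR'0) hlt1.le hθ0 hθ1
  rw [lt_div_iff₀ hR'0] at hk1
  rw [div_le_iff₀ hR'0] at hk2
  -- `k₀ ≤ k`
  have hkk : k₀ ≤ k := by
    by_contra hcon
    have h2 : k + 1 ≤ k₀ := by omega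
    have h3 : θ ^ k₀ ≤ θ ^ (k + 1) := pow_le_pow_of_le_one hθ0.le hθ1.le h2
    have h4 : s ≤ θ ^ k₀ * R' := by
      have : s / θ ^ k₀ ≤ R' := by linarith
      rw [div_le_iff₀ hpk] at this
      linarith
    have h5 : θ ^ k₀ * R' ≤ θ ^ (k + 1) * R' := mul_le_mul_of_nonneg_right h3 hR'0.le
    linarith
  set σ : ℝ := θ ^ k * R' with hσ
  have hσ0 : 0 < σ := by positivity
  have hσs : σ ≤ s / θ := by
    rw [le_div_iff₀ hθ0]
    have : θ ^ (k + 1) * R' = σ * θ := by rw [hσ]; ring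
    linarith
  have hησ : η σ ≤ η s := hηanti _ _ hs hk2
  obtain ⟨e, he⟩ := dgIt_iter hθ0 hθ1 hηanti hηpos (hstep x hx) hR'0 h1 hε₀ k (hησ.trans hηs)
  refine ⟨e, dgIt_mono he hk2 ?_⟩
  have hmax : max ((1 / 2) ^ k * ε₀) (η σ) ≤ η σ := by
    apply max_le _ le_rfl
    have h2 : ((1 : ℝ) / 2) ^ k ≤ (1 / 2) ^ k₀ :=
      pow_le_pow_of_le_one (by norm_num) (by norm_num) hkk
    have h3 : η (s / θ) ≤ η σ := hηanti _ _ hσ0 hσs
    have h4 : ((1 : ℝ) / 2) ^ k * ε₀ ≤ (1 / 2) ^ k₀ * ε₀ := mul_le_mul_of_nonneg_right h2 hε₀.le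
    linarith
  have hηs0 := hηpos s hs
  calc max ((1 / 2) ^ k * ε₀) (η σ) * σ ≤ η s * (s / θ) :=
        mul_le_mul (hmax.trans hησ) hσs hσ0.le hηs0.le
    _ = η s / θ * s := by ring

/-! ## EXITS -/

/-- **P10**: STEP (improvement of flatness with the stopping rule `4/r ≤ c₁ ε²`) + START (flatness `ε₀/4` at arbitrarily large scales,
centre `0`) ⇒ (F'): ONE direction, flatness `→ 0`, uniformly in the interface centre.  `α` = the threshold (`7/8` for `DfFlatU`). -/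
theorem dgIt_exit (hα : 0 < α) (hn : 0 < n) {θ ε₀ c₁ : ℝ} (hθ0 : 0 < θ) (hθ1 : θ < 1) (hε₀ : 0 < ε₀)
    (hc₁ : 0 < c₁)
    (hstep : ∀ x₀, |u x₀| < α → ∀ r ε e, 0 < r → 0 < ε → ε ≤ ε₀ → 4 / r ≤ c₁ * ε ^ 2 →
      dgIt_Flat α u x₀ r ε e → ∃ e', dgIt_Flat α u x₀ (θ * r) (ε / 2) e')
    (hstart : ∀ R₀ : ℝ, ∃ R, R₀ ≤ R ∧ ∃ e, dgIt_Flat α u 0 R (ε₀ / 4) e) :
    ∃ e : DgE n, ‖e‖ = 1 ∧ ∀ ε : ℝ, 0 < ε → ∃ r₀ : ℝ, 0 < r₀ ∧
      ∀ x, |u x| < α → ∀ r, r₀ ≤ r → dgIt_Flat α u x r ε e := by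
  set K : ℝ := 2 / Real.sqrt c₁ with hK
  have hsc : 0 < Real.sqrt c₁ := Real.sqrt_pos.2 hc₁
  have hK0 : 0 < K := by positivity
  have hK2 : K ^ 2 = 4 / c₁ := by
    rw [hK, div_pow, Real.sq_sqrt hc₁.le]; norm_num
  set η : ℝ → ℝ := fun r => K / Real.sqrt r with hη
  have hηpos : ∀ r, 0 < r → 0 < η r := fun r hr => div_pos hK0 (Real.sqrt_pos.2 hr)
  have hηanti : ∀ r r', 0 < r → r ≤ r' → η r' ≤ η r := fun r r' hr hrr =>
    div_le_div_of_nonneg_left hK0.le (Real.sqrt_pos.2 hr) (Real.sqrt_le_sqrt hrr)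
  have hηl : Tendsto η atTop (𝓝 0) := tendsto_const_nhds.div_atTop Real.tendsto_sqrt_atTop
  have hη4 : ∀ s, η (4 * s) = η s / 2 := by
    intro s
    have h2 : Real.sqrt 4 = 2 := by
      rw [show (4 : ℝ) = 2 ^ 2 by norm_num, Real.sqrt_sq (by norm_num)]
    simp only [hη]
    rw [Real.sqrt_mul (by norm_num : (0 : ℝ) ≤ 4), h2]
    by_cases hs : Real.sqrt s = 0
    · rw [hs]; simp
    · field_simp
  have hstep' : ∀ x₀, |u x₀| < α → ∀ r ε e, 0 < r → η r ≤ ε → ε ≤ ε₀ → dgIt_Flat α u x₀ r ε e →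
      ∃ e', dgIt_Flat α u x₀ (θ * r) (ε / 2) e' := by
    intro x₀ hx₀ r ε e hr h1 h2 h
    have hε : 0 < ε := lt_of_lt_of_le (hηpos r hr) h1
    refine hstep x₀ hx₀ r ε e hr hε h2 ?_ h
    have h3 : η r ^ 2 ≤ ε ^ 2 := pow_le_pow_left₀ (hηpos r hr).le h1 2
    have h4 : η r ^ 2 = 4 / c₁ / r := by
      simp only [hη]
      rw [div_pow, Real.sq_sqrt hr.le, hK2]
    rw [h4] at h3
    have h5 : 4 / r = c₁ * (4 / c₁ / r) := by field_simp
    rw [h5]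
    exact mul_le_mul_of_nonneg_left h3 hc₁.le
  obtain ⟨r₁, hr₁⟩ := Filter.eventually_atTop.1 (hηl.eventually (Iio_mem_nhds hε₀))
  refine dgIt_Fprime hα hn (κ := fun s => η s / θ) (rs := max r₁ 1) (lt_max_of_lt_right one_pos)
    (fun s => div_nonneg (div_nonneg hK0.le (Real.sqrt_nonneg _)) hθ0.le) (fun s _ => ?_) ?_ ?_
  · show η (4 * s) / θ ≤ η s / θ / 2
    rw [hη4]
    apply le_of_eq
    ring
  · simpa using hηl.div_const θ
  · intro x hx s hs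
    have hs0 : 0 < s := lt_of_lt_of_le (lt_max_of_lt_right one_pos) hs
    exact dgIt_down hθ0 hθ1 hε₀ hηpos hηanti hstep' hstart hx hs0
      (hr₁ s ((le_max_left _ _).trans hs)).le

/-- the exit in the unfolded words of `DgFEF n u e` (helper8, `FlatEnd.lean`), from the thresholds `7/8` of `DfFlatU` (helper35). -/
theorem dgIt_exit_FEF (hn : 0 < n) {θ ε₀ c₁ : ℝ} (hθ0 : 0 < θ) (hθ1 : θ < 1) (hε₀ : 0 < ε₀)
    (hc₁ : 0 < c₁)
    (hstep : ∀ x₀, |u x₀| < 7 / 8 → ∀ r ε e, 0 < r → 0 < ε → ε ≤ ε₀ → 4 / r ≤ c₁ * ε ^ 2 →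
      dgIt_Flat (7 / 8) u x₀ r ε e → ∃ e', dgIt_Flat (7 / 8) u x₀ (θ * r) (ε / 2) e')
    (hstart : ∀ R₀ : ℝ, ∃ R, R₀ ≤ R ∧ ∃ e, dgIt_Flat (7 / 8) u 0 R (ε₀ / 4) e) :
    ∃ e : DgE n, ‖e‖ = 1 ∧ ∀ ε : ℝ, 0 < ε → ∃ r₀ : ℝ, ∀ x₀ : DgE n, |u x₀| ≤ 3 / 4 →
      ∀ r : ℝ, r₀ ≤ r → ∀ x ∈ ball x₀ r,
        (inner ℝ (x - x₀) e < -(ε * r) → 3 / 4 ≤ u x) ∧ (ε * r < inner ℝ (x - x₀) e → u x ≤ -(3 / 4)) := by
  obtain ⟨e, he, h⟩ := dgIt_exit (by norm_num : (0 : ℝ) < 7 / 8) hn hθ0 hθ1 hε₀ hc₁ hstep hstart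
  refine ⟨e, he, fun ε hε => ?_⟩
  obtain ⟨r₀, -, hr₀⟩ := h ε hε
  refine ⟨r₀, fun x₀ hx₀ r hr x hx => ?_⟩
  have h1 := (hr₀ x₀ (lt_of_le_of_lt hx₀ (by norm_num)) r hr).2 x hx
  exact ⟨fun h2 => by linarith [h1.1 h2], fun h2 => by linarith [h1.2 h2]⟩

end Claimed.Agent.R329
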