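import Claimed.Agent.R329.Defs
import Claimed.Agent.R329.DfDefs
import Claimed.Agent.R329.DfIter
import Claimed.Agent.Lib.Gmt.FlScale

/-!
# Row 329, K7 (the diffuse Fl-port), post P9 part G (helper88, prefix `dfg_` / `Dfg`): ELEMENTARY GEOMETRY OF DIFFUSE FLATNESS.

Port of `Lib/Gmt/FlGeo3` ... `FlGeo6` and of `fl_tilt`, from sets (`FlFlat`, a.e.) to functions (pointwise).  No PDE: only `Continuous u`.

`DfgFlat u x r ε e` (the convention of ORDER C6-4, `DfFlatU`): `‖e‖ = 1`, and in `ball x r`:  below the slab `|⟪y-x,e⟫| ≤ ε r` we have `3/4 ≤ u`,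
above the slab `u ≤ -3/4`  (`u > 0` BELOW, `ν = -∇u/|∇u| ∼ e`, as for `FlFlat`).
Interface points: `dfgI u = {|u| < 3/4}` (STRICT: a point with `u = 3/4` may lie far below the slab).

* `DfgFlat.mono`, `.shrink`, `.bd_slab`, `.recentre`, `.tilt`: as for `FlFlat`;
* `dfgBlow L x ρ u = u (x + ρ L⁻¹ ·)`; `DfgFlat.blow_isometry`, `DfgFlat.of_blow_isometry`, `dfg_mem_I_blow`;
* `dfg_constancy`: ORDERING BY THE INTERMEDIATE VALUE THEOREM on a preconnected set without interface points;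
* `dfg_flat_of_bd_pt`, `dfg_flat_of_bd`: interface in a slab + orientation (from two points / from a coarser scale) ⇒ flat;
* `dfg_flat_compare`: two flatness directions at comparable scales are close;
* `DfgFlat.exists_zero`: a zero of `u` on every vertical segment through the slab;
* `dfg_tilt`: the tilted direction of an affine function (`fl_tilt`);  `dfg_exists_rot`.
-/

set_option autoImplicit false
open scoped RealInnerProductSpace
open MeasureTheory Metric Set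
open Claimed.Agent.Gmt

namespace Claimed.Agent.R329

variable {m n : ℕ}

/-- diffuse flatness (`DfFlatU` of ORDER C6-4). -/
structure DfgFlat (u : DgE m → ℝ) (x : DgE m) (r ε : ℝ) (e : DgE m) : Prop where
  unit : ‖e‖ = 1
  below : ∀ y ∈ ball x r, ⟪y - x, e⟫ < -(ε * r) → 3 / 4 ≤ u y
  above : ∀ y ∈ ball x r, ε * r < ⟪y - x, e⟫ → u y ≤ -(3 / 4)

/-- the (strict) interface. -/
def dfgI (u : DgE m → ℝ) : Set (DgE m) := {y | |u y| < 3 / 4}

theorem dfg_mem_I {u : DgE m → ℝ} {y : DgE m} : y ∈ dfgI u ↔ |u y| < 3 / 4 := Iff.rfl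

/-! ### elementary properties -/

theorem DfgFlat.mono {u : DgE m → ℝ} {x : DgE m} {r ε ε' : ℝ} {e : DgE m} (h : DfgFlat u x r ε e)
    (hr : 0 ≤ r) (hε : ε ≤ ε') : DfgFlat u x r ε' e := by
  have h1 : ε * r ≤ ε' * r := mul_le_mul_of_nonneg_right hε hr
  exact ⟨h.unit, fun y hb hl => h.below y hb (by linarith), fun y hb hl => h.above y hb (by linarith)⟩

theorem DfgFlat.shrink {u : DgE m → ℝ} {x : DgE m} {r ε r' : ℝ} {e : DgE m} (h : DfgFlat u x r ε e)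
    (hr' : 0 < r') (hrr : r' ≤ r) : DfgFlat u x r' (ε * r / r') e := by
  have h1 : ε * r / r' * r' = ε * r := div_mul_cancel₀ _ hr'.ne'
  refine ⟨h.unit, fun y hb hl => ?_, fun y hb hl => ?_⟩
  · rw [h1] at hl
    exact h.below y (ball_subset_ball hrr hb) hl
  · rw [h1] at hl
    exact h.above y (ball_subset_ball hrr hb) hl

theorem DfgFlat.congr {u v : DgE m → ℝ} {x : DgE m} {r ε : ℝ} {e : DgE m} (h : DfgFlat u x r ε e)
    (huv : ∀ y ∈ ball x r, u y = v y) : DfgFlat v x r ε e :=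
  ⟨h.unit, fun y hb hl => by rw [← huv y hb]; exact h.below y hb hl,
    fun y hb hl => by rw [← huv y hb]; exact h.above y hb hl⟩

/-- interface points lie in the closed slab. -/
theorem DfgFlat.bd_slab {u : DgE m → ℝ} {x : DgE m} {r ε : ℝ} {e : DgE m} (h : DfgFlat u x r ε e)
    {y : DgE m} (hy : y ∈ dfgI u) (hyr : y ∈ ball x r) : |⟪y - x, e⟫| ≤ ε * r := by
  have hy' := abs_lt.1 (dfg_mem_I.1 hy)
  rw [abs_le]
  constructor
  · by_contra hlt
    rw [not_le] at hlt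
    have := h.below y hyr hlt
    linarith [hy'.2]
  · by_contra hlt
    rw [not_le] at hlt
    have := h.above y hyr hlt
    linarith [hy'.1]

/-- change of the centre. -/
theorem DfgFlat.recentre {u : DgE m → ℝ} {x : DgE m} {r ε : ℝ} {e : DgE m} (h : DfgFlat u x r ε e)
    {y : DgE m} (hy : |⟪y - x, e⟫| ≤ ε * r) {r' : ℝ} (hr' : 0 < r') (hb : ball y r' ⊆ ball x r) :
    DfgFlat u y r' (2 * ε * r / r') e := by
  have h1 : 2 * ε * r / r' * r' = 2 * ε * r := div_mul_cancel₀ _ hr'.ne'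
  have h2 : ∀ w : DgE m, ⟪w - x, e⟫ = ⟪w - y, e⟫ + ⟪y - x, e⟫ := fun w => by
    rw [← inner_add_left]; congr 1; abel
  rw [abs_le] at hy
  refine ⟨h.unit, fun w hwb hl => ?_, fun w hwb hl => ?_⟩
  · rw [h1] at hl
    exact h.below w (hb hwb) (by rw [h2 w]; linarith [hy.2])
  · rw [h1] at hl
    exact h.above w (hb hwb) (by rw [h2 w]; linarith [hy.1])

/-- change of the direction. -/
theorem DfgFlat.tilt {u : DgE m → ℝ} {x : DgE m} {r ε : ℝ} {e e' : DgE m} (h : DfgFlat u x r ε e)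
    (he' : ‖e'‖ = 1) : DfgFlat u x r (ε + ‖e - e'‖) e' := by
  have h2 : ∀ w : DgE m, w ∈ ball x r → |⟪w - x, e⟫ - ⟪w - x, e'⟫| ≤ ‖e - e'‖ * r := fun w hw => by
    rw [← inner_sub_right]
    refine (abs_real_inner_le_norm _ _).trans ?_
    rw [mem_ball, dist_eq_norm] at hw
    rw [mul_comm]
    exact mul_le_mul_of_nonneg_left hw.le (norm_nonneg _)
  refine ⟨he', fun w hwb hl => ?_, fun w hwb hl => ?_⟩
  · have := abs_le.mp (h2 w hwb)
    exact h.below w hwb (by nlinarith [this.2])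
  · have := abs_le.mp (h2 w hwb)
    exact h.above w hwb (by nlinarith [this.1])

/-! ### similarities -/

/-- the rescaled, rotated, recentred function `y ↦ u (x + ρ L⁻¹ y)`. -/
noncomputable def dfgBlow (L : DgE m ≃ₗᵢ[ℝ] DgE m) (x : DgE m) (ρ : ℝ) (u : DgE m → ℝ) (y : DgE m) : ℝ :=
  u (x + ρ • L.symm y)

theorem dfgBlow_apply (L : DgE m ≃ₗᵢ[ℝ] DgE m) (x : DgE m) (ρ : ℝ) (u : DgE m → ℝ) (y : DgE m) :
    dfgBlow L x ρ u y = u (x + ρ • L.symm y) := rfl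

/-- the point of the new picture which corresponds to `w`. -/
theorem dfgBlow_pt (L : DgE m ≃ₗᵢ[ℝ] DgE m) (x : DgE m) {ρ : ℝ} (hρ : 0 < ρ) (u : DgE m → ℝ) (w : DgE m) :
    dfgBlow L x ρ u (ρ⁻¹ • L (w - x)) = u w := by
  rw [dfgBlow_apply, map_smul, LinearIsometryEquiv.symm_apply_apply, smul_smul, mul_inv_cancel₀ hρ.ne', one_smul,
    add_sub_cancel]

theorem dfgBlow_continuous (L : DgE m ≃ₗᵢ[ℝ] DgE m) (x : DgE m) (ρ : ℝ) {u : DgE m → ℝ} (hu : Continuous u) :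
    Continuous (dfgBlow L x ρ u) := by
  unfold dfgBlow
  exact hu.comp (continuous_const.add (L.symm.continuous.const_smul ρ))

theorem dfg_mem_I_blow (L : DgE m ≃ₗᵢ[ℝ] DgE m) (x : DgE m) (ρ : ℝ) (u : DgE m → ℝ) (y : DgE m) :
    y ∈ dfgI (dfgBlow L x ρ u) ↔ x + ρ • L.symm y ∈ dfgI u := Iff.rfl

theorem dfg_blow_ball (L : DgE m ≃ₗᵢ[ℝ] DgE m) (x : DgE m) {ρ : ℝ} (hρ : 0 < ρ) (r : ℝ) (y : DgE m) :
    x + ρ • L.symm y ∈ ball x r ↔ y ∈ ball (0 : DgE m) (r / ρ) := by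
  rw [mem_ball, mem_ball, dist_eq_norm, dist_eq_norm, add_sub_cancel_left, sub_zero, norm_smul,
    Real.norm_of_nonneg hρ.le, LinearIsometryEquiv.norm_map, lt_div_iff₀ hρ, mul_comm]

theorem dfg_blow_inner (L : DgE m ≃ₗᵢ[ℝ] DgE m) (x : DgE m) (ρ : ℝ) (y e : DgE m) :
    ⟪x + ρ • L.symm y - x, e⟫ = ρ * ⟪y - 0, L e⟫ := by
  rw [add_sub_cancel_left, inner_smul_left, sub_zero]
  simp only [conj_trivial]
  rw [← LinearIsometryEquiv.inner_map_map L (L.symm y) e, LinearIsometryEquiv.apply_symm_apply]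

theorem DfgFlat.blow_isometry {u : DgE m → ℝ} {x : DgE m} {r ε : ℝ} {e : DgE m}
    (h : DfgFlat u x r ε e) (L : DgE m ≃ₗᵢ[ℝ] DgE m) {ρ : ℝ} (hρ : 0 < ρ) :
    DfgFlat (dfgBlow L x ρ u) 0 (r / ρ) ε (L e) := by
  have hprod : ρ * (ε * (r / ρ)) = ε * r := by field_simp
  refine ⟨by rw [LinearIsometryEquiv.norm_map]; exact h.unit, fun y h1 h2 => ?_, fun y h1 h2 => ?_⟩
  · refine h.below _ ((dfg_blow_ball L x hρ r y).2 h1) ?_
    rw [dfg_blow_inner]
    have h3 : ρ * ⟪y - 0, L e⟫ < ρ * (-(ε * (r / ρ))) := by gcongr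
    linarith
  · refine h.above _ ((dfg_blow_ball L x hρ r y).2 h1) ?_
    rw [dfg_blow_inner]
    have h3 : ρ * (ε * (r / ρ)) < ρ * ⟪y - 0, L e⟫ := by gcongr
    linarith

theorem DfgFlat.of_blow_isometry {u : DgE m → ℝ} {x : DgE m} {r ε : ℝ} {e : DgE m}
    (L : DgE m ≃ₗᵢ[ℝ] DgE m) {ρ : ℝ} (hρ : 0 < ρ) (h : DfgFlat (dfgBlow L x ρ u) 0 r ε e) :
    DfgFlat u x (r * ρ) ε (L.symm e) := by
  have hρ' : 0 < ρ⁻¹ := inv_pos.2 hρ
  have hball : ∀ w : DgE m, w ∈ ball x (r * ρ) → ρ⁻¹ • L (w - x) ∈ ball (0 : DgE m) r := by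
    intro w hw
    rw [mem_ball, dist_eq_norm] at hw ⊢
    rw [sub_zero, norm_smul, Real.norm_of_nonneg hρ'.le, LinearIsometryEquiv.norm_map, inv_mul_lt_iff₀ hρ]
    linarith
  have hinn : ∀ w : DgE m, ⟪ρ⁻¹ • L (w - x) - 0, e⟫ = ρ⁻¹ * ⟪w - x, L.symm e⟫ := by
    intro w
    rw [sub_zero, inner_smul_left]
    simp only [conj_trivial]
    rw [← LinearIsometryEquiv.inner_map_map L (w - x) (L.symm e), LinearIsometryEquiv.apply_symm_apply]
  have hprod : ρ⁻¹ * (ε * (r * ρ)) = ε * r := by field_simp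
  refine ⟨by rw [LinearIsometryEquiv.norm_map]; exact h.unit, fun w h1 h2 => ?_, fun w h1 h2 => ?_⟩
  · rw [← dfgBlow_pt L x hρ u w]
    refine h.below _ (hball w h1) ?_
    rw [hinn]
    have h3 : ρ⁻¹ * ⟪w - x, L.symm e⟫ < ρ⁻¹ * (-(ε * (r * ρ))) := by gcongr
    linarith
  · rw [← dfgBlow_pt L x hρ u w]
    refine h.above _ (hball w h1) ?_
    rw [hinn]
    have h3 : ρ⁻¹ * (ε * (r * ρ)) < ρ⁻¹ * ⟪w - x, L.symm e⟫ := by gcongr
    linarith

/-- a rotation which takes `e` to the vertical direction. -/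
theorem dfg_exists_rot {e : DgE (n + 1)} (he : ‖e‖ = 1) : ∃ L : DgE (n + 1) ≃ₗᵢ[ℝ] DgE (n + 1), L e = gmtEn n :=
  fl_exists_rot he

/-- the tilted direction of the affine function `t = ⟪p, z⟫`. -/
theorem dfg_tilt (p : DgE n) : ∃ e' : DgE (n + 1), ‖e'‖ = 1 ∧ ‖e' - gmtEn n‖ ≤ 2 * ‖p‖ ∧
    ∀ y : DgE (n + 1), |⟪y, e'⟫| ≤ |gmtVer y - ⟪p, gmtHor y⟫| :=
  fl_tilt p

/-! ### ordering by the intermediate value theorem -/

/-- **constancy**: on a preconnected set without interface points `u ≥ 3/4` everywhere or `u ≤ -3/4` everywhere. -/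
theorem dfg_constancy {u : DgE m → ℝ} (hu : Continuous u) {W : Set (DgE m)} (hc : IsPreconnected W)
    (hb : Disjoint W (dfgI u)) : (∀ y ∈ W, 3 / 4 ≤ u y) ∨ (∀ y ∈ W, u y ≤ -(3 / 4)) := by
  have hno : ∀ y ∈ W, 3 / 4 ≤ u y ∨ u y ≤ -(3 / 4) := by
    intro y hy
    have h1 : ¬ |u y| < 3 / 4 := fun h => Set.disjoint_left.1 hb hy h
    rw [abs_lt, not_and_or, not_lt, not_lt] at h1
    rcases h1 with h1 | h1
    · exact Or.inr h1
    · exact Or.inl h1
  by_contra hcon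
  rw [not_or] at hcon
  push Not at hcon
  obtain ⟨⟨y₁, hy₁, h₁⟩, ⟨y₂, hy₂, h₂⟩⟩ := hcon
  have a1 : u y₁ ≤ -(3 / 4) := (hno y₁ hy₁).resolve_left (not_le.2 h₁)
  have a2 : 3 / 4 ≤ u y₂ := (hno y₂ hy₂).resolve_right (not_le.2 h₂)
  have himg : IsPreconnected (u '' W) := hc.image u hu.continuousOn
  have h0 : (0 : ℝ) ∈ u '' W :=
    himg.ordConnected.out (mem_image_of_mem u hy₁) (mem_image_of_mem u hy₂) ⟨by linarith, by linarith⟩
  obtain ⟨y, hy, hy0⟩ := h0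
  rcases hno y hy with h | h <;> rw [hy0] at h <;> linarith

/-- interface in a slab + orientation from two points ⇒ flat. -/
theorem dfg_flat_of_bd_pt {u : DgE m → ℝ} (hu : Continuous u) {x : DgE m} {r η : ℝ} {e : DgE m} (he : ‖e‖ = 1)
    (hbd : ∀ y ∈ dfgI u, y ∈ ball x r → |⟪y - x, e⟫| ≤ η * r)
    (hlow : ∃ y ∈ ball x r, ⟪y - x, e⟫ < -(η * r) ∧ 0 < u y)
    (hup : ∃ y ∈ ball x r, η * r < ⟪y - x, e⟫ ∧ u y < 0) : DfgFlat u x r η e := by
  refine ⟨he, ?_, ?_⟩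
  · have hd : Disjoint (ball x r ∩ {y : DgE m | ⟪y - x, e⟫ < -(η * r)}) (dfgI u) := by
      rw [Set.disjoint_left]
      rintro y ⟨hy1, hy2⟩ hy3
      have h1 := (abs_le.1 (hbd y hy3 hy1)).1
      have h2 : ⟪y - x, e⟫ < -(η * r) := hy2
      linarith
    rcases dfg_constancy hu (fl_convex_capL x e r _).isPreconnected hd with h | h
    · exact fun y h1 h2 => h y ⟨h1, h2⟩
    · obtain ⟨y, h1, h2, h3⟩ := hlow
      have := h y ⟨h1, h2⟩
      linarith
  · have hd : Disjoint (ball x r ∩ {y : DgE m | η * r < ⟪y - x, e⟫}) (dfgI u) := by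
      rw [Set.disjoint_left]
      rintro y ⟨hy1, hy2⟩ hy3
      have h1 := (abs_le.1 (hbd y hy3 hy1)).2
      have h2 : η * r < ⟪y - x, e⟫ := hy2
      linarith
    rcases dfg_constancy hu (fl_convex_capU x e r _).isPreconnected hd with h | h
    · obtain ⟨y, h1, h2, h3⟩ := hup
      have := h y ⟨h1, h2⟩
      linarith
    · exact fun y h1 h2 => h y ⟨h1, h2⟩

/-- interface in a slab + orientation from a coarser scale ⇒ flat. -/
theorem dfg_flat_of_bd {u : DgE m → ℝ} (hu : Continuous u) {x : DgE m} {r ε r' η : ℝ} {e e' : DgE m}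
    (h : DfgFlat u x r ε e) (he' : ‖e'‖ = 1) (hr' : 0 < r') (hrr : r' ≤ r)
    (hη : η < 1 / 2) (hee : ‖e - e'‖ ≤ 1) (hε : 4 * (ε * r) < r')
    (hbd : ∀ y ∈ dfgI u, y ∈ ball x r' → |⟪y - x, e'⟫| ≤ η * r') : DfgFlat u x r' η e' := by
  have hin : (1 : ℝ) / 2 ≤ ⟪e', e⟫ := by
    have h1 : ‖e - e'‖ ^ 2 = ‖e‖ ^ 2 - 2 * ⟪e, e'⟫ + ‖e'‖ ^ 2 := norm_sub_sq_real e e'
    rw [h.unit, he'] at h1
    have h2 : ‖e - e'‖ ^ 2 ≤ 1 := by
      have := norm_nonneg (e - e')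
      nlinarith
    rw [real_inner_comm]
    linarith
  have hself : ⟪e', e'⟫ = 1 := by rw [real_inner_self_eq_norm_sq, he']; norm_num
  refine dfg_flat_of_bd_pt hu he' hbd ?_ ?_
  · have e1 : x - (r' / 2) • e' - x = -((r' / 2) • e') := by abel
    have hb : x - (r' / 2) • e' ∈ ball x r' := by
      rw [mem_ball, dist_eq_norm, e1, norm_neg, norm_smul, he', Real.norm_of_nonneg (by positivity)]
      linarith
    refine ⟨x - (r' / 2) • e', hb, ?_, ?_⟩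
    · rw [e1, inner_neg_left, inner_smul_left, hself]
      simp only [conj_trivial]
      nlinarith
    · have : 3 / 4 ≤ u (x - (r' / 2) • e') := by
        refine h.below _ (ball_subset_ball hrr hb) ?_
        rw [e1, inner_neg_left, inner_smul_left]
        simp only [conj_trivial]
        nlinarith
      linarith
  · have e1 : x + (r' / 2) • e' - x = (r' / 2) • e' := by abel
    have hb : x + (r' / 2) • e' ∈ ball x r' := by
      rw [mem_ball, dist_eq_norm, e1, norm_smul, he', Real.norm_of_nonneg (by positivity)]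
      linarith
    refine ⟨x + (r' / 2) • e', hb, ?_, ?_⟩
    · rw [e1, inner_smul_left, hself]
      simp only [conj_trivial]
      nlinarith
    · have : u (x + (r' / 2) • e') ≤ -(3 / 4) := by
        refine h.above _ (ball_subset_ball hrr hb) ?_
        rw [e1, inner_smul_left]
        simp only [conj_trivial]
        nlinarith
      linarith

/-- two flatness directions at comparable scales are close. -/
theorem dfg_flat_compare {u : DgE m → ℝ} {x : DgE m} {r ε r' ε' : ℝ} {e e' : DgE m}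
    (h : DfgFlat u x r ε e) (h' : DfgFlat u x r' ε' e') (hr' : 0 < r') (hrr : r' ≤ r)
    (hε' : 0 ≤ ε') : ‖e - e'‖ ≤ 4 * max (ε * r / r') ε' := by
  by_contra hcon
  push Not at hcon
  set d := ‖e - e'‖ with hd
  have h1 : 4 * (ε * r / r') < d := lt_of_le_of_lt (by gcongr; exact le_max_left _ _) hcon
  have h2 : 4 * ε' < d := lt_of_le_of_lt (by gcongr; exact le_max_right _ _) hcon
  have hd0 : 0 < d := lt_of_le_of_lt (by positivity) h2
  have h1' : 4 * (ε * r) < d * r' := by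
    have : 4 * (ε * r / r') * r' < d * r' := by gcongr
    have e1 : 4 * (ε * r / r') * r' = 4 * (ε * r) := by field_simp
    linarith
  have hsq : d ^ 2 = 2 - 2 * ⟪e, e'⟫ := by
    have h3 : ‖e - e'‖ ^ 2 = ‖e‖ ^ 2 - 2 * ⟪e, e'⟫ + ‖e'‖ ^ 2 := norm_sub_sq_real e e'
    rw [h.unit, h'.unit] at h3
    rw [hd, h3]
    ring
  have hse : ⟪e, e⟫ = 1 := by rw [real_inner_self_eq_norm_sq, h.unit]; norm_num
  have hse' : ⟪e', e'⟫ = 1 := by rw [real_inner_self_eq_norm_sq, h'.unit]; norm_num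
  have e1 : x + (r' / 2 / d) • (e' - e) - x = (r' / 2 / d) • (e' - e) := by abel
  have hb : x + (r' / 2 / d) • (e' - e) ∈ ball x r' := by
    rw [mem_ball, dist_eq_norm, e1, norm_smul, norm_sub_rev, ← hd, Real.norm_of_nonneg (by positivity)]
    have : r' / 2 / d * d = r' / 2 := by field_simp
    linarith
  have a1 : u (x + (r' / 2 / d) • (e' - e)) ≤ -(3 / 4) := by
    refine h'.above _ hb ?_
    rw [e1, inner_smul_left, inner_sub_left, hse']
    simp only [conj_trivial]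
    have e2 : r' / 2 / d * (1 - ⟪e, e'⟫) = r' * d / 4 := by
      have : 1 - ⟪e, e'⟫ = d ^ 2 / 2 := by linarith
      rw [this]
      field_simp
      ring
    rw [e2]
    nlinarith
  have a2 : 3 / 4 ≤ u (x + (r' / 2 / d) • (e' - e)) := by
    refine h.below _ (ball_subset_ball hrr hb) ?_
    rw [e1, inner_smul_left, inner_sub_left, hse, real_inner_comm]
    simp only [conj_trivial]
    have e2 : r' / 2 / d * (⟪e, e'⟫ - 1) = -(r' * d / 4) := by
      have : ⟪e, e'⟫ - 1 = -(d ^ 2 / 2) := by linarith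
      rw [this]
      field_simp
      ring
    rw [e2]
    nlinarith
  linarith

/-- a flat function has a zero on every vertical segment through the slab:
if `‖p‖² + (2 ε r)² < r²`, `⟪p,e⟫ = 0`, there is `t`, `|t| ≤ ε r`, with `u (x + p + t e) = 0`. -/
theorem DfgFlat.exists_zero {u : DgE m → ℝ} (hu : Continuous u) {x : DgE m} {r ε : ℝ} {e : DgE m}
    (h : DfgFlat u x r ε e) (hr : 0 < r) (hε : 0 ≤ ε) {p : DgE m} (hp : ⟪p, e⟫ = 0)
    (hpr : ‖p‖ ^ 2 + (2 * ε * r) ^ 2 < r ^ 2) :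
    ∃ t : ℝ, |t| ≤ ε * r ∧ u (x + p + t • e) = 0 := by
  have hεr : 0 ≤ ε * r := by positivity
  have hse : ⟪e, e⟫ = 1 := by rw [real_inner_self_eq_norm_sq, h.unit]; norm_num
  set q := r ^ 2 - ‖p‖ ^ 2 with hq
  have hq1 : (2 * ε * r) ^ 2 < q := by linarith
  have hq0 : 0 < q := lt_of_le_of_lt (by positivity) hq1
  set s := Real.sqrt q with hs
  have hs2 : s ^ 2 = q := Real.sq_sqrt hq0.le
  have hs0 : 0 < s := Real.sqrt_pos.2 hq0
  have hs1 : 2 * (ε * r) < s := by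
    have : (2 * (ε * r)) ^ 2 < s ^ 2 := by rw [hs2]; calc _ = (2 * ε * r) ^ 2 := by ring
      _ < q := hq1
    exact lt_of_pow_lt_pow_left₀ 2 hs0.le this
  set a := (ε * r + s) / 2 with ha
  have ha1 : ε * r < a := by rw [ha]; linarith
  have ha2 : a < s := by rw [ha]; linarith
  have ha0 : 0 < a := lt_of_le_of_lt hεr ha1
  have hball : ∀ t : ℝ, |t| ≤ a → x + p + t • e ∈ ball x r := by
    intro t ht
    have e1 : x + p + t • e - x = p + t • e := by abel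
    rw [mem_ball, dist_eq_norm, e1]
    have h1 : ‖p + t • e‖ ^ 2 = ‖p‖ ^ 2 + t ^ 2 := by
      rw [norm_add_sq_real, inner_smul_right, hp, norm_smul, h.unit, Real.norm_eq_abs, mul_one, sq_abs]
      ring
    have h2 : t ^ 2 ≤ a ^ 2 := sq_le_sq' (by have := (abs_le.1 ht).1; linarith) (abs_le.1 ht).2
    have h3 : a ^ 2 < s ^ 2 := by gcongr
    have h4 : ‖p + t • e‖ ^ 2 < r ^ 2 := by rw [h1]; linarith
    exact lt_of_pow_lt_pow_left₀ 2 hr.le h4
  have hinn : ∀ t : ℝ, ⟪x + p + t • e - x, e⟫ = t := by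
    intro t
    have e1 : x + p + t • e - x = p + t • e := by abel
    rw [e1, inner_add_left, hp, inner_smul_left, hse]
    simp
  have hcont : Continuous (fun t : ℝ => u (x + p + t • e)) := by fun_prop
  have hlo : 3 / 4 ≤ u (x + p + (-a) • e) :=
    h.below _ (hball _ (by rw [abs_neg, abs_of_pos ha0])) (by rw [hinn]; linarith)
  have hhi : u (x + p + a • e) ≤ -(3 / 4) :=
    h.above _ (hball _ (by rw [abs_of_pos ha0])) (by rw [hinn]; exact ha1)
  obtain ⟨t, ht, ht0⟩ := intermediate_value_Icc' (by linarith : -a ≤ a) hcont.continuousOn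
    (show (0 : ℝ) ∈ Icc (u (x + p + a • e)) (u (x + p + (-a) • e)) from ⟨by linarith, by linarith⟩)
  have ht0' : u (x + p + t • e) = 0 := ht0
  refine ⟨t, ?_, ht0'⟩
  have hI : x + p + t • e ∈ dfgI u := by rw [dfg_mem_I, ht0']; norm_num
  have := h.bd_slab hI (hball t (abs_le.2 ht))
  rwa [hinn] at this

/-!
## PART 2 (v4, appended; PART 1 above is untouched: a file on main only grows).  THE SAME FOR `DfFlatU` OF `DfDefs.lean` (threshold `7/8`), AND THE STEP AT ALL SCALES.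

Interface points here: `dfgI7 u = {|u| < 7/8}` (strict); a control of `{|u| ≤ 7/8}` implies the hypotheses of `dfg_flat_of_bd7`.
* `DfFlatU.dfg_mono`, `.dfg_shrink`, `.dfg_congr`, `.dfg_bd_slab`, `.dfg_recentre`, `.dfg_tilt`, `.dfg_blow_isometry`, `DfFlatU.dfg_of_blow_isometry`, `.dfg_exists_zero`;
* `dfg_constancy7`, `dfg_flat_of_bd_pt7`, `dfg_flat_of_bd7`, `dfg_flat_compare7`;
* `dfg_back`: from the conclusion of `df_unit_step` for `v = u (x₀ + (r/4) L⁻¹ ·)` back to `u`: flatness `τ η` at the scale `τ² r`;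
* `DfgUnitOf`, `DfgUnitStep`: the two contracts (47: `DfUnit` from `DfClass`; 298: `df_unit_step`), VERBATIM, as `Prop`s;
* `dfg_step_of`: **improvement of flatness at all scales and all interface centres**, from the two contracts;
* `dfg_It_iff`, `dfg_step_It`: the same in the words of `DfIter.lean` (hypothesis `hstep` of `dgIt_exit_FEF`);
* `dfg_K7s_of`: the same in the words of the contract `dgHub_K7s` of `Hub.lean` (any `n`, any `K`, `c₀`).
-/

/-- the (strict) interface. -/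
def dfgI7 (u : DgE m → ℝ) : Set (DgE m) := {y | |u y| < 7 / 8}

theorem dfg_mem_I7 {u : DgE m → ℝ} {y : DgE m} : y ∈ dfgI7 u ↔ |u y| < 7 / 8 := Iff.rfl

/-! ### elementary properties -/

theorem DfFlatU.dfg_mono {u : DgE m → ℝ} {x : DgE m} {r ε ε' : ℝ} {e : DgE m} (h : DfFlatU u x r ε e)
    (hr : 0 ≤ r) (hε : ε ≤ ε') : DfFlatU u x r ε' e := by
  have h1 : ε * r ≤ ε' * r := mul_le_mul_of_nonneg_right hε hr
  exact ⟨h.unit, fun y hb hl => h.below y hb (by linarith), fun y hb hl => h.above y hb (by linarith)⟩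

theorem DfFlatU.dfg_shrink {u : DgE m → ℝ} {x : DgE m} {r ε r' : ℝ} {e : DgE m} (h : DfFlatU u x r ε e)
    (hr' : 0 < r') (hrr : r' ≤ r) : DfFlatU u x r' (ε * r / r') e := by
  have h1 : ε * r / r' * r' = ε * r := div_mul_cancel₀ _ hr'.ne'
  refine ⟨h.unit, fun y hb hl => ?_, fun y hb hl => ?_⟩
  · rw [h1] at hl
    exact h.below y (ball_subset_ball hrr hb) hl
  · rw [h1] at hl
    exact h.above y (ball_subset_ball hrr hb) hl

theorem DfFlatU.dfg_congr {u v : DgE m → ℝ} {x : DgE m} {r ε : ℝ} {e : DgE m} (h : DfFlatU u x r ε e)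
    (huv : ∀ y ∈ ball x r, u y = v y) : DfFlatU v x r ε e :=
  ⟨h.unit, fun y hb hl => by rw [← huv y hb]; exact h.below y hb hl,
    fun y hb hl => by rw [← huv y hb]; exact h.above y hb hl⟩

/-- interface points lie in the closed slab. -/
theorem DfFlatU.dfg_bd_slab {u : DgE m → ℝ} {x : DgE m} {r ε : ℝ} {e : DgE m} (h : DfFlatU u x r ε e)
    {y : DgE m} (hy : y ∈ dfgI7 u) (hyr : y ∈ ball x r) : |⟪y - x, e⟫| ≤ ε * r := by
  have hy' := abs_lt.1 (dfg_mem_I7.1 hy)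
  rw [abs_le]
  constructor
  · by_contra hlt
    rw [not_le] at hlt
    have := h.below y hyr hlt
    linarith [hy'.2]
  · by_contra hlt
    rw [not_le] at hlt
    have := h.above y hyr hlt
    linarith [hy'.1]

/-- change of the centre. -/
theorem DfFlatU.dfg_recentre {u : DgE m → ℝ} {x : DgE m} {r ε : ℝ} {e : DgE m} (h : DfFlatU u x r ε e)
    {y : DgE m} (hy : |⟪y - x, e⟫| ≤ ε * r) {r' : ℝ} (hr' : 0 < r') (hb : ball y r' ⊆ ball x r) :
    DfFlatU u y r' (2 * ε * r / r') e := by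
  have h1 : 2 * ε * r / r' * r' = 2 * ε * r := div_mul_cancel₀ _ hr'.ne'
  have h2 : ∀ w : DgE m, ⟪w - x, e⟫ = ⟪w - y, e⟫ + ⟪y - x, e⟫ := fun w => by
    rw [← inner_add_left]; congr 1; abel
  rw [abs_le] at hy
  refine ⟨h.unit, fun w hwb hl => ?_, fun w hwb hl => ?_⟩
  · rw [h1] at hl
    exact h.below w (hb hwb) (by rw [h2 w]; linarith [hy.2])
  · rw [h1] at hl
    exact h.above w (hb hwb) (by rw [h2 w]; linarith [hy.1])

/-- change of the direction. -/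
theorem DfFlatU.dfg_tilt {u : DgE m → ℝ} {x : DgE m} {r ε : ℝ} {e e' : DgE m} (h : DfFlatU u x r ε e)
    (he' : ‖e'‖ = 1) : DfFlatU u x r (ε + ‖e - e'‖) e' := by
  have h2 : ∀ w : DgE m, w ∈ ball x r → |⟪w - x, e⟫ - ⟪w - x, e'⟫| ≤ ‖e - e'‖ * r := fun w hw => by
    rw [← inner_sub_right]
    refine (abs_real_inner_le_norm _ _).trans ?_
    rw [mem_ball, dist_eq_norm] at hw
    rw [mul_comm]
    exact mul_le_mul_of_nonneg_left hw.le (norm_nonneg _)
  refine ⟨he', fun w hwb hl => ?_, fun w hwb hl => ?_⟩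
  · have := abs_le.mp (h2 w hwb)
    exact h.below w hwb (by nlinarith [this.2])
  · have := abs_le.mp (h2 w hwb)
    exact h.above w hwb (by nlinarith [this.1])

/-! ### similarities -/

theorem dfg_mem_I7_blow (L : DgE m ≃ₗᵢ[ℝ] DgE m) (x : DgE m) (ρ : ℝ) (u : DgE m → ℝ) (y : DgE m) :
    y ∈ dfgI7 (dfgBlow L x ρ u) ↔ x + ρ • L.symm y ∈ dfgI7 u := Iff.rfl

theorem DfFlatU.dfg_blow_isometry {u : DgE m → ℝ} {x : DgE m} {r ε : ℝ} {e : DgE m}
    (h : DfFlatU u x r ε e) (L : DgE m ≃ₗᵢ[ℝ] DgE m) {ρ : ℝ} (hρ : 0 < ρ) :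
    DfFlatU (dfgBlow L x ρ u) 0 (r / ρ) ε (L e) := by
  have hprod : ρ * (ε * (r / ρ)) = ε * r := by field_simp
  refine ⟨by rw [LinearIsometryEquiv.norm_map]; exact h.unit, fun y h1 h2 => ?_, fun y h1 h2 => ?_⟩
  · refine h.below _ ((dfg_blow_ball L x hρ r y).2 h1) ?_
    rw [dfg_blow_inner]
    have h3 : ρ * ⟪y - 0, L e⟫ < ρ * (-(ε * (r / ρ))) := by gcongr
    linarith
  · refine h.above _ ((dfg_blow_ball L x hρ r y).2 h1) ?_
    rw [dfg_blow_inner]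
    have h3 : ρ * (ε * (r / ρ)) < ρ * ⟪y - 0, L e⟫ := by gcongr
    linarith

theorem DfFlatU.dfg_of_blow_isometry {u : DgE m → ℝ} {x : DgE m} {r ε : ℝ} {e : DgE m}
    (L : DgE m ≃ₗᵢ[ℝ] DgE m) {ρ : ℝ} (hρ : 0 < ρ) (h : DfFlatU (dfgBlow L x ρ u) 0 r ε e) :
    DfFlatU u x (r * ρ) ε (L.symm e) := by
  have hρ' : 0 < ρ⁻¹ := inv_pos.2 hρ
  have hball : ∀ w : DgE m, w ∈ ball x (r * ρ) → ρ⁻¹ • L (w - x) ∈ ball (0 : DgE m) r := by
    intro w hw
    rw [mem_ball, dist_eq_norm] at hw ⊢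
    rw [sub_zero, norm_smul, Real.norm_of_nonneg hρ'.le, LinearIsometryEquiv.norm_map, inv_mul_lt_iff₀ hρ]
    linarith
  have hinn : ∀ w : DgE m, ⟪ρ⁻¹ • L (w - x) - 0, e⟫ = ρ⁻¹ * ⟪w - x, L.symm e⟫ := by
    intro w
    rw [sub_zero, inner_smul_left]
    simp only [conj_trivial]
    rw [← LinearIsometryEquiv.inner_map_map L (w - x) (L.symm e), LinearIsometryEquiv.apply_symm_apply]
  have hprod : ρ⁻¹ * (ε * (r * ρ)) = ε * r := by field_simp
  refine ⟨by rw [LinearIsometryEquiv.norm_map]; exact h.unit, fun w h1 h2 => ?_, fun w h1 h2 => ?_⟩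
  · rw [← dfgBlow_pt L x hρ u w]
    refine h.below _ (hball w h1) ?_
    rw [hinn]
    have h3 : ρ⁻¹ * ⟪w - x, L.symm e⟫ < ρ⁻¹ * (-(ε * (r * ρ))) := by gcongr
    linarith
  · rw [← dfgBlow_pt L x hρ u w]
    refine h.above _ (hball w h1) ?_
    rw [hinn]
    have h3 : ρ⁻¹ * (ε * (r * ρ)) < ρ⁻¹ * ⟪w - x, L.symm e⟫ := by gcongr
    linarith

/-! ### ordering by the intermediate value theorem -/

/-- **constancy**: on a preconnected set without interface points `u ≥ 7/8` everywhere or `u ≤ -7/8` everywhere. -/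
theorem dfg_constancy7 {u : DgE m → ℝ} (hu : Continuous u) {W : Set (DgE m)} (hc : IsPreconnected W)
    (hb : Disjoint W (dfgI7 u)) : (∀ y ∈ W, 7 / 8 ≤ u y) ∨ (∀ y ∈ W, u y ≤ -(7 / 8)) := by
  have hno : ∀ y ∈ W, 7 / 8 ≤ u y ∨ u y ≤ -(7 / 8) := by
    intro y hy
    have h1 : ¬ |u y| < 7 / 8 := fun h => Set.disjoint_left.1 hb hy h
    rw [abs_lt, not_and_or, not_lt, not_lt] at h1
    rcases h1 with h1 | h1
    · exact Or.inr h1
    · exact Or.inl h1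
  by_contra hcon
  rw [not_or] at hcon
  push Not at hcon
  obtain ⟨⟨y₁, hy₁, h₁⟩, ⟨y₂, hy₂, h₂⟩⟩ := hcon
  have a1 : u y₁ ≤ -(7 / 8) := (hno y₁ hy₁).resolve_left (not_le.2 h₁)
  have a2 : 7 / 8 ≤ u y₂ := (hno y₂ hy₂).resolve_right (not_le.2 h₂)
  have himg : IsPreconnected (u '' W) := hc.image u hu.continuousOn
  have h0 : (0 : ℝ) ∈ u '' W :=
    himg.ordConnected.out (mem_image_of_mem u hy₁) (mem_image_of_mem u hy₂) ⟨by linarith, by linarith⟩
  obtain ⟨y, hy, hy0⟩ := h0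
  rcases hno y hy with h | h <;> rw [hy0] at h <;> linarith

/-- interface in a slab + orientation from two points ⇒ flat. -/
theorem dfg_flat_of_bd_pt7 {u : DgE m → ℝ} (hu : Continuous u) {x : DgE m} {r η : ℝ} {e : DgE m} (he : ‖e‖ = 1)
    (hbd : ∀ y ∈ dfgI7 u, y ∈ ball x r → |⟪y - x, e⟫| ≤ η * r)
    (hlow : ∃ y ∈ ball x r, ⟪y - x, e⟫ < -(η * r) ∧ 0 < u y)
    (hup : ∃ y ∈ ball x r, η * r < ⟪y - x, e⟫ ∧ u y < 0) : DfFlatU u x r η e := by
  refine ⟨he, ?_, ?_⟩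
  · have hd : Disjoint (ball x r ∩ {y : DgE m | ⟪y - x, e⟫ < -(η * r)}) (dfgI7 u) := by
      rw [Set.disjoint_left]
      rintro y ⟨hy1, hy2⟩ hy3
      have h1 := (abs_le.1 (hbd y hy3 hy1)).1
      have h2 : ⟪y - x, e⟫ < -(η * r) := hy2
      linarith
    rcases dfg_constancy7 hu (fl_convex_capL x e r _).isPreconnected hd with h | h
    · exact fun y h1 h2 => h y ⟨h1, h2⟩
    · obtain ⟨y, h1, h2, h3⟩ := hlow
      have := h y ⟨h1, h2⟩
      linarith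
  · have hd : Disjoint (ball x r ∩ {y : DgE m | η * r < ⟪y - x, e⟫}) (dfgI7 u) := by
      rw [Set.disjoint_left]
      rintro y ⟨hy1, hy2⟩ hy3
      have h1 := (abs_le.1 (hbd y hy3 hy1)).2
      have h2 : η * r < ⟪y - x, e⟫ := hy2
      linarith
    rcases dfg_constancy7 hu (fl_convex_capU x e r _).isPreconnected hd with h | h
    · obtain ⟨y, h1, h2, h3⟩ := hup
      have := h y ⟨h1, h2⟩
      linarith
    · exact fun y h1 h2 => h y ⟨h1, h2⟩

/-- interface in a slab + orientation from a coarser scale ⇒ flat. -/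
theorem dfg_flat_of_bd7 {u : DgE m → ℝ} (hu : Continuous u) {x : DgE m} {r ε r' η : ℝ} {e e' : DgE m}
    (h : DfFlatU u x r ε e) (he' : ‖e'‖ = 1) (hr' : 0 < r') (hrr : r' ≤ r)
    (hη : η < 1 / 2) (hee : ‖e - e'‖ ≤ 1) (hε : 4 * (ε * r) < r')
    (hbd : ∀ y ∈ dfgI7 u, y ∈ ball x r' → |⟪y - x, e'⟫| ≤ η * r') : DfFlatU u x r' η e' := by
  have hin : (1 : ℝ) / 2 ≤ ⟪e', e⟫ := by
    have h1 : ‖e - e'‖ ^ 2 = ‖e‖ ^ 2 - 2 * ⟪e, e'⟫ + ‖e'‖ ^ 2 := norm_sub_sq_real e e'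
    rw [h.unit, he'] at h1
    have h2 : ‖e - e'‖ ^ 2 ≤ 1 := by
      have := norm_nonneg (e - e')
      nlinarith
    rw [real_inner_comm]
    linarith
  have hself : ⟪e', e'⟫ = 1 := by rw [real_inner_self_eq_norm_sq, he']; norm_num
  refine dfg_flat_of_bd_pt7 hu he' hbd ?_ ?_
  · have e1 : x - (r' / 2) • e' - x = -((r' / 2) • e') := by abel
    have hb : x - (r' / 2) • e' ∈ ball x r' := by
      rw [mem_ball, dist_eq_norm, e1, norm_neg, norm_smul, he', Real.norm_of_nonneg (by positivity)]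
      linarith
    refine ⟨x - (r' / 2) • e', hb, ?_, ?_⟩
    · rw [e1, inner_neg_left, inner_smul_left, hself]
      simp only [conj_trivial]
      nlinarith
    · have : 7 / 8 ≤ u (x - (r' / 2) • e') := by
        refine h.below _ (ball_subset_ball hrr hb) ?_
        rw [e1, inner_neg_left, inner_smul_left]
        simp only [conj_trivial]
        nlinarith
      linarith
  · have e1 : x + (r' / 2) • e' - x = (r' / 2) • e' := by abel
    have hb : x + (r' / 2) • e' ∈ ball x r' := by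
      rw [mem_ball, dist_eq_norm, e1, norm_smul, he', Real.norm_of_nonneg (by positivity)]
      linarith
    refine ⟨x + (r' / 2) • e', hb, ?_, ?_⟩
    · rw [e1, inner_smul_left, hself]
      simp only [conj_trivial]
      nlinarith
    · have : u (x + (r' / 2) • e') ≤ -(7 / 8) := by
        refine h.above _ (ball_subset_ball hrr hb) ?_
        rw [e1, inner_smul_left]
        simp only [conj_trivial]
        nlinarith
      linarith

/-- two flatness directions at comparable scales are close. -/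
theorem dfg_flat_compare7 {u : DgE m → ℝ} {x : DgE m} {r ε r' ε' : ℝ} {e e' : DgE m}
    (h : DfFlatU u x r ε e) (h' : DfFlatU u x r' ε' e') (hr' : 0 < r') (hrr : r' ≤ r)
    (hε' : 0 ≤ ε') : ‖e - e'‖ ≤ 4 * max (ε * r / r') ε' := by
  by_contra hcon
  push Not at hcon
  set d := ‖e - e'‖ with hd
  have h1 : 4 * (ε * r / r') < d := lt_of_le_of_lt (by gcongr; exact le_max_left _ _) hcon
  have h2 : 4 * ε' < d := lt_of_le_of_lt (by gcongr; exact le_max_right _ _) hcon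
  have hd0 : 0 < d := lt_of_le_of_lt (by positivity) h2
  have h1' : 4 * (ε * r) < d * r' := by
    have : 4 * (ε * r / r') * r' < d * r' := by gcongr
    have e1 : 4 * (ε * r / r') * r' = 4 * (ε * r) := by field_simp
    linarith
  have hsq : d ^ 2 = 2 - 2 * ⟪e, e'⟫ := by
    have h3 : ‖e - e'‖ ^ 2 = ‖e‖ ^ 2 - 2 * ⟪e, e'⟫ + ‖e'‖ ^ 2 := norm_sub_sq_real e e'
    rw [h.unit, h'.unit] at h3
    rw [hd, h3]
    ring
  have hse : ⟪e, e⟫ = 1 := by rw [real_inner_self_eq_norm_sq, h.unit]; norm_num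
  have hse' : ⟪e', e'⟫ = 1 := by rw [real_inner_self_eq_norm_sq, h'.unit]; norm_num
  have e1 : x + (r' / 2 / d) • (e' - e) - x = (r' / 2 / d) • (e' - e) := by abel
  have hb : x + (r' / 2 / d) • (e' - e) ∈ ball x r' := by
    rw [mem_ball, dist_eq_norm, e1, norm_smul, norm_sub_rev, ← hd, Real.norm_of_nonneg (by positivity)]
    have : r' / 2 / d * d = r' / 2 := by field_simp
    linarith
  have a1 : u (x + (r' / 2 / d) • (e' - e)) ≤ -(7 / 8) := by
    refine h'.above _ hb ?_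
    rw [e1, inner_smul_left, inner_sub_left, hse']
    simp only [conj_trivial]
    have e2 : r' / 2 / d * (1 - ⟪e, e'⟫) = r' * d / 4 := by
      have : 1 - ⟪e, e'⟫ = d ^ 2 / 2 := by linarith
      rw [this]
      field_simp
      ring
    rw [e2]
    nlinarith
  have a2 : 7 / 8 ≤ u (x + (r' / 2 / d) • (e' - e)) := by
    refine h.below _ (ball_subset_ball hrr hb) ?_
    rw [e1, inner_smul_left, inner_sub_left, hse, real_inner_comm]
    simp only [conj_trivial]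
    have e2 : r' / 2 / d * (⟪e, e'⟫ - 1) = -(r' * d / 4) := by
      have : ⟪e, e'⟫ - 1 = -(d ^ 2 / 2) := by linarith
      rw [this]
      field_simp
      ring
    rw [e2]
    nlinarith
  linarith

/-- a flat function has a zero on every vertical segment through the slab:
if `‖p‖² + (2 ε r)² < r²`, `⟪p,e⟫ = 0`, there is `t`, `|t| ≤ ε r`, with `u (x + p + t e) = 0`. -/
theorem DfFlatU.dfg_exists_zero {u : DgE m → ℝ} (hu : Continuous u) {x : DgE m} {r ε : ℝ} {e : DgE m}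
    (h : DfFlatU u x r ε e) (hr : 0 < r) (hε : 0 ≤ ε) {p : DgE m} (hp : ⟪p, e⟫ = 0)
    (hpr : ‖p‖ ^ 2 + (2 * ε * r) ^ 2 < r ^ 2) :
    ∃ t : ℝ, |t| ≤ ε * r ∧ u (x + p + t • e) = 0 := by
  have hεr : 0 ≤ ε * r := by positivity
  have hse : ⟪e, e⟫ = 1 := by rw [real_inner_self_eq_norm_sq, h.unit]; norm_num
  set q := r ^ 2 - ‖p‖ ^ 2 with hq
  have hq1 : (2 * ε * r) ^ 2 < q := by linarith
  have hq0 : 0 < q := lt_of_le_of_lt (by positivity) hq1
  set s := Real.sqrt q with hs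
  have hs2 : s ^ 2 = q := Real.sq_sqrt hq0.le
  have hs0 : 0 < s := Real.sqrt_pos.2 hq0
  have hs1 : 2 * (ε * r) < s := by
    have : (2 * (ε * r)) ^ 2 < s ^ 2 := by rw [hs2]; calc _ = (2 * ε * r) ^ 2 := by ring
      _ < q := hq1
    exact lt_of_pow_lt_pow_left₀ 2 hs0.le this
  set a := (ε * r + s) / 2 with ha
  have ha1 : ε * r < a := by rw [ha]; linarith
  have ha2 : a < s := by rw [ha]; linarith
  have ha0 : 0 < a := lt_of_le_of_lt hεr ha1
  have hball : ∀ t : ℝ, |t| ≤ a → x + p + t • e ∈ ball x r := by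
    intro t ht
    have e1 : x + p + t • e - x = p + t • e := by abel
    rw [mem_ball, dist_eq_norm, e1]
    have h1 : ‖p + t • e‖ ^ 2 = ‖p‖ ^ 2 + t ^ 2 := by
      rw [norm_add_sq_real, inner_smul_right, hp, norm_smul, h.unit, Real.norm_eq_abs, mul_one, sq_abs]
      ring
    have h2 : t ^ 2 ≤ a ^ 2 := sq_le_sq' (by have := (abs_le.1 ht).1; linarith) (abs_le.1 ht).2
    have h3 : a ^ 2 < s ^ 2 := by gcongr
    have h4 : ‖p + t • e‖ ^ 2 < r ^ 2 := by rw [h1]; linarith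
    exact lt_of_pow_lt_pow_left₀ 2 hr.le h4
  have hinn : ∀ t : ℝ, ⟪x + p + t • e - x, e⟫ = t := by
    intro t
    have e1 : x + p + t • e - x = p + t • e := by abel
    rw [e1, inner_add_left, hp, inner_smul_left, hse]
    simp
  have hcont : Continuous (fun t : ℝ => u (x + p + t • e)) := by fun_prop
  have hlo : 7 / 8 ≤ u (x + p + (-a) • e) :=
    h.below _ (hball _ (by rw [abs_neg, abs_of_pos ha0])) (by rw [hinn]; linarith)
  have hhi : u (x + p + a • e) ≤ -(7 / 8) :=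
    h.above _ (hball _ (by rw [abs_of_pos ha0])) (by rw [hinn]; exact ha1)
  obtain ⟨t, ht, ht0⟩ := intermediate_value_Icc' (by linarith : -a ≤ a) hcont.continuousOn
    (show (0 : ℝ) ∈ Icc (u (x + p + a • e)) (u (x + p + (-a) • e)) from ⟨by linarith, by linarith⟩)
  have ht0' : u (x + p + t • e) = 0 := ht0
  refine ⟨t, ?_, ht0'⟩
  have hI : x + p + t • e ∈ dfgI7 u := by rw [dfg_mem_I7, ht0']; norm_num
  have := h.dfg_bd_slab hI (hball t (abs_le.2 ht))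
  rwa [hinn] at this

/-! ### back from the unit scale; the step at all scales -/

/-- **back from the unit scale** (port of the end of `fl_step_unit_AM` and of `fl_step_AM`). -/
theorem dfg_back {u : E (n + 1) → ℝ} (hu : Continuous u) {x₀ e : E (n + 1)} {r η τ C₁ : ℝ} (hr : 0 < r) (hη : 0 < η)
    (hτ : 0 < τ) (hτ8 : τ ≤ 1 / 8) (hC : 8 * C₁ * η ≤ 1) (hητ : 8 * η ≤ τ ^ 2)
    (hfl : DfFlatU u x₀ r η e) (L : E (n + 1) ≃ₗᵢ[ℝ] E (n + 1)) (hL : L e = gmtEn n) {p : E n}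
    (hp : ‖p‖ ≤ C₁ * (4 * η))
    (hbd : ∀ y ∈ ball (0 : E (n + 1)) (4 * τ ^ 2), |u (x₀ + (r / 4) • L.symm y)| ≤ 7 / 8 →
      |gmtVer y - ⟪p, gmtHor y⟫| ≤ 4 * η * τ ^ 3) :
    ∃ e' : E (n + 1), ‖e' - e‖ ≤ 8 * C₁ * η ∧ DfFlatU u x₀ (τ ^ 2 * r) (τ * η) e' := by
  have hr4 : 0 < r / 4 := by positivity
  have h4 : DfFlatU (dfgBlow L x₀ (r / 4) u) 0 4 η (gmtEn n) := by
    have := hfl.dfg_blow_isometry L hr4
    rw [hL] at this
    have e1 : r / (r / 4) = 4 := by field_simp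
    rwa [e1] at this
  obtain ⟨e'', he'', hee, hin⟩ := fl_tilt p
  have hee' : ‖e'' - gmtEn n‖ ≤ 8 * C₁ * η := by linarith
  have hτ2 : τ ^ 2 ≤ 1 / 64 := by nlinarith
  have hτ2' : 0 < τ ^ 2 := by positivity
  have hfl'' : DfFlatU (dfgBlow L x₀ (r / 4) u) 0 (4 * τ ^ 2) (τ * η) e'' := by
    refine dfg_flat_of_bd7 (dfgBlow_continuous L x₀ (r / 4) hu) h4 he'' (by positivity) (by linarith) (by nlinarith) ?_ ?_ ?_
    · rw [norm_sub_rev]
      exact hee'.trans hC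
    · linarith
    · intro y hy hyr
      rw [sub_zero]
      have hy' : |u (x₀ + (r / 4) • L.symm y)| ≤ 7 / 8 := (dfg_mem_I7.1 hy).le
      refine (hin y).trans ((hbd y hyr hy').trans (le_of_eq ?_))
      ring
  refine ⟨L.symm e'', ?_, ?_⟩
  · have : L.symm e'' - e = L.symm (e'' - gmtEn n) := by
      rw [map_sub, ← hL, L.symm_apply_apply]
    rw [this, L.symm.norm_map]
    exact hee'
  · have := DfFlatU.dfg_of_blow_isometry L hr4 hfl''
    have e1 : 4 * τ ^ 2 * (r / 4) = τ ^ 2 * r := by ring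
    rwa [e1] at this

/-- contract of helper47 (`DfScale.lean`), in the words of ORDER C6-5: the unit scale hypotheses hold in the class `DfClass`. -/
def DfgUnitOf (n : ℕ) (K c₀ : ℝ) : Prop :=
  ∀ (u : E (n + 1) → ℝ) (x₀ e : E (n + 1)) (r ε : ℝ) (L : E (n + 1) ≃ₗᵢ[ℝ] E (n + 1)), DfClass n K c₀ u →
    DfFlatU u x₀ r ε e → L e = gmtEn n → 0 < r → 0 < ε → 4 * ε ≤ 1 / 8 → 4 / r ≤ (4 * ε) ^ 2 →
      DfUnit n (4 / r) (4 * ε) (K / dfS0) (c₀ / dfS0) 1 (fun y => u (x₀ + (r / 4) • L.symm y))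

/-- contract of helper298 (`DfStep.lean`): the conclusion of `df_unit_step n hn K c₀ r₀ hK hc hr`, verbatim. -/
def DfgUnitStep (n : ℕ) (K c₀ r₀ : ℝ) : Prop :=
  ∃ τ ε₀ c₁ C₁ : ℝ, 0 < τ ∧ τ ≤ 1 / 8 ∧ 0 < ε₀ ∧ 0 < c₁ ∧ 0 < C₁ ∧
    ∀ (w ε : ℝ) (v : E (n + 1) → ℝ), DfUnit n w ε K c₀ r₀ v → ε ≤ ε₀ → w ≤ c₁ * ε ^ 2 → |v 0| ≤ 7 / 8 →
      ∃ p : E n, ‖p‖ ≤ C₁ * ε ∧ ∀ y ∈ ball (0 : E (n + 1)) (4 * τ ^ 2), |v y| ≤ 7 / 8 →
        |gmtVer y - ⟪p, gmtHor y⟫| ≤ ε * τ ^ 3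

/-- **improvement of flatness, all scales, all interface centres, all directions** (port of `fl_step_AM`). -/
theorem dfg_step_of {n : ℕ} {K c₀ : ℝ} (hunit : DfgUnitOf n K c₀) (hstep : DfgUnitStep n (K / dfS0) (c₀ / dfS0) 1) :
    ∃ τ η₀ c₁ C₁ : ℝ, 0 < τ ∧ τ ≤ 1 / 8 ∧ 0 < η₀ ∧ 0 < c₁ ∧ 0 < C₁ ∧
      ∀ (u : E (n + 1) → ℝ) (x₀ e : E (n + 1)) (r η : ℝ), DfClass n K c₀ u → |u x₀| ≤ 7 / 8 → 0 < r → 0 < η → η ≤ η₀ →
        4 / r ≤ c₁ * η ^ 2 → DfFlatU u x₀ r η e →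
          ∃ e' : E (n + 1), ‖e' - e‖ ≤ C₁ * η ∧ DfFlatU u x₀ (τ ^ 2 * r) (τ * η) e' := by
  obtain ⟨τ, ε₀, c₁, C₁, hτ, hτ8, hε₀, hc₁, hC₁, H⟩ := hstep
  obtain ⟨c₁', hc₁'0, hc₁'1, hc₁'2⟩ : ∃ c : ℝ, 0 < c ∧ c ≤ 16 ∧ c ≤ 16 * c₁ :=
    ⟨min 16 (16 * c₁), lt_min (by norm_num) (by positivity), min_le_left _ _, min_le_right _ _⟩
  obtain ⟨η₀, hη₀, h1, h2, h3, h4⟩ : ∃ η₀ : ℝ, 0 < η₀ ∧ η₀ ≤ 1 / 32 ∧ η₀ ≤ ε₀ / 4 ∧ η₀ ≤ 1 / (8 * C₁) ∧ η₀ ≤ τ ^ 2 / 8 := by
    refine ⟨min (1 / 32) (min (ε₀ / 4) (min (1 / (8 * C₁)) (τ ^ 2 / 8))), ?_, min_le_left _ _,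
      (min_le_right _ _).trans (min_le_left _ _),
      (min_le_right _ _).trans ((min_le_right _ _).trans (min_le_left _ _)),
      (min_le_right _ _).trans ((min_le_right _ _).trans (min_le_right _ _))⟩
    exact lt_min (by norm_num) (lt_min (by positivity) (lt_min (by positivity) (by positivity)))
  refine ⟨τ, η₀, c₁', 8 * C₁, hτ, hτ8, hη₀, hc₁'0, by positivity, ?_⟩
  intro u x₀ e r η hcl hx₀ hr hη hηη₀ hw hfl
  obtain ⟨L, hL⟩ := fl_exists_rot hfl.unit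
  have hη2 : 0 ≤ η ^ 2 := sq_nonneg η
  have hw1 : 4 / r ≤ (4 * η) ^ 2 := by
    have : c₁' * η ^ 2 ≤ 16 * η ^ 2 := mul_le_mul_of_nonneg_right hc₁'1 hη2
    nlinarith
  have hw2 : 4 / r ≤ c₁ * (4 * η) ^ 2 := by
    have : c₁' * η ^ 2 ≤ 16 * c₁ * η ^ 2 := mul_le_mul_of_nonneg_right hc₁'2 hη2
    nlinarith
  have HU := hunit u x₀ e r η L hcl hfl hL hr hη (by linarith) hw1
  have h0 : |(fun y => u (x₀ + (r / 4) • L.symm y)) 0| ≤ 7 / 8 := by
    simpa using hx₀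
  obtain ⟨p, hp, hbd⟩ := H (4 / r) (4 * η) _ HU (by linarith) hw2 h0
  refine dfg_back hcl.smooth.continuous hr hη hτ hτ8 ?_ (by linarith) hfl L hL hp hbd
  have := mul_le_mul_of_nonneg_left (hηη₀.trans h3) (by positivity : 0 ≤ 8 * C₁)
  rwa [mul_one_div_cancel (by positivity)] at this

/-- the flatness of `DfIter.lean` at the threshold `7/8` is `DfFlatU`. -/
theorem dfg_It_iff {N : ℕ} (u : E N → ℝ) (x₀ : E N) (r ε : ℝ) (e : E N) :
    dgIt_Flat (7 / 8) u x₀ r ε e ↔ DfFlatU u x₀ r ε e :=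
  ⟨fun h => ⟨h.1, fun x hx => (h.2 x hx).1, fun x hx => (h.2 x hx).2⟩,
    fun h => ⟨h.unit, fun x hx => ⟨h.below x hx, h.above x hx⟩⟩⟩

/-- **the step in the words of `DfIter.lean`** (`hstep` of `dgIt_exit_FEF`, with `θ = τ²`). -/
theorem dfg_step_It {n : ℕ} {K c₀ : ℝ} (hunit : DfgUnitOf n K c₀) (hstep : DfgUnitStep n (K / dfS0) (c₀ / dfS0) 1) :
    ∃ θ ε₀ c₁ : ℝ, 0 < θ ∧ θ < 1 ∧ 0 < ε₀ ∧ 0 < c₁ ∧ ∀ u : E (n + 1) → ℝ, DfClass n K c₀ u →
      ∀ x₀, |u x₀| < 7 / 8 → ∀ r ε e, 0 < r → 0 < ε → ε ≤ ε₀ → 4 / r ≤ c₁ * ε ^ 2 →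
        dgIt_Flat (7 / 8) u x₀ r ε e → ∃ e', dgIt_Flat (7 / 8) u x₀ (θ * r) (ε / 2) e' := by
  obtain ⟨τ, η₀, c₁, C₁, hτ, hτ8, hη₀, hc₁, -, H⟩ := dfg_step_of hunit hstep
  refine ⟨τ ^ 2, η₀, c₁, by positivity, by nlinarith, hη₀, hc₁, ?_⟩
  intro u hcl x₀ hx₀ r ε e hr hε hεε₀ hw hfl
  obtain ⟨e', -, hfl'⟩ := H u x₀ e r ε hcl hx₀.le hr hε hεε₀ hw ((dfg_It_iff u x₀ r ε e).1 hfl)
  exact ⟨e', (dfg_It_iff u x₀ _ _ e').2 (hfl'.dfg_mono (by positivity) (by nlinarith))⟩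

/-- **the single contract `dgHub_K7s` of the Hub (THE STEP), for every `n`**, from the two contracts.  If `K < 0` or `c₀ ≤ 0` the class is empty. -/
theorem dfg_K7s_of {n : ℕ} {K c₀ : ℝ} (hunit : DfgUnitOf n K c₀)
    (hstep : 0 ≤ K → 0 < c₀ → DfgUnitStep n (K / dfS0) (c₀ / dfS0) 1) :
    ∃ θ ε₀ c₁ : ℝ, 0 < θ ∧ θ < 1 ∧ 0 < ε₀ ∧ 0 < c₁ ∧ ∀ u : E (n + 1) → ℝ, DfClass n K c₀ u →
      ∀ x₀ : E (n + 1), |u x₀| < 7 / 8 → ∀ (r ε : ℝ) (e : E (n + 1)), 0 < r → 0 < ε → ε ≤ ε₀ → 4 / r ≤ c₁ * ε ^ 2 →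
        DfFlatU u x₀ r ε e → ∃ e' : E (n + 1), DfFlatU u x₀ (θ * r) (ε / 2) e' := by
  by_cases h : 0 ≤ K ∧ 0 < c₀
  · obtain ⟨τ, η₀, c₁, C₁, hτ, hτ8, hη₀, hc₁, -, H⟩ := dfg_step_of hunit (hstep h.1 h.2)
    refine ⟨τ ^ 2, η₀, c₁, by positivity, by nlinarith, hη₀, hc₁, ?_⟩
    intro u hcl x₀ hx₀ r ε e hr hε hεε₀ hw hfl
    obtain ⟨e', -, hfl'⟩ := H u x₀ e r ε hcl hx₀.le hr hε hεε₀ hw hfl
    exact ⟨e', hfl'.dfg_mono (by positivity) (by nlinarith)⟩
  · exact ⟨1 / 2, 1, 1, by norm_num, by norm_num, one_pos, one_pos, fun u hcl => absurd ⟨hcl.hK, hcl.hc⟩ h⟩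

end Claimed.Agent.R329
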