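import Claimed.Agent.R329.LapApi
import Claimed.Agent.R329.Base258

/-!
# Row 329, post A20 (pen: helper178, prefix `dgX_`): exponential decay off the interface.

* `dgX_lap_nonpos_of_isLocalMax`, `dgX_lap_sum`: small tools;
* `dgX_compare`: comparison on a ball for `Δ w ≥ c w` (where `w > 0`) against a nonnegative supersolution `Δ h ≤ c h`;
* `dgX_net`: a finite net of directions: every `y ≠ 0` has `(1 - δ) ‖y‖ ≤ ⟪ω, y⟫` for some `ω` of the net;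
* `dgX_decay`: `Δ w ≥ c w` where `w > 0`, `w ≤ M` on `∂B_r(x₀)`, `λ² < c`   ⟹   `w x₀ ≤ C M e^{-λ r}`, `C = C(W, c, λ)`;
* `dgX_nonpos_of_bddAbove`: maximum principle on the whole space: `w ≤ M`, `Δ w ≥ c w` where `w > 0`   ⟹   `w ≤ 0`;
* `dgX_order`: comparison away from the interface (engine of the sliding method): two solutions with `θ ≤ u₂` or `u₁ ≤ -θ` wherever
  `u₂ < u₁` (`3 θ² > 1`) satisfy `u₁ ≤ u₂`;
* EXITS for solutions (`θ ∈ (0, 1]`, `λ² < θ (1 + θ)`, `C = C(n, θ, λ)`):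
  `dgX_one_sub_le` (`θ ≤ u` on `B_r(x₀)` ⟹ `1 - u x₀ ≤ C e^{-λ r}`), `dgX_one_add_le` (mirror), `dgX_one_sub_abs_le` (`θ ≤ |u|`),
  `dgX_all_le` (one constant: `1 - |u| ≤ C e^{-λ r}`, `1 - u² ≤ 2 C e^{-λ r}`, `|∇u| ≤ √2 C e^{-λ r}`, `W(u) ≤ C² e^{-2 λ r}`,
  `dgDens ≤ 2 C² e^{-2 λ r}`, by Modica's bound `dg258_exit_modica`); `dgX_sign_on_ball`.
-/

set_option autoImplicit false
set_option linter.unusedSectionVars false

open scoped RealInnerProductSpace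
open MeasureTheory Metric Set Filter Topology

namespace Claimed.Agent.R329

open Claimed.Agent.Lib.Ell

section General

variable {W : Type} [NormedAddCommGroup W] [InnerProductSpace ℝ W] [FiniteDimensional ℝ W]

theorem dgX_lap_nonpos_of_isLocalMax {u : W → ℝ} {x : W} (hu : ContDiffAt ℝ 2 u x) (hmax : IsLocalMax u x) :
    Laplacian.laplacian u x ≤ 0 := by
  rw [dgL_lap_eq_sum (stdOrthonormalBasis ℝ W)]
  exact Finset.sum_nonpos fun i _ => ell_d2_nonpos_of_isLocalMax hu hmax _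

theorem dgX_lap_sum {ι : Type} (s : Finset ι) {f : ι → W → ℝ} {x : W} (hf : ∀ i ∈ s, ContDiffAt ℝ 2 (f i) x) :
    Laplacian.laplacian (fun y => ∑ i ∈ s, f i y) x = ∑ i ∈ s, Laplacian.laplacian (f i) x := by
  classical
  induction s using Finset.induction_on with
  | empty => simp [dgL_lap_const (W := W) 0 x]
  | insert a s ha ih =>
    have h1 : ∀ i ∈ s, ContDiffAt ℝ 2 (f i) x := fun i hi => hf i (Finset.mem_insert_of_mem hi)
    have h2 : ContDiffAt ℝ 2 (fun y => ∑ i ∈ s, f i y) x := ContDiffAt.sum h1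
    have h3 : (fun y => ∑ i ∈ insert a s, f i y) = fun y => f a y + ∑ i ∈ s, f i y := by
      funext y; rw [Finset.sum_insert ha]
    rw [h3, dgL_lap_add (hf a (Finset.mem_insert_self a s)) h2, ih h1, Finset.sum_insert ha]

/-- Comparison on a ball. -/
theorem dgX_compare {c : ℝ} (hc : 0 < c) {w h : W → ℝ} {x₀ : W} {r : ℝ}
    (hwc : ContinuousOn w (closedBall x₀ r)) (hw : ∀ y ∈ ball x₀ r, ContDiffAt ℝ 2 w y)
    (hhc : ContinuousOn h (closedBall x₀ r)) (hh : ∀ y ∈ ball x₀ r, ContDiffAt ℝ 2 h y)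
    (hsub : ∀ y ∈ ball x₀ r, 0 < w y → c * w y ≤ Laplacian.laplacian w y)
    (hsup : ∀ y ∈ ball x₀ r, Laplacian.laplacian h y ≤ c * h y)
    (hpos : ∀ y ∈ ball x₀ r, 0 ≤ h y)
    (hbd : ∀ y ∈ sphere x₀ r, w y ≤ h y) : ∀ y ∈ closedBall x₀ r, w y ≤ h y := by
  intro y hy
  obtain ⟨z, hz, hmax⟩ := (isCompact_closedBall x₀ r).exists_isMaxOn ⟨y, hy⟩ (hwc.sub hhc)
  have hyz : w y - h y ≤ w z - h z := hmax hy
  by_contra hcon
  rw [not_le] at hcon
  have hzpos : 0 < w z - h z := by linarith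
  have hzb : z ∈ ball x₀ r := by
    rcases (mem_closedBall.1 hz).lt_or_eq with h1 | h1
    · exact mem_ball.2 h1
    · exact absurd (hbd z (mem_sphere.2 h1)) (by linarith)
  have hloc : IsLocalMax (fun y => w y - h y) z := by
    have : closedBall x₀ r ∈ 𝓝 z := Filter.mem_of_superset (isOpen_ball.mem_nhds hzb) ball_subset_closedBall
    exact Filter.eventually_of_mem this fun v hv => hmax hv
  have h1 := dgX_lap_nonpos_of_isLocalMax ((hw z hzb).sub (hh z hzb)) hloc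
  rw [dgL_lap_sub (hw z hzb) (hh z hzb)] at h1
  have h2 := hsub z hzb (by linarith [hpos z hzb])
  have h3 := hsup z hzb
  nlinarith

/-- A finite net of directions. -/
theorem dgX_net {δ : ℝ} (hδ : 0 < δ) : ∃ Ω : Finset W, (∀ ω ∈ Ω, ‖ω‖ = 1) ∧
    ∀ y : W, y ≠ 0 → ∃ ω ∈ Ω, (1 - δ) * ‖y‖ ≤ ⟪ω, y⟫ := by
  obtain ⟨t, hts, htf, hcov⟩ := (isCompact_sphere (0 : W) 1).finite_cover_balls hδ
  refine ⟨htf.toFinset, fun ω hω => by simpa using hts (htf.mem_toFinset.1 hω), fun y hy => ?_⟩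
  have hy0 : 0 < ‖y‖ := norm_pos_iff.2 hy
  set z : W := (‖y‖)⁻¹ • y with hz
  have hz1 : ‖z‖ = 1 := by rw [hz, norm_smul, norm_inv, norm_norm, inv_mul_cancel₀ hy0.ne']
  have hzs : z ∈ sphere (0 : W) 1 := by simpa using hz1
  obtain ⟨ω, hω, hzω⟩ := mem_iUnion₂.1 (hcov hzs)
  refine ⟨ω, htf.mem_toFinset.2 hω, ?_⟩
  have h1 : ‖z - ω‖ < δ := by simpa [dist_eq_norm] using hzω
  have h2 : ⟪ω, z⟫ = 1 - ⟪z - ω, z⟫ := by
    rw [inner_sub_left, real_inner_self_eq_norm_sq, hz1]; ring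
  have h3 : ⟪z - ω, z⟫ ≤ ‖z - ω‖ * ‖z‖ := real_inner_le_norm _ _
  have h4 : 1 - δ ≤ ⟪ω, z⟫ := by rw [h2, hz1] at *; linarith
  have h5 : y = ‖y‖ • z := by rw [hz, smul_smul, mul_inv_cancel₀ hy0.ne', one_smul]
  calc (1 - δ) * ‖y‖ ≤ ⟪ω, z⟫ * ‖y‖ := mul_le_mul_of_nonneg_right h4 hy0.le
    _ = ⟪ω, y⟫ := by conv_rhs => rw [h5, inner_smul_right]
                     ring

/-- The barrier `∑_ω cosh (λ ⟪ω, y - x₀⟫)`. -/
noncomputable def dgX_bar (Ω : Finset W) (lam : ℝ) (x₀ y : W) : ℝ :=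
  ∑ ω ∈ Ω, Real.cosh (⟪lam • ω, y⟫ - ⟪lam • ω, x₀⟫)

theorem dgX_bar_contDiff (Ω : Finset W) (lam : ℝ) (x₀ : W) : ContDiff ℝ 2 (dgX_bar Ω lam x₀) := by
  unfold dgX_bar
  exact ContDiff.sum fun ω _ => Real.contDiff_cosh.comp (dgL_contDiff_aff _ _)

theorem dgX_bar_lap (Ω : Finset W) (hΩ : ∀ ω ∈ Ω, ‖ω‖ = 1) (lam : ℝ) (x₀ y : W) :
    Laplacian.laplacian (dgX_bar Ω lam x₀) y = lam ^ 2 * dgX_bar Ω lam x₀ y := by
  unfold dgX_bar
  rw [dgX_lap_sum (f := fun ω y => Real.cosh (⟪lam • ω, y⟫ - ⟪lam • ω, x₀⟫)) Ω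
    fun ω _ => (Real.contDiff_cosh.comp (dgL_contDiff_aff _ _)).contDiffAt, Finset.mul_sum]
  refine Finset.sum_congr rfl fun ω hω => ?_
  rw [dgL_lap_ridge (h := Real.cosh) _ _ _ Real.contDiff_cosh.contDiffAt, Real.deriv_cosh, Real.deriv_sinh, norm_smul,
    hΩ ω hω, mul_one, Real.norm_eq_abs, sq_abs]

theorem dgX_bar_nonneg (Ω : Finset W) (lam : ℝ) (x₀ y : W) : 0 ≤ dgX_bar Ω lam x₀ y :=
  Finset.sum_nonneg fun _ _ => (Real.cosh_pos _).le

theorem dgX_bar_center (Ω : Finset W) (lam : ℝ) (x₀ : W) : dgX_bar Ω lam x₀ x₀ = Ω.card := by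
  unfold dgX_bar
  simp

/-- **Exponential decay.** -/
theorem dgX_decay {c lam : ℝ} (hlam : 0 < lam) (hc : lam ^ 2 < c) : ∃ C : ℝ, 0 < C ∧
    ∀ (w : W → ℝ) (x₀ : W) (r M : ℝ), 0 < r → 0 ≤ M → ContinuousOn w (closedBall x₀ r) →
      (∀ y ∈ ball x₀ r, ContDiffAt ℝ 2 w y) →
      (∀ y ∈ ball x₀ r, 0 < w y → c * w y ≤ Laplacian.laplacian w y) →
      (∀ y ∈ sphere x₀ r, w y ≤ M) → w x₀ ≤ C * M * Real.exp (-(lam * r)) := by
  have hc0 : 0 < c := lt_of_le_of_lt (sq_nonneg lam) hc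
  set s : ℝ := Real.sqrt c with hs
  have hs0 : 0 < s := Real.sqrt_pos.2 hc0
  have hs2 : s ^ 2 = c := Real.sq_sqrt hc0.le
  have hls : lam < s := by
    rw [hs]; exact Real.lt_sqrt_of_sq_lt hc
  have hδ : 0 < 1 - lam / s := by
    have : lam / s < 1 := (div_lt_one hs0).2 hls
    linarith
  obtain ⟨Ω, hΩ, hnet⟩ := dgX_net (W := W) hδ
  refine ⟨2 * Ω.card + 1, by positivity, fun w x₀ r M hr hM hwc hw hsub hbd => ?_⟩
  set K : ℝ := Real.cosh (lam * r) with hK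
  have hK0 : 0 < K := Real.cosh_pos _
  set h : W → ℝ := fun y => M / K * dgX_bar Ω s x₀ y with hh
  have hcd : ContDiff ℝ 2 h := contDiff_const.mul (dgX_bar_contDiff Ω s x₀)
  have hMK : 0 ≤ M / K := div_nonneg hM hK0.le
  have key := dgX_compare hc0 hwc hw hcd.continuous.continuousOn (fun y _ => hcd.contDiffAt) hsub
    (fun y _ => by
      rw [hh, dgL_lap_const_mul _ (dgX_bar_contDiff Ω s x₀).contDiffAt, dgX_bar_lap Ω hΩ, hs2]
      exact le_of_eq (by ring))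
    (fun y _ => mul_nonneg hMK (dgX_bar_nonneg _ _ _ _))
    (fun y hy => by
      have hy1 : ‖y - x₀‖ = r := by simpa [dist_eq_norm] using hy
      have hy0 : y - x₀ ≠ 0 := by
        intro h0; rw [h0, norm_zero] at hy1; linarith
      obtain ⟨ω, hω, hωy⟩ := hnet _ hy0
      have e1 : (1 - (1 - lam / s)) * ‖y - x₀‖ = lam * r / s := by rw [hy1]; ring
      rw [e1] at hωy
      have e2 : ⟪s • ω, y⟫ - ⟪s • ω, x₀⟫ = s * ⟪ω, y - x₀⟫ := by
        rw [inner_smul_left, inner_smul_left, inner_sub_right]; simp; ring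
      have e3 : lam * r ≤ s * ⟪ω, y - x₀⟫ := by
        have := mul_le_mul_of_nonneg_left hωy hs0.le
        rwa [mul_div_cancel₀ _ hs0.ne'] at this
      have e4 : K ≤ Real.cosh (⟪s • ω, y⟫ - ⟪s • ω, x₀⟫) := by
        rw [e2, hK, Real.cosh_le_cosh, abs_of_pos (by positivity)]
        exact e3.trans (le_abs_self _)
      have e5 : Real.cosh (⟪s • ω, y⟫ - ⟪s • ω, x₀⟫) ≤ dgX_bar Ω s x₀ y :=
        Finset.single_le_sum (f := fun ω => Real.cosh (⟪s • ω, y⟫ - ⟪s • ω, x₀⟫))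
          (fun _ _ => (Real.cosh_pos _).le) hω
      calc w y ≤ M := hbd y hy
        _ = M / K * K := by field_simp
        _ ≤ M / K * dgX_bar Ω s x₀ y := mul_le_mul_of_nonneg_left (e4.trans e5) hMK)
    x₀ (mem_closedBall_self hr.le)
  rw [hh] at key
  simp only [dgX_bar_center] at key
  have hK2 : Real.exp (lam * r) / 2 ≤ K := by
    rw [hK, Real.cosh_eq]
    have := Real.exp_pos (-(lam * r))
    linarith
  have hinv : 1 / K ≤ 2 * Real.exp (-(lam * r)) := by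
    rw [Real.exp_neg, div_le_iff₀ hK0]
    have he := Real.exp_pos (lam * r)
    have : 2 * (Real.exp (lam * r))⁻¹ * (Real.exp (lam * r) / 2) = 1 := by field_simp
    calc (1 : ℝ) = 2 * (Real.exp (lam * r))⁻¹ * (Real.exp (lam * r) / 2) := this.symm
      _ ≤ 2 * (Real.exp (lam * r))⁻¹ * K := mul_le_mul_of_nonneg_left hK2 (by positivity)
  have hexp := Real.exp_pos (-(lam * r))
  calc w x₀ ≤ M / K * Ω.card := key
    _ = (M * Ω.card) * (1 / K) := by ring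
    _ ≤ (M * Ω.card) * (2 * Real.exp (-(lam * r))) := mul_le_mul_of_nonneg_left hinv (by positivity)
    _ ≤ (2 * Ω.card + 1) * M * Real.exp (-(lam * r)) := by
      have : 0 ≤ M * Real.exp (-(lam * r)) := by positivity
      nlinarith

/-- **Maximum principle on the whole space** (no decay, no boundary): a `C²` function bounded above with `Δ w ≥ c w` wherever `w > 0`
is nonpositive. -/
theorem dgX_nonpos_of_bddAbove {c : ℝ} (hc : 0 < c) {w : W → ℝ} (hw : ContDiff ℝ 2 w) {M : ℝ} (hM : ∀ y, w y ≤ M)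
    (hsub : ∀ y, 0 < w y → c * w y ≤ Laplacian.laplacian w y) : ∀ y, w y ≤ 0 := by
  intro x₀
  set lam : ℝ := Real.sqrt c / 2 with hl
  have hs0 : 0 < Real.sqrt c := Real.sqrt_pos.2 hc
  have hlam : 0 < lam := by positivity
  have hlc : lam ^ 2 < c := by
    have : Real.sqrt c ^ 2 = c := Real.sq_sqrt hc.le
    rw [hl, div_pow, this]; linarith
  obtain ⟨C, hC, h⟩ := dgX_decay (W := W) hlam hlc
  have hb : ∀ r : ℝ, 0 < r → w x₀ ≤ C * |M| * Real.exp (-(lam * r)) := fun r hr =>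
    h w x₀ r |M| hr (abs_nonneg M) hw.continuous.continuousOn (fun y _ => hw.contDiffAt) (fun y _ => hsub y)
      (fun y _ => (hM y).trans (le_abs_self M))
  have ht : Tendsto (fun r : ℝ => C * |M| * Real.exp (-(lam * r))) atTop (𝓝 (C * |M| * 0)) := by
    refine Tendsto.const_mul _ ?_
    refine Real.tendsto_exp_atBot.comp ?_
    exact tendsto_neg_atTop_atBot.comp (Tendsto.const_mul_atTop hlam tendsto_id)
  rw [mul_zero] at ht
  exact ge_of_tendsto ht ((eventually_gt_atTop 0).mono hb)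

end General

/-! ## Exits for solutions of the Allen-Cahn equation -/

section AC

variable {n : ℕ}

/-- `θ ≤ u` on `B_r(x₀)` forces `1 - u x₀ ≤ C e^{-λ r}`, for every `λ² < θ (1 + θ)`. -/
theorem dgX_one_sub_le (n : ℕ) {θ lam : ℝ} (hθ : 0 < θ) (hlam : 0 < lam) (hc : lam ^ 2 < θ * (1 + θ)) :
    ∃ C : ℝ, 0 < C ∧ ∀ (u : DgE n → ℝ), DgSol n u → ∀ (x₀ : DgE n) (r : ℝ), 0 < r →
      (∀ y ∈ ball x₀ r, θ ≤ u y) → 1 - u x₀ ≤ C * Real.exp (-(lam * r)) := by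
  obtain ⟨C, hC, h⟩ := dgX_decay (W := DgE n) hlam hc
  refine ⟨C * 2, by positivity, fun u hu x₀ r hr hθu => ?_⟩
  have hcd : ContDiff ℝ 2 (fun y => 1 - u y) := contDiff_const.sub hu.smooth
  refine h (fun y => 1 - u y) x₀ r 2 hr (by norm_num) hcd.continuous.continuousOn (fun y _ => hcd.contDiffAt)
    (fun y hy _ => ?_) (fun y _ => by have := (hu.range y).1; linarith)
  have e1 : Laplacian.laplacian (fun y => 1 - u y) y = -(u y ^ 3 - u y) := by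
    rw [dgL_lap_sub contDiffAt_const hu.smooth.contDiffAt, dgL_lap_const, hu.pde]; ring
  rw [e1]
  have h1 := hθu y hy
  have h2 := (hu.range y).2
  have h3 : θ * (1 + θ) ≤ u y * (1 + u y) := by nlinarith
  have h4 : -(u y ^ 3 - u y) = u y * (1 + u y) * (1 - u y) := by ring
  rw [h4]
  exact mul_le_mul_of_nonneg_right h3 (by linarith)

/-- the mirror statement -/
theorem dgX_one_add_le (n : ℕ) {θ lam : ℝ} (hθ : 0 < θ) (hlam : 0 < lam) (hc : lam ^ 2 < θ * (1 + θ)) :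
    ∃ C : ℝ, 0 < C ∧ ∀ (u : DgE n → ℝ), DgSol n u → ∀ (x₀ : DgE n) (r : ℝ), 0 < r →
      (∀ y ∈ ball x₀ r, u y ≤ -θ) → 1 + u x₀ ≤ C * Real.exp (-(lam * r)) := by
  obtain ⟨C, hC, h⟩ := dgX_one_sub_le n hθ hlam hc
  refine ⟨C, hC, fun u hu x₀ r hr hθu => ?_⟩
  have := h (fun x => - u x) hu.dgL_neg x₀ r hr (fun y hy => by have := hθu y hy; linarith)
  linarith

/-- a continuous function with `θ ≤ |u|` on a ball has a sign there -/
theorem dgX_sign_on_ball {u : DgE n → ℝ} (hu : Continuous u) {θ : ℝ} (hθ : 0 < θ) {x₀ : DgE n} {r : ℝ}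
    (h : ∀ y ∈ ball x₀ r, θ ≤ |u y|) : (∀ y ∈ ball x₀ r, θ ≤ u y) ∨ (∀ y ∈ ball x₀ r, u y ≤ -θ) := by
  by_contra hcon
  rw [not_or] at hcon
  obtain ⟨h1, h2⟩ := hcon
  simp only [not_forall, not_le] at h1 h2
  obtain ⟨y₁, hy₁, h1⟩ := h1
  obtain ⟨y₂, hy₂, h2⟩ := h2
  have a1 : u y₁ ≤ -θ := by
    rcases le_abs'.1 (h y₁ hy₁) with h' | h'
    · exact h'
    · linarith
  have a2 : θ ≤ u y₂ := by
    rcases le_abs'.1 (h y₂ hy₂) with h' | h'
    · linarith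
    · exact h'
  have hpc : IsPreconnected (ball x₀ r) := (convex_ball x₀ r).isPreconnected
  obtain ⟨z, hz, hz0⟩ := hpc.intermediate_value hy₁ hy₂ hu.continuousOn (show (0 : ℝ) ∈ Icc (u y₁) (u y₂) from
    ⟨by linarith, by linarith⟩)
  have := h z hz
  rw [hz0, abs_zero] at this
  linarith

/-- `θ ≤ |u|` on `B_r(x₀)` forces `1 - |u x₀| ≤ C e^{-λ r}`. -/
theorem dgX_one_sub_abs_le (n : ℕ) {θ lam : ℝ} (hθ : 0 < θ) (hlam : 0 < lam) (hc : lam ^ 2 < θ * (1 + θ)) :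
    ∃ C : ℝ, 0 < C ∧ ∀ (u : DgE n → ℝ), DgSol n u → ∀ (x₀ : DgE n) (r : ℝ), 0 < r →
      (∀ y ∈ ball x₀ r, θ ≤ |u y|) → 1 - |u x₀| ≤ C * Real.exp (-(lam * r)) := by
  obtain ⟨C, hC, h⟩ := dgX_one_sub_le n hθ hlam hc
  refine ⟨C, hC, fun u hu x₀ r hr hθu => ?_⟩
  rcases dgX_sign_on_ball hu.smooth.continuous hθ hθu with h1 | h1
  · have := h u hu x₀ r hr h1
    have := le_abs_self (u x₀)
    linarith
  · have := h (fun x => - u x) hu.dgL_neg x₀ r hr (fun y hy => by have := h1 y hy; linarith)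
    have := neg_le_abs (u x₀)
    linarith

/-- `q = 1 - u² ≤ 2 C e^{-λ r}`, `|∇u| ≤ √2 C e^{-λ r}` and `dgDens ≤ 4 C² e^{-2 λ r}` with the SAME constant `C`. -/
theorem dgX_all_le (n : ℕ) {θ lam : ℝ} (hθ : 0 < θ) (hlam : 0 < lam) (hc : lam ^ 2 < θ * (1 + θ)) :
    ∃ C : ℝ, 0 < C ∧ ∀ (u : DgE n → ℝ), DgSol n u → ∀ (x₀ : DgE n) (r : ℝ), 0 < r →
      (∀ y ∈ ball x₀ r, θ ≤ |u y|) →
        1 - |u x₀| ≤ C * Real.exp (-(lam * r)) ∧
        1 - u x₀ ^ 2 ≤ 2 * C * Real.exp (-(lam * r)) ∧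
        ‖fderiv ℝ u x₀‖ ≤ Real.sqrt 2 * C * Real.exp (-(lam * r)) ∧
        dgW (u x₀) ≤ C ^ 2 * Real.exp (-(2 * lam * r)) ∧
        dgDens n u x₀ ≤ 2 * C ^ 2 * Real.exp (-(2 * lam * r)) := by
  obtain ⟨C, hC, h⟩ := dgX_one_sub_abs_le n hθ hlam hc
  refine ⟨C, hC, fun u hu x₀ r hr hθu => ?_⟩
  have h1 := h u hu x₀ r hr hθu
  set E : ℝ := Real.exp (-(lam * r)) with hE
  have hE0 : 0 < E := Real.exp_pos _
  have hEE : Real.exp (-(2 * lam * r)) = E ^ 2 := by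
    rw [hE, ← Real.exp_nat_mul]; congr 1; push_cast; ring
  have ha : |u x₀| ≤ 1 := hu.dgL_abs_le x₀
  have ha0 : 0 ≤ |u x₀| := abs_nonneg _
  have hq : 1 - u x₀ ^ 2 = (1 - |u x₀|) * (1 + |u x₀|) := by
    rw [← sq_abs (u x₀)]; ring
  have hq0 : 0 ≤ 1 - u x₀ ^ 2 := by rw [hq]; exact mul_nonneg (by linarith) (by linarith)
  have hq1 : 1 - u x₀ ^ 2 ≤ 2 * C * E := by
    rw [hq]
    have : (1 - |u x₀|) * (1 + |u x₀|) ≤ (1 - |u x₀|) * 2 := mul_le_mul_of_nonneg_left (by linarith) (by linarith)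
    linarith
  have hW : dgW (u x₀) ≤ C ^ 2 * E ^ 2 := by
    unfold dgW
    have : (1 - u x₀ ^ 2) ^ 2 ≤ (2 * C * E) ^ 2 := pow_le_pow_left₀ hq0 hq1 2
    nlinarith
  have hs2 : 0 < Real.sqrt 2 := dgL_sqrt2_pos
  refine ⟨h1, hq1, ?_, by rw [hEE]; exact hW, ?_⟩
  · refine (dg258_exit_modica_norm hu x₀).trans ?_
    rw [div_le_iff₀ hs2]
    have : Real.sqrt 2 * C * E * Real.sqrt 2 = 2 * C * E := by
      have := dgL_sqrt2_sq
      calc Real.sqrt 2 * C * E * Real.sqrt 2 = (Real.sqrt 2 * Real.sqrt 2) * C * E := by ring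
        _ = 2 * C * E := by rw [this]
    rw [this]; exact hq1
  · rw [hEE]
    unfold dgDens
    have := dg258_exit_modica hu x₀
    linarith

/-- **Comparison away from the interface** (the engine of the sliding method; no decay at infinity is assumed).  If at every point where
`u₂ < u₁` both values lie in the same convexity region of `W` (`θ ≤ u₂`, or `u₁ ≤ -θ`, with `3 θ² > 1`), then `u₁ ≤ u₂` everywhere. -/
theorem dgX_order {u₁ u₂ : DgE n → ℝ} (h₁ : DgSol n u₁) (h₂ : DgSol n u₂) {θ : ℝ} (hθ0 : 0 ≤ θ) (hθ : 1 < 3 * θ ^ 2)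
    (h : ∀ x, u₂ x < u₁ x → θ ≤ u₂ x ∨ u₁ x ≤ -θ) : ∀ x, u₁ x ≤ u₂ x := by
  have hcd : ContDiff ℝ 2 (fun y => u₁ y - u₂ y) := h₁.smooth.sub h₂.smooth
  have key := dgX_nonpos_of_bddAbove (W := DgE n) (c := 3 * θ ^ 2 - 1) (by linarith) hcd (M := 2)
    (fun y => by have := (h₁.range y).2; have := (h₂.range y).1; linarith)
    (fun y hy => by
      rw [dgL_lap_sub h₁.smooth.contDiffAt h₂.smooth.contDiffAt, h₁.pde, h₂.pde]
      have e : u₁ y ^ 3 - u₁ y - (u₂ y ^ 3 - u₂ y) = (u₁ y ^ 2 + u₁ y * u₂ y + u₂ y ^ 2 - 1) * (u₁ y - u₂ y) := by ring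
      rw [e]
      refine mul_le_mul_of_nonneg_right ?_ hy.le
      have hlt : u₂ y < u₁ y := by linarith
      rcases h y hlt with h' | h'
      · have a1 : θ ≤ u₁ y := by linarith
        nlinarith [mul_le_mul h' h' hθ0 (hθ0.trans h'), mul_le_mul a1 a1 hθ0 (hθ0.trans a1),
          mul_le_mul a1 h' hθ0 (hθ0.trans a1)]
      · have a1 : θ ≤ -u₁ y := by linarith
        have a2 : θ ≤ -u₂ y := by linarith
        nlinarith [mul_le_mul a1 a1 hθ0 (hθ0.trans a1), mul_le_mul a2 a2 hθ0 (hθ0.trans a2),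
          mul_le_mul a1 a2 hθ0 (hθ0.trans a1)])
  intro x
  have := key x
  linarith

end AC

end Claimed.Agent.R329
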