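import Claimed.Agent.R329.DfDefs
import Claimed.Agent.R329.ExpDecay

/-!
# Row 329, K7, post P2 (pen: helper169): `DfTail.lean`, prefix `dgTw_`.   TAILS AT LAYER WIDTH `w`.

* `dgTw_sol`: a solution of `w² Δ v = v³ - v` is `x ↦ u(x/w)` for the solution `u(x) = v(w x)` of the unscaled equation.
* `dgTw_exp` (T2 at width `w`): `θ ≤ v` on `ball y R`  ⟹  `1 - v(y) ≤ C exp (-(lam R/w))` for every rate `lam² < θ(1+θ)`; `dgTw_exp'`: mirror.
* `dgTw_df_tail`, `dgTw_df_dens_tail`: the contracts `df_tail`, `df_dens_tail` of `DfHub.lean`, VERBATIM.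
-/

set_option autoImplicit false
open scoped ContDiff RealInnerProductSpace
open MeasureTheory Metric Set Filter

namespace Claimed.Agent.R329

open Claimed.Agent.Gmt

/-- unscaling: `u(x) = v(w x)`. -/
theorem dgTw_sol {N : ℕ} {w : ℝ} {v : E N → ℝ} (hv : ContDiff ℝ 2 v) (hr : ∀ y, v y ∈ Icc (-1 : ℝ) 1)
    (hpde : ∀ y, w ^ 2 * Laplacian.laplacian v y = v y ^ 3 - v y) : DgSol N (fun x => v (w • x)) :=
  ⟨hv.comp (contDiff_const_smul w), fun x => hr _, fun x => by rw [dgL_lap_dilate, hpde]⟩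

/-- **T2 at layer width `w`.** -/
theorem dgTw_exp (N : ℕ) {θ lam : ℝ} (hθ : 0 < θ) (hlam : 0 < lam) (hc : lam ^ 2 < θ * (1 + θ)) :
    ∃ C : ℝ, 0 < C ∧ ∀ (w : ℝ) (v : E N → ℝ), 0 < w → ContDiff ℝ 2 v → (∀ y, v y ∈ Icc (-1 : ℝ) 1) →
      (∀ y, w ^ 2 * Laplacian.laplacian v y = v y ^ 3 - v y) → ∀ (y : E N) (R : ℝ), 0 < R →
      (∀ x ∈ ball y R, θ ≤ v x) → 1 - v y ≤ C * Real.exp (-(lam * (R / w))) := by
  obtain ⟨C, hC, h⟩ := dgX_one_sub_le N hθ hlam hc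
  refine ⟨C, hC, fun w v hw hv hr hpde y R hR hθv => ?_⟩
  have h1 := h _ (dgTw_sol hv hr hpde) (w⁻¹ • y) (R / w) (div_pos hR hw) (fun x hx => by
    refine hθv _ ?_
    rw [mem_ball, dist_eq_norm] at hx ⊢
    have e : w • x - y = w • (x - w⁻¹ • y) := by
      rw [smul_sub, smul_smul, mul_inv_cancel₀ hw.ne', one_smul]
    rw [e, norm_smul, Real.norm_eq_abs, abs_of_pos hw]
    rw [lt_div_iff₀ hw] at hx
    linarith)
  simpa [smul_smul, mul_inv_cancel₀ hw.ne'] using h1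

/-- mirror of `dgTw_exp`. -/
theorem dgTw_exp' (N : ℕ) {θ lam : ℝ} (hθ : 0 < θ) (hlam : 0 < lam) (hc : lam ^ 2 < θ * (1 + θ)) :
    ∃ C : ℝ, 0 < C ∧ ∀ (w : ℝ) (v : E N → ℝ), 0 < w → ContDiff ℝ 2 v → (∀ y, v y ∈ Icc (-1 : ℝ) 1) →
      (∀ y, w ^ 2 * Laplacian.laplacian v y = v y ^ 3 - v y) → ∀ (y : E N) (R : ℝ), 0 < R →
      (∀ x ∈ ball y R, v x ≤ -θ) → 1 + v y ≤ C * Real.exp (-(lam * (R / w))) := by
  obtain ⟨C, hC, h⟩ := dgTw_exp N hθ hlam hc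
  refine ⟨C, hC, fun w v hw hv hr hpde y R hR hθv => ?_⟩
  have h1 := h w (fun x => - v x) hw hv.neg (fun x => ⟨by linarith [(hr x).2], by linarith [(hr x).1]⟩)
    (fun x => by rw [dgL_lap_neg hv.contDiffAt]; have := hpde x; nlinarith) y R hR
    (fun x hx => by have := hθv x hx; linarith)
  linarith

/-- `exp (-x) ≤ 2/x²`. -/
theorem dgTw_exp_le {x : ℝ} (hx : 0 < x) : Real.exp (-x) ≤ 2 / x ^ 2 := by
  have h1 : x ^ 2 / 2 ≤ Real.exp x := by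
    have := Real.quadratic_le_exp_of_nonneg hx.le
    nlinarith
  rw [Real.exp_neg, inv_eq_one_div, div_le_div_iff₀ (Real.exp_pos x) (by positivity)]
  linarith

/-- `exp (-ε/w) ≤ 2 w` when `w ≤ ε²`. -/
theorem dgTw_exp_le_w {w ε : ℝ} (hw : 0 < w) (hε : 0 < ε) (hwε : w ≤ ε ^ 2) :
    Real.exp (-(1 * (ε / w))) ≤ 2 * w := by
  rw [one_mul]
  refine (dgTw_exp_le (div_pos hε hw)).trans ?_
  have hε2 : 0 < ε ^ 2 := by positivity
  have e : 2 / (ε / w) ^ 2 = 2 * w * (w / ε ^ 2) := by field_simp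
  rw [e]
  have : w / ε ^ 2 ≤ 1 := (div_le_one hε2).2 hwε
  nlinarith

/-- the geometry: a ball of radius `ε` about a point of `ball 0 3` at depth `2ε`. -/
theorem dgTw_geo {n : ℕ} {ε : ℝ} (hε' : ε ≤ 1 / 8) {y x : E (n + 1)} (hy : y ∈ ball (0 : E (n + 1)) 3)
    (hx : x ∈ ball y ε) : x ∈ ball (0 : E (n + 1)) 4 ∧ |gmtVer x - gmtVer y| < ε := by
  rw [mem_ball, dist_eq_norm] at hx
  rw [mem_ball, dist_zero_right] at hy
  refine ⟨?_, ?_⟩
  · rw [mem_ball, dist_zero_right]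
    have h1 : x = (x - y) + y := by abel
    have h2 := norm_add_le (x - y) y
    rw [← h1] at h2
    linarith
  · have h1 : gmtVer x - gmtVer y = gmtVer (x - y) := by
      rw [fl_ver_apply, fl_ver_apply, fl_ver_apply]; simp
    rw [h1]
    exact lt_of_le_of_lt (fl_abs_ver_le _) hx

/-- **`df_tail`, verbatim.** -/
theorem dgTw_df_tail (n : ℕ) : ∃ C : ℝ, 0 < C ∧ ∀ (w ε K c₀ r₀ : ℝ) (v : E (n + 1) → ℝ), DfUnit n w ε K c₀ r₀ v →
    ∀ y ∈ ball (0 : E (n + 1)) 3,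
      (gmtVer y ≤ -(2 * ε) → 1 - v y ≤ C * w) ∧ (2 * ε ≤ gmtVer y → 1 + v y ≤ C * w) := by
  obtain ⟨C₁, hC₁, h1⟩ := dgTw_exp (n + 1) (θ := 3 / 4) (lam := 1) (by norm_num) one_pos (by norm_num)
  obtain ⟨C₂, hC₂, h2⟩ := dgTw_exp' (n + 1) (θ := 3 / 4) (lam := 1) (by norm_num) one_pos (by norm_num)
  refine ⟨2 * (C₁ + C₂), by positivity, fun w ε K c₀ r₀ v H y hy => ?_⟩
  have hv2 : ContDiff ℝ 2 v := H.smooth.of_le (by norm_cast)
  have hr : ∀ y, v y ∈ Icc (-1 : ℝ) 1 := fun y => Ioo_subset_Icc_self (H.range y)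
  have hE := dgTw_exp_le_w H.hw H.hε H.hwε
  have hw := H.hw
  refine ⟨fun ht => ?_, fun ht => ?_⟩
  · have g := h1 w v H.hw hv2 hr H.pde y ε H.hε (fun x hx => by
      obtain ⟨g1, g2⟩ := dgTw_geo H.hε' hy hx
      have := H.below x g1 (by have := (abs_lt.1 g2).2; linarith)
      linarith)
    calc 1 - v y ≤ C₁ * Real.exp (-(1 * (ε / w))) := g
      _ ≤ C₁ * (2 * w) := mul_le_mul_of_nonneg_left hE hC₁.le
      _ ≤ 2 * (C₁ + C₂) * w := by nlinarith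
  · have g := h2 w v H.hw hv2 hr H.pde y ε H.hε (fun x hx => by
      obtain ⟨g1, g2⟩ := dgTw_geo H.hε' hy hx
      have := H.above x g1 (by have := (abs_lt.1 g2).1; linarith)
      linarith)
    calc 1 + v y ≤ C₂ * Real.exp (-(1 * (ε / w))) := g
      _ ≤ C₂ * (2 * w) := mul_le_mul_of_nonneg_left hE hC₂.le
      _ ≤ 2 * (C₁ + C₂) * w := by nlinarith

theorem dgTw_S0_pos : 0 < dfS0 := by unfold dfS0; positivity

/-- **`df_dens_tail`, verbatim.** -/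
theorem dgTw_df_dens_tail (n : ℕ) : ∃ C : ℝ, 0 < C ∧ ∀ (w ε K c₀ r₀ : ℝ) (v : E (n + 1) → ℝ), DfUnit n w ε K c₀ r₀ v →
    ∀ y ∈ ball (0 : E (n + 1)) 3, 2 * ε ≤ |gmtVer y| → dfE w v y ≤ C * w := by
  obtain ⟨C, hC, h⟩ := dgTw_df_tail n
  have hs := dgTw_S0_pos
  refine ⟨2 * C ^ 2 / dfS0, by positivity, fun w ε K c₀ r₀ v H y hy ht => ?_⟩
  have hw := H.hw
  obtain ⟨hlo, hhi⟩ := H.range y
  -- `W(v) ≤ (C w)²`
  have hW : dgW (v y) ≤ (C * w) ^ 2 := by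
    obtain ⟨g1, g2⟩ := h w ε K c₀ r₀ v H y hy
    unfold dgW
    rcases le_abs'.1 ht with h0 | h0
    · have g := g1 (by linarith)
      have e : (1 - v y ^ 2) ^ 2 / 4 = (1 - v y) ^ 2 * ((1 + v y) ^ 2 / 4) := by ring
      rw [e]
      have a1 : (1 - v y) ^ 2 ≤ (C * w) ^ 2 := pow_le_pow_left₀ (by linarith) g 2
      have a2 : (1 + v y) ^ 2 / 4 ≤ 1 := by nlinarith
      have a3 : 0 ≤ (1 + v y) ^ 2 / 4 := by positivity
      nlinarith [sq_nonneg (1 - v y)]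
    · have g := g2 h0
      have e : (1 - v y ^ 2) ^ 2 / 4 = (1 + v y) ^ 2 * ((1 - v y) ^ 2 / 4) := by ring
      rw [e]
      have a1 : (1 + v y) ^ 2 ≤ (C * w) ^ 2 := pow_le_pow_left₀ (by linarith) g 2
      have a2 : (1 - v y) ^ 2 / 4 ≤ 1 := by nlinarith
      have a3 : 0 ≤ (1 - v y) ^ 2 / 4 := by positivity
      nlinarith [sq_nonneg (1 + v y)]
  have hm : w * ‖fderiv ℝ v y‖ ^ 2 / 2 ≤ dgW (v y) / w := by
    have := H.modica y
    unfold dfXi at this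
    have h2 := (div_nonneg_iff.1 this)
    rcases h2 with ⟨h3, -⟩ | ⟨-, h3⟩
    · linarith
    · exact absurd h3 (not_le.2 hs)
  unfold dfE
  rw [div_le_iff₀ hs]
  have h4 : dgW (v y) / w ≤ C ^ 2 * w := by
    rw [div_le_iff₀ hw]
    nlinarith
  have e : 2 * C ^ 2 / dfS0 * w * dfS0 = 2 * (C ^ 2 * w) := by field_simp
  rw [e]
  linarith

end Claimed.Agent.R329
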