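import Claimed.Agent.R329.DfDefs
import Claimed.Agent.R329.DfFub
import Claimed.Agent.R329.DfFlux
import Claimed.Agent.R329.DfTail

/-!
# Row 329 (S0587, S0588), cell C6, post P6 = the diffuse F6 (height in `L²(μ)` versus height in `L²(dz)`).
Pen: helper68.   Prefix `dfht_` / `dfht`.   0 sorry.

Abstract data at unit scale, no PDE: `X = χ : E (n+1) → [0,1]` of class `C¹` (the phase `Φ(v)/s₀`), `e ≥ 0` continuous (the energy
density divided by `s₀`), `|∂_t X| ≤ e` (AM-GM), tails `ϑ` off the slab `|t| < ε`, excess `∫_{C_1} (e + ∂_t X) ≤ δ` (F1),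
width `∫_{C_1} X (1 - X) ≤ A`.   `h(z) = ∫_{-1}^1 X(z,t) dt - 1`.

PROOF.  `D = e + ∂_t X ≥ 0`, `(∂_t X)₊ ≤ D/2`.  On a vertical line, `c = a + ⟪p,z⟫`:
`∫ (t-c)² e = ∫ (t-c)² (-X') + ∫ (t-c)² D`.
1. parts on `[-1,1]`: `∫ (t-c)² (-X') = ∫ 2 (t-c) X - (1-c)² X(1) + (1+c)² X(-1)`.
2. HOEFFDING'S IDENTITY (no monotonicity): `∫ 2 (t-c) X = (h-c)² - (1+c)² + I`, `I = 2 ∫ A X`, `A(t) = ∫_{-1}^t (1 - X)`.
   The boundary terms add up to `-(1-c)² X(1) - (1+c)² (1 - X(-1)) ≤ 0`.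
3. `(1-a) b ≤ (b-a)₊ + b (1-b)` on `[0,1]²`, `X(t) - X(s) ≤ ∫ (X')₊ ≤ d/2`, `d = ∫ D`: `I ≤ 4 ε² d + 4 ε ∫ X (1-X) + 10 ϑ`.
4. `∫ (t-c)² D ≤ (ε+|c|)² d + 4 (1+|c|)² ϑ`.
Then Fubini on the cylinder (`dffu_height_of_slice` of helper28's `DfFub.lean`), the tails of helper169's `DfTail.lean`
(`dgTw_df_tail`, `dgTw_df_dens_tail`) and the mass of the cylinder of helper59's `DfFlux.lean` (`dfx_hub_exc`).
EXIT: `dfht_height` = contract `df_height` of `DfHub.lean`, verbatim.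
-/

set_option autoImplicit false
open scoped ContDiff ENNReal RealInnerProductSpace
open MeasureTheory Metric Set

namespace Claimed.Agent.R329

open Claimed.Agent.Gmt

/-! ## one dimensional part -/

/-- the primitive `A(t) = ∫_{-1}^t (1 - X)`. -/
noncomputable def dfhtA (X : ℝ → ℝ) (t : ℝ) : ℝ := ∫ s in (-1 : ℝ)..t, (1 - X s)

theorem dfht_A_hasDerivAt {X : ℝ → ℝ} (hX : Continuous X) (t : ℝ) : HasDerivAt (dfhtA X) (1 - X t) t := by
  have hc : Continuous fun s => 1 - X s := continuous_const.sub hX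
  exact intervalIntegral.integral_hasDerivAt_right (hc.intervalIntegrable _ _)
    (hc.stronglyMeasurableAtFilter _ _) hc.continuousAt

theorem dfht_A_continuous {X : ℝ → ℝ} (hX : Continuous X) : Continuous (dfhtA X) :=
  continuous_iff_continuousAt.2 fun t => (dfht_A_hasDerivAt hX t).continuousAt

theorem dfht_A_left (X : ℝ → ℝ) : dfhtA X (-1) = 0 := by
  unfold dfhtA
  exact intervalIntegral.integral_same

theorem dfht_A_right {X : ℝ → ℝ} (hX : Continuous X) : dfhtA X 1 = 2 - ∫ t in (-1 : ℝ)..1, X t := by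
  unfold dfhtA
  rw [intervalIntegral.integral_sub (continuous_const.intervalIntegrable _ _) (hX.intervalIntegrable _ _)]
  simp
  norm_num

/-- **Hoeffding's identity** on `[-1,1]`. -/
theorem dfht_hoeffding {X : ℝ → ℝ} (hX : Continuous X) (c : ℝ) :
    ∫ t in (-1 : ℝ)..1, 2 * (t - c) * X t =
      ((∫ t in (-1 : ℝ)..1, X t) - 1 - c) ^ 2 - (1 + c) ^ 2 + ∫ t in (-1 : ℝ)..1, 2 * (dfhtA X t * X t) := by
  have hA := dfht_A_continuous hX
  have hG : ∀ t ∈ uIcc (-1 : ℝ) 1, HasDerivAt (fun t => 2 * t * dfhtA X t - dfhtA X t ^ 2)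
      (2 * (dfhtA X t * X t) + (2 * t - 2 * (t * X t))) t := by
    intro t _
    have h1 := dfht_A_hasDerivAt hX t
    have h2 : HasDerivAt (fun t : ℝ => 2 * t) 2 t := by
      simpa using (hasDerivAt_id t).const_mul (2 : ℝ)
    have h3 := (h2.fun_mul h1).fun_sub (h1.fun_pow 2)
    refine h3.congr_deriv ?_
    simp only [Nat.cast_ofNat, Nat.add_one_sub_one, pow_one]
    ring
  have i1 : IntervalIntegrable (fun t => 2 * (dfhtA X t * X t)) volume (-1) 1 :=
    (continuous_const.mul (hA.mul hX)).intervalIntegrable _ _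
  have i2 : IntervalIntegrable (fun t : ℝ => 2 * t) volume (-1) 1 :=
    (continuous_const.mul continuous_id).intervalIntegrable _ _
  have i3 : IntervalIntegrable (fun t : ℝ => 2 * (t * X t)) volume (-1) 1 :=
    (continuous_const.mul (continuous_id.mul hX)).intervalIntegrable _ _
  have hF := intervalIntegral.integral_eq_sub_of_hasDerivAt hG (i1.add (i2.sub i3))
  rw [intervalIntegral.integral_add i1 (i2.sub i3), intervalIntegral.integral_sub i2 i3] at hF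
  have e2 : ∫ t in (-1 : ℝ)..1, 2 * t = 0 := by
    rw [intervalIntegral.integral_const_mul, integral_id]
    norm_num
  rw [e2, dfht_A_left, dfht_A_right hX] at hF
  have e4 : ∫ t in (-1 : ℝ)..1, 2 * (t - c) * X t =
      (∫ t in (-1 : ℝ)..1, 2 * (t * X t)) - 2 * c * ∫ t in (-1 : ℝ)..1, X t := by
    have i4 : IntervalIntegrable (fun t : ℝ => 2 * c * X t) volume (-1) 1 :=
      (continuous_const.mul hX).intervalIntegrable _ _
    rw [← intervalIntegral.integral_const_mul, ← intervalIntegral.integral_sub i3 i4]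
    congr 1
    funext t
    ring
  rw [e4]
  linarith

/-- integration by parts on `[-1,1]`. -/
theorem dfht_parts {X X' : ℝ → ℝ} (hX : ∀ t, HasDerivAt X (X' t) t) (hX' : Continuous X') (c : ℝ) :
    ∫ t in (-1 : ℝ)..1, (t - c) ^ 2 * (-(X' t)) =
      (∫ t in (-1 : ℝ)..1, 2 * (t - c) * X t) - (1 - c) ^ 2 * X 1 + (1 + c) ^ 2 * X (-1) := by
  have hXc : Continuous X := continuous_iff_continuousAt.2 fun t => (hX t).continuousAt
  have hG : ∀ t ∈ uIcc (-1 : ℝ) 1, HasDerivAt (fun t => (t - c) ^ 2 * X t)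
      (2 * (t - c) * X t - (t - c) ^ 2 * (-(X' t))) t := by
    intro t _
    have h1 : HasDerivAt (fun t : ℝ => (t - c) ^ 2) (2 * (t - c)) t := by
      have := ((hasDerivAt_id t).sub_const c).fun_pow 2
      simpa using this
    refine (h1.fun_mul (hX t)).congr_deriv ?_
    ring
  have i1 : IntervalIntegrable (fun t => 2 * (t - c) * X t) volume (-1) 1 :=
    ((continuous_const.mul (continuous_id.sub continuous_const)).mul hXc).intervalIntegrable _ _
  have i2 : IntervalIntegrable (fun t => (t - c) ^ 2 * (-(X' t))) volume (-1) 1 :=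
    (((continuous_id.sub continuous_const).pow 2).mul hX'.neg).intervalIntegrable _ _
  have hF := intervalIntegral.integral_eq_sub_of_hasDerivAt hG (i1.sub i2)
  rw [intervalIntegral.integral_sub i1 i2] at hF
  have : (-1 - c) ^ 2 = (1 + c) ^ 2 := by ring
  rw [this] at hF
  linarith

theorem dfht_int_le_const {f : ℝ → ℝ} (hf : Continuous f) {a b M : ℝ} (hab : a ≤ b)
    (h : ∀ t ∈ Icc a b, f t ≤ M) : ∫ t in a..b, f t ≤ M * (b - a) := by
  have h1 := intervalIntegral.integral_mono_on (μ := volume) (g := fun _ => M) hab (hf.intervalIntegrable _ _)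
    (continuous_const.intervalIntegrable a b) h
  rw [intervalIntegral.integral_const, smul_eq_mul] at h1
  linarith

theorem dfht_int_sub_le {f : ℝ → ℝ} (hf : Continuous f) (h0 : ∀ t, 0 ≤ f t) {a b a' b' : ℝ} (h1 : a ≤ a')
    (h2 : a' ≤ b') (h3 : b' ≤ b) : ∫ t in a'..b', f t ≤ ∫ t in a..b, f t :=
  intervalIntegral.integral_mono_interval h1 h2 h3 (Filter.Eventually.of_forall h0) (hf.intervalIntegrable _ _)

theorem dfht_A_nonneg {X : ℝ → ℝ} (h01 : ∀ t, 0 ≤ X t ∧ X t ≤ 1) {t : ℝ} (ht : -1 ≤ t) : 0 ≤ dfhtA X t :=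
  intervalIntegral.integral_nonneg ht fun s _ => by linarith [(h01 s).2]

theorem dfht_A_le {X : ℝ → ℝ} (hX : Continuous X) (h01 : ∀ t, 0 ≤ X t ∧ X t ≤ 1) {t : ℝ} (ht : -1 ≤ t) :
    dfhtA X t ≤ t + 1 := by
  have := dfht_int_le_const (f := fun s => 1 - X s) (continuous_const.sub hX) (M := 1) ht
    fun s _ => by linarith [(h01 s).1]
  unfold dfhtA
  linarith

/-- increments of `X` are bounded by the integral of the positive part of the derivative. -/
theorem dfht_incr_le {X X' : ℝ → ℝ} (hX : ∀ t, HasDerivAt X (X' t) t) (hX' : Continuous X') {s t : ℝ}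
    (h1 : -1 ≤ s) (h2 : s ≤ t) (h3 : t ≤ 1) : X t - X s ≤ ∫ r in (-1 : ℝ)..1, max (X' r) 0 := by
  have hm : Continuous fun r => max (X' r) 0 := hX'.max continuous_const
  have e1 : ∫ r in s..t, X' r = X t - X s :=
    intervalIntegral.integral_eq_sub_of_hasDerivAt (fun r _ => hX r) (hX'.intervalIntegrable _ _)
  rw [← e1]
  refine (intervalIntegral.integral_mono_on h2 (hX'.intervalIntegrable _ _) (hm.intervalIntegrable _ _)
    fun r _ => le_max_left _ _).trans ?_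
  exact dfht_int_sub_le hm (fun r => le_max_right _ _) h1 h2 h3

/-- the middle piece. -/
theorem dfht_AX_mid {X X' : ℝ → ℝ} (hX : ∀ t, HasDerivAt X (X' t) t) (hX' : Continuous X')
    (h01 : ∀ t, 0 ≤ X t ∧ X t ≤ 1) {ε ϑ : ℝ} (hε : 0 < ε) (hε1 : ε ≤ 1) (hϑ : 0 ≤ ϑ)
    (hb : ∀ t, -1 ≤ t → t ≤ -ε → 1 - X t ≤ ϑ) {t : ℝ} (ht : t ∈ Icc (-ε) ε) :
    dfhtA X t * X t ≤ ϑ + 2 * ε * ((∫ r in (-1 : ℝ)..1, max (X' r) 0) + X t * (1 - X t)) := by
  have hXc : Continuous X := continuous_iff_continuousAt.2 fun t => (hX t).continuousAt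
  have hc : Continuous fun s => 1 - X s := continuous_const.sub hXc
  set P := ∫ r in (-1 : ℝ)..1, max (X' r) 0 with hP
  have hP0 : 0 ≤ P := intervalIntegral.integral_nonneg (by norm_num) fun r _ => le_max_right _ _
  have e1 : dfhtA X t = dfhtA X (-ε) + ∫ s in (-ε)..t, (1 - X s) := by
    unfold dfhtA
    rw [intervalIntegral.integral_add_adjacent_intervals (hc.intervalIntegrable _ _)
      (hc.intervalIntegrable _ _)]
  have e2 : dfhtA X (-ε) ≤ ϑ := by
    have := dfht_int_le_const hc (M := ϑ) (a := -1) (b := -ε) (by linarith) fun s hs => hb s hs.1 hs.2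
    have h2 : ϑ * (-ε - -1) ≤ ϑ := by nlinarith
    unfold dfhtA
    linarith
  have e3 : (∫ s in (-ε)..t, (1 - X s)) * X t ≤ (P + X t * (1 - X t)) * (t - -ε) := by
    rw [← intervalIntegral.integral_mul_const]
    refine dfht_int_le_const (f := fun s => (1 - X s) * X t) (hc.mul continuous_const) ht.1 fun s hs => ?_
    have h3 := dfht_incr_le hX hX' (s := s) (t := t) (by linarith [hs.1]) hs.2 (by linarith [ht.2])
    rw [← hP] at h3
    have h4 := h01 t
    have h5 := h01 s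
    have h6 : X t * (X t - X s) ≤ P := by
      by_cases h7 : 0 ≤ X t - X s
      · calc X t * (X t - X s) ≤ 1 * (X t - X s) := mul_le_mul_of_nonneg_right h4.2 h7
          _ ≤ P := by linarith
      · have : X t * (X t - X s) ≤ 0 := mul_nonpos_of_nonneg_of_nonpos h4.1 (by linarith)
        linarith
    have h8 : (1 - X s) * X t = X t * (X t - X s) + X t * (1 - X t) := by ring
    linarith
  have h9 : 0 ≤ P + X t * (1 - X t) := by
    have := mul_nonneg (h01 t).1 (by linarith [(h01 t).2] : 0 ≤ 1 - X t)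
    linarith
  have h10 : (P + X t * (1 - X t)) * (t - -ε) ≤ (P + X t * (1 - X t)) * (2 * ε) :=
    mul_le_mul_of_nonneg_left (by linarith [ht.2]) h9
  have h11 : dfhtA X (-ε) * X t ≤ ϑ := by
    have h12 := dfht_A_nonneg h01 (t := -ε) (by linarith)
    calc dfhtA X (-ε) * X t ≤ dfhtA X (-ε) * 1 := mul_le_mul_of_nonneg_left (h01 t).2 h12
      _ ≤ ϑ := by linarith
  rw [e1, add_mul]
  linarith

/-- bound of the Hoeffding term. -/
theorem dfht_I_le {X X' : ℝ → ℝ} (hX : ∀ t, HasDerivAt X (X' t) t) (hX' : Continuous X')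
    (h01 : ∀ t, 0 ≤ X t ∧ X t ≤ 1) {ε ϑ : ℝ} (hε : 0 < ε) (hε1 : ε ≤ 1) (hϑ : 0 ≤ ϑ)
    (hb : ∀ t, -1 ≤ t → t ≤ -ε → 1 - X t ≤ ϑ) (ha : ∀ t, ε ≤ t → t ≤ 1 → X t ≤ ϑ) :
    ∫ t in (-1 : ℝ)..1, 2 * (dfhtA X t * X t) ≤
      10 * ϑ + 8 * ε ^ 2 * (∫ r in (-1 : ℝ)..1, max (X' r) 0) + 4 * ε * ∫ t in (-1 : ℝ)..1, X t * (1 - X t) := by
  have hXc : Continuous X := continuous_iff_continuousAt.2 fun t => (hX t).continuousAt
  have hA := dfht_A_continuous hXc
  have hc : Continuous fun s => 1 - X s := continuous_const.sub hXc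
  have hf : Continuous fun t => 2 * (dfhtA X t * X t) := continuous_const.mul (hA.mul hXc)
  have hx : Continuous fun t => X t * (1 - X t) := hXc.mul hc
  set P := ∫ r in (-1 : ℝ)..1, max (X' r) 0 with hP
  have hP0 : 0 ≤ P := intervalIntegral.integral_nonneg (by norm_num) fun r _ => le_max_right _ _
  have hsplit : ∫ t in (-1 : ℝ)..1, 2 * (dfhtA X t * X t) =
      (∫ t in (-1 : ℝ)..(-ε), 2 * (dfhtA X t * X t)) + (∫ t in (-ε)..ε, 2 * (dfhtA X t * X t)) +
        ∫ t in ε..1, 2 * (dfhtA X t * X t) := by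
    rw [intervalIntegral.integral_add_adjacent_intervals (hf.intervalIntegrable _ _) (hf.intervalIntegrable _ _),
      intervalIntegral.integral_add_adjacent_intervals (hf.intervalIntegrable _ _) (hf.intervalIntegrable _ _)]
  have p1 : ∫ t in (-1 : ℝ)..(-ε), 2 * (dfhtA X t * X t) ≤ 2 * ϑ := by
    have h1 := dfht_int_le_const hf (M := 2 * ϑ) (a := -1) (b := -ε) (by linarith) fun t ht => by
      have h2 : dfhtA X t ≤ ϑ := by
        have := dfht_int_le_const hc (M := ϑ) (a := -1) (b := t) ht.1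
          fun s hs => hb s hs.1 (hs.2.trans ht.2)
        have h3 : ϑ * (t - -1) ≤ ϑ := by nlinarith [ht.2]
        unfold dfhtA
        linarith
      have h4 := dfht_A_nonneg h01 ht.1
      have : dfhtA X t * X t ≤ dfhtA X t * 1 := mul_le_mul_of_nonneg_left (h01 t).2 h4
      linarith
    have h5 : 2 * ϑ * (-ε - -1) ≤ 2 * ϑ := by nlinarith
    linarith
  have p3 : ∫ t in ε..1, 2 * (dfhtA X t * X t) ≤ 4 * ϑ := by
    have h1 := dfht_int_le_const hf (M := 4 * ϑ) (a := ε) (b := 1) hε1 fun t ht => by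
      have h2 := dfht_A_le hXc h01 (t := t) (by linarith [ht.1])
      have h4 := dfht_A_nonneg h01 (t := t) (by linarith [ht.1])
      have h5 := ha t ht.1 ht.2
      have h6 : dfhtA X t * X t ≤ 2 * ϑ := by
        calc dfhtA X t * X t ≤ dfhtA X t * ϑ := mul_le_mul_of_nonneg_left h5 h4
          _ ≤ 2 * ϑ := mul_le_mul_of_nonneg_right (by linarith [ht.2]) hϑ
      linarith
    have h5 : 4 * ϑ * (1 - ε) ≤ 4 * ϑ := by nlinarith
    linarith
  have p2 : ∫ t in (-ε)..ε, 2 * (dfhtA X t * X t) ≤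
      4 * ε * ϑ + 8 * ε ^ 2 * P + 4 * ε * ∫ t in (-1 : ℝ)..1, X t * (1 - X t) := by
    have hg : Continuous fun t => (2 * ϑ + 4 * ε * P) + 4 * ε * (X t * (1 - X t)) :=
      continuous_const.add (continuous_const.mul hx)
    have h1 := intervalIntegral.integral_mono_on (μ := volume) (a := -ε) (b := ε) (by linarith)
      (hf.intervalIntegrable _ _) (hg.intervalIntegrable _ _) fun t ht => by
        have := dfht_AX_mid hX hX' h01 hε hε1 hϑ hb ht
        rw [← hP] at this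
        linarith
    have j1 : IntervalIntegrable (fun _ : ℝ => 2 * ϑ + 4 * ε * P) volume (-ε) ε :=
      continuous_const.intervalIntegrable _ _
    have j2 : IntervalIntegrable (fun t : ℝ => 4 * ε * (X t * (1 - X t))) volume (-ε) ε :=
      (continuous_const.mul hx).intervalIntegrable _ _
    have j6 : ∫ t in (-ε)..ε, 4 * ε * (X t * (1 - X t)) = 4 * ε * ∫ t in (-ε)..ε, X t * (1 - X t) :=
      intervalIntegral.integral_const_mul _ _
    rw [intervalIntegral.integral_add j1 j2, intervalIntegral.integral_const, j6, smul_eq_mul] at h1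
    have h2 := dfht_int_sub_le hx (fun t => mul_nonneg (h01 t).1 (by linarith [(h01 t).2]))
      (a := -1) (b := 1) (a' := -ε) (b' := ε) (by linarith) (by linarith) hε1
    have h3 := mul_le_mul_of_nonneg_left h2 (by linarith : 0 ≤ 4 * ε)
    have h4 : (ε - -ε) * (2 * ϑ + 4 * ε * P) = 4 * ε * ϑ + 8 * ε ^ 2 * P := by ring
    linarith
  have h7 : 4 * ε * ϑ ≤ 4 * ϑ := by nlinarith
  rw [hsplit]
  linarith

/-- **the one dimensional inequality.** -/
theorem dfht_line {X X' e : ℝ → ℝ} (hX : ∀ t, HasDerivAt X (X' t) t) (hX' : Continuous X') (he : Continuous e)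
    (h01 : ∀ t, 0 ≤ X t ∧ X t ≤ 1) (hder : ∀ t, |X' t| ≤ e t) {ε ϑ : ℝ} (hε : 0 < ε) (hε1 : ε ≤ 1) (hϑ : 0 ≤ ϑ)
    (hb : ∀ t, -1 ≤ t → t ≤ -ε → 1 - X t ≤ ϑ) (ha : ∀ t, ε ≤ t → t ≤ 1 → X t ≤ ϑ)
    (ht : ∀ t, ε ≤ |t| → |t| ≤ 1 → e t ≤ ϑ) (c : ℝ) :
    ∫ t in (-1 : ℝ)..1, (t - c) ^ 2 * e t ≤
      ((∫ t in (-1 : ℝ)..1, X t) - 1 - c) ^ 2 + (4 * ε ^ 2 + (ε + |c|) ^ 2) * (∫ t in (-1 : ℝ)..1, (e t + X' t)) +
        4 * ε * (∫ t in (-1 : ℝ)..1, X t * (1 - X t)) + (10 + 4 * (1 + |c|) ^ 2) * ϑ := by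
  have hXc : Continuous X := continuous_iff_continuousAt.2 fun t => (hX t).continuousAt
  have hD : Continuous fun t => e t + X' t := he.add hX'
  have hD0 : ∀ t, 0 ≤ e t + X' t := fun t => by linarith [neg_abs_le (X' t), hder t]
  have hq : Continuous fun t : ℝ => (t - c) ^ 2 := (continuous_id.sub continuous_const).pow 2
  have hm : Continuous fun r => max (X' r) 0 := hX'.max continuous_const
  -- split
  have e1 : ∫ t in (-1 : ℝ)..1, (t - c) ^ 2 * e t =
      (∫ t in (-1 : ℝ)..1, (t - c) ^ 2 * (-(X' t))) + ∫ t in (-1 : ℝ)..1, (t - c) ^ 2 * (e t + X' t) := by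
    have j1 : IntervalIntegrable (fun t : ℝ => (t - c) ^ 2 * (-(X' t))) volume (-1) 1 :=
      (hq.mul hX'.neg).intervalIntegrable _ _
    have j2 : IntervalIntegrable (fun t : ℝ => (t - c) ^ 2 * (e t + X' t)) volume (-1) 1 :=
      (hq.mul hD).intervalIntegrable _ _
    rw [← intervalIntegral.integral_add j1 j2]
    congr 1
    funext t
    ring
  -- positive part
  have e2 : ∫ r in (-1 : ℝ)..1, max (X' r) 0 ≤ (1 / 2) * ∫ t in (-1 : ℝ)..1, (e t + X' t) := by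
    rw [← intervalIntegral.integral_const_mul]
    have j3 : IntervalIntegrable (fun t : ℝ => 1 / 2 * (e t + X' t)) volume (-1) 1 :=
      (continuous_const.mul hD).intervalIntegrable _ _
    refine intervalIntegral.integral_mono_on (by norm_num) (hm.intervalIntegrable _ _) j3 fun t _ => ?_
    refine max_le ?_ (by have := hD0 t; linarith)
    linarith [le_abs_self (X' t), hder t]
  -- the `D` term
  have e3 : ∫ t in (-1 : ℝ)..1, (t - c) ^ 2 * (e t + X' t) ≤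
      (ε + |c|) ^ 2 * (∫ t in (-1 : ℝ)..1, (e t + X' t)) + 4 * (1 + |c|) ^ 2 * ϑ := by
    have hg : Continuous fun t => (ε + |c|) ^ 2 * (e t + X' t) + (1 + |c|) ^ 2 * (2 * ϑ) :=
      (continuous_const.mul hD).add continuous_const
    have j2 : IntervalIntegrable (fun t : ℝ => (t - c) ^ 2 * (e t + X' t)) volume (-1) 1 :=
      (hq.mul hD).intervalIntegrable _ _
    have h1 := intervalIntegral.integral_mono_on (μ := volume) (a := -1) (b := 1) (by norm_num)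
      j2 (hg.intervalIntegrable _ _) fun t ht' => by
        have habs : |t| ≤ 1 := abs_le.2 ht'
        have h2 : |t - c| ≤ |t| + |c| := abs_sub t c
        have h3 : (t - c) ^ 2 = |t - c| ^ 2 := (sq_abs _).symm
        by_cases h4 : |t| ≤ ε
        · have h5 : (t - c) ^ 2 ≤ (ε + |c|) ^ 2 := by
            rw [h3]; exact pow_le_pow_left₀ (abs_nonneg _) (by linarith) 2
          have h6 := mul_le_mul_of_nonneg_right h5 (hD0 t)
          have h7 : 0 ≤ (1 + |c|) ^ 2 * (2 * ϑ) := by positivity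
          show (t - c) ^ 2 * (e t + X' t) ≤ _
          linarith
        · have h5 : (t - c) ^ 2 ≤ (1 + |c|) ^ 2 := by
            rw [h3]; exact pow_le_pow_left₀ (abs_nonneg _) (by linarith) 2
          have h8 : e t + X' t ≤ 2 * ϑ := by
            have := ht t (not_le.1 h4).le habs
            linarith [le_abs_self (X' t), hder t]
          have h6 : (t - c) ^ 2 * (e t + X' t) ≤ (1 + |c|) ^ 2 * (2 * ϑ) :=
            mul_le_mul h5 h8 (hD0 t) (by positivity)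
          have h7 : 0 ≤ (ε + |c|) ^ 2 * (e t + X' t) := mul_nonneg (by positivity) (hD0 t)
          show (t - c) ^ 2 * (e t + X' t) ≤ _
          linarith
    have j4 : IntervalIntegrable (fun t : ℝ => (ε + |c|) ^ 2 * (e t + X' t)) volume (-1) 1 :=
      (continuous_const.mul hD).intervalIntegrable _ _
    have j5 : IntervalIntegrable (fun _ : ℝ => (1 + |c|) ^ 2 * (2 * ϑ)) volume (-1) 1 :=
      continuous_const.intervalIntegrable _ _
    have j6 : ∫ t in (-1 : ℝ)..1, (ε + |c|) ^ 2 * (e t + X' t) = (ε + |c|) ^ 2 * ∫ t in (-1 : ℝ)..1, (e t + X' t) :=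
      intervalIntegral.integral_const_mul _ _
    rw [intervalIntegral.integral_add j4 j5, intervalIntegral.integral_const, j6, smul_eq_mul] at h1
    linarith
  have e4 := dfht_parts hX hX' c
  have e5 := dfht_hoeffding hXc c
  have e6 := dfht_I_le hX hX' h01 hε hε1 hϑ hb ha
  have e7 : 0 ≤ (1 - c) ^ 2 * X 1 := mul_nonneg (sq_nonneg _) (h01 1).1
  have e8 : (1 + c) ^ 2 * X (-1) ≤ (1 + c) ^ 2 := by
    have := mul_le_mul_of_nonneg_left (h01 (-1)).2 (sq_nonneg (1 + c))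
    linarith
  have e9 := mul_le_mul_of_nonneg_left e2 (by positivity : 0 ≤ 8 * ε ^ 2)
  rw [e1]
  nlinarith

/-! ## the phase `χ(v)` -/

theorem dfht_Chi_mem {s : ℝ} (h1 : -1 ≤ s) (h2 : s ≤ 1) : 0 ≤ dfChi s ∧ dfChi s ≤ 1 := by
  have e1 : dfChi s = (1 + s) ^ 2 * (2 - s) / 4 := by unfold dfChi; ring
  have e2 : 1 - dfChi s = (1 - s) ^ 2 * (2 + s) / 4 := by unfold dfChi; ring
  constructor
  · rw [e1]
    have : 0 ≤ (1 + s) ^ 2 * (2 - s) := mul_nonneg (sq_nonneg _) (by linarith)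
    linarith
  · have : 0 ≤ (1 - s) ^ 2 * (2 + s) := mul_nonneg (sq_nonneg _) (by linarith)
    linarith

/-- `χ (1 - χ) = W (4 - s²)/4 ≤ W`. -/
theorem dfht_Chi_mul_le (s : ℝ) : dfChi s * (1 - dfChi s) ≤ dgW s := by
  have e : dgW s - dfChi s * (1 - dfChi s) = (1 - s ^ 2) ^ 2 * s ^ 2 / 16 := by
    unfold dfChi dgW
    ring
  have : 0 ≤ (1 - s ^ 2) ^ 2 * s ^ 2 / 16 := by positivity
  linarith

theorem dfht_S0_le_one : dfS0 ≤ 1 := by
  unfold dfS0
  have h : Real.sqrt 2 ≤ 3 / 2 := by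
    rw [Real.sqrt_le_left (by norm_num)]
    norm_num
  linarith

/-- `W(v) ≤ w s₀ dfE ≤ w dfE`. -/
theorem dfht_W_le {m : ℕ} {w : ℝ} (hw : 0 < w) (v : E m → ℝ) (y : E m) : dgW (v y) ≤ w * dfE w v y := by
  have hs := dfx_S0_pos
  have hs1 := dfht_S0_le_one
  have hW : 0 ≤ dgW (v y) := by unfold dgW; positivity
  have h1 : dgW (v y) / w ≤ w * ‖fderiv ℝ v y‖ ^ 2 / 2 + dgW (v y) / w := by
    have : 0 ≤ w * ‖fderiv ℝ v y‖ ^ 2 / 2 := by positivity
    linarith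
  have h0 : 0 ≤ w * ‖fderiv ℝ v y‖ ^ 2 / 2 + dgW (v y) / w := by positivity
  have h2 : w * ‖fderiv ℝ v y‖ ^ 2 / 2 + dgW (v y) / w ≤ dfE w v y := by
    unfold dfE
    rw [le_div_iff₀ hs]
    calc (w * ‖fderiv ℝ v y‖ ^ 2 / 2 + dgW (v y) / w) * dfS0
        ≤ (w * ‖fderiv ℝ v y‖ ^ 2 / 2 + dgW (v y) / w) * 1 := mul_le_mul_of_nonneg_left hs1 h0
      _ = _ := mul_one _
  have h3 : dgW (v y) = w * (dgW (v y) / w) := by field_simp
  calc dgW (v y) = w * (dgW (v y) / w) := h3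
    _ ≤ w * dfE w v y := mul_le_mul_of_nonneg_left (h1.trans h2) hw.le

theorem dfht_mem_ball {n : ℕ} {z : E n} {t : ℝ} (hz : ‖z‖ < 1) (ht : |t| ≤ 1) :
    gmtJoin z t ∈ ball (0 : E (n + 1)) 3 := by
  rw [mem_ball_zero_iff]
  have h1 := fl_norm_sq (gmtJoin z t)
  rw [fl_hor_join, fl_ver_join] at h1
  have h2 : ‖z‖ ^ 2 ≤ 1 := by nlinarith [norm_nonneg z]
  have h3 : t ^ 2 ≤ 1 := by
    rw [← sq_abs]; nlinarith [abs_nonneg t]
  nlinarith [norm_nonneg (gmtJoin z t)]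

theorem dfht_H_eq {n : ℕ} (v : E (n + 1) → ℝ) (z : E n) : dffuH (fun y => dfChi (v y)) z = dfH v z := by
  unfold dffuH dffuSl dfH
  rw [intervalIntegral.integral_of_le (by norm_num), integral_Ioc_eq_integral_Ioo]

theorem dfht_num {ε w M Ce c om : ℝ} (hε : 0 < ε) (hε8 : ε ≤ 1 / 8) (hw : 0 < w) (hM0 : 0 ≤ M) (hM2 : M ≤ 2)
    (hCe : 0 < Ce) (hc : 0 ≤ c) (hom : 0 ≤ om) :
    (4 * (2 * ε) ^ 2 + (2 * ε + M) ^ 2) * (Ce * ε ^ 2 + 2 * (c * w) * om) + 4 * (2 * ε) * (w * (om + Ce)) +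
      om * (10 * (c * w) + 4 * (c * w) * (1 + M) ^ 2) ≤
      (20 * Ce + 58 * (c * om) + om + Ce + 1) * ((ε + M) ^ 2 * ε ^ 2 + w) := by
  have hεM : 0 ≤ ε * M := mul_nonneg hε.le hM0
  have n1 : 4 * (2 * ε) ^ 2 + (2 * ε + M) ^ 2 ≤ 20 * (ε + M) ^ 2 := by nlinarith [sq_nonneg M]
  have q1 : ε ^ 2 ≤ 1 / 64 := by nlinarith
  have q2 : ε * M ≤ 1 / 4 := by nlinarith
  have q3 : M ^ 2 ≤ 4 := by nlinarith
  have n2 : 4 * (2 * ε) ^ 2 + (2 * ε + M) ^ 2 ≤ 6 := by nlinarith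
  have hcw : 0 ≤ c * om * w := by positivity
  have t1 : (4 * (2 * ε) ^ 2 + (2 * ε + M) ^ 2) * (Ce * ε ^ 2 + 2 * (c * w) * om) ≤
      20 * Ce * ((ε + M) ^ 2 * ε ^ 2) + 12 * (c * om * w) := by
    have a1 : (4 * (2 * ε) ^ 2 + (2 * ε + M) ^ 2) * (Ce * ε ^ 2) ≤ 20 * (ε + M) ^ 2 * (Ce * ε ^ 2) :=
      mul_le_mul_of_nonneg_right n1 (by positivity)
    have a2 : (4 * (2 * ε) ^ 2 + (2 * ε + M) ^ 2) * (2 * (c * om * w)) ≤ 6 * (2 * (c * om * w)) :=
      mul_le_mul_of_nonneg_right n2 (by positivity)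
    have a3 : 2 * (c * w) * om = 2 * (c * om * w) := by ring
    rw [mul_add, a3]
    linarith
  have t2 : 4 * (2 * ε) * (w * (om + Ce)) ≤ (om + Ce) * w := by
    have h : 0 ≤ w * (om + Ce) := by positivity
    have : 4 * (2 * ε) * (w * (om + Ce)) ≤ 1 * (w * (om + Ce)) := mul_le_mul_of_nonneg_right (by linarith) h
    linarith
  have t3 : om * (10 * (c * w) + 4 * (c * w) * (1 + M) ^ 2) ≤ 46 * (c * om * w) := by
    have a1 : (1 + M) ^ 2 ≤ 9 := by nlinarith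
    have a2 : om * (10 * (c * w) + 4 * (c * w) * (1 + M) ^ 2) = (c * om * w) * (10 + 4 * (1 + M) ^ 2) := by ring
    rw [a2]
    have : (c * om * w) * (10 + 4 * (1 + M) ^ 2) ≤ (c * om * w) * 46 := mul_le_mul_of_nonneg_left (by linarith) hcw
    linarith
  have hP : 0 ≤ (ε + M) ^ 2 * ε ^ 2 := by positivity
  have b1 : 0 ≤ (58 * (c * om) + om + Ce + 1) * ((ε + M) ^ 2 * ε ^ 2) := by positivity
  have b2 : 0 ≤ (20 * Ce + 1) * w := by positivity
  have e : (20 * Ce + 58 * (c * om) + om + Ce + 1) * ((ε + M) ^ 2 * ε ^ 2 + w) =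
      20 * Ce * ((ε + M) ^ 2 * ε ^ 2) + (58 * (c * om) + om + Ce + 1) * ((ε + M) ^ 2 * ε ^ 2) +
        (20 * Ce + 1) * w + 58 * (c * om * w) + (om + Ce) * w := by ring
  rw [e]
  linarith

/-! ## EXITS -/

/-- **contract `df_height` of `DfHub.lean`, verbatim.** -/
theorem dfht_height (n : ℕ) (K : ℝ) : ∃ C : ℝ, 0 < C ∧ ∀ (w ε c₀ r₀ : ℝ) (v : E (n + 1) → ℝ), DfUnit n w ε K c₀ r₀ v →
    ∀ (a : ℝ) (p : E n) (ρ : ℝ), |a| ≤ 1 → ‖p‖ ≤ 1 → 0 < ρ → ρ ≤ 1 / 4 →
      ∫ y in flCyl ρ, (gmtVer y - a - ⟪p, gmtHor y⟫) ^ 2 * dfE w v y ≤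
        (∫ z in ball (0 : E n) (2 * ρ), (dfH v z - a - ⟪p, z⟫) ^ 2) + C * ((ε + |a| + ‖p‖) ^ 2 * ε ^ 2 + w) := by
  obtain ⟨Ct, hCt, ht⟩ := dgTw_df_tail n
  obtain ⟨Cd, hCd, hd⟩ := dgTw_df_dens_tail n
  obtain ⟨Ce, hCe, he⟩ := dfx_hub_exc n (dgTw_df_dens_tail n)
  have hom : 0 ≤ gmtOm n := dffu_om_nonneg
  set cϑ : ℝ := 3 / 4 * Ct ^ 2 + Cd with hcϑ
  have hcϑ0 : 0 < cϑ := by positivity
  refine ⟨20 * Ce + 58 * (cϑ * gmtOm n) + gmtOm n + Ce + 1, by positivity, ?_⟩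
  intro w ε c₀ r₀ v H a p ρ ha hp hρ0 hρ
  have hw := H.hw
  have hε := H.hε
  have hε8 := H.hε'
  have hwε := H.hwε
  have hw1 : w ≤ 1 := by nlinarith
  have hv1 : ContDiff ℝ 1 v := H.smooth.of_le (by simp)
  have hr : ∀ y, -1 ≤ v y ∧ v y ≤ 1 := fun y => ⟨(H.range y).1.le, (H.range y).2.le⟩
  obtain ⟨X, hXdef⟩ : ∃ X : E (n + 1) → ℝ, X = fun y => dfChi (v y) := ⟨_, rfl⟩
  have hXy : ∀ y, X y = dfChi (v y) := fun y => by rw [hXdef]
  have hX : ContDiff ℝ 1 X := by rw [hXdef]; exact dfx_contDiff_Chi.comp hv1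
  have hX01 : ∀ y, 0 ≤ X y ∧ X y ≤ 1 := fun y => by rw [hXy]; exact dfht_Chi_mem (hr y).1 (hr y).2
  have hce : Continuous (dfE w v) := dfx_continuous_E hv1 w
  have hQ : Continuous fun y => X y * (1 - X y) := hX.continuous.mul (continuous_const.sub hX.continuous)
  have hQ0 : ∀ y, 0 ≤ X y * (1 - X y) := fun y => mul_nonneg (hX01 y).1 (by linarith [(hX01 y).2])
  have hder : ∀ y, |dffuDt X y| ≤ dfE w v y := fun y => by
    unfold dffuDt
    rw [hXdef, dfx_fderiv_Chi_comp hv1]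
    refine le_trans ?_ (dfx_B_le_E hw v y)
    unfold dfB
    have h1 : 0 ≤ 3 / 4 * (1 - v y ^ 2) := by nlinarith [(hr y).1, (hr y).2]
    rw [abs_mul, abs_of_nonneg h1]
    refine mul_le_mul_of_nonneg_left ?_ h1
    have := (fderiv ℝ v y).le_opNorm (gmtEn n)
    rw [Real.norm_eq_abs] at this
    have h2 : ‖gmtEn n‖ = 1 := by simp
    rw [h2, mul_one] at this
    exact this
  set ϑ : ℝ := cϑ * w with hϑ
  have hϑ0 : 0 ≤ ϑ := by positivity
  -- tails
  have hbel : ∀ z : E n, ‖z‖ < 1 → ∀ t : ℝ, -1 ≤ t → t ≤ -(2 * ε) → 1 - X (gmtJoin z t) ≤ ϑ := by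
    intro z hz t h1 h2
    have hm := dfht_mem_ball hz (t := t) (abs_le.2 ⟨h1, by linarith⟩)
    have h3 := (ht w ε K c₀ r₀ v H _ hm).1 (by rw [fl_ver_join]; exact h2)
    have h4 := dfx_one_sub_Chi_le (hr (gmtJoin z t)).2
    have h5 : 0 ≤ 1 - v (gmtJoin z t) := by linarith [(hr (gmtJoin z t)).2]
    have h6 : (1 - v (gmtJoin z t)) ^ 2 ≤ (Ct * w) ^ 2 := pow_le_pow_left₀ h5 h3 2
    have h7 : (Ct * w) ^ 2 ≤ Ct ^ 2 * w := by
      have : w * w ≤ w * 1 := mul_le_mul_of_nonneg_left hw1 hw.le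
      have h8 := mul_le_mul_of_nonneg_left this (sq_nonneg Ct)
      calc (Ct * w) ^ 2 = Ct ^ 2 * (w * w) := by ring
        _ ≤ Ct ^ 2 * (w * 1) := h8
        _ = Ct ^ 2 * w := by ring
    have h9 : 0 ≤ Cd * w := by positivity
    rw [hXy, hϑ, hcϑ]
    nlinarith
  have habv : ∀ z : E n, ‖z‖ < 1 → ∀ t : ℝ, 2 * ε ≤ t → t ≤ 1 → X (gmtJoin z t) ≤ ϑ := by
    intro z hz t h1 h2
    have hm := dfht_mem_ball hz (t := t) (abs_le.2 ⟨by linarith, h2⟩)
    have h3 := (ht w ε K c₀ r₀ v H _ hm).2 (by rw [fl_ver_join]; exact h1)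
    have h4 := dfx_Chi_le (hr (gmtJoin z t)).1
    have h5 : 0 ≤ 1 + v (gmtJoin z t) := by linarith [(hr (gmtJoin z t)).1]
    have h6 : (1 + v (gmtJoin z t)) ^ 2 ≤ (Ct * w) ^ 2 := pow_le_pow_left₀ h5 h3 2
    have h7 : (Ct * w) ^ 2 ≤ Ct ^ 2 * w := by
      have : w * w ≤ w * 1 := mul_le_mul_of_nonneg_left hw1 hw.le
      have h8 := mul_le_mul_of_nonneg_left this (sq_nonneg Ct)
      calc (Ct * w) ^ 2 = Ct ^ 2 * (w * w) := by ring
        _ ≤ Ct ^ 2 * (w * 1) := h8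
        _ = Ct ^ 2 * w := by ring
    have h9 : 0 ≤ Cd * w := by positivity
    rw [hXy, hϑ, hcϑ]
    nlinarith
  have htl : ∀ z : E n, ‖z‖ < 1 → ∀ t : ℝ, 2 * ε ≤ |t| → |t| ≤ 1 → dfE w v (gmtJoin z t) ≤ ϑ := by
    intro z hz t h1 h2
    have hm := dfht_mem_ball hz h2
    have h3 := hd w ε K c₀ r₀ v H _ hm (by rw [fl_ver_join]; exact h1)
    have h9 : 0 ≤ 3 / 4 * Ct ^ 2 * w := by positivity
    rw [hϑ, hcϑ]
    nlinarith
  -- the excess
  have hexc : ∫ y in flCyl 1, (dfE w v y + dffuDt X y) ≤ Ce * ε ^ 2 + 2 * ϑ * gmtOm n := by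
    have h1 := dffu_excess hX hce (δ := Ce * ε ^ 2) (τ := ϑ) (he w ε K c₀ r₀ v H)
      (fun z hz => by
        have := hbel z (by simpa using hz) (-1) le_rfl (by linarith)
        linarith)
      (fun z hz => habv z (by simpa using hz) 1 (by linarith) le_rfl)
    have hcD : Continuous fun y => dfE w v y + dffuDt X y := hce.add (dffu_dt_continuous hX)
    rw [dffu_integral_cyl hcD 1]
    exact h1
  -- the width
  have hwid : ∫ y in flCyl 1, X y * (1 - X y) ≤ w * (gmtOm n + Ce) := by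
    have h1 : ∫ y in flCyl 1, X y * (1 - X y) ≤ ∫ y in flCyl 1, w * dfE w v y := by
      refine setIntegral_mono_on (dffu_integrableOn_cyl hQ 1) (dffu_integrableOn_cyl (continuous_const.mul hce) 1)
        (dffu_measurableSet_cyl 1) fun y _ => ?_
      rw [hXy]
      exact (dfht_Chi_mul_le (v y)).trans (dfht_W_le hw v y)
    rw [integral_const_mul] at h1
    have h2 := he w ε K c₀ r₀ v H
    have h3 : Ce * ε ^ 2 ≤ Ce := by
      have : ε ^ 2 ≤ 1 := by nlinarith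
      nlinarith
    exact h1.trans (mul_le_mul_of_nonneg_left (by linarith) hw.le)
  -- the slices
  have hslice : ∀ z ∈ ball (0 : E n) 1, ∀ c : ℝ,
      ∫ t in (-1 : ℝ)..1, (t - c) ^ 2 * dfE w v (gmtJoin z t) ≤
        (dffuH X z - c) ^ 2 + (4 * (2 * ε) ^ 2 + (2 * ε + |c|) ^ 2) * dffuEx X (dfE w v) z
          + 4 * (2 * ε) * dffuSl (fun y => X y * (1 - X y)) (-1) 1 z + (10 * ϑ + 4 * ϑ * (1 + |c|) ^ 2) := by
    intro z hz c
    have hz' : ‖z‖ < 1 := by simpa using hz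
    have h1 := dfht_line (X := fun t => X (gmtJoin z t)) (X' := fun t => dffuDt X (gmtJoin z t))
      (e := fun t => dfE w v (gmtJoin z t)) (fun t => dffu_hasDerivAt hX z t)
      (dffu_continuous_slice (dffu_dt_continuous hX) z) (dffu_continuous_slice hce z)
      (fun t => hX01 _) (fun t => hder _) (ε := 2 * ε) (ϑ := ϑ) (by linarith) (by linarith) hϑ0
      (hbel z hz') (habv z hz') (htl z hz') c
    have e1 : (10 + 4 * (1 + |c|) ^ 2) * ϑ = 10 * ϑ + 4 * ϑ * (1 + |c|) ^ 2 := by ring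
    rw [e1] at h1
    exact h1
  have hmain := dffu_height_of_slice hX hce hQ hder hQ0 (α := 4 * (2 * ε) ^ 2) (β := 2 * ε) (γ := 4 * (2 * ε))
    (κ₀ := 10 * ϑ) (κ₁ := 4 * ϑ) (by positivity) (by positivity) (by positivity) (by positivity) (by positivity)
    hexc hwid hslice a p (ρ := ρ) (by linarith)
  -- the disc
  have hch : Continuous fun z : E n => (dffuH X z - a - ⟪p, z⟫) ^ 2 :=
    (((dffu_H_continuous hX.continuous).sub continuous_const).sub (continuous_const.inner continuous_id)).pow 2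
  have hdisc : ∫ z in ball (0 : E n) ρ, (dffuH X z - a - ⟪p, z⟫) ^ 2 ≤
      ∫ z in ball (0 : E n) (2 * ρ), (dfH v z - a - ⟪p, z⟫) ^ 2 := by
    have e1 : ∀ z, dffuH X z = dfH v z := fun z => by rw [hXdef]; exact dfht_H_eq v z
    simp only [e1] at hch ⊢
    exact setIntegral_mono_set (dffu_integrableOn_ball hch _ _) (Filter.Eventually.of_forall fun z => sq_nonneg _)
      (ball_subset_ball (by linarith)).eventuallyLE
  -- numbers
  have hM0 : 0 ≤ |a| + ‖p‖ := by positivity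
  have hM2 : |a| + ‖p‖ ≤ 2 := by linarith
  have e7 : 2 * ε + |a| + ‖p‖ = 2 * ε + (|a| + ‖p‖) := by ring
  have e8 : 1 + |a| + ‖p‖ = 1 + (|a| + ‖p‖) := by ring
  have e9 : ε + |a| + ‖p‖ = ε + (|a| + ‖p‖) := by ring
  rw [e7, e8] at hmain
  rw [e9]
  have hnum := dfht_num hε hε8 hw hM0 hM2 hCe hcϑ0.le hom
  rw [← hϑ] at hnum
  linarith

theorem dfht_eqns_cite : True ∧ (∀ (X : ℝ → ℝ) (t : ℝ), dfhtA X t = ∫ s in (-1 : ℝ)..t, (1 - X s)) :=
  ⟨trivial, fun X t => dfhtA.eq_1 X t⟩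

end Claimed.Agent.R329
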