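import Claimed.Agent.R329.DfMeanA
import Claimed.Agent.R329.FlId2
import Claimed.Agent.R329.DfDefs

/-!
# Row 329, post P7 (F7), helper58: the mean value inequality in the words of `DfDefs.lean`.   Prefix `dfm`.

`dfm_mean2` = contract `df_mean` of `DfHub.lean`, version 2 (energy form), VERBATIM.
`dfm_mean` = version 1 of that contract (`dfA`, Morrey error) with a constant `C` in front of the main term on the right (as in `fl_mean` of `Lib/Gmt`).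
Proof: `dfA ≤ dfE = dfA + dfXi`; for the measure `dfE dy = μ_e` the mean value inequality holds with NO error (`dfm_mean_of_fv`: `FlFV 0`,
idea of helper278; stress identity `dgFJ_stress` of helper42); the Morrey bound of `dfXi` is used only once, on the large ball:
`∫_{B_R} L² dfXi ≤ (2 L(y₀)² + 8 R²) K w R^{n-1}`.
-/

set_option autoImplicit false
open MeasureTheory Metric Set Filter Topology
open scoped RealInnerProductSpace ENNReal ContDiff

namespace Claimed.Agent.R329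

open Claimed.Agent.Gmt

section
variable {m : ℕ}

theorem dfm_S0_eq : dfS0 = dgFI_s0 := rfl

theorem dfm_E_eq (w : ℝ) (v : E m → ℝ) (y : E m) : dfE w v y = dfmE w v y / dgFI_s0 := by
  unfold dfE dfmE
  rw [dfm_S0_eq]
  ring

theorem dfm_E_eq_add (w : ℝ) (v : E m → ℝ) (y : E m) : dfE w v y = dfA w v y + dfXi w v y := by
  unfold dfE dfA dfXi
  ring

theorem dfm_A_nonneg {w : ℝ} (hw : 0 < w) (v : E m → ℝ) (y : E m) : 0 ≤ dfA w v y := by
  unfold dfA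
  have : 0 < dfS0 := dgFI_s0_pos
  positivity

theorem dfm_A_continuous {v : E m → ℝ} (hv : ContDiff ℝ 1 v) (w : ℝ) : Continuous (dfA w v) := by
  unfold dfA
  exact (continuous_const.mul ((dgFI_continuous_normD hv).pow 2)).div_const _

theorem dfm_dfE_continuous {v : E m → ℝ} (hv : ContDiff ℝ 1 v) (w : ℝ) : Continuous (dfE w v) := by
  have : dfE w v = fun y => dfmE w v y / dgFI_s0 := funext (dfm_E_eq w v)
  rw [this]
  exact dfm_rho_continuous hv w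

theorem dfm_Xi_continuous {v : E m → ℝ} (hv : ContDiff ℝ 1 v) (w : ℝ) : Continuous (dfXi w v) := by
  have : dfXi w v = fun y => dfE w v y - dfA w v y := by
    funext y
    rw [dfm_E_eq_add]
    ring
  rw [this]
  exact (dfm_dfE_continuous hv w).sub (dfm_A_continuous hv w)

/-- Modica's bound in the words of `DfMeanA`. -/
theorem dfm_modica_of_Xi {w : ℝ} {v : E m → ℝ} (h : ∀ y, 0 ≤ dfXi w v y) (y : E m) :
    w / 2 * ‖fderiv ℝ v y‖ ^ 2 ≤ dgW (v y) / w := by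
  have h1 := h y
  unfold dfXi at h1
  have h2 : 0 < dfS0 := dgFI_s0_pos
  have h3 : 0 ≤ dgW (v y) / w - w * ‖fderiv ℝ v y‖ ^ 2 / 2 := by
    by_contra hc
    rw [not_le] at hc
    exact absurd h1 (not_le.2 (div_neg_of_neg_of_pos hc h2))
  linarith

/-- integrals over balls against `μ_e`. -/
theorem dfm_setIntegral_Mu {w : ℝ} (hw : 0 < w) {v : E m → ℝ} (hv : ContDiff ℝ 1 v) (f : E m → ℝ) (y0 : E m)
    (r : ℝ) : ∫ y in ball y0 r, f y ∂(dfmMu w v) = ∫ y in ball y0 r, f y * dfE w v y := by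
  rw [← integral_indicator measurableSet_ball, dfm_integral_Mu hw hv, ← integral_indicator measurableSet_ball]
  refine integral_congr_ae (Eventually.of_forall fun y => ?_)
  by_cases hy : y ∈ ball y0 r
  · simp only [indicator_of_mem hy]
    rw [dfm_E_eq]
    ring
  · simp only [indicator_of_notMem hy, mul_zero]

theorem dfm_integrableOn_ball {f : E m → ℝ} (hf : Continuous f) (y0 : E m) (r : ℝ) : IntegrableOn f (ball y0 r) :=
  (hf.continuousOn.integrableOn_compact (isCompact_closedBall y0 r)).mono_set ball_subset_closedBall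

/-- `L(y)² ≤ 2 L(y₀)² + 8 R²` on `ball y₀ R`. -/
theorem dfm_L_sq_le {q y0 y : E m} {a R : ℝ} (hq : ‖q‖ ≤ 2) (hy : y ∈ ball y0 R) :
    (a + ⟪q, y⟫) ^ 2 ≤ 2 * (a + ⟪q, y0⟫) ^ 2 + 8 * R ^ 2 := by
  have h1 : ⟪q, y⟫ = ⟪q, y0⟫ + ⟪q, y - y0⟫ := by rw [inner_sub_right]; ring
  have h2 : |⟪q, y - y0⟫| ≤ 2 * R := by
    have h3 := abs_real_inner_le_norm q (y - y0)
    have h4 : ‖y - y0‖ ≤ R := by
      rw [← dist_eq_norm]
      exact (mem_ball.1 hy).le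
    have h5 : ‖q‖ * ‖y - y0‖ ≤ 2 * R := mul_le_mul hq h4 (norm_nonneg _) (by norm_num)
    linarith
  have h6 : ⟪q, y - y0⟫ ^ 2 ≤ (2 * R) ^ 2 := sq_le_sq' (by linarith [(abs_le.1 h2).1]) (abs_le.1 h2).2
  rw [h1]
  nlinarith [sq_nonneg (a + ⟪q, y0⟫ - ⟪q, y - y0⟫)]

end

theorem dfm_arith {C A L0 K w s R : ℝ} (hC : 0 < C) (hA : 0 ≤ A) (hK : 0 ≤ K) (hw : 0 ≤ w) (hL0 : 0 ≤ L0)
    (hs : 0 < s) (hsR : s ≤ R) :
    C * A + C * (K * w * (2 * L0 / R + 8 * R)) ≤ 8 * C * A + 8 * C * K * w * (L0 / s + R) := by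
  have hR : 0 < R := lt_of_lt_of_le hs hsR
  have h5 : L0 / R ≤ L0 / s := div_le_div_of_nonneg_left hL0 hs hsR
  have e1 : C * A ≤ 8 * C * A := by
    have : 0 ≤ C * A := by positivity
    linarith
  have e2 : C * (K * w * (2 * L0 / R + 8 * R)) ≤ 8 * C * K * w * (L0 / s + R) := by
    have hKw : 0 ≤ C * (K * w) := by positivity
    have e3 : 2 * L0 / R + 8 * R ≤ 8 * (L0 / s + R) := by
      have e4 : 2 * L0 / R = 2 * (L0 / R) := by ring
      have h6 : 0 ≤ L0 / s := by positivity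
      linarith
    calc C * (K * w * (2 * L0 / R + 8 * R)) = C * (K * w) * (2 * L0 / R + 8 * R) := by ring
      _ ≤ C * (K * w) * (8 * (L0 / s + R)) := mul_le_mul_of_nonneg_left e3 hKw
      _ = _ := by ring
  exact add_le_add e1 e2

/-! ## EXITS -/

/-- **F7 in the words of `DfDefs`** (`df_mean` of the hub, with the constant `C` also in front of the main term). -/
theorem dfm_mean (n : ℕ) (hn : 1 ≤ n) : ∃ C : ℝ, 0 < C ∧ ∀ (w K : ℝ) (v : E (n + 1) → ℝ), 0 < w → 0 ≤ K →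
    ContDiff ℝ ∞ v → (∀ y, w ^ 2 * Laplacian.laplacian v y = v y ^ 3 - v y) → (∀ y, 0 ≤ dfXi w v y) →
    (∀ (y : E (n + 1)) (ρ : ℝ), 0 < ρ → ∫ x in ball y ρ, dfXi w v x ≤ K * w * ρ ^ (n - 1)) →
    ∀ (y0 q : E (n + 1)) (a s R : ℝ), ‖q‖ ≤ 2 → 0 < s → s ≤ R → R ≤ 1 →
      (s ^ n)⁻¹ * ∫ y in ball y0 (s / 2), (a + ⟪q, y⟫) ^ 2 * dfA w v y ≤
        C * ((R ^ n)⁻¹ * ∫ y in ball y0 R, (a + ⟪q, y⟫) ^ 2 * dfA w v y) +
          C * K * w * ((a + ⟪q, y0⟫) ^ 2 / s + R) := by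
  obtain ⟨C, hC, h⟩ := dfm_mean_of_fv n hn
  refine ⟨8 * C, by positivity, fun w K v hw hK hv hpde hmod hdisc y0 q a s R hq hs hsR hR1 => ?_⟩
  have hv1 : ContDiff ℝ 1 v := hv.of_le (by simp)
  have hv2 : ContDiff ℝ 2 v := hv.of_le (WithTop.coe_le_coe.2 le_top)
  have hR : 0 < R := lt_of_lt_of_le hs hsR
  have hfv : FlFV 0 univ (dfmMu w v) (dfmNu w v) :=
    dfm_fv0 hw hv1 fun X hX hc => dgFJ_stress hw hv2 hpde (hX.of_le (by simp)) hc
  have key := h w v hw hv1 (dfm_modica_of_Xi hmod) hfv (s / 2) R a y0 q (by positivity) (by linarith) hR1 hq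
  rw [dfm_setIntegral_Mu hw hv1, dfm_setIntegral_Mu hw hv1] at key
  have hLc : Continuous fun y : E (n + 1) => (a + ⟪q, y⟫) ^ 2 := by fun_prop
  have hAc := dfm_A_continuous hv1 w
  have hEc := dfm_dfE_continuous hv1 w
  have hXc := dfm_Xi_continuous hv1 w
  -- left side
  have h1 : ∫ y in ball y0 (s / 2), (a + ⟪q, y⟫) ^ 2 * dfA w v y ≤
      ∫ y in ball y0 (s / 2), (a + ⟪q, y⟫) ^ 2 * dfE w v y := by
    refine setIntegral_mono (dfm_integrableOn_ball (hLc.mul hAc) _ _) (dfm_integrableOn_ball (hLc.mul hEc) _ _)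
      fun y => ?_
    have := hmod y
    rw [dfm_E_eq_add]
    exact mul_le_mul_of_nonneg_left (by linarith) (sq_nonneg _)
  -- right side
  have h2 : ∫ y in ball y0 R, (a + ⟪q, y⟫) ^ 2 * dfE w v y =
      (∫ y in ball y0 R, (a + ⟪q, y⟫) ^ 2 * dfA w v y) + ∫ y in ball y0 R, (a + ⟪q, y⟫) ^ 2 * dfXi w v y := by
    have iA : IntegrableOn (fun y => (a + ⟪q, y⟫) ^ 2 * dfA w v y) (ball y0 R) :=
      dfm_integrableOn_ball (hLc.mul hAc) _ _
    have iX : IntegrableOn (fun y => (a + ⟪q, y⟫) ^ 2 * dfXi w v y) (ball y0 R) :=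
      dfm_integrableOn_ball (hLc.mul hXc) _ _
    rw [← integral_add iA iX]
    refine integral_congr_ae (Eventually.of_forall fun y => ?_)
    simp only
    rw [dfm_E_eq_add]
    ring
  have h3 : ∫ y in ball y0 R, (a + ⟪q, y⟫) ^ 2 * dfXi w v y ≤
      (2 * (a + ⟪q, y0⟫) ^ 2 + 8 * R ^ 2) * (K * w * R ^ (n - 1)) := by
    calc ∫ y in ball y0 R, (a + ⟪q, y⟫) ^ 2 * dfXi w v y
        ≤ ∫ y in ball y0 R, (2 * (a + ⟪q, y0⟫) ^ 2 + 8 * R ^ 2) * dfXi w v y := by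
          refine setIntegral_mono_on (dfm_integrableOn_ball (hLc.mul hXc) _ _)
            (dfm_integrableOn_ball (continuous_const.mul hXc) _ _) measurableSet_ball fun y hy => ?_
          exact mul_le_mul_of_nonneg_right (dfm_L_sq_le hq hy) (hmod y)
      _ = (2 * (a + ⟪q, y0⟫) ^ 2 + 8 * R ^ 2) * ∫ y in ball y0 R, dfXi w v y := integral_const_mul _ _
      _ ≤ _ := mul_le_mul_of_nonneg_left (hdisc y0 R hR) (by positivity)
  set IA := ∫ y in ball y0 R, (a + ⟪q, y⟫) ^ 2 * dfA w v y with hIA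
  set L0 := (a + ⟪q, y0⟫) ^ 2 with hL0
  have hL0' : 0 ≤ L0 := sq_nonneg _
  have hIA0 : 0 ≤ IA := integral_nonneg fun y => mul_nonneg (sq_nonneg _) (dfm_A_nonneg hw v y)
  have hRn : R ^ n = R ^ (n - 1) * R := by
    rw [← pow_succ]
    congr 1
    omega
  have h4 : (R ^ n)⁻¹ * ((2 * L0 + 8 * R ^ 2) * (K * w * R ^ (n - 1))) = K * w * (2 * L0 / R + 8 * R) := by
    rw [hRn]
    have : R ^ (n - 1) ≠ 0 := (pow_pos hR _).ne'
    field_simp
  have hsn : (s ^ n)⁻¹ ≤ ((s / 2) ^ n)⁻¹ := by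
    apply inv_anti₀ (by positivity)
    exact pow_le_pow_left₀ (by positivity) (by linarith) n
  have hI0 : 0 ≤ ∫ y in ball y0 (s / 2), (a + ⟪q, y⟫) ^ 2 * dfE w v y :=
    le_trans (integral_nonneg fun y => mul_nonneg (sq_nonneg _) (dfm_A_nonneg hw v y)) h1
  have hRinv : 0 ≤ (R ^ n)⁻¹ := by positivity
  calc (s ^ n)⁻¹ * ∫ y in ball y0 (s / 2), (a + ⟪q, y⟫) ^ 2 * dfA w v y
      ≤ (s ^ n)⁻¹ * ∫ y in ball y0 (s / 2), (a + ⟪q, y⟫) ^ 2 * dfE w v y :=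
        mul_le_mul_of_nonneg_left h1 (by positivity)
    _ ≤ ((s / 2) ^ n)⁻¹ * ∫ y in ball y0 (s / 2), (a + ⟪q, y⟫) ^ 2 * dfE w v y :=
        mul_le_mul_of_nonneg_right hsn hI0
    _ ≤ C * ((R ^ n)⁻¹ * ∫ y in ball y0 R, (a + ⟪q, y⟫) ^ 2 * dfE w v y) := key
    _ ≤ C * ((R ^ n)⁻¹ * (IA + (2 * L0 + 8 * R ^ 2) * (K * w * R ^ (n - 1)))) := by
        rw [h2]
        gcongr
    _ = C * ((R ^ n)⁻¹ * IA) + C * (K * w * (2 * L0 / R + 8 * R)) := by
        rw [mul_add, h4, mul_add]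
    _ ≤ 8 * C * ((R ^ n)⁻¹ * IA) + 8 * C * K * w * (L0 / s + R) :=
        dfm_arith hC (mul_nonneg hRinv hIA0) hK hw.le hL0' hs hsR

/-- **Contract `df_mean` of `DfHub.lean`, version 2 (energy form, no error term), VERBATIM.** -/
theorem dfm_mean2 (n : ℕ) (hn : 1 ≤ n) : ∃ C : ℝ, 0 < C ∧ ∀ (w ε K c₀ r₀ : ℝ) (v : E (n + 1) → ℝ), DfUnit n w ε K c₀ r₀ v →
    ∀ (y0 q : E (n + 1)) (a s R : ℝ), ‖q‖ ≤ 2 → 0 < s → 2 * s ≤ R → R ≤ 1 →
      (s ^ n)⁻¹ * ∫ y in ball y0 s, (a + ⟪q, y⟫) ^ 2 * dfE w v y ≤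
        C * ((R ^ n)⁻¹ * ∫ y in ball y0 R, (a + ⟪q, y⟫) ^ 2 * dfE w v y) := by
  obtain ⟨C, hC, h⟩ := dfm_mean_of_fv n hn
  refine ⟨C, hC, fun w ε K c₀ r₀ v hU y0 q a s R hq hs hsR hR1 => ?_⟩
  have hw := hU.hw
  have hv1 : ContDiff ℝ 1 v := hU.smooth.of_le (by simp)
  have hv2 : ContDiff ℝ 2 v := hU.smooth.of_le (WithTop.coe_le_coe.2 le_top)
  have hfv : FlFV 0 univ (dfmMu w v) (dfmNu w v) :=
    dfm_fv0 hw hv1 fun X hX hc => dgFJ_stress hw hv2 hU.pde (hX.of_le (by simp)) hc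
  have key := h w v hw hv1 (dfm_modica_of_Xi hU.modica) hfv s R a y0 q hs hsR hR1 hq
  rwa [dfm_setIntegral_Mu hw hv1, dfm_setIntegral_Mu hw hv1] at key

end Claimed.Agent.R329
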