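import Claimed.Agent.R329.DfDefs
import Claimed.Agent.R329.DfTail
import Claimed.Agent.R329.DfFlux
import Claimed.Agent.R329.DfFluxH
import Claimed.Agent.R329.DfHeight
import Claimed.Agent.R329.DfMeanB
import Claimed.Agent.R329.DfCaccA
import Claimed.Agent.R329.DfCaccB

/-!
# Row 329, K7: THE DIFFUSE Fl-PORT, INNER LAYER = the step at unit scale.  TYPED CONTRACTS.      (pen: helper35)

A contract is a theorem whose proof is missing HERE; its post proves it in its own file (same statement, own prefix, importing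
`DfDefs` only, never this file) and the integration pen replaces the contract by a citation.   Posts: table `c6_post`, P2 .. P8.
Notation: `y = (z,t)`, `z = gmtHor y`, `t = gmtVer y`, `∂_t v = fderiv ℝ v y (gmtEn n)`, `N = n+1`.   Always `w ≤ ε²` (field `hwε`).

PROOFS (one paragraph each).
* `df_tail` (P2): `ball y ε ⊆ ball 0 4 ∩ {t < -ε}`, there `v ≥ 7/8`, `ω = 1 - v` satisfies `w² Δω ≥ (21/16) ω`; barrier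
  `(1/8) Σ_i cosh((x_i - y_i)/w) / cosh(ε/(w√N))`; `1 - v(y) ≤ 2N exp(-ε/(w√N)) ≤ 4N² (w/ε)² ≤ 4N² w`  (`e^{-x} ≤ 2/x²`).
* `df_dens_tail`: `dfE ≤ 2 W(v)/(w s₀)` (Modica) `= (1-v²)²/(2 w s₀) ≤ (2 C w)²/(2 w s₀)`.
* `df_exc` (P4): `flCyl 1 ⊆ ball 0 √(1+4ε²) ∪ (ball 0 3 ∩ {|t| ≥ 2ε})`; field `mass` + `df_dens_tail`.
* `df_slice_low` (P4): `∫_{-1}^1 dfE dt ≥ ∫ dfB dt ≥ ∫ -∂_t χ(v) dt = χ(v(z,-1)) - χ(v(z,1)) ≥ 1 - C w²`;  `1 - χ(s) = (1-s)²(2+s)/4`.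
* `df_H_bound` (P4): `0 ≤ χ ≤ 1`; `χ ≥ 1 - C w²` for `t ≤ -2ε`, `χ ≤ C w²` for `t ≥ 2ε`.
* `df_cacc` (P5, F3): (FV') with `X = ζ(z)² η(t) t e`:  `∫ ζ² |∇_z v|² w/s₀ ≤ C (ε² + K w + tails)`.
* `df_harm` (P5, F4): `∫ h Δψ = ∫_{cyl} ⟨∇ψ(z), -∇_z χ(v)⟩`  (Fubini + integration by parts in `z`);  (FV') with `X = ψ(z) η(t) e`;
  `|dfB - dfA| ≤ dfXi`;  Cauchy-Schwarz with `df_cacc` and `∫_{cyl} (|∇v| + ∂_t v)(3/4)(1-v²) ≤ δ = C ε²` (`df_exc` minus the flux).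
* `df_height` (P6, F6; proof of helpers 68, 268, 138):  `D = dfE + ∂_t χ ≥ 0`;  `∫ (t-c)² dfE = ∫ (t-c)² (-∂_tχ) + ∫ (t-c)² D`;  by parts + HOEFFDING'S IDENTITY
  `∫_{-1}^1 2(t-c) χ dt = (h-c)² - (1+c)² + 2 ∫∫_{s<t} (1-χ(s)) χ(t)`;  `(1-a) b ≤ (b-a)₊ + b(1-b)`;  `χ(1-χ) = W(v)(4-v²)/4 ≤ w s₀ dfE`;  `∫_{cyl} D ≤ C ε²` (`df_exc` minus flux).
* `df_mean` (P7, F7): `fl_mean` of Lib with `κ = 0` for the pair `(μ_e, ν̂)`, `ν̂ = -√w ∇v/√e_w`, `|ν̂| ≤ 1` by Modica.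
* `df_unit_step` (P8, F8): numbers, as `fl_L2`, `fl_sup`, `fl_unit_step` of `Lib/Gmt/FlStep.lean`; `fl_moll` is used AS IT IS with `h = dfH v`, `3ε`, `om = C ε²`.
-/

set_option autoImplicit false
open scoped ContDiff RealInnerProductSpace
open MeasureTheory Metric Set Filter

namespace Claimed.Agent.R329

open Claimed.Agent.Gmt

/-- P2: exponential tails, in polynomial form.   CLOSED (helper169, `DfTail.lean`). -/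
theorem df_tail (n : ℕ) : ∃ C : ℝ, 0 < C ∧ ∀ (w ε K c₀ r₀ : ℝ) (v : E (n + 1) → ℝ), DfUnit n w ε K c₀ r₀ v →
    ∀ y ∈ ball (0 : E (n + 1)) 3,
      (gmtVer y ≤ -(2 * ε) → 1 - v y ≤ C * w) ∧ (2 * ε ≤ gmtVer y → 1 + v y ≤ C * w) :=
  dgTw_df_tail n

/-- P2: the energy density off the slab `|t| ≤ 2ε`.   CLOSED (helper169, `DfTail.lean`). -/
theorem df_dens_tail (n : ℕ) : ∃ C : ℝ, 0 < C ∧ ∀ (w ε K c₀ r₀ : ℝ) (v : E (n + 1) → ℝ), DfUnit n w ε K c₀ r₀ v →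
    ∀ y ∈ ball (0 : E (n + 1)) 3, 2 * ε ≤ |gmtVer y| → dfE w v y ≤ C * w :=
  dgTw_df_dens_tail n

/-- P4 (F1): the mass of the unit cylinder. -/
theorem df_exc (n : ℕ) : ∃ C : ℝ, 0 < C ∧ ∀ (w ε K c₀ r₀ : ℝ) (v : E (n + 1) → ℝ), DfUnit n w ε K c₀ r₀ v →
    ∫ y in flCyl 1, dfE w v y ≤ gmtOm n + C * ε ^ 2 :=
  dfx_hub_exc n (df_dens_tail n)

/-- P4 (F1): every vertical slice carries at least one transition. -/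
theorem df_slice_low (n : ℕ) : ∃ C : ℝ, 0 < C ∧ ∀ (w ε K c₀ r₀ : ℝ) (v : E (n + 1) → ℝ), DfUnit n w ε K c₀ r₀ v →
    ∀ z : E n, ‖z‖ < 1 → 1 - C * w ^ 2 ≤ ∫ t in Ioo (-1 : ℝ) 1, dfE w v (gmtJoin z t) :=
  dfx_hub_slice_low n (df_tail n)

/-- P4 (F1): the oriented excess `∫ (1 - ν_t) dμ₁`. -/
theorem df_tilt (n : ℕ) : ∃ C : ℝ, 0 < C ∧ ∀ (w ε K c₀ r₀ : ℝ) (v : E (n + 1) → ℝ), DfUnit n w ε K c₀ r₀ v →
    ∫ y in flCyl 1, (dfB v y + 3 / 4 * (1 - v y ^ 2) * fderiv ℝ v y (gmtEn n)) ≤ C * ε ^ 2 :=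
  dfx_hub_tilt n (df_tail n) (df_exc n)

/-- P4 (F2): the height function is continuous. -/
theorem df_H_continuous {n : ℕ} {v : E (n + 1) → ℝ} (hv : Continuous v) : Continuous (dfH v) :=
  dfxh_df_H_continuous hv

/-- P4 (F2): the height function is bounded by the slab. -/
theorem df_H_bound (n : ℕ) : ∃ ε₀ : ℝ, 0 < ε₀ ∧ ∀ (w ε K c₀ r₀ : ℝ) (v : E (n + 1) → ℝ), DfUnit n w ε K c₀ r₀ v → ε ≤ ε₀ →
    ∀ z : E n, ‖z‖ < 1 → |dfH v z| ≤ 3 * ε :=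
  dfxh_df_H_bound n

/-- P5 (F4): the height function is almost harmonic. -/
theorem df_harm (n : ℕ) (K : ℝ) : ∃ C : ℝ, 0 < C ∧ ∀ (w ε c₀ r₀ : ℝ) (v : E (n + 1) → ℝ), DfUnit n w ε K c₀ r₀ v →
    FlAH (dfH v) (C * ε ^ 2) :=
  dfcb_harm n (dfca_hyp n (df_dens_tail n)) (df_tilt n) K

/-- P6 (F6): from the `L²` distance of `h` to the `L²(μ_e)` distance of `t`   (ENERGY measure; v2 of the contract). -/
theorem df_height (n : ℕ) (K : ℝ) : ∃ C : ℝ, 0 < C ∧ ∀ (w ε c₀ r₀ : ℝ) (v : E (n + 1) → ℝ), DfUnit n w ε K c₀ r₀ v →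
    ∀ (a : ℝ) (p : E n) (ρ : ℝ), |a| ≤ 1 → ‖p‖ ≤ 1 → 0 < ρ → ρ ≤ 1 / 4 →
      ∫ y in flCyl ρ, (gmtVer y - a - ⟪p, gmtHor y⟫) ^ 2 * dfE w v y ≤
        (∫ z in ball (0 : E n) (2 * ρ), (dfH v z - a - ⟪p, z⟫) ^ 2) + C * ((ε + |a| + ‖p‖) ^ 2 * ε ^ 2 + w) :=
  dfht_height n K

/-- P7 (F7): mean value inequality for the ENERGY measure: no error term (v2 of the contract; helpers 278, 286, 298, 42):
`FlFV 0 univ μ_e ν̂` (`dgFJ_FlFV` of `FlId2.lean`) and `fl_mean` of `Lib/Gmt/FlMean5.lean` as it is. -/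
theorem df_mean (n : ℕ) (hn : 1 ≤ n) : ∃ C : ℝ, 0 < C ∧ ∀ (w ε K c₀ r₀ : ℝ) (v : E (n + 1) → ℝ), DfUnit n w ε K c₀ r₀ v →
    ∀ (y0 q : E (n + 1)) (a s R : ℝ), ‖q‖ ≤ 2 → 0 < s → 2 * s ≤ R → R ≤ 1 →
      (s ^ n)⁻¹ * ∫ y in ball y0 s, (a + ⟪q, y⟫) ^ 2 * dfE w v y ≤
        C * ((R ^ n)⁻¹ * ∫ y in ball y0 R, (a + ⟪q, y⟫) ^ 2 * dfE w v y) :=
  dfm_mean2 n hn

end Claimed.Agent.R329
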