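import Claimed.Agent.R329.Mono
import Claimed.Agent.Lib.Gmt.FlDefs

/-!
# Row 329, post B7.I (helper42): the EXACT identities of the diffuse pair of an Allen-Cahn solution (for K7).

For a `C²` solution `u` of `Δu = u³ - u`, `|u| ≤ 1`, in any dimension, put `s₀ = 2√2/3`,
`Φ(t) = (t - t³/3 + 2/3)/√2` (`Φ' = (1-t²)/√2 = √(2W)`, `Φ(-1) = 0`, `Φ(1) = s₀`), `χ = Φ(u)/s₀ ∈ [0,1]`,
`ν = -∇u/|∇u|`, `ξ = W(u) - |∇u|²/2`, and the three measures
`μ = |∇u|² dx/s₀`, `μ₁ = √(2W(u)) |∇u| dx/s₀`, `μ_e = (|∇u|²/2 + W(u)) dx/s₀`.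
* `dgFI_gg`  : `∫ χ div T = ∫ ⟪T,ν⟫ dμ₁` for `T ∈ C¹_c` (Gauss-Green, `χ` in the place of `1_S`);
* `dgFI_fv`  : `∫ (div X - ⟪ν, DX ν⟫) dμ = -(1/s₀) ∫ ξ div X` for `X ∈ C¹_c` (the stress tensor is divergence free);
* `dgFI_mu_le_mu1`, `dgFI_mu1_le_mue` (the first under Modica's bound), `dgFI_mue_ball` (`μ_e(B_r(y)) = E(u;B_r(y))/s₀`).
Words of `Lib/Gmt`: `Gmt.gmtDiv`, `Gmt.flTdiv`.
-/

set_option autoImplicit false
open MeasureTheory Metric Set Filter Topology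
open scoped RealInnerProductSpace ENNReal

namespace Claimed.Agent.R329

section
variable {n : ℕ}

/-! ## integration by parts against a `C¹_c` field -/

theorem dgFI_hasFDerivAt_coord {T : DgE n → DgE n} (hT : ContDiff ℝ 1 T) (i : Fin n) (x : DgE n) :
    HasFDerivAt (fun x => T x i) ((EuclideanSpace.proj i : DgE n →L[ℝ] ℝ).comp (fderiv ℝ T x)) x :=
  (EuclideanSpace.proj i : DgE n →L[ℝ] ℝ).hasFDerivAt.comp x (hT.differentiable one_ne_zero x).hasFDerivAt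

theorem dgFI_contDiff_coord {T : DgE n → DgE n} (hT : ContDiff ℝ 1 T) (i : Fin n) :
    ContDiff ℝ 1 (fun x => T x i) :=
  (EuclideanSpace.proj i : DgE n →L[ℝ] ℝ).contDiff.comp hT

theorem dgFI_hcs_coord {T : DgE n → DgE n} (hc : HasCompactSupport T) (i : Fin n) :
    HasCompactSupport (fun x => T x i) := by
  refine hc.mono fun x hx => ?_
  simp only [Function.mem_support] at hx ⊢
  intro h0
  exact hx (by simp [h0])

theorem dgFI_continuous_div {T : DgE n → DgE n} (hT : ContDiff ℝ 1 T) : Continuous (Gmt.gmtDiv T) := by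
  unfold Gmt.gmtDiv
  refine continuous_finsetSum _ fun i _ => ?_
  exact (EuclideanSpace.proj i : DgE n →L[ℝ] ℝ).continuous.comp
    ((hT.continuous_fderiv one_ne_zero).clm_apply continuous_const)

theorem dgFI_hcs_div {T : DgE n → DgE n} (hc : HasCompactSupport T) : HasCompactSupport (Gmt.gmtDiv T) := by
  refine (hc.fderiv (𝕜 := ℝ)).mono fun x hx => ?_
  simp only [Function.mem_support] at hx ⊢
  intro h0
  exact hx (by simp [Gmt.gmtDiv, h0])

/-- `∫ (f div T + ∇f·T) = 0` for `f ∈ C¹`, `T ∈ C¹_c`. -/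
theorem dgFI_ibp {f : DgE n → ℝ} {T : DgE n → DgE n} (hf : ContDiff ℝ 1 f) (hT : ContDiff ℝ 1 T)
    (hc : HasCompactSupport T) : ∫ x, (f x * Gmt.gmtDiv T x + fderiv ℝ f x (T x)) = 0 := by
  have hg : ∀ i : Fin n, ContDiff ℝ 1 (fun x => f x * T x i) := fun i => hf.mul (dgFI_contDiff_coord hT i)
  have hgc : ∀ i : Fin n, HasCompactSupport (fun x => f x * T x i) := fun i => (dgFI_hcs_coord hc i).mul_left
  have key : ∀ i : Fin n, ∫ x, fderiv ℝ (fun x => f x * T x i) x (dgA6_b i) = 0 := fun i =>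
    dgA6_integral_fderiv (hg i) (hgc i) _
  have hint : ∀ i : Fin n, Integrable (fun x => fderiv ℝ (fun x => f x * T x i) x (dgA6_b i)) := fun i =>
    (((hg i).continuous_fderiv one_ne_zero).clm_apply continuous_const).integrable_of_hasCompactSupport
      ((hgc i).fderiv_apply (𝕜 := ℝ) _)
  have hsum : ∫ x, ∑ i : Fin n, fderiv ℝ (fun x => f x * T x i) x (dgA6_b i) = 0 := by
    rw [integral_finsetSum _ fun i _ => hint i]
    simp [key]
  rw [← hsum]
  refine integral_congr_ae (Eventually.of_forall fun x => ?_)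
  simp only
  have d : ∀ i : Fin n, fderiv ℝ (fun x => f x * T x i) x (dgA6_b i)
      = f x * fderiv ℝ T x (dgA6_b i) i + T x i * fderiv ℝ f x (dgA6_b i) := by
    intro i
    rw [((hf.differentiable one_ne_zero x).hasFDerivAt.fun_mul (dgFI_hasFDerivAt_coord hT i x)).fderiv]
    simp
  simp only [d]
  rw [Finset.sum_add_distrib, dgA6_sum_apply, Gmt.gmtDiv, Finset.mul_sum]

/-! ## the gradient in coordinates -/

theorem dgFI_fderiv_eq_inner (u : DgE n → ℝ) (x v : DgE n) : fderiv ℝ u x v = ⟪gradient u x, v⟫ := by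
  rw [gradient, InnerProductSpace.toDual_symm_apply]

theorem dgFI_norm_gradient (u : DgE n → ℝ) (x : DgE n) : ‖gradient u x‖ = ‖fderiv ℝ u x‖ := by
  rw [gradient]
  exact LinearIsometryEquiv.norm_map _ _

theorem dgFI_gradient_eq_sum (u : DgE n → ℝ) (x : DgE n) :
    gradient u x = ∑ i, fderiv ℝ u x (dgA6_b i) • dgA6_b i := by
  have h : ∀ i : Fin n, (gradient u x) i = fderiv ℝ u x (dgA6_b i) := by
    intro i
    rw [dgFI_fderiv_eq_inner, EuclideanSpace.inner_single_right]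
    simp
  conv_lhs => rw [← dgA6_sum_basis (gradient u x)]
  simp only [h]

theorem dgFI_continuous_gradient {u : DgE n → ℝ} (hu : ContDiff ℝ 1 u) : Continuous (gradient u) := by
  unfold gradient
  exact (LinearIsometryEquiv.continuous _).comp (hu.continuous_fderiv one_ne_zero)

/-! ## the stress tensor identity -/

theorem dgFI_hasFDerivAt_dir {u : DgE n → ℝ} {X : DgE n → DgE n} (hu : ContDiff ℝ 2 u) (hX : ContDiff ℝ 1 X)
    (x : DgE n) :
    HasFDerivAt (fun x => fderiv ℝ u x (X x))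
      ((fderiv ℝ u x).comp (fderiv ℝ X x) + (fderiv ℝ (fderiv ℝ u) x).flip (X x)) x := by
  have h1 : ContDiff ℝ 1 (fderiv ℝ u) := hu.fderiv_right (m := 1) (by norm_num)
  exact (h1.differentiable one_ne_zero x).hasFDerivAt.clm_apply (hX.differentiable one_ne_zero x).hasFDerivAt

theorem dgFI_contDiff_dir {u : DgE n → ℝ} {X : DgE n → DgE n} (hu : ContDiff ℝ 2 u) (hX : ContDiff ℝ 1 X) :
    ContDiff ℝ 1 (fun x => fderiv ℝ u x (X x)) :=
  (hu.fderiv_right (m := 1) (by norm_num)).clm_apply hX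

theorem dgFI_hcs_dir (u : DgE n → ℝ) {X : DgE n → DgE n} (hc : HasCompactSupport X) :
    HasCompactSupport (fun x => fderiv ℝ u x (X x)) := by
  refine hc.mono fun x hx => ?_
  simp only [Function.mem_support] at hx ⊢
  intro h0
  exact hx (by simp [h0])

/-- **The stress tensor `e Id - ∇u ⊗ ∇u` is divergence free**: `∫ (e div X - ⟪∇u, DX ∇u⟫) = 0` for `X ∈ C¹_c`. -/
theorem dgFI_stress {u : DgE n → ℝ} {X : DgE n → DgE n} (hu : ContDiff ℝ 2 u)
    (hpde : ∀ x, Laplacian.laplacian u x = u x ^ 3 - u x) (hX : ContDiff ℝ 1 X) (hc : HasCompactSupport X) :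
    ∫ x, (dgDens n u x * Gmt.gmtDiv X x - ⟪gradient u x, fderiv ℝ X x (gradient u x)⟫) = 0 := by
  have he : ContDiff ℝ 1 (dgDens n u) := dgA6_contDiff_dens hu
  have hφ := dgFI_contDiff_dir hu hX
  have hφc := dgFI_hcs_dir u hc
  have hA := dgFI_ibp he hX hc
  have hB := dgA6_weak hu hφ hφc
  have hlapc : Continuous (Laplacian.laplacian u) := by
    have : Laplacian.laplacian u = fun x => u x ^ 3 - u x := funext hpde
    rw [this]
    exact (hu.continuous.pow 3).sub hu.continuous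
  have iA : Integrable (fun x => dgDens n u x * Gmt.gmtDiv X x + fderiv ℝ (dgDens n u) x (X x)) := by
    refine Integrable.add ?_ ?_
    · exact (he.continuous.mul (dgFI_continuous_div hX)).integrable_of_hasCompactSupport (dgFI_hcs_div hc).mul_left
    · exact ((he.continuous_fderiv one_ne_zero).clm_apply hX.continuous).integrable_of_hasCompactSupport
        (dgFI_hcs_dir _ hc)
  have iB : Integrable (fun x => (∑ i, fderiv ℝ (fun x => fderiv ℝ u x (X x)) x (dgA6_b i)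
      * fderiv ℝ u x (dgA6_b i)) + fderiv ℝ u x (X x) * Laplacian.laplacian u x) := by
    refine Integrable.add ?_ ?_
    · refine integrable_finsetSum _ fun i _ => ?_
      exact Continuous.integrable_of_hasCompactSupport
        (((hφ.continuous_fderiv one_ne_zero).clm_apply continuous_const).mul
          (dgA6_contDiff_partial hu _).continuous)
        (dgA6_hcs_apply (hφc.fderiv (𝕜 := ℝ)) _).mul_right
    · exact (hφ.continuous.mul hlapc).integrable_of_hasCompactSupport hφc.mul_right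
  have hAB := integral_sub iA iB
  rw [hA, hB, sub_zero] at hAB
  rw [← hAB]
  refine integral_congr_ae (Eventually.of_forall fun x => ?_)
  simp only
  have d2 : ∀ i : Fin n, fderiv ℝ (fun x => fderiv ℝ u x (X x)) x (dgA6_b i)
      = fderiv ℝ u x (fderiv ℝ X x (dgA6_b i)) + fderiv ℝ (fderiv ℝ u) x (dgA6_b i) (X x) := by
    intro i
    rw [(dgFI_hasFDerivAt_dir hu hX x).fderiv]
    simp
  have hsum : (∑ i, fderiv ℝ (fun x => fderiv ℝ u x (X x)) x (dgA6_b i) * fderiv ℝ u x (dgA6_b i))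
      = ⟪gradient u x, fderiv ℝ X x (gradient u x)⟫
        + ∑ i, fderiv ℝ u x (dgA6_b i) * fderiv ℝ (fderiv ℝ u) x (X x) (dgA6_b i) := by
    rw [← dgFI_fderiv_eq_inner]
    conv_rhs => rw [dgFI_gradient_eq_sum u x]
    simp only [map_sum, map_smul, smul_eq_mul]
    rw [← Finset.sum_add_distrib]
    refine Finset.sum_congr rfl fun i _ => ?_
    rw [d2 i, dgA6_symm hu x (dgA6_b i) (X x)]
    ring
  rw [hsum, dgA6_fderiv_dens hu, hpde]
  ring

/-! ## the phase function `χ = Φ(u)/s₀` -/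

/-- the surface tension `s₀ = 2√2/3` (`= dgS0` of the Hub, by `rfl`). -/
noncomputable def dgFI_s0 : ℝ := 2 * Real.sqrt 2 / 3

theorem dgFI_sqrt2_pos : 0 < Real.sqrt 2 := Real.sqrt_pos.mpr (by norm_num)

theorem dgFI_sqrt2_sq : Real.sqrt 2 * Real.sqrt 2 = 2 := Real.mul_self_sqrt (by norm_num)

theorem dgFI_s0_pos : 0 < dgFI_s0 := by
  have := dgFI_sqrt2_pos
  unfold dgFI_s0
  positivity

/-- `√(2W(t)) = (1 - t²)/√2` on `[-1,1]`. -/
noncomputable def dgFI_w (t : ℝ) : ℝ := (1 - t ^ 2) / Real.sqrt 2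

theorem dgFI_w_sq (t : ℝ) : dgFI_w t ^ 2 = 2 * dgW t := by
  unfold dgFI_w dgW
  rw [div_pow, Real.sq_sqrt (by norm_num)]
  ring

theorem dgFI_w_nonneg {t : ℝ} (ht : t ∈ Icc (-1 : ℝ) 1) : 0 ≤ dgFI_w t := by
  unfold dgFI_w
  have : 0 ≤ 1 - t ^ 2 := by nlinarith [ht.1, ht.2]
  have := dgFI_sqrt2_pos
  positivity

theorem dgFI_w_continuous : Continuous dgFI_w := by
  unfold dgFI_w
  fun_prop

/-- `Φ(t) = ∫_{-1}^t √(2W)`. -/
noncomputable def dgFI_Phi (t : ℝ) : ℝ := (t - t ^ 3 / 3 + 2 / 3) / Real.sqrt 2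

theorem dgFI_Phi_hasDerivAt (t : ℝ) : HasDerivAt dgFI_Phi (dgFI_w t) t := by
  unfold dgFI_Phi dgFI_w
  have h : HasDerivAt (fun t : ℝ => t - t ^ 3 / 3 + 2 / 3) (1 - t ^ 2) t := by
    have h1 := (((hasDerivAt_id t).sub (((hasDerivAt_id t).pow 3).div_const 3)).add_const (2 / 3 : ℝ))
    refine h1.congr_deriv ?_
    simp
  exact h.div_const _

theorem dgFI_Phi_contDiff : ContDiff ℝ 1 dgFI_Phi := by
  unfold dgFI_Phi
  fun_prop

theorem dgFI_Phi_neg_one : dgFI_Phi (-1) = 0 := by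
  unfold dgFI_Phi
  norm_num

theorem dgFI_Phi_one : dgFI_Phi 1 = dgFI_s0 := by
  unfold dgFI_Phi dgFI_s0
  have h := dgFI_sqrt2_sq
  have h0 := dgFI_sqrt2_pos
  field_simp
  nlinarith

theorem dgFI_Phi_nonneg {t : ℝ} (ht : t ∈ Icc (-1 : ℝ) 1) : 0 ≤ dgFI_Phi t := by
  unfold dgFI_Phi
  have h : t - t ^ 3 / 3 + 2 / 3 = (t + 1) ^ 2 * (2 - t) / 3 := by ring
  have h2 : 0 ≤ 2 - t := by linarith [ht.2]
  have := dgFI_sqrt2_pos
  rw [h]
  positivity

theorem dgFI_Phi_le {t : ℝ} (ht : t ∈ Icc (-1 : ℝ) 1) : dgFI_Phi t ≤ dgFI_s0 := by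
  rw [← dgFI_Phi_one]
  unfold dgFI_Phi
  have h : (1 : ℝ) - 1 ^ 3 / 3 + 2 / 3 - (t - t ^ 3 / 3 + 2 / 3) = (1 - t) ^ 2 * (t + 2) / 3 := by ring
  have h2 : 0 ≤ t + 2 := by linarith [ht.1]
  have h3 : 0 ≤ (1 - t) ^ 2 * (t + 2) / 3 := by positivity
  exact div_le_div_of_nonneg_right (by linarith) dgFI_sqrt2_pos.le

/-- the phase function `χ = Φ(u)/s₀`, in the place of the indicator of `{u > 0}`. -/
noncomputable def dgFI_chi (u : DgE n → ℝ) (x : DgE n) : ℝ := dgFI_Phi (u x) / dgFI_s0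

theorem dgFI_chi_nonneg {u : DgE n → ℝ} (hu : DgSol n u) (x : DgE n) : 0 ≤ dgFI_chi u x :=
  div_nonneg (dgFI_Phi_nonneg (hu.range x)) dgFI_s0_pos.le

theorem dgFI_chi_le_one {u : DgE n → ℝ} (hu : DgSol n u) (x : DgE n) : dgFI_chi u x ≤ 1 :=
  (div_le_one dgFI_s0_pos).2 (dgFI_Phi_le (hu.range x))

theorem dgFI_chi_contDiff {u : DgE n → ℝ} (hu : ContDiff ℝ 1 u) : ContDiff ℝ 1 (dgFI_chi u) :=
  (dgFI_Phi_contDiff.comp hu).div_const _

theorem dgFI_chi_fderiv {u : DgE n → ℝ} (hu : ContDiff ℝ 1 u) (x v : DgE n) :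
    fderiv ℝ (dgFI_chi u) x v = dgFI_w (u x) / dgFI_s0 * fderiv ℝ u x v := by
  have h1 : HasFDerivAt (fun x => dgFI_Phi (u x)) (dgFI_w (u x) • fderiv ℝ u x) x :=
    (dgFI_Phi_hasDerivAt (u x)).comp_hasFDerivAt x (hu.differentiable one_ne_zero x).hasFDerivAt
  have h2 : HasFDerivAt (dgFI_chi u) ((dgFI_s0)⁻¹ • (dgFI_w (u x) • fderiv ℝ u x)) x := by
    have := h1.const_smul (dgFI_s0)⁻¹
    refine this.congr_of_eventuallyEq (Eventually.of_forall fun y => ?_)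
    simp [dgFI_chi, div_eq_inv_mul]
  rw [h2.fderiv]
  simp
  ring

/-- explicit one-sided bounds: `1 - χ ≤ (1-u)²·(3/4)` and `χ ≤ (1+u)²·(3/4)` (quadratic tails). -/
theorem dgFI_chi_le_sq {u : DgE n → ℝ} (hu : DgSol n u) (x : DgE n) : dgFI_chi u x ≤ 3 / 4 * (1 + u x) ^ 2 := by
  have ht := hu.range x
  unfold dgFI_chi dgFI_Phi dgFI_s0
  have h0 := dgFI_sqrt2_pos
  have h := dgFI_sqrt2_sq
  rw [div_div, div_le_iff₀ (by positivity)]
  have e : Real.sqrt 2 * (2 * Real.sqrt 2 / 3) = 4 / 3 := by nlinarith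
  rw [e]
  nlinarith [mul_nonneg (sq_nonneg (1 + u x)) (by linarith [ht.1] : 0 ≤ 1 + u x)]

theorem dgFI_one_sub_chi_le_sq {u : DgE n → ℝ} (hu : DgSol n u) (x : DgE n) :
    1 - dgFI_chi u x ≤ 3 / 4 * (1 - u x) ^ 2 := by
  have ht := hu.range x
  unfold dgFI_chi dgFI_Phi dgFI_s0
  have h0 := dgFI_sqrt2_pos
  have h := dgFI_sqrt2_sq
  rw [div_div]
  have e : Real.sqrt 2 * (2 * Real.sqrt 2 / 3) = 4 / 3 := by nlinarith
  rw [e]
  nlinarith [mul_nonneg (sq_nonneg (1 - u x)) (by linarith [ht.2] : 0 ≤ 1 - u x)]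

/-! ## the normal, the discrepancy, the three measures -/

/-- the normal `ν = -∇u/|∇u|` (outer normal of the superlevel sets; `0` at critical points). -/
noncomputable def dgFI_nu (u : DgE n → ℝ) (x : DgE n) : DgE n := -(‖gradient u x‖⁻¹ • gradient u x)

/-- the discrepancy `ξ = W(u) - |∇u|²/2` (nonnegative by Modica's bound). -/
noncomputable def dgFI_xi (u : DgE n → ℝ) (x : DgE n) : ℝ := dgW (u x) - ‖fderiv ℝ u x‖ ^ 2 / 2

theorem dgFI_norm_nu_le (u : DgE n → ℝ) (x : DgE n) : ‖dgFI_nu u x‖ ≤ 1 := by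
  unfold dgFI_nu
  rw [norm_neg, norm_smul, norm_inv, norm_norm]
  exact inv_mul_le_one

theorem dgFI_norm_nu {u : DgE n → ℝ} {x : DgE n} (h : fderiv ℝ u x ≠ 0) : ‖dgFI_nu u x‖ = 1 := by
  unfold dgFI_nu
  rw [norm_neg, norm_smul, norm_inv, norm_norm, dgFI_norm_gradient]
  exact inv_mul_cancel₀ (norm_ne_zero_iff.2 h)

theorem dgFI_measurable_nu {u : DgE n → ℝ} (hu : ContDiff ℝ 1 u) : Measurable (dgFI_nu u) := by
  have h := (dgFI_continuous_gradient hu).measurable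
  unfold dgFI_nu
  exact (h.norm.inv.smul h).neg

theorem dgFI_norm_smul_nu (u : DgE n → ℝ) (x : DgE n) : ‖fderiv ℝ u x‖ • dgFI_nu u x = -gradient u x := by
  unfold dgFI_nu
  rw [← dgFI_norm_gradient]
  by_cases h : gradient u x = 0
  · simp [h]
  · rw [smul_neg, smul_smul, mul_inv_cancel₀ (norm_ne_zero_iff.2 h), one_smul]

theorem dgFI_continuous_normD {u : DgE n → ℝ} (hu : ContDiff ℝ 1 u) : Continuous fun x => ‖fderiv ℝ u x‖ :=
  (hu.continuous_fderiv one_ne_zero).norm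

theorem dgFI_continuous_xi {u : DgE n → ℝ} (hu : ContDiff ℝ 1 u) : Continuous (dgFI_xi u) := by
  unfold dgFI_xi dgW
  have h1 := dgFI_continuous_normD hu
  have h2 := hu.continuous
  fun_prop

theorem dgFI_dens_eq_add_xi (u : DgE n → ℝ) (x : DgE n) : dgDens n u x = ‖fderiv ℝ u x‖ ^ 2 + dgFI_xi u x := by
  unfold dgDens dgFI_xi
  ring

/-- `μ = |∇u|² dx / s₀`. -/
noncomputable def dgFI_mu (u : DgE n → ℝ) : Measure (DgE n) :=
  volume.withDensity fun x => ENNReal.ofReal (‖fderiv ℝ u x‖ ^ 2 / dgFI_s0)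

/-- `μ₁ = √(2W(u)) |∇u| dx / s₀ = |∇χ| dx`. -/
noncomputable def dgFI_mu1 (u : DgE n → ℝ) : Measure (DgE n) :=
  volume.withDensity fun x => ENNReal.ofReal (dgFI_w (u x) * ‖fderiv ℝ u x‖ / dgFI_s0)

/-- `μ_e = (|∇u|²/2 + W(u)) dx / s₀`. -/
noncomputable def dgFI_mue (u : DgE n → ℝ) : Measure (DgE n) :=
  volume.withDensity fun x => ENNReal.ofReal (dgDens n u x / dgFI_s0)

/-- integrals against a measure with a continuous nonnegative density. -/
theorem dgFI_integral_withDensity {ρ : DgE n → ℝ} (hρ : Continuous ρ) (h0 : ∀ x, 0 ≤ ρ x) (f : DgE n → ℝ) :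
    ∫ x, f x ∂(volume.withDensity fun x => ENNReal.ofReal (ρ x)) = ∫ x, ρ x * f x := by
  rw [integral_withDensity_eq_integral_toReal_smul (by fun_prop) (Eventually.of_forall fun x => ENNReal.ofReal_lt_top)]
  refine integral_congr_ae (Eventually.of_forall fun x => ?_)
  simp [ENNReal.toReal_ofReal (h0 x)]

theorem dgFI_withDensity_compact {ρ : DgE n → ℝ} (hρ : Continuous ρ) {K : Set (DgE n)} (hK : IsCompact K) :
    (volume.withDensity fun x => ENNReal.ofReal (ρ x)) K ≠ ⊤ := by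
  rw [withDensity_apply _ hK.measurableSet]
  obtain ⟨M, hM⟩ := hK.exists_bound_of_continuousOn hρ.continuousOn
  refine ne_top_of_le_ne_top (b := ENNReal.ofReal M * volume K)
    (ENNReal.mul_ne_top ENNReal.ofReal_ne_top hK.measure_lt_top.ne) ?_
  calc ∫⁻ x in K, ENNReal.ofReal (ρ x) ≤ ∫⁻ _x in K, ENNReal.ofReal M := by
        refine setLIntegral_mono measurable_const fun x hx => ?_
        exact ENNReal.ofReal_le_ofReal ((le_abs_self _).trans (hM x hx))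
    _ = ENNReal.ofReal M * volume K := by rw [setLIntegral_const]

theorem dgFI_continuous_dens {u : DgE n → ℝ} (hu : ContDiff ℝ 1 u) : Continuous (dgDens n u) := by
  unfold dgDens dgW
  have h1 := dgFI_continuous_normD hu
  have h2 := hu.continuous
  fun_prop

theorem dgFI_dens_nonneg (u : DgE n → ℝ) (x : DgE n) : 0 ≤ dgDens n u x := by
  unfold dgDens dgW
  positivity

theorem dgFI_integral_mu {u : DgE n → ℝ} (hu : ContDiff ℝ 1 u) (f : DgE n → ℝ) :
    ∫ x, f x ∂(dgFI_mu u) = ∫ x, ‖fderiv ℝ u x‖ ^ 2 / dgFI_s0 * f x :=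
  dgFI_integral_withDensity (((dgFI_continuous_normD hu).pow 2).div_const _)
    (fun _ => div_nonneg (sq_nonneg _) dgFI_s0_pos.le) f

theorem dgFI_integral_mu1 {u : DgE n → ℝ} (hu : DgSol n u) (f : DgE n → ℝ) :
    ∫ x, f x ∂(dgFI_mu1 u) = ∫ x, dgFI_w (u x) * ‖fderiv ℝ u x‖ / dgFI_s0 * f x := by
  have h1 : ContDiff ℝ 1 u := hu.smooth.of_le (by norm_num)
  exact dgFI_integral_withDensity
    (((dgFI_w_continuous.comp h1.continuous).mul (dgFI_continuous_normD h1)).div_const _)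
    (fun x => div_nonneg (mul_nonneg (dgFI_w_nonneg (hu.range x)) (norm_nonneg _)) dgFI_s0_pos.le) f

theorem dgFI_integral_mue {u : DgE n → ℝ} (hu : ContDiff ℝ 1 u) (f : DgE n → ℝ) :
    ∫ x, f x ∂(dgFI_mue u) = ∫ x, dgDens n u x / dgFI_s0 * f x :=
  dgFI_integral_withDensity ((dgFI_continuous_dens hu).div_const _)
    (fun x => div_nonneg (dgFI_dens_nonneg u x) dgFI_s0_pos.le) f

theorem dgFI_mu_compact {u : DgE n → ℝ} (hu : ContDiff ℝ 1 u) {K : Set (DgE n)} (hK : IsCompact K) :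
    dgFI_mu u K ≠ ⊤ :=
  dgFI_withDensity_compact (((dgFI_continuous_normD hu).pow 2).div_const _) hK

theorem dgFI_mu1_compact {u : DgE n → ℝ} (hu : ContDiff ℝ 1 u) {K : Set (DgE n)} (hK : IsCompact K) :
    dgFI_mu1 u K ≠ ⊤ :=
  dgFI_withDensity_compact (((dgFI_w_continuous.comp hu.continuous).mul (dgFI_continuous_normD hu)).div_const _) hK

theorem dgFI_mue_compact {u : DgE n → ℝ} (hu : ContDiff ℝ 1 u) {K : Set (DgE n)} (hK : IsCompact K) :
    dgFI_mue u K ≠ ⊤ :=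
  dgFI_withDensity_compact ((dgFI_continuous_dens hu).div_const _) hK

/-- `μ ≤ μ₁` under Modica's bound. -/
theorem dgFI_mu_le_mu1 {u : DgE n → ℝ} (hu : DgSol n u) (hmod : ∀ x, ‖fderiv ℝ u x‖ ^ 2 / 2 ≤ dgW (u x)) :
    dgFI_mu u ≤ dgFI_mu1 u := by
  refine withDensity_mono (Eventually.of_forall fun x => ENNReal.ofReal_le_ofReal ?_)
  refine div_le_div_of_nonneg_right ?_ dgFI_s0_pos.le
  have h1 : ‖fderiv ℝ u x‖ ≤ dgFI_w (u x) := by
    refine abs_le_of_sq_le_sq' ?_ (dgFI_w_nonneg (hu.range x)) |>.2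
    rw [dgFI_w_sq]
    linarith [hmod x]
  nlinarith [norm_nonneg (fderiv ℝ u x)]

/-- `μ₁ ≤ μ_e` (Young). -/
theorem dgFI_mu1_le_mue (u : DgE n → ℝ) : dgFI_mu1 u ≤ dgFI_mue u := by
  refine withDensity_mono (Eventually.of_forall fun x => ENNReal.ofReal_le_ofReal ?_)
  refine div_le_div_of_nonneg_right ?_ dgFI_s0_pos.le
  have h := dgFI_w_sq (u x)
  unfold dgDens
  nlinarith [sq_nonneg (dgFI_w (u x) - ‖fderiv ℝ u x‖)]

/-- `μ_e(B_r(y)) = E(u; B_r(y))/s₀`. -/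
theorem dgFI_mue_ball {u : DgE n → ℝ} (hu : ContDiff ℝ 1 u) (y : DgE n) (r : ℝ) :
    dgFI_mue u (ball y r) = ENNReal.ofReal (dgEn n u y r / dgFI_s0) := by
  unfold dgFI_mue dgEn
  rw [withDensity_apply _ measurableSet_ball, ← integral_div]
  have hc : Continuous fun x => dgDens n u x / dgFI_s0 := (dgFI_continuous_dens hu).div_const _
  have hi : IntegrableOn (fun x => dgDens n u x / dgFI_s0) (ball y r) :=
    (hc.continuousOn.integrableOn_compact (isCompact_closedBall y r)).mono_set ball_subset_closedBall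
  rw [ofReal_integral_eq_lintegral_ofReal hi
    (Eventually.of_forall fun x => div_nonneg (dgFI_dens_nonneg u x) dgFI_s0_pos.le)]

/-! ## the two identities -/

/-- **(GG')** raw form: `∫ χ div T = -∫ (√(2W(u))/s₀) ∇u·T`. -/
theorem dgFI_gg_raw {u : DgE n → ℝ} {T : DgE n → DgE n} (hu : ContDiff ℝ 1 u) (hT : ContDiff ℝ 1 T)
    (hc : HasCompactSupport T) :
    ∫ x, dgFI_chi u x * Gmt.gmtDiv T x = -∫ x, dgFI_w (u x) / dgFI_s0 * fderiv ℝ u x (T x) := by
  have hχ := dgFI_chi_contDiff hu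
  have h := dgFI_ibp hχ hT hc
  have i1 : Integrable (fun x => dgFI_chi u x * Gmt.gmtDiv T x) :=
    (hχ.continuous.mul (dgFI_continuous_div hT)).integrable_of_hasCompactSupport (dgFI_hcs_div hc).mul_left
  have i2 : Integrable (fun x => fderiv ℝ (dgFI_chi u) x (T x)) :=
    ((hχ.continuous_fderiv one_ne_zero).clm_apply hT.continuous).integrable_of_hasCompactSupport
      (dgFI_hcs_dir _ hc)
  rw [integral_add i1 i2] at h
  have e : (fun x => fderiv ℝ (dgFI_chi u) x (T x)) = fun x => dgFI_w (u x) / dgFI_s0 * fderiv ℝ u x (T x) :=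
    funext fun x => dgFI_chi_fderiv hu x (T x)
  rw [e] at h
  linarith

/-- **(GG')**: `∫ χ div T = ∫ ⟪T,ν⟫ dμ₁` for every `T ∈ C¹_c`. -/
theorem dgFI_gg {u : DgE n → ℝ} {T : DgE n → DgE n} (hu : DgSol n u) (hT : ContDiff ℝ 1 T)
    (hc : HasCompactSupport T) :
    ∫ x, dgFI_chi u x * Gmt.gmtDiv T x = ∫ x, ⟪T x, dgFI_nu u x⟫ ∂(dgFI_mu1 u) := by
  have h1 : ContDiff ℝ 1 u := hu.smooth.of_le (by norm_num)
  rw [dgFI_gg_raw h1 hT hc, dgFI_integral_mu1 hu, ← integral_neg]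
  refine integral_congr_ae (Eventually.of_forall fun x => ?_)
  simp only
  have e : ‖fderiv ℝ u x‖ * ⟪T x, dgFI_nu u x⟫ = -fderiv ℝ u x (T x) := by
    rw [← real_inner_smul_right, dgFI_norm_smul_nu, inner_neg_right, dgFI_fderiv_eq_inner, real_inner_comm]
  calc -(dgFI_w (u x) / dgFI_s0 * fderiv ℝ u x (T x))
      = dgFI_w (u x) / dgFI_s0 * (‖fderiv ℝ u x‖ * ⟪T x, dgFI_nu u x⟫) := by rw [e]; ring
    _ = _ := by ring

theorem dgFI_sq_mul_tdiv (u : DgE n → ℝ) (X : DgE n → DgE n) (x : DgE n) :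
    ‖fderiv ℝ u x‖ ^ 2 * Gmt.flTdiv X (dgFI_nu u) x
      = ‖fderiv ℝ u x‖ ^ 2 * Gmt.gmtDiv X x - ⟪gradient u x, fderiv ℝ X x (gradient u x)⟫ := by
  unfold Gmt.flTdiv
  have e : ‖fderiv ℝ u x‖ ^ 2 * ⟪dgFI_nu u x, fderiv ℝ X x (dgFI_nu u x)⟫
      = ⟪gradient u x, fderiv ℝ X x (gradient u x)⟫ := by
    have h := dgFI_norm_smul_nu u x
    calc ‖fderiv ℝ u x‖ ^ 2 * ⟪dgFI_nu u x, fderiv ℝ X x (dgFI_nu u x)⟫
        = ⟪‖fderiv ℝ u x‖ • dgFI_nu u x, fderiv ℝ X x (‖fderiv ℝ u x‖ • dgFI_nu u x)⟫ := by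
          rw [map_smul, real_inner_smul_left, real_inner_smul_right]; ring
      _ = _ := by rw [h, map_neg, inner_neg_neg]
  rw [mul_sub, e]

/-- **(FV')** raw form: `∫ |∇u|² (div X - ⟪ν, DX ν⟫) = -∫ ξ div X`. -/
theorem dgFI_fv_raw {u : DgE n → ℝ} {X : DgE n → DgE n} (hu : DgSol n u) (hX : ContDiff ℝ 1 X)
    (hc : HasCompactSupport X) :
    ∫ x, ‖fderiv ℝ u x‖ ^ 2 * Gmt.flTdiv X (dgFI_nu u) x = -∫ x, dgFI_xi u x * Gmt.gmtDiv X x := by
  have h1 : ContDiff ℝ 1 u := hu.smooth.of_le (by norm_num)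
  have h := dgFI_stress hu.smooth hu.pde hX hc
  have hg := dgFI_continuous_gradient h1
  have i1 : Integrable (fun x => ‖fderiv ℝ u x‖ ^ 2 * Gmt.gmtDiv X x
      - ⟪gradient u x, fderiv ℝ X x (gradient u x)⟫) := by
    refine Integrable.sub ?_ ?_
    · exact (((dgFI_continuous_normD h1).pow 2).mul (dgFI_continuous_div hX)).integrable_of_hasCompactSupport
        (dgFI_hcs_div hc).mul_left
    · refine Continuous.integrable_of_hasCompactSupport
        (hg.inner ((hX.continuous_fderiv one_ne_zero).clm_apply hg)) ?_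
      refine (hc.fderiv (𝕜 := ℝ)).mono fun x hx => ?_
      simp only [Function.mem_support] at hx ⊢
      intro h0
      exact hx (by simp [h0])
  have i2 : Integrable (fun x => dgFI_xi u x * Gmt.gmtDiv X x) :=
    ((dgFI_continuous_xi h1).mul (dgFI_continuous_div hX)).integrable_of_hasCompactSupport
      (dgFI_hcs_div hc).mul_left
  have e : (fun x => dgDens n u x * Gmt.gmtDiv X x - ⟪gradient u x, fderiv ℝ X x (gradient u x)⟫)
      = fun x => (‖fderiv ℝ u x‖ ^ 2 * Gmt.gmtDiv X x - ⟪gradient u x, fderiv ℝ X x (gradient u x)⟫)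
        + dgFI_xi u x * Gmt.gmtDiv X x := by
    funext x
    rw [dgFI_dens_eq_add_xi]
    ring
  rw [e, integral_add i1 i2] at h
  simp only [dgFI_sq_mul_tdiv]
  linarith

/-- **(FV')**: `∫ (div X - ⟪ν, DX ν⟫) dμ = -(1/s₀) ∫ ξ div X` for every `X ∈ C¹_c`. -/
theorem dgFI_fv {u : DgE n → ℝ} {X : DgE n → DgE n} (hu : DgSol n u) (hX : ContDiff ℝ 1 X)
    (hc : HasCompactSupport X) :
    ∫ x, Gmt.flTdiv X (dgFI_nu u) x ∂(dgFI_mu u) = -(1 / dgFI_s0) * ∫ x, dgFI_xi u x * Gmt.gmtDiv X x := by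
  have h1 : ContDiff ℝ 1 u := hu.smooth.of_le (by norm_num)
  rw [dgFI_integral_mu h1]
  have e : (fun x => ‖fderiv ℝ u x‖ ^ 2 / dgFI_s0 * Gmt.flTdiv X (dgFI_nu u) x)
      = fun x => (1 / dgFI_s0) * (‖fderiv ℝ u x‖ ^ 2 * Gmt.flTdiv X (dgFI_nu u) x) := by
    funext x
    ring
  rw [e, integral_const_mul, dgFI_fv_raw hu hX hc]
  ring

/-- the first variation bound: `|∫ div_ν X dμ| ≤ (1/s₀) ∫ ξ |div X|` under Modica's bound. -/
theorem dgFI_fv_abs {u : DgE n → ℝ} {X : DgE n → DgE n} (hu : DgSol n u)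
    (hmod : ∀ x, ‖fderiv ℝ u x‖ ^ 2 / 2 ≤ dgW (u x)) (hX : ContDiff ℝ 1 X) (hc : HasCompactSupport X) :
    |∫ x, Gmt.flTdiv X (dgFI_nu u) x ∂(dgFI_mu u)| ≤ (1 / dgFI_s0) * ∫ x, dgFI_xi u x * |Gmt.gmtDiv X x| := by
  rw [dgFI_fv hu hX hc, abs_mul, abs_neg, abs_of_nonneg (by have := dgFI_s0_pos; positivity)]
  refine mul_le_mul_of_nonneg_left ?_ (by have := dgFI_s0_pos; positivity)
  refine (abs_integral_le_integral_abs).trans (le_of_eq ?_)
  refine integral_congr_ae (Eventually.of_forall fun x => ?_)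
  simp only
  rw [abs_mul, abs_of_nonneg]
  unfold dgFI_xi
  linarith [hmod x]

end

end Claimed.Agent.R329
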