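import Claimed.Agent.R329.Defs
import Claimed.Agent.R329.FlId
import Claimed.Agent.Lib.Gmt.FlMean

/-!
# Row 329, post P7 (helper278): the mean value inequality F7 for the diffuse pair, WITHOUT error term.

The pair: `μ_e = e(u) dx / s₀`, `e = |∇u|²/2 + W(u)` (full energy density), `ν̂ = -∇u / √e`.
* `‖ν̂‖ ≤ 1` is Modica's inequality.
* `e (div X - ⟨ν̂, DX ν̂⟩) = e div X - ⟨∇u, DX ∇u⟩` is the contraction of the stress-energy tensor with `DX`,
  so `FlFV 0 univ μ_e ν̂` holds EXACTLY (`κ = 0`), and `fl_mean` of `Lib/Gmt/FlMean5` applies as it is.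
This file: (1) `FlFV 0 univ` is invariant under dilations (abstract pairs); (2) hence the mean value inequality of `fl_mean`
holds at ALL scales `0 < 2 s ≤ R`, all centres, all affine functions, with no restriction `R ≤ 1`, `‖q‖ ≤ 2`.
-/

set_option autoImplicit false
open MeasureTheory Metric Set Filter Topology
open scoped RealInnerProductSpace ENNReal ContDiff

namespace Claimed.Agent.R329

open Claimed.Agent.Gmt (E gmtDiv GmtTestS FlFV flTdiv fl_mean)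

section dil
variable {m : ℕ}

/-- `FlFV 0` says that the first variation vanishes. -/
theorem dfm_fv_zero_iff {U : Set (E m)} {μ : Measure (E m)} {ν : E m → E m} :
    FlFV 0 U μ ν ↔ ∀ X, GmtTestS U X → ∫ x, flTdiv X ν x ∂μ = 0 := by
  unfold FlFV
  refine forall_congr' fun X => forall_congr' fun _ => ?_
  rw [zero_mul]
  exact ⟨fun h => abs_eq_zero.1 (le_antisymm h (abs_nonneg _)), fun h => by rw [h]; simp⟩

/-- the dilation as a measurable embedding -/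
theorem dfm_dil_emb {l : ℝ} (hl : l ≠ 0) : MeasurableEmbedding (fun x : E m => l • x) :=
  (Homeomorph.smulOfNeZero l hl).measurableEmbedding

/-- the dilated test field -/
theorem dfm_test_dil {X : E m → E m} (hX : GmtTestS univ X) {l : ℝ} (hl : l ≠ 0) :
    GmtTestS univ (fun x => X (l • x)) where
  smooth := hX.smooth.comp (contDiff_const_smul l)
  cpt := hX.cpt.comp_smul hl
  sub := subset_univ _

theorem dfm_tdiv_dil (X ν : E m → E m) {l : ℝ} (hl : l ≠ 0) (x : E m) :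
    flTdiv (fun x => X (l • x)) ν x = l * flTdiv X (fun y => ν (l⁻¹ • y)) (l • x) := by
  unfold flTdiv gmtDiv
  have h : fderiv ℝ (fun x => X (l • x)) x = l • fderiv ℝ X (l • x) := fderiv_comp_smul l
  rw [h]
  simp only [inv_smul_smul₀ hl, _root_.smul_apply, PiLp.smul_apply, smul_eq_mul,
    inner_smul_right]
  rw [← Finset.mul_sum]
  ring

/-- **`FlFV 0 univ` is invariant under dilations.** -/
theorem dfm_fv_dil {μ : Measure (E m)} {ν : E m → E m} (h : FlFV 0 univ μ ν) {l : ℝ} (hl : l ≠ 0) :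
    FlFV 0 univ (μ.map fun x => l • x) (fun y => ν (l⁻¹ • y)) := by
  rw [dfm_fv_zero_iff] at h ⊢
  intro X hX
  rw [(dfm_dil_emb hl).integral_map]
  have h1 := h _ (dfm_test_dil hX hl)
  simp only [dfm_tdiv_dil X ν hl] at h1
  rw [integral_const_mul] at h1
  exact (mul_eq_zero.1 h1).resolve_left hl

theorem dfm_preimage_ball {l : ℝ} (hl : 0 < l) (y : E m) (r : ℝ) :
    (fun x : E m => l • x) ⁻¹' ball (l • y) (l * r) = ball y r := by
  ext x
  simp only [mem_preimage, mem_ball, dist_eq_norm, ← smul_sub, norm_smul, Real.norm_eq_abs,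
    abs_of_pos hl]
  exact mul_lt_mul_iff_right₀ hl

theorem dfm_preimage_closedBall {l : ℝ} (hl : 0 < l) (y : E m) (r : ℝ) :
    (fun x : E m => l • x) ⁻¹' closedBall (l • y) (l * r) = closedBall y r := by
  ext x
  simp only [mem_preimage, mem_closedBall, dist_eq_norm, ← smul_sub, norm_smul, Real.norm_eq_abs,
    abs_of_pos hl]
  exact mul_le_mul_iff_right₀ hl

/-- set integrals of squares of affine functions under a dilation -/
theorem dfm_setIntegral_dil (μ : Measure (E m)) {l : ℝ} (hl : 0 < l) (t a : ℝ) (q y : E m) (r : ℝ) :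
    ∫ z in ball (l • y) (l * r), (t * a + ⟪(t * l⁻¹) • q, z⟫) ^ 2 ∂(μ.map fun x => l • x)
      = t ^ 2 * ∫ x in ball y r, (a + ⟪q, x⟫) ^ 2 ∂μ := by
  rw [(dfm_dil_emb hl.ne').setIntegral_map, dfm_preimage_ball hl, ← integral_const_mul]
  refine integral_congr_ae (Eventually.of_forall fun x => ?_)
  simp only [inner_smul_left, inner_smul_right, RCLike.conj_to_real]
  field_simp

end dil

/-! ## EXITS -/

section mean

/-- **F7 at all scales and with `κ = 0`**: for an abstract pair `(μ, ν)` with `‖ν‖ ≤ 1` and vanishing first variation,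
`s^{-k} ∫_{B_s(y₀)} L² dμ ≤ C R^{-k} ∫_{B_R(y₀)} L² dμ` for all `0 < 2 s ≤ R`, all centres, all affine `L`. -/
theorem dfm_mean0 (k : ℕ) (hk : 1 ≤ k) : ∃ C : ℝ, 0 < C ∧
    ∀ (μ : Measure (E (k + 1))) (ν : E (k + 1) → E (k + 1)) (C₀ s R a : ℝ) (y0 q : E (k + 1)),
      Measurable ν → (∀ x, ‖ν x‖ ≤ 1) → μ (closedBall y0 R) ≠ ⊤ → FlFV 0 univ μ ν → 0 ≤ C₀ →
      (∀ ρ, 0 < ρ → ρ ≤ R → μ (ball y0 ρ) ≤ ENNReal.ofReal (C₀ * ρ ^ k)) →
      0 < s → 2 * s ≤ R →
        (s ^ k)⁻¹ * ∫ y in ball y0 s, (a + ⟪q, y⟫) ^ 2 ∂μ ≤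
          C * ((R ^ k)⁻¹ * ∫ y in ball y0 R, (a + ⟪q, y⟫) ^ 2 ∂μ) := by
  obtain ⟨C, κ₀, hC, hκ₀, H⟩ := fl_mean k hk
  refine ⟨C, hC, ?_⟩
  intro μ ν C₀ s R a y0 q hν hν1 hfin hfv hC₀ hup hs hsR
  have hR : 0 < R := by linarith
  obtain ⟨l, hldef⟩ : ∃ l : ℝ, l = R⁻¹ := ⟨_, rfl⟩
  have hl : 0 < l := by rw [hldef]; positivity
  have hlR : l * R = 1 := by rw [hldef]; field_simp
  have hlinv : l⁻¹ = R := by rw [hldef, inv_inv]
  obtain ⟨t, htdef⟩ : ∃ t : ℝ, t = (R * ‖q‖ + 1)⁻¹ := ⟨_, rfl⟩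
  have hq0 : 0 < R * ‖q‖ + 1 := by positivity
  have ht : 0 < t := by rw [htdef]; positivity
  have hemb := dfm_dil_emb (m := k + 1) hl.ne'
  have hfin' : (μ.map fun x => l • x) (closedBall (l • y0) (l * R)) ≠ ⊤ := by
    rw [hemb.map_apply, dfm_preimage_closedBall hl]; exact hfin
  have hup' : ∀ ρ, 0 < ρ → ρ ≤ l * R →
      (μ.map fun x => l • x) (ball (l • y0) ρ) ≤ ENNReal.ofReal (C₀ * R ^ k * ρ ^ k) := by
    intro ρ hρ hρ1
    have e1 : ρ = l * (R * ρ) := by rw [← mul_assoc, hlR, one_mul]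
    rw [hemb.map_apply]
    conv_lhs => rw [e1]
    rw [dfm_preimage_ball hl]
    refine (hup (R * ρ) (by positivity) (by rw [hlR] at hρ1; nlinarith)).trans ?_
    rw [mul_pow, mul_assoc]
  have hq' : ‖(t * l⁻¹) • q‖ ≤ 2 := by
    rw [norm_smul, hlinv, Real.norm_eq_abs, abs_of_pos (by positivity), htdef]
    rw [mul_assoc, inv_mul_le_iff₀ hq0]
    nlinarith [norm_nonneg q]
  have key := H univ (μ.map fun x => l • x) (fun y => ν (l⁻¹ • y)) 0 (C₀ * R ^ k) (l * s) (l * R)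
    (t * a) (l • y0) ((t * l⁻¹) • q) (hν.comp (measurable_const_smul _)) (fun x => hν1 _) hfin'
    (dfm_fv_dil hfv hl.ne') le_rfl hκ₀.le (subset_univ _) (by positivity) hup' (by positivity)
    (by nlinarith) hlR.le hq' (by simp)
  rw [dfm_setIntegral_dil μ hl, dfm_setIntegral_dil μ hl, hlR] at key
  simp only [one_pow, inv_one, one_mul, zero_mul, add_zero] at key
  have e2 : ((l * s) ^ k)⁻¹ = R ^ k * (s ^ k)⁻¹ := by
    rw [hldef, mul_pow, mul_inv, inv_pow, inv_inv]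
  rw [e2] at key
  have hRk : 0 < R ^ k := by positivity
  have ht2 : 0 < t ^ 2 := by positivity
  have key2 : (R ^ k * t ^ 2) * ((s ^ k)⁻¹ * ∫ y in ball y0 s, (a + ⟪q, y⟫) ^ 2 ∂μ) ≤
      (R ^ k * t ^ 2) * (C * ((R ^ k)⁻¹ * ∫ y in ball y0 R, (a + ⟪q, y⟫) ^ 2 ∂μ)) := by
    calc (R ^ k * t ^ 2) * ((s ^ k)⁻¹ * ∫ y in ball y0 s, (a + ⟪q, y⟫) ^ 2 ∂μ)
        = R ^ k * (s ^ k)⁻¹ * (t ^ 2 * ∫ y in ball y0 s, (a + ⟪q, y⟫) ^ 2 ∂μ) := by ring
      _ ≤ C * (t ^ 2 * ∫ y in ball y0 R, (a + ⟪q, y⟫) ^ 2 ∂μ) := key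
      _ = (R ^ k * t ^ 2) * (C * ((R ^ k)⁻¹ * ∫ y in ball y0 R, (a + ⟪q, y⟫) ^ 2 ∂μ)) := by
          field_simp
  exact le_of_mul_le_mul_left key2 (by positivity)

end mean

end Claimed.Agent.R329
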