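import Claimed.Agent.R329.FlId
import Claimed.Agent.Lib.Gmt.FlMean

/-!
# Row 329, post P7 (chief: helper278; this file: helper58): the diffuse pair `(μ_e, ν̂)` with first variation EXACTLY zero.   Prefix `dfm`.

Idea of helper278.  For `v` with layer width `w` put `e_w = w|∇v|²/2 + W(v)/w`, `μ_e = e_w dy/s₀`, `ν̂ = -√w ∇v/√e_w` (`0` where `e_w = 0`).
* `|ν̂|² = w|∇v|²/e_w ≤ 1` is Modica's bound (`dfm_Nu_norm_le`);
* `e_w (div X - ⟪ν̂, DX ν̂⟫) = e_w div X - w ⟪∇v, DX ∇v⟫` (`dfm_E_mul_tdiv`) is the stress tensor tested with `X`;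
  so `FlFV 0 univ μ_e ν̂` (`dfm_fv0`), in the very words of `Lib/Gmt/FlDefs`;
* hence `fl_mean` (F7 of `Lib/Gmt`, frozen) applies with `κ = 0`: `dfm_mean_of_fv`.
-/

set_option autoImplicit false
open MeasureTheory Metric Set Filter Topology
open scoped RealInnerProductSpace ENNReal ContDiff

namespace Claimed.Agent.R329

section
variable {n : ℕ}

/-! ## D1: definitions -/

/-- the energy density at layer width `w`: `e_w = w|∇v|²/2 + W(v)/w`. -/
noncomputable def dfmE (w : ℝ) (v : DgE n → ℝ) (y : DgE n) : ℝ := w / 2 * ‖fderiv ℝ v y‖ ^ 2 + dgW (v y) / w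

/-- the energy measure `μ_e = e_w dy / s₀`. -/
noncomputable def dfmMu (w : ℝ) (v : DgE n → ℝ) : Measure (DgE n) :=
  volume.withDensity fun y => ENNReal.ofReal (dfmE w v y / dgFI_s0)

/-- the shortened normal `ν̂ = -√w ∇v / √e_w`. -/
noncomputable def dfmNu (w : ℝ) (v : DgE n → ℝ) (y : DgE n) : DgE n :=
  -((Real.sqrt w / Real.sqrt (dfmE w v y)) • gradient v y)

/-! ## D2 -/

theorem dfm_W_nonneg (t : ℝ) : 0 ≤ dgW t := by
  unfold dgW
  positivity

theorem dfm_E_nonneg {w : ℝ} (hw : 0 < w) (v : DgE n → ℝ) (y : DgE n) : 0 ≤ dfmE w v y := by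
  unfold dfmE
  have := dfm_W_nonneg (v y)
  positivity

theorem dfm_E_one (u : DgE n → ℝ) : dfmE 1 u = dgDens n u := by
  funext y
  unfold dfmE dgDens
  ring

theorem dfm_E_continuous {v : DgE n → ℝ} (hv : ContDiff ℝ 1 v) (w : ℝ) : Continuous (dfmE w v) := by
  unfold dfmE dgW
  exact (continuous_const.mul ((dgFI_continuous_normD hv).pow 2)).add
    ((((continuous_const.sub (hv.continuous.pow 2)).pow 2).div_const 4).div_const w)

theorem dfm_rho_continuous {v : DgE n → ℝ} (hv : ContDiff ℝ 1 v) (w : ℝ) :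
    Continuous fun y => dfmE w v y / dgFI_s0 := (dfm_E_continuous hv w).div_const _

theorem dfm_rho_nonneg {w : ℝ} (hw : 0 < w) (v : DgE n → ℝ) (y : DgE n) : 0 ≤ dfmE w v y / dgFI_s0 :=
  div_nonneg (dfm_E_nonneg hw v y) dgFI_s0_pos.le

theorem dfm_Nu_measurable {v : DgE n → ℝ} (hv : ContDiff ℝ 1 v) (w : ℝ) : Measurable (dfmNu w v) := by
  unfold dfmNu
  have h1 : Measurable fun y => Real.sqrt w / Real.sqrt (dfmE w v y) :=
    measurable_const.div (dfm_E_continuous hv w).measurable.sqrt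
  exact (h1.smul (dgFI_continuous_gradient hv).measurable).neg

/-- where the energy density vanishes, so does the gradient. -/
theorem dfm_grad_eq_zero {w : ℝ} (hw : 0 < w) {v : DgE n → ℝ} {y : DgE n} (h : dfmE w v y = 0) :
    gradient v y = 0 := by
  unfold dfmE at h
  have h1 : 0 ≤ dgW (v y) / w := div_nonneg (dfm_W_nonneg _) hw.le
  have h2 : 0 ≤ w / 2 * ‖fderiv ℝ v y‖ ^ 2 := by positivity
  have h3 : w / 2 * ‖fderiv ℝ v y‖ ^ 2 = 0 := by linarith
  have h4 : ‖fderiv ℝ v y‖ ^ 2 = 0 := by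
    rcases mul_eq_zero.1 h3 with h | h
    · linarith
    · exact h
  have h5 : ‖gradient v y‖ = 0 := by
    rw [dgFI_norm_gradient]
    exact pow_eq_zero_iff (two_ne_zero) |>.1 h4
  exact norm_eq_zero.1 h5

/-- `e_w c² = w` for the coefficient `c = √w/√e_w`, where `e_w > 0`. -/
theorem dfm_coef_sq {w : ℝ} (hw : 0 < w) {e : ℝ} (he : 0 < e) : e * (Real.sqrt w / Real.sqrt e) ^ 2 = w := by
  rw [div_pow, Real.sq_sqrt hw.le, Real.sq_sqrt he.le]
  field_simp

theorem dfm_E_mul_norm_Nu_sq {w : ℝ} (hw : 0 < w) (v : DgE n → ℝ) (y : DgE n) :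
    dfmE w v y * ‖dfmNu w v y‖ ^ 2 = w * ‖fderiv ℝ v y‖ ^ 2 := by
  rcases (dfm_E_nonneg hw v y).eq_or_lt with h | h
  · have hg := dfm_grad_eq_zero hw h.symm
    have : ‖fderiv ℝ v y‖ = 0 := by rw [← dgFI_norm_gradient, hg, norm_zero]
    rw [← h, this]
    simp
  · unfold dfmNu
    rw [norm_neg, norm_smul, mul_pow, Real.norm_eq_abs, sq_abs, ← mul_assoc, dfm_coef_sq hw h,
      dgFI_norm_gradient]

/-- **`|ν̂| ≤ 1` is Modica's bound.** -/
theorem dfm_Nu_norm_le {w : ℝ} (hw : 0 < w) {v : DgE n → ℝ}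
    (hmod : ∀ y, w / 2 * ‖fderiv ℝ v y‖ ^ 2 ≤ dgW (v y) / w) (y : DgE n) : ‖dfmNu w v y‖ ≤ 1 := by
  rcases (dfm_E_nonneg hw v y).eq_or_lt with h | h
  · have hg := dfm_grad_eq_zero hw h.symm
    unfold dfmNu
    rw [hg]
    simp
  · have h1 := dfm_E_mul_norm_Nu_sq hw v y
    have h2 : w * ‖fderiv ℝ v y‖ ^ 2 ≤ dfmE w v y := by
      have := hmod y
      unfold dfmE
      linarith
    have h3 : ‖dfmNu w v y‖ ^ 2 ≤ 1 := by
      by_contra hc
      rw [not_le] at hc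
      nlinarith
    exact (sq_le_one_iff₀ (norm_nonneg _)).1 h3

/-- the discrepancy: `e_w (1 - |ν̂|²) = W(v)/w - w|∇v|²/2`. -/
theorem dfm_E_mul_one_sub {w : ℝ} (hw : 0 < w) (v : DgE n → ℝ) (y : DgE n) :
    dfmE w v y * (1 - ‖dfmNu w v y‖ ^ 2) = dgW (v y) / w - w / 2 * ‖fderiv ℝ v y‖ ^ 2 := by
  rw [mul_sub, dfm_E_mul_norm_Nu_sq hw, mul_one]
  unfold dfmE
  ring

theorem dfm_integral_Mu {w : ℝ} (hw : 0 < w) {v : DgE n → ℝ} (hv : ContDiff ℝ 1 v) (f : DgE n → ℝ) :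
    ∫ y, f y ∂(dfmMu w v) = ∫ y, dfmE w v y / dgFI_s0 * f y :=
  dgFI_integral_withDensity (dfm_rho_continuous hv w) (dfm_rho_nonneg hw v) f

theorem dfm_Mu_compact {v : DgE n → ℝ} (hv : ContDiff ℝ 1 v) (w : ℝ) {K : Set (DgE n)} (hK : IsCompact K) :
    dfmMu w v K ≠ ⊤ := dgFI_withDensity_compact (dfm_rho_continuous hv w) hK

theorem dfm_Mu_ball {w : ℝ} (hw : 0 < w) {v : DgE n → ℝ} (hv : ContDiff ℝ 1 v) (y : DgE n) (r : ℝ) :
    dfmMu w v (ball y r) = ENNReal.ofReal (∫ x in ball y r, dfmE w v x / dgFI_s0) := by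
  unfold dfmMu
  rw [withDensity_apply _ measurableSet_ball, ofReal_integral_eq_lintegral_ofReal]
  · exact ((dfm_rho_continuous hv w).continuousOn.integrableOn_compact (isCompact_closedBall y r)).mono_set
      ball_subset_closedBall
  · exact Eventually.of_forall fun x => dfm_rho_nonneg hw v x

/-- the pointwise identity: `e_w div_ν̂ X` is the stress tensor tested with `X`. -/
theorem dfm_E_mul_tdiv {w : ℝ} (hw : 0 < w) (v : DgE n → ℝ) (X : DgE n → DgE n) (y : DgE n) :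
    dfmE w v y * Gmt.flTdiv X (dfmNu w v) y =
      dfmE w v y * Gmt.gmtDiv X y - w * ⟪gradient v y, fderiv ℝ X y (gradient v y)⟫ := by
  unfold Gmt.flTdiv
  rw [mul_sub]
  congr 1
  rcases (dfm_E_nonneg hw v y).eq_or_lt with h | h
  · have hg := dfm_grad_eq_zero hw h.symm
    rw [← h, hg]
    simp
  · unfold dfmNu
    rw [map_neg, inner_neg_neg, map_smul, real_inner_smul_left, real_inner_smul_right]
    have hc := dfm_coef_sq hw h
    calc dfmE w v y * (Real.sqrt w / Real.sqrt (dfmE w v y) * (Real.sqrt w / Real.sqrt (dfmE w v y) *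
          ⟪gradient v y, fderiv ℝ X y (gradient v y)⟫))
        = (dfmE w v y * (Real.sqrt w / Real.sqrt (dfmE w v y)) ^ 2) *
          ⟪gradient v y, fderiv ℝ X y (gradient v y)⟫ := by ring
      _ = _ := by rw [hc]

/-! ## D4: the first variation of `(μ_e, ν̂)` vanishes -/

/-- **`FlFV 0`**, from the stress identity (D3). -/
theorem dfm_fv0 {w : ℝ} (hw : 0 < w) {v : DgE n → ℝ} (hv : ContDiff ℝ 1 v)
    (hstress : ∀ X : DgE n → DgE n, ContDiff ℝ ∞ X → HasCompactSupport X →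
      ∫ y, (dfmE w v y * Gmt.gmtDiv X y - w * ⟪gradient v y, fderiv ℝ X y (gradient v y)⟫) = 0) :
    Gmt.FlFV 0 univ (dfmMu w v) (dfmNu w v) := by
  intro X hX
  rw [zero_mul, dfm_integral_Mu hw hv]
  have e : (fun y => dfmE w v y / dgFI_s0 * Gmt.flTdiv X (dfmNu w v) y) = fun y =>
      (1 / dgFI_s0) * (dfmE w v y * Gmt.gmtDiv X y - w * ⟪gradient v y, fderiv ℝ X y (gradient v y)⟫) := by
    funext y
    rw [← dfm_E_mul_tdiv hw]
    ring
  rw [e, integral_const_mul, hstress X hX.smooth hX.cpt]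
  simp

/-- the unscaled case `w = 1`. -/
theorem dfm_fv0_one {u : DgE n → ℝ} (hu : DgSol n u) : Gmt.FlFV 0 univ (dfmMu 1 u) (dfmNu 1 u) := by
  refine dfm_fv0 one_pos (hu.smooth.of_le (by norm_num)) fun X hX hc => ?_
  have h := dgFI_stress hu.smooth hu.pde (hX.of_le (by simp)) hc
  rw [dfm_E_one]
  simpa using h

end

/-! ## D5: the mean value inequality -/

/-- an upper density bound at the centre (any constant will do: it is multiplied by `κ = 0`). -/
theorem dfm_Mu_up {k : ℕ} {w : ℝ} {v : DgE (k + 1) → ℝ} (hv : ContDiff ℝ 1 v) (y0 : DgE (k + 1)) {R : ℝ}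
    (hR : 0 < R) : ∃ C₀ : ℝ, 0 ≤ C₀ ∧ ∀ ρ, 0 < ρ → ρ ≤ R → dfmMu w v (ball y0 ρ) ≤ ENNReal.ofReal (C₀ * ρ ^ k) := by
  obtain ⟨M, hM⟩ := (isCompact_closedBall y0 R).exists_bound_of_continuousOn (dfm_rho_continuous hv w).continuousOn
  have hM0 : 0 ≤ M := (norm_nonneg _).trans (hM y0 (mem_closedBall_self hR.le))
  set om : ℝ := (volume (ball (0 : DgE (k + 1)) 1)).toReal with hom
  refine ⟨M * om * R, by positivity, fun ρ hρ hρR => ?_⟩
  unfold dfmMu
  rw [withDensity_apply _ measurableSet_ball]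
  calc ∫⁻ x in ball y0 ρ, ENNReal.ofReal (dfmE w v x / dgFI_s0) ≤ ∫⁻ _x in ball y0 ρ, ENNReal.ofReal M := by
        refine setLIntegral_mono measurable_const fun x hx => ?_
        exact ENNReal.ofReal_le_ofReal ((le_abs_self _).trans
          (hM x (ball_subset_closedBall (ball_subset_ball hρR hx))))
    _ = ENNReal.ofReal M * volume (ball y0 ρ) := by rw [setLIntegral_const]
    _ = ENNReal.ofReal M * (ENNReal.ofReal (ρ ^ (k + 1)) * ENNReal.ofReal om) := by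
        rw [Measure.addHaar_ball _ _ hρ.le, hom, ENNReal.ofReal_toReal measure_ball_lt_top.ne]
        simp
    _ = ENNReal.ofReal (M * (ρ ^ (k + 1) * om)) := by
        rw [← ENNReal.ofReal_mul (by positivity), ← ENNReal.ofReal_mul hM0]
    _ ≤ ENNReal.ofReal (M * om * R * ρ ^ k) := by
        refine ENNReal.ofReal_le_ofReal ?_
        have : ρ ^ (k + 1) ≤ R * ρ ^ k := by
          rw [pow_succ, mul_comm]
          gcongr
        calc M * (ρ ^ (k + 1) * om) ≤ M * ((R * ρ ^ k) * om) := by gcongr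
          _ = M * om * R * ρ ^ k := by ring

/-! ## EXITS -/

/-- **F7 for the diffuse pair: the mean value inequality with NO error term.** -/
theorem dfm_mean_of_fv (k : ℕ) (hk : 1 ≤ k) : ∃ C : ℝ, 0 < C ∧
    ∀ (w : ℝ) (v : DgE (k + 1) → ℝ), 0 < w → ContDiff ℝ 1 v →
      (∀ y, w / 2 * ‖fderiv ℝ v y‖ ^ 2 ≤ dgW (v y) / w) → Gmt.FlFV 0 univ (dfmMu w v) (dfmNu w v) →
      ∀ (s R a : ℝ) (y0 q : DgE (k + 1)), 0 < s → 2 * s ≤ R → R ≤ 1 → ‖q‖ ≤ 2 →
        (s ^ k)⁻¹ * ∫ y in ball y0 s, (a + ⟪q, y⟫) ^ 2 ∂(dfmMu w v) ≤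
          C * ((R ^ k)⁻¹ * ∫ y in ball y0 R, (a + ⟪q, y⟫) ^ 2 ∂(dfmMu w v)) := by
  obtain ⟨C, κ₀, hC, hκ₀, h⟩ := Gmt.fl_mean k hk
  refine ⟨C, hC, fun w v hw hv hmod hfv s R a y0 q hs hsR hR1 hq => ?_⟩
  have hR : 0 < R := by linarith
  obtain ⟨C₀, hC₀, hup⟩ := dfm_Mu_up (w := w) hv y0 hR
  have := h univ (dfmMu w v) (dfmNu w v) 0 C₀ s R a y0 q (dfm_Nu_measurable hv w) (dfm_Nu_norm_le hw hmod)
    (dfm_Mu_compact hv w (isCompact_closedBall y0 R)) hfv le_rfl hκ₀.le (subset_univ _) hC₀ hup hs hsR hR1 hq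
    (by simp)
  simpa using this

end Claimed.Agent.R329
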