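import Mathlib

/-!
# Row 329, K7 (diffuse Fl-port), for P10 `DfIter` (pen: helper148): THE ABSTRACT ITERATION "FROM INFINITY DOWNWARDS".   Prefix `dfn_`.

No Allen-Cahn inside.  `Fl r ε e` = "flat with constant `ε` at scale `r` in the direction `e`" (centre fixed).

* `DfnIter Fl τ η₀ K`: (mono) in `ε`; (step) `Fl r ε e`, `ε ≤ η₀`, `K / r ≤ ε²` ⟹ `Fl (τ r) (ε/2) e'` for some `e'`; (start) `Fl R η₀ ·` for all large `R`.
* `dfn_decay`: then `Fl r √(K/r) ·` for EVERY `r ≥ K/η₀²`  (the threshold and the constant do not depend on the `R₀` of (start): uniform in the centre).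
* `dfn_dir`: with (cmp) comparison of the directions at comparable scales, (unit), (tilt): ONE direction `e∞` with `Fl r ((A+G)/√r) e∞` for all `r ≥ r₀`.
* `dfn_same`: two centres have the same `e∞`.
* `dfn_main`: all together.
-/

set_option autoImplicit false
open Filter Topology

namespace Claimed.Agent.R329

/-- the hypotheses of the downward iteration -/
structure DfnIter {V : Type*} (Fl : ℝ → ℝ → V → Prop) (τ η₀ K : ℝ) : Prop where
  hτ0 : 0 < τ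
  hτ1 : τ < 1
  hη : 0 < η₀
  hK : 0 < K
  mono : ∀ r ε ε' e, Fl r ε e → ε ≤ ε' → Fl r ε' e
  step : ∀ r ε e, 0 < r → 0 < ε → ε ≤ η₀ → K / r ≤ ε ^ 2 → Fl r ε e → ∃ e', Fl (τ * r) (ε / 2) e'
  start : ∃ R₀ : ℝ, ∀ R, R₀ ≤ R → ∃ e, Fl R η₀ e

section
variable {V : Type*} {Fl : ℝ → ℝ → V → Prop} {τ η₀ K : ℝ}

theorem dfn_sqrt_le (H : DfnIter Fl τ η₀ K) {r : ℝ} (hr : K / η₀ ^ 2 ≤ r) : Real.sqrt (K / r) ≤ η₀ := by
  have hη2 : 0 < η₀ ^ 2 := pow_pos H.hη 2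
  have hr0 : 0 < r := lt_of_lt_of_le (div_pos H.hK hη2) hr
  have h1 : K / r ≤ η₀ ^ 2 := by
    rw [div_le_iff₀ hr0]
    rw [div_le_iff₀ hη2] at hr
    linarith
  calc Real.sqrt (K / r) ≤ Real.sqrt (η₀ ^ 2) := Real.sqrt_le_sqrt h1
    _ = η₀ := Real.sqrt_sq H.hη.le

/-- `k` steps down -/
theorem dfn_down (H : DfnIter Fl τ η₀ K) (k : ℕ) : ∀ r : ℝ, K / η₀ ^ 2 ≤ r → (∃ e, Fl (r / τ ^ k) η₀ e) →
    ∃ e', Fl r (max (η₀ / 2 ^ k) (Real.sqrt (K / r))) e' := by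
  induction k with
  | zero =>
    intro r _ ⟨e, he⟩
    refine ⟨e, H.mono _ _ _ _ (by simpa using he) ?_⟩
    simp
  | succ k ih =>
    intro r hr ⟨e, he⟩
    have hη2 : 0 < η₀ ^ 2 := pow_pos H.hη 2
    have hr0 : 0 < r := lt_of_lt_of_le (div_pos H.hK hη2) hr
    have hrr : r ≤ r / τ := by
      rw [le_div_iff₀ H.hτ0]
      nlinarith [H.hτ1]
    have hr' : K / η₀ ^ 2 ≤ r / τ := hr.trans hrr
    have hr'0 : 0 < r / τ := div_pos hr0 H.hτ0
    have he' : Fl (r / τ / τ ^ k) η₀ e := by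
      have : r / τ / τ ^ k = r / τ ^ (k + 1) := by rw [div_div, pow_succ, mul_comm]
      rw [this]
      exact he
    obtain ⟨e₁, h₁⟩ := ih (r / τ) hr' ⟨e, he'⟩
    set ε' := max (η₀ / 2 ^ k) (Real.sqrt (K / (r / τ))) with hε'
    have hpos : 0 < ε' := lt_max_of_lt_left (by have := H.hη; positivity)
    have hle : ε' ≤ η₀ := by
      refine max_le (div_le_self H.hη.le (one_le_pow₀ (by norm_num))) (dfn_sqrt_le H hr')
    have hK' : K / (r / τ) ≤ ε' ^ 2 := by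
      have h0 : 0 ≤ K / (r / τ) := (div_pos H.hK hr'0).le
      calc K / (r / τ) = Real.sqrt (K / (r / τ)) ^ 2 := (Real.sq_sqrt h0).symm
        _ ≤ ε' ^ 2 := pow_le_pow_left₀ (Real.sqrt_nonneg _) (le_max_right _ _) 2
    obtain ⟨e₂, h₂⟩ := H.step (r / τ) ε' e₁ hr'0 hpos hle hK' h₁
    have hτr : τ * (r / τ) = r := mul_div_cancel₀ r H.hτ0.ne'
    rw [hτr] at h₂
    refine ⟨e₂, H.mono _ _ _ _ h₂ ?_⟩
    have ha : η₀ / 2 ^ k = 2 * (η₀ / 2 ^ (k + 1)) := by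
      rw [pow_succ]
      field_simp
    have hb : Real.sqrt (K / (r / τ)) ≤ Real.sqrt (K / r) :=
      Real.sqrt_le_sqrt (div_le_div_of_nonneg_left H.hK.le hr0 hrr)
    have hm1 := le_max_left (η₀ / 2 ^ (k + 1)) (Real.sqrt (K / r))
    have hm2 := le_max_right (η₀ / 2 ^ (k + 1)) (Real.sqrt (K / r))
    have hs := Real.sqrt_nonneg (K / r)
    have : ε' ≤ 2 * max (η₀ / 2 ^ (k + 1)) (Real.sqrt (K / r)) := by
      refine max_le ?_ ?_
      · rw [ha]; linarith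
      · linarith
    linarith

/-- **EXIT 1: the decay `ε(r) = √(K/r)` at every scale `r ≥ K/η₀²`.** -/
theorem dfn_decay (H : DfnIter Fl τ η₀ K) {r : ℝ} (hr : K / η₀ ^ 2 ≤ r) : ∃ e, Fl r (Real.sqrt (K / r)) e := by
  have hη2 : 0 < η₀ ^ 2 := pow_pos H.hη 2
  have hr0 : 0 < r := lt_of_lt_of_le (div_pos H.hK hη2) hr
  obtain ⟨R₀, hR₀⟩ := H.start
  have hs : 0 < Real.sqrt (K / r) := Real.sqrt_pos.2 (div_pos H.hK hr0)
  have h1 : ∀ᶠ k : ℕ in atTop, τ ^ k < r / (|R₀| + 1) :=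
    (tendsto_pow_atTop_nhds_zero_of_lt_one H.hτ0.le H.hτ1).eventually (Iio_mem_nhds (by positivity))
  have h2 : ∀ᶠ k : ℕ in atTop, ((1 : ℝ) / 2) ^ k < Real.sqrt (K / r) / η₀ :=
    (tendsto_pow_atTop_nhds_zero_of_lt_one (by norm_num) (by norm_num)).eventually
      (Iio_mem_nhds (div_pos hs H.hη))
  obtain ⟨k, hk1, hk2⟩ := (h1.and h2).exists
  have hτk : 0 < τ ^ k := pow_pos H.hτ0 k
  have hbig : R₀ ≤ r / τ ^ k := by
    rw [le_div_iff₀ hτk]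
    rw [lt_div_iff₀ (by positivity)] at hk1
    have := le_abs_self R₀
    nlinarith
  obtain ⟨e, he⟩ := hR₀ _ hbig
  obtain ⟨e', he'⟩ := dfn_down H k r hr ⟨e, he⟩
  refine ⟨e', H.mono _ _ _ _ he' (max_le ?_ le_rfl)⟩
  rw [lt_div_iff₀ H.hη] at hk2
  have : η₀ / 2 ^ k = (1 / 2) ^ k * η₀ := by
    rw [one_div, inv_pow]
    field_simp
  rw [this]
  exact hk2.le

end

/-! ## the directions -/

section
variable {V : Type*} [NormedAddCommGroup V] {τ r₀ A C₂ : ℝ}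

/-- the constant `G = 2 C₂ A / (1 - √τ)` -/
noncomputable def dfnG (τ A C₂ : ℝ) : ℝ := 2 * C₂ * A / (1 - Real.sqrt τ)

theorem dfn_sqrt_tau (hτ1 : τ < 1) : 0 < 1 - Real.sqrt τ ∧ 1 - Real.sqrt τ ≤ 1 := by
  have h1 : Real.sqrt τ < 1 := by
    rw [Real.sqrt_lt' one_pos]
    simpa using hτ1
  have h2 := Real.sqrt_nonneg τ
  constructor <;> linarith

/-- a family of directions which is `B/√r`-close at comparable scales is `G/√r`-close at all larger scales -/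
theorem dfn_chain (hτ0 : 0 < τ) (hτ1 : τ < 1) (hr₀ : 0 < r₀) (hA : 0 ≤ A) (hC₂ : 0 ≤ C₂) (f : ℝ → V)
    (hcmp : ∀ r s, r₀ ≤ r → r ≤ s → τ * s ≤ r → ‖f r - f s‖ ≤ 2 * C₂ * A / Real.sqrt r) (k : ℕ) :
    ∀ r s, r₀ ≤ r → r ≤ s → s ≤ r / τ ^ k → ‖f r - f s‖ ≤ dfnG τ A C₂ / Real.sqrt r := by
  obtain ⟨ht0, ht1⟩ := dfn_sqrt_tau hτ1
  have hB : 0 ≤ 2 * C₂ * A := by positivity
  have hG : 0 ≤ dfnG τ A C₂ := div_nonneg hB ht0.le
  have hBG : 2 * C₂ * A ≤ dfnG τ A C₂ := by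
    unfold dfnG
    rw [le_div_iff₀ ht0]
    nlinarith
  have hGeq : 2 * C₂ * A + dfnG τ A C₂ * Real.sqrt τ = dfnG τ A C₂ := by
    unfold dfnG
    field_simp
    ring
  induction k with
  | zero =>
    intro r s _ hrs hs
    have : s = r := le_antisymm (by simpa using hs) hrs
    rw [this, sub_self, norm_zero]
    positivity
  | succ k ih =>
    intro r s hr hrs hs
    have hr0 : 0 < r := lt_of_lt_of_le hr₀ hr
    have hsr : 0 < Real.sqrt r := Real.sqrt_pos.2 hr0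
    by_cases hcase : s ≤ r / τ
    · have h1 := hcmp r s hr hrs (by rw [le_div_iff₀ hτ0] at hcase; linarith)
      exact h1.trans (div_le_div_of_nonneg_right hBG hsr.le)
    · push Not at hcase
      have hrr : r ≤ r / τ := by
        rw [le_div_iff₀ hτ0]
        nlinarith
      have h1 := hcmp r (r / τ) hr hrr (by rw [mul_div_cancel₀ r hτ0.ne'])
      have h2 := ih (r / τ) s (hr.trans hrr) hcase.le (by
        have : r / τ / τ ^ k = r / τ ^ (k + 1) := by rw [div_div, pow_succ, mul_comm]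
        rw [this]
        exact hs)
      have h3 : dfnG τ A C₂ / Real.sqrt (r / τ) = dfnG τ A C₂ * Real.sqrt τ / Real.sqrt r := by
        rw [Real.sqrt_div hr0.le]
        have : Real.sqrt τ ≠ 0 := (Real.sqrt_pos.2 hτ0).ne'
        field_simp
      rw [h3] at h2
      calc ‖f r - f s‖ ≤ ‖f r - f (r / τ)‖ + ‖f (r / τ) - f s‖ := norm_sub_le_norm_sub_add_norm_sub _ _ _
        _ ≤ 2 * C₂ * A / Real.sqrt r + dfnG τ A C₂ * Real.sqrt τ / Real.sqrt r := add_le_add h1 h2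
        _ = dfnG τ A C₂ / Real.sqrt r := by rw [← add_div, hGeq]

theorem dfn_chain' (hτ0 : 0 < τ) (hτ1 : τ < 1) (hr₀ : 0 < r₀) (hA : 0 ≤ A) (hC₂ : 0 ≤ C₂) (f : ℝ → V)
    (hcmp : ∀ r s, r₀ ≤ r → r ≤ s → τ * s ≤ r → ‖f r - f s‖ ≤ 2 * C₂ * A / Real.sqrt r) {r s : ℝ} (hr : r₀ ≤ r)
    (hrs : r ≤ s) : ‖f r - f s‖ ≤ dfnG τ A C₂ / Real.sqrt r := by
  have hr0 : 0 < r := lt_of_lt_of_le hr₀ hr
  have hs0 : 0 < s := lt_of_lt_of_le hr0 hrs
  obtain ⟨k, hk⟩ := ((tendsto_pow_atTop_nhds_zero_of_lt_one hτ0.le hτ1).eventually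
    (Iio_mem_nhds (div_pos hr0 hs0))).exists
  refine dfn_chain hτ0 hτ1 hr₀ hA hC₂ f hcmp k r s hr hrs ?_
  rw [le_div_iff₀ (pow_pos hτ0 k)]
  rw [lt_div_iff₀ hs0] at hk
  linarith

/-- **EXIT 2: one direction for all scales.** -/
theorem dfn_dir [CompleteSpace V] {Fl : ℝ → ℝ → V → Prop} (hτ0 : 0 < τ) (hτ1 : τ < 1) (hr₀ : 0 < r₀) (hA : 0 ≤ A) (hC₂ : 0 ≤ C₂)
    (hdec : ∀ r, r₀ ≤ r → ∃ e, Fl r (A / Real.sqrt r) e)
    (cmp : ∀ r s e e', r₀ ≤ r → r ≤ s → τ * s ≤ r → Fl r (A / Real.sqrt r) e → Fl s (A / Real.sqrt s) e' →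
      ‖e - e'‖ ≤ C₂ * (A / Real.sqrt r + A / Real.sqrt s))
    (unit : ∀ r ε e, Fl r ε e → ‖e‖ = 1)
    (tilt : ∀ r ε d e e', Fl r ε e → ‖e'‖ = 1 → ‖e - e'‖ ≤ d → Fl r (ε + d) e') :
    ∃ eI : V, ‖eI‖ = 1 ∧ ∀ r, r₀ ≤ r → Fl r ((A + dfnG τ A C₂) / Real.sqrt r) eI := by
  classical
  set f : ℝ → V := fun r => if h : r₀ ≤ r then Classical.choose (hdec r h) else 0 with hf
  have hfl : ∀ r, r₀ ≤ r → Fl r (A / Real.sqrt r) (f r) := by
    intro r hr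
    have : f r = Classical.choose (hdec r hr) := by simp [hf, hr]
    rw [this]
    exact Classical.choose_spec (hdec r hr)
  have hcmp : ∀ r s, r₀ ≤ r → r ≤ s → τ * s ≤ r → ‖f r - f s‖ ≤ 2 * C₂ * A / Real.sqrt r := by
    intro r s hr hrs hτs
    have hr0 : 0 < r := lt_of_lt_of_le hr₀ hr
    have hsr : 0 < Real.sqrt r := Real.sqrt_pos.2 hr0
    have h1 := cmp r s _ _ hr hrs hτs (hfl r hr) (hfl s (hr.trans hrs))
    have h2 : A / Real.sqrt s ≤ A / Real.sqrt r :=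
      div_le_div_of_nonneg_left hA hsr (Real.sqrt_le_sqrt hrs)
    calc ‖f r - f s‖ ≤ C₂ * (A / Real.sqrt r + A / Real.sqrt s) := h1
      _ ≤ C₂ * (A / Real.sqrt r + A / Real.sqrt r) := by
          apply mul_le_mul_of_nonneg_left _ hC₂
          linarith
      _ = 2 * C₂ * A / Real.sqrt r := by ring
  have hch : ∀ r s, r₀ ≤ r → r ≤ s → ‖f r - f s‖ ≤ dfnG τ A C₂ / Real.sqrt r := fun r s hr hrs =>
    dfn_chain' hτ0 hτ1 hr₀ hA hC₂ f hcmp hr hrs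
  obtain ⟨ht0, _⟩ := dfn_sqrt_tau hτ1
  have hG : 0 ≤ dfnG τ A C₂ := div_nonneg (by positivity) ht0.le
  -- the sequence
  set g : ℕ → V := fun k => f (r₀ + k) with hg
  have hb : Tendsto (fun k : ℕ => dfnG τ A C₂ / Real.sqrt (r₀ + k)) atTop (𝓝 0) := by
    have h1 : Tendsto (fun k : ℕ => r₀ + (k : ℝ)) atTop atTop :=
      tendsto_atTop_add_const_left _ _ tendsto_natCast_atTop_atTop
    exact (Real.tendsto_sqrt_atTop.comp h1).const_div_atTop _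
  have hmonoB : ∀ N n : ℕ, N ≤ n → dfnG τ A C₂ / Real.sqrt (r₀ + n) ≤ dfnG τ A C₂ / Real.sqrt (r₀ + N) := by
    intro N n hNn
    have : (N : ℝ) ≤ n := by exact_mod_cast hNn
    exact div_le_div_of_nonneg_left hG (Real.sqrt_pos.2 (by positivity)) (Real.sqrt_le_sqrt (by linarith))
  have hcau : CauchySeq g := by
    refine cauchySeq_of_le_tendsto_0 _ (fun n m N hn hm => ?_) hb
    rw [dist_eq_norm]
    rcases le_total n m with h | h
    · have h' : (n : ℝ) ≤ m := by exact_mod_cast h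
      exact (hch (r₀ + n) (r₀ + m) (by simp) (by linarith)).trans (hmonoB N n hn)
    · have h' : (m : ℝ) ≤ n := by exact_mod_cast h
      rw [norm_sub_rev]
      exact (hch (r₀ + m) (r₀ + n) (by simp) (by linarith)).trans (hmonoB N m hm)
  obtain ⟨eI, heI⟩ := cauchySeq_tendsto_of_complete hcau
  have hunit : ‖eI‖ = 1 := by
    have h1 : Tendsto (fun k => ‖g k‖) atTop (𝓝 ‖eI‖) := heI.norm
    have h2 : (fun k => ‖g k‖) = fun _ => (1 : ℝ) := funext fun k => unit _ _ _ (hfl (r₀ + k) (by simp))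
    rw [h2] at h1
    exact tendsto_nhds_unique h1 tendsto_const_nhds
  refine ⟨eI, hunit, fun r hr => ?_⟩
  have hlim : ‖f r - eI‖ ≤ dfnG τ A C₂ / Real.sqrt r := by
    have h1 : Tendsto (fun k => ‖f r - g k‖) atTop (𝓝 ‖f r - eI‖) := (tendsto_const_nhds.sub heI).norm
    refine le_of_tendsto h1 ?_
    obtain ⟨N, hN⟩ := exists_nat_ge r
    filter_upwards [eventually_ge_atTop N] with k hk
    have : (N : ℝ) ≤ k := by exact_mod_cast hk
    exact hch r (r₀ + k) hr (by linarith)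
  have := tilt r _ _ _ _ (hfl r hr) hunit hlim
  rwa [← add_div] at this

/-- **EXIT 3: two centres have the same direction.** -/
theorem dfn_same {Fl Fl' : ℝ → ℝ → V → Prop} {C C' : ℝ} {e e' : V}
    (h : ∀ r, r₀ ≤ r → Fl r (C / Real.sqrt r) e) (h' : ∀ r, r₀ ≤ r → Fl' r (C' / Real.sqrt r) e')
    (cross : ∃ r₁ : ℝ, ∀ r, r₁ ≤ r → ∀ ε ε', Fl r ε e → Fl' r ε' e' → ‖e - e'‖ ≤ C₂ * (ε + ε')) : e = e' := by
  obtain ⟨r₁, hc⟩ := cross
  have h1 : Tendsto (fun r : ℝ => C₂ * (C / Real.sqrt r + C' / Real.sqrt r)) atTop (𝓝 (C₂ * (0 + 0))) :=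
    ((Real.tendsto_sqrt_atTop.const_div_atTop C).add (Real.tendsto_sqrt_atTop.const_div_atTop C')).const_mul C₂
  have h2 : ‖e - e'‖ ≤ C₂ * (0 + 0) := by
    refine ge_of_tendsto h1 ?_
    filter_upwards [eventually_ge_atTop r₀, eventually_ge_atTop r₁] with r hr hr'
    exact hc r hr' _ _ (h r hr) (h' r hr)
  have h3 : ‖e - e'‖ = 0 := le_antisymm (by simpa using h2) (norm_nonneg _)
  exact sub_eq_zero.1 (norm_eq_zero.1 h3)

/-! ## EXITS -/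

/-- **ALL TOGETHER.**  The threshold `K/η₀²` and the constant `√K + G` depend only on `τ η₀ K C₂` (not on the `R₀` of (start)). -/
theorem dfn_main [CompleteSpace V] {Fl : ℝ → ℝ → V → Prop} {η₀ K : ℝ} (H : DfnIter Fl τ η₀ K) (hC₂ : 0 ≤ C₂)
    (cmp : ∀ r s ε ε' e e', 0 < r → r ≤ s → τ * s ≤ r → ε ≤ η₀ → ε' ≤ η₀ → Fl r ε e → Fl s ε' e' →
      ‖e - e'‖ ≤ C₂ * (ε + ε'))
    (unit : ∀ r ε e, Fl r ε e → ‖e‖ = 1)
    (tilt : ∀ r ε d e e', Fl r ε e → ‖e'‖ = 1 → ‖e - e'‖ ≤ d → Fl r (ε + d) e') :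
    ∃ eI : V, ‖eI‖ = 1 ∧ ∀ r, K / η₀ ^ 2 ≤ r → Fl r ((Real.sqrt K + dfnG τ (Real.sqrt K) C₂) / Real.sqrt r) eI := by
  have hr₀ : 0 < K / η₀ ^ 2 := div_pos H.hK (pow_pos H.hη 2)
  have hsq : ∀ r : ℝ, Real.sqrt K / Real.sqrt r = Real.sqrt (K / r) := fun r => (Real.sqrt_div H.hK.le r).symm
  refine dfn_dir H.hτ0 H.hτ1 hr₀ (Real.sqrt_nonneg K) hC₂ (fun r hr => ?_) (fun r s e e' hr hrs hτs h1 h2 => ?_) unit tilt
  · rw [hsq]
    exact dfn_decay H hr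
  · refine cmp r s _ _ e e' (hr₀.trans_le hr) hrs hτs ?_ ?_ h1 h2
    · rw [hsq]; exact dfn_sqrt_le H hr
    · rw [hsq]; exact dfn_sqrt_le H (hr.trans hrs)

end

end Claimed.Agent.R329
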