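import Claimed.Agent.R329.Defs

/-!
# Row 329, post A10 (second pen: helper57, prefix `dgl2_`): Laplacian API, second half

* invariance of `Laplacian.laplacian` and of `‖fderiv‖` under translations, dilations and linear isometry equivalences;
* slices: on `DgE (n+1)`, at `dgSnoc x' t`, `Δ u = Δ' (slice) + ∂ₜₜ`;
* cylinder extension `v ∘ init` (`init` = forget the last coordinate, in the words of `dgInit` of the Hub);
* consequences on `Defs`: translates, dilates (rescaled equation), rotations, cylinder extensions of `DgSol`.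
-/

set_option autoImplicit false

open MeasureTheory Metric Set Filter Topology

namespace Claimed.Agent.R329

section general

variable {E E' : Type*} [NormedAddCommGroup E] [InnerProductSpace ℝ E] [FiniteDimensional ℝ E]
  [NormedAddCommGroup E'] [InnerProductSpace ℝ E'] [FiniteDimensional ℝ E']

/-- translation invariance of the Laplacian (no smoothness needed) -/
theorem dgl2_laplacian_comp_add (f : E → ℝ) (a x : E) :
    Laplacian.laplacian (fun z => f (z + a)) x = Laplacian.laplacian f (x + a) := by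
  simp only [InnerProductSpace.laplacian_eq_iteratedFDeriv_stdOrthonormalBasis,
    iteratedFDeriv_comp_add_right]

theorem dgl2_laplacian_comp_add_left (f : E → ℝ) (a x : E) :
    Laplacian.laplacian (fun z => f (a + z)) x = Laplacian.laplacian f (a + x) := by
  simp only [InnerProductSpace.laplacian_eq_iteratedFDeriv_stdOrthonormalBasis,
    iteratedFDeriv_comp_add_left]

theorem dgl2_laplacian_comp_sub (f : E → ℝ) (a x : E) :
    Laplacian.laplacian (fun z => f (z - a)) x = Laplacian.laplacian f (x - a) := by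
  simp only [InnerProductSpace.laplacian_eq_iteratedFDeriv_stdOrthonormalBasis,
    iteratedFDeriv_comp_sub]

omit [FiniteDimensional ℝ E] [FiniteDimensional ℝ E'] in
theorem dgl2_iteratedFDeriv_comp_cle (g : E ≃L[ℝ] E') (f : E' → ℝ) (x : E) (i : ℕ) :
    iteratedFDeriv ℝ i (f ∘ g) x = (iteratedFDeriv ℝ i f (g x)).compContinuousLinearMap fun _ => g := by
  simp only [← iteratedFDerivWithin_univ]
  exact g.iteratedFDerivWithin_comp_right f uniqueDiffOn_univ (mem_univ _) i

/-- invariance of the Laplacian under linear isometry equivalences (no smoothness needed) -/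
theorem dgl2_laplacian_comp_isometry (L : E ≃ₗᵢ[ℝ] E') (f : E' → ℝ) (x : E) :
    Laplacian.laplacian (fun z => f (L z)) x = Laplacian.laplacian f (L x) := by
  rw [InnerProductSpace.laplacian_eq_iteratedFDeriv_orthonormalBasis _ (stdOrthonormalBasis ℝ E),
    InnerProductSpace.laplacian_eq_iteratedFDeriv_orthonormalBasis f
      ((stdOrthonormalBasis ℝ E).map L)]
  refine Finset.sum_congr rfl fun i _ => ?_
  have h := dgl2_iteratedFDeriv_comp_cle L.toContinuousLinearEquiv f x 2
  have h' : (fun z => f (L z)) = f ∘ (L.toContinuousLinearEquiv : E → E') := rfl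
  rw [h', h]
  simp only [ContinuousMultilinearMap.compContinuousLinearMap_apply]
  congr 1
  ext j
  fin_cases j <;> simp

/-- dilations: `Δ (f (r ·)) = r² (Δ f)(r ·)` (no smoothness needed) -/
theorem dgl2_laplacian_comp_smul (f : E → ℝ) (r : ℝ) (x : E) :
    Laplacian.laplacian (fun z => f (r • z)) x = r ^ 2 * Laplacian.laplacian f (r • x) := by
  rcases eq_or_ne r 0 with rfl | hr
  · simp only [zero_smul]
    rw [InnerProductSpace.laplacian_eq_iteratedFDeriv_stdOrthonormalBasis]
    simp [iteratedFDeriv_const_of_ne]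
  · rw [InnerProductSpace.laplacian_eq_iteratedFDeriv_stdOrthonormalBasis,
      InnerProductSpace.laplacian_eq_iteratedFDeriv_stdOrthonormalBasis, Finset.mul_sum]
    refine Finset.sum_congr rfl fun i _ => ?_
    set g : E ≃L[ℝ] E := (LinearEquiv.smulOfNeZero ℝ E r hr).toContinuousLinearEquiv with hg
    have hga : ∀ z, g z = r • z := fun z => rfl
    have h := dgl2_iteratedFDeriv_comp_cle g f x 2
    have h' : (fun z => f (r • z)) = f ∘ (g : E → E) := rfl
    rw [h', h]
    simp only [ContinuousMultilinearMap.compContinuousLinearMap_apply]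
    have h2 : (fun j : Fin 2 => (g : E →L[ℝ] E) (![(stdOrthonormalBasis ℝ E) i, (stdOrthonormalBasis ℝ E) i] j))
        = fun j : Fin 2 => r • (![(stdOrthonormalBasis ℝ E) i, (stdOrthonormalBasis ℝ E) i] j) := by
      ext j; rfl
    rw [h2, ContinuousMultilinearMap.map_smul_univ]
    simp [hga, sq]

omit [FiniteDimensional ℝ E] [FiniteDimensional ℝ E'] in
/-- the norm of the gradient under linear isometry equivalences (no smoothness needed) -/
theorem dgl2_norm_fderiv_comp_isometry (L : E ≃ₗᵢ[ℝ] E') (f : E' → ℝ) (x : E) :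
    ‖fderiv ℝ (fun z => f (L z)) x‖ = ‖fderiv ℝ f (L x)‖ := by
  have h := L.toContinuousLinearEquiv.comp_right_fderiv (f := f) (x := x)
  have h' : (fun z => f (L z)) = f ∘ (L.toContinuousLinearEquiv : E → E') := rfl
  rw [h', h]
  exact ContinuousLinearMap.opNorm_comp_linearIsometryEquiv _ L

omit [FiniteDimensional ℝ E] [FiniteDimensional ℝ E'] in
theorem dgl2_fderiv_comp_isometry (L : E ≃ₗᵢ[ℝ] E') (f : E' → ℝ) (x w : E) :
    fderiv ℝ (fun z => f (L z)) x w = fderiv ℝ f (L x) (L w) := by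
  have h := L.toContinuousLinearEquiv.comp_right_fderiv (f := f) (x := x)
  have h' : (fun z => f (L z)) = f ∘ (L.toContinuousLinearEquiv : E → E') := rfl
  rw [h', h]
  rfl

omit [FiniteDimensional ℝ E] in
theorem dgl2_norm_fderiv_comp_smul (f : E → ℝ) (r : ℝ) (x : E) :
    ‖fderiv ℝ (fun z => f (r • z)) x‖ = |r| * ‖fderiv ℝ f (r • x)‖ := by
  rw [fderiv_comp_smul, norm_smul, Real.norm_eq_abs]

end general

/-! ## Coordinates on `DgE n` -/

section coords

variable {n : ℕ}

theorem dgl2_laplacian_eq_sum (f : DgE n → ℝ) (x : DgE n) :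
    Laplacian.laplacian f x =
      ∑ i, iteratedFDeriv ℝ 2 f x ![EuclideanSpace.single i 1, EuclideanSpace.single i 1] := by
  rw [InnerProductSpace.laplacian_eq_iteratedFDeriv_orthonormalBasis f
    (EuclideanSpace.basisFun (Fin n) ℝ)]
  simp

theorem dgl2_norm_sq_clm (L : DgE n →L[ℝ] ℝ) :
    ‖L‖ ^ 2 = ∑ i, (L (EuclideanSpace.single i 1)) ^ 2 := by
  set a := (InnerProductSpace.toDual ℝ (DgE n)).symm L with ha
  have h1 : ‖a‖ = ‖L‖ := by simp [ha]
  rw [← h1, EuclideanSpace.norm_sq_eq]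
  refine Finset.sum_congr rfl fun i _ => ?_
  have h2 : L (EuclideanSpace.single i 1) = a i := by
    have := InnerProductSpace.toDual_symm_apply (𝕜 := ℝ) (x := EuclideanSpace.single i (1 : ℝ)) (y := L)
    rw [← this, ← ha]
    simp [EuclideanSpace.inner_single_right]
  rw [h2, Real.norm_eq_abs, sq_abs]

/-- forget the last coordinate, as a continuous linear map (the `dgInit` of the Hub) -/
noncomputable def dgl2_P (n : ℕ) : DgE (n + 1) →L[ℝ] DgE n :=
  LinearMap.toContinuousLinearMap
    { toFun := fun x => WithLp.toLp 2 fun i : Fin n => x i.castSucc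
      map_add' := fun x y => by ext i; simp
      map_smul' := fun c x => by ext i; simp }

/-- `x' ↦ (x', 0)` as a continuous linear map -/
noncomputable def dgl2_J (n : ℕ) : DgE n →L[ℝ] DgE (n + 1) :=
  LinearMap.toContinuousLinearMap
    { toFun := fun x' => dgSnoc x' 0
      map_add' := fun x y => by
        ext i
        refine Fin.lastCases ?_ (fun j => ?_) i <;> simp [dgSnoc]
      map_smul' := fun c x => by
        ext i
        refine Fin.lastCases ?_ (fun j => ?_) i <;> simp [dgSnoc] }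

theorem dgl2_P_eq (x : DgE (n + 1)) : dgl2_P n x = WithLp.toLp 2 fun i : Fin n => x i.castSucc := rfl

@[simp] theorem dgl2_P_apply (x : DgE (n + 1)) (i : Fin n) : dgl2_P n x i = x i.castSucc := rfl

theorem dgl2_J_eq (x' : DgE n) : dgl2_J n x' = dgSnoc x' 0 := rfl

@[simp] theorem dgl2_snoc_castSucc (x' : DgE n) (t : ℝ) (i : Fin n) : dgSnoc x' t i.castSucc = x' i := by
  simp [dgSnoc]

@[simp] theorem dgl2_snoc_last (x' : DgE n) (t : ℝ) : dgSnoc x' t (Fin.last n) = t := by
  simp [dgSnoc]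

theorem dgl2_snoc_eq (x' : DgE n) (t : ℝ) :
    dgSnoc x' t = dgl2_J n x' + t • EuclideanSpace.single (Fin.last n) (1 : ℝ) := by
  ext i
  refine Fin.lastCases ?_ (fun j => ?_) i
  · simp [dgl2_J_eq]
  · simp [dgl2_J_eq, Fin.castSucc_ne_last]

@[simp] theorem dgl2_P_snoc (x' : DgE n) (t : ℝ) : dgl2_P n (dgSnoc x' t) = x' := by
  ext i; simp

theorem dgl2_snoc_P (x : DgE (n + 1)) : dgSnoc (dgl2_P n x) (x (Fin.last n)) = x := by
  ext i
  refine Fin.lastCases ?_ (fun j => ?_) i <;> simp

@[simp] theorem dgl2_P_single_castSucc (i : Fin n) :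
    dgl2_P n (EuclideanSpace.single i.castSucc (1 : ℝ)) = EuclideanSpace.single i 1 := by
  ext j
  simp [Fin.castSucc_inj]

@[simp] theorem dgl2_P_single_last :
    dgl2_P n (EuclideanSpace.single (Fin.last n) (1 : ℝ)) = 0 := by
  ext j
  simp [Fin.castSucc_ne_last]

@[simp] theorem dgl2_J_single (i : Fin n) :
    dgl2_J n (EuclideanSpace.single i (1 : ℝ)) = EuclideanSpace.single i.castSucc 1 := by
  ext j
  refine Fin.lastCases ?_ (fun k => ?_) j
  · simp [dgl2_J_eq, (Fin.castSucc_ne_last i).symm]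
  · simp [dgl2_J_eq, Fin.castSucc_inj]

theorem dgl2_inner_snoc (a x : DgE n) (s t : ℝ) :
    inner ℝ (dgSnoc a s) (dgSnoc x t) = inner ℝ a x + s * t := by
  simp [PiLp.inner_apply, Fin.sum_univ_castSucc, mul_comm]

theorem dgl2_norm_sq_snoc (x : DgE n) (t : ℝ) : ‖dgSnoc x t‖ ^ 2 = ‖x‖ ^ 2 + t ^ 2 := by
  rw [← real_inner_self_eq_norm_sq, dgl2_inner_snoc, real_inner_self_eq_norm_sq, sq t]

end coords

/-! ## Slices and cylinder extensions -/

section slices

variable {n : ℕ}

theorem dgl2_contDiff_snoc_left (t : ℝ) : ContDiff ℝ ⊤ fun y : DgE n => dgSnoc y t := by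
  simp only [dgl2_snoc_eq]
  exact (dgl2_J n).contDiff.add contDiff_const

theorem dgl2_contDiff_snoc_right (x' : DgE n) : ContDiff ℝ ⊤ fun s : ℝ => dgSnoc x' s := by
  simp only [dgl2_snoc_eq]
  exact contDiff_const.add (contDiff_id.smul contDiff_const)

/-- second derivatives of the horizontal slice -/
theorem dgl2_iteratedFDeriv_slice {u : DgE (n + 1) → ℝ} (hu : ContDiff ℝ 2 u) (x' : DgE n) (t : ℝ)
    (m : Fin 2 → DgE n) :
    iteratedFDeriv ℝ 2 (fun y => u (dgSnoc y t)) x' m =
      iteratedFDeriv ℝ 2 u (dgSnoc x' t) fun j => dgl2_J n (m j) := by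
  set c : DgE (n + 1) := t • EuclideanSpace.single (Fin.last n) (1 : ℝ) with hc
  have h1 : (fun y => u (dgSnoc y t)) = (fun z => u (z + c)) ∘ (dgl2_J n) := by
    funext y; simp [dgl2_snoc_eq, hc]
  have h2 : ContDiff ℝ 2 fun z => u (z + c) := hu.comp (contDiff_id.add contDiff_const)
  rw [h1, (dgl2_J n).iteratedFDeriv_comp_right h2 x' le_rfl, iteratedFDeriv_comp_add_right,
    ← dgl2_snoc_eq]
  rfl

/-- second derivative of the vertical slice -/
theorem dgl2_iteratedDeriv_slice {u : DgE (n + 1) → ℝ} (hu : ContDiff ℝ 2 u) (x' : DgE n) (t : ℝ) :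
    iteratedDeriv 2 (fun s => u (dgSnoc x' s)) t =
      iteratedFDeriv ℝ 2 u (dgSnoc x' t)
        ![EuclideanSpace.single (Fin.last n) 1, EuclideanSpace.single (Fin.last n) 1] := by
  set e : DgE (n + 1) := EuclideanSpace.single (Fin.last n) (1 : ℝ) with he
  set T : ℝ →L[ℝ] DgE (n + 1) := ContinuousLinearMap.toSpanSingleton ℝ e with hT
  have h1 : (fun s => u (dgSnoc x' s)) = (fun z => u (dgl2_J n x' + z)) ∘ T := by
    funext s; simp [dgl2_snoc_eq, hT, he]
  have h2 : ContDiff ℝ 2 fun z => u (dgl2_J n x' + z) := hu.comp (contDiff_const.add contDiff_id)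
  rw [iteratedDeriv_eq_iteratedFDeriv, h1, T.iteratedFDeriv_comp_right h2 t le_rfl,
    iteratedFDeriv_comp_add_left]
  have h3 : dgl2_J n x' + T t = dgSnoc x' t := by simp [dgl2_snoc_eq, hT, he]
  rw [h3]
  simp only [ContinuousMultilinearMap.compContinuousLinearMap_apply]
  congr 1
  ext j
  fin_cases j <;> simp [hT]

/-- **Slices**: `Δ u (x', t) = Δ' u(·, t) (x') + ∂ₜₜ u (x', t)`. -/
theorem dgl2_laplacian_snoc {u : DgE (n + 1) → ℝ} (hu : ContDiff ℝ 2 u) (x' : DgE n) (t : ℝ) :
    Laplacian.laplacian u (dgSnoc x' t) =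
      Laplacian.laplacian (fun y => u (dgSnoc y t)) x' + iteratedDeriv 2 (fun s => u (dgSnoc x' s)) t := by
  rw [dgl2_laplacian_eq_sum, dgl2_laplacian_eq_sum, Fin.sum_univ_castSucc, dgl2_iteratedDeriv_slice hu]
  congr 1
  refine Finset.sum_congr rfl fun i _ => ?_
  rw [dgl2_iteratedFDeriv_slice hu]
  congr 1
  ext j
  fin_cases j <;> simp

theorem dgl2_laplacian_snoc' {u : DgE (n + 1) → ℝ} (hu : ContDiff ℝ 2 u) (x' : DgE n) (t : ℝ) :
    Laplacian.laplacian u (dgSnoc x' t) =
      Laplacian.laplacian (fun y => u (dgSnoc y t)) x' + deriv (deriv fun s => u (dgSnoc x' s)) t := by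
  rw [dgl2_laplacian_snoc hu, iteratedDeriv_succ, iteratedDeriv_one]

/-- **Cylinder extension**: `Δ (v ∘ P) = (Δ v) ∘ P`. -/
theorem dgl2_laplacian_comp_P {v : DgE n → ℝ} (hv : ContDiff ℝ 2 v) (x : DgE (n + 1)) :
    Laplacian.laplacian (fun z => v (dgl2_P n z)) x = Laplacian.laplacian v (dgl2_P n x) := by
  have h1 : (fun z => v (dgl2_P n z)) = v ∘ (dgl2_P n) := rfl
  rw [dgl2_laplacian_eq_sum, dgl2_laplacian_eq_sum, Fin.sum_univ_castSucc, h1]
  simp only [(dgl2_P n).iteratedFDeriv_comp_right hv x le_rfl,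
    ContinuousMultilinearMap.compContinuousLinearMap_apply]
  have h0 : iteratedFDeriv ℝ 2 v (dgl2_P n x) (fun j => dgl2_P n
      (![EuclideanSpace.single (Fin.last n) (1 : ℝ), EuclideanSpace.single (Fin.last n) 1] j)) = 0 := by
    apply ContinuousMultilinearMap.map_coord_zero _ 0
    simp
  rw [h0, add_zero]
  refine Finset.sum_congr rfl fun i _ => ?_
  congr 1
  ext j
  fin_cases j <;> simp

/-! ### first derivatives -/

theorem dgl2_fderiv_comp_P {v : DgE n → ℝ} {x : DgE (n + 1)} (hv : DifferentiableAt ℝ v (dgl2_P n x)) :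
    fderiv ℝ (fun z => v (dgl2_P n z)) x = (fderiv ℝ v (dgl2_P n x)).comp (dgl2_P n) := by
  have h1 : (fun z => v (dgl2_P n z)) = v ∘ (dgl2_P n) := rfl
  rw [h1, fderiv_comp x hv (dgl2_P n).differentiableAt, ContinuousLinearMap.fderiv]

theorem dgl2_norm_fderiv_comp_P {v : DgE n → ℝ} {x : DgE (n + 1)}
    (hv : DifferentiableAt ℝ v (dgl2_P n x)) :
    ‖fderiv ℝ (fun z => v (dgl2_P n z)) x‖ = ‖fderiv ℝ v (dgl2_P n x)‖ := by
  have h : ‖fderiv ℝ (fun z => v (dgl2_P n z)) x‖ ^ 2 = ‖fderiv ℝ v (dgl2_P n x)‖ ^ 2 := by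
    rw [dgl2_fderiv_comp_P hv, dgl2_norm_sq_clm, dgl2_norm_sq_clm, Fin.sum_univ_castSucc]
    simp
  exact (sq_eq_sq₀ (norm_nonneg _) (norm_nonneg _)).1 h

theorem dgl2_fderiv_slice {u : DgE (n + 1) → ℝ} {x' : DgE n} {t : ℝ}
    (hu : DifferentiableAt ℝ u (dgSnoc x' t)) :
    fderiv ℝ (fun y => u (dgSnoc y t)) x' = (fderiv ℝ u (dgSnoc x' t)).comp (dgl2_J n) := by
  have hJ : HasFDerivAt (fun y : DgE n => dgSnoc y t) (dgl2_J n) x' := by
    simp only [dgl2_snoc_eq]
    exact (dgl2_J n).hasFDerivAt.add_const _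
  exact (hu.hasFDerivAt.comp x' hJ).fderiv

theorem dgl2_deriv_slice {u : DgE (n + 1) → ℝ} {x' : DgE n} {t : ℝ}
    (hu : DifferentiableAt ℝ u (dgSnoc x' t)) :
    deriv (fun s => u (dgSnoc x' s)) t =
      fderiv ℝ u (dgSnoc x' t) (EuclideanSpace.single (Fin.last n) 1) := by
  have hT : HasDerivAt (fun s : ℝ => dgSnoc x' s) (EuclideanSpace.single (Fin.last n) (1 : ℝ)) t := by
    simp only [dgl2_snoc_eq]
    simpa using ((hasDerivAt_id t).smul_const (EuclideanSpace.single (Fin.last n) (1 : ℝ))).const_add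
      (dgl2_J n x')
  exact (hu.hasFDerivAt.comp_hasDerivAt t hT).deriv

/-- `|∇u|² = |∇' u|² + (∂ₜ u)²` -/
theorem dgl2_norm_sq_fderiv_snoc {u : DgE (n + 1) → ℝ} {x' : DgE n} {t : ℝ}
    (hu : DifferentiableAt ℝ u (dgSnoc x' t)) :
    ‖fderiv ℝ u (dgSnoc x' t)‖ ^ 2 =
      ‖fderiv ℝ (fun y => u (dgSnoc y t)) x'‖ ^ 2 + deriv (fun s => u (dgSnoc x' s)) t ^ 2 := by
  rw [dgl2_fderiv_slice hu, dgl2_deriv_slice hu, dgl2_norm_sq_clm, dgl2_norm_sq_clm,
    Fin.sum_univ_castSucc]
  simp

end slices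

/-! ## EXITS -/

section exits

variable {n : ℕ}

/-- translates of solutions are solutions -/
theorem dgl2_sol_translate {u : DgE n → ℝ} (hu : DgSol n u) (a : DgE n) : DgSol n fun x => u (x + a) :=
  ⟨hu.smooth.comp (contDiff_id.add contDiff_const), fun x => hu.range _, fun x => by
    rw [dgl2_laplacian_comp_add]; exact hu.pde _⟩

/-- rotations / reflections of solutions are solutions -/
theorem dgl2_sol_isometry {u : DgE n → ℝ} (hu : DgSol n u) (L : DgE n ≃ₗᵢ[ℝ] DgE n) :
    DgSol n fun x => u (L x) :=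
  ⟨hu.smooth.comp L.toContinuousLinearEquiv.contDiff, fun x => hu.range _, fun x => by
    rw [dgl2_laplacian_comp_isometry]; exact hu.pde _⟩

/-- `-u` is a solution -/
theorem dgl2_sol_neg {u : DgE n → ℝ} (hu : DgSol n u) : DgSol n fun x => - u x :=
  ⟨hu.smooth.neg, fun x => ⟨by linarith [(hu.range x).2], by linarith [(hu.range x).1]⟩, fun x => by
    have h : Laplacian.laplacian (fun x => - u x) x = - Laplacian.laplacian u x := by
      have := InnerProductSpace.laplacian_neg (f := u)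
      exact congrFun this x
    rw [h, hu.pde]; ring⟩

/-- the rescaled equation: `u_ε = u(·/ε)`-type dilations, `Δ (u (r ·)) = r² (u³ - u)(r ·)` -/
theorem dgl2_sol_dilate {u : DgE n → ℝ} (hu : DgSol n u) (r : ℝ) (x : DgE n) :
    Laplacian.laplacian (fun z => u (r • z)) x = r ^ 2 * (u (r • x) ^ 3 - u (r • x)) := by
  rw [dgl2_laplacian_comp_smul, hu.pde]

/-- the cylinder extension of a solution is a solution (in the words of `dgInit` of the Hub) -/
theorem dgl2_sol_cylinder {v : DgE n → ℝ} (hv : DgSol n v) :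
    DgSol (n + 1) fun x : DgE (n + 1) => v (WithLp.toLp 2 fun i : Fin n => x i.castSucc) :=
  ⟨hv.smooth.comp (dgl2_P n).contDiff, fun x => hv.range _, fun x => by
    have := dgl2_laplacian_comp_P hv.smooth x
    rw [hv.pde] at this
    exact this⟩

/-- a solution of `ℝ^{n+1}` which does not depend on the last variable is a cylinder over a solution of `ℝⁿ` -/
theorem dgl2_sol_of_cylinder {v : DgE n → ℝ}
    (hv : DgSol (n + 1) fun x : DgE (n + 1) => v (WithLp.toLp 2 fun i : Fin n => x i.castSucc)) :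
    DgSol n v := by
  have hsm : ContDiff ℝ 2 v := by
    have h := hv.smooth.comp (dgl2_J n).contDiff
    have h2 : ((fun x : DgE (n + 1) => v (WithLp.toLp 2 fun i : Fin n => x i.castSucc)) ∘ (dgl2_J n)) = v := by
      funext y
      have : dgl2_P n (dgl2_J n y) = y := by rw [dgl2_J_eq, dgl2_P_snoc]
      exact congrArg v this
    rwa [h2] at h
  refine ⟨hsm, fun x => ?_, fun x => ?_⟩
  · have := hv.range (dgSnoc x 0)
    have h2 : dgl2_P n (dgSnoc x 0) = x := dgl2_P_snoc x 0
    rw [dgl2_P_eq] at h2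
    simpa [h2] using this
  · have h1 := hv.pde (dgSnoc x 0)
    have h2 := dgl2_laplacian_comp_P hsm (dgSnoc x 0)
    have h3 : dgl2_P n (dgSnoc x 0) = x := dgl2_P_snoc x 0
    rw [h3] at h2
    rw [← h2]
    rw [dgl2_P_eq] at h3
    simp only [h3] at h1
    exact h1

/-- the energy density of a cylinder extension -/
theorem dgl2_dens_cylinder {v : DgE n → ℝ} (hv : Differentiable ℝ v) (x : DgE (n + 1)) :
    dgDens (n + 1) (fun x : DgE (n + 1) => v (WithLp.toLp 2 fun i : Fin n => x i.castSucc)) x =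
      dgDens n v (WithLp.toLp 2 fun i : Fin n => x i.castSucc) := by
  unfold dgDens
  have := dgl2_norm_fderiv_comp_P (v := v) (x := x) (hv _)
  simp only [dgl2_P_eq] at this
  rw [this]

/-- the energy density of a translate -/
theorem dgl2_dens_translate (u : DgE n → ℝ) (a x : DgE n) :
    dgDens n (fun z => u (z + a)) x = dgDens n u (x + a) := by
  unfold dgDens
  rw [fderiv_comp_add_right]

/-- the energy density under an isometry -/
theorem dgl2_dens_isometry (u : DgE n → ℝ) (L : DgE n ≃ₗᵢ[ℝ] DgE n) (x : DgE n) :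
    dgDens n (fun z => u (L z)) x = dgDens n u (L x) := by
  unfold dgDens
  rw [dgl2_norm_fderiv_comp_isometry]

end exits

end Claimed.Agent.R329
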