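import Claimed.Agent.R329.FlId
import Claimed.Agent.R329.Base258
import Claimed.Agent.R329.LapApi2
import Claimed.Agent.R329.Rot

/-!
# Row 329, K7 (diffuse Fl-port), post P7, pen helper158 (prefix `dfsc_`): the scaling lemma

`u` an entire solution (`DgSol n u`), `w > 0` the layer width, `v(y) = u(w⁻¹ y)` (`dfsc_v u w`), more generally
`v(y) = u(L(w⁻¹ y) + c)` (`dfsc_V u L c w`) for a linear isometry `L` and a centre `c`.  With
`e_w(v) = w/2 |∇v|² + W(v)/w` (the words of `dfmE` of helper58 and of `dgB4_En` of helper108):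

* `dfsc_contDiff`, `dfsc_range`;
* `dfsc_pde`      : `w Δv = (v³ - v)/w`;
* `dfsc_modica`   : `w/2 |∇v|² ≤ W(v)/w`;
* `dfsc_dens`     : `e_w(v)(y) = w⁻¹ e(u)(w⁻¹ y)`;
* `dfsc_energy`   : `∫_{B_ρ(y₀)} e_w(v) = w^{n-1} E(u; B_{ρ/w}(y₀/w))`;
* `dfsc_stress`   : `∫ (e_w(v) div X - w ⟪∇v, DX ∇v⟫) = 0` for `X ∈ C¹_c` (from `dgFI_stress` of helper42 by change of variables).
-/

set_option autoImplicit false
open MeasureTheory Metric Set Filter Topology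
open scoped ContDiff RealInnerProductSpace Pointwise

namespace Claimed.Agent.R329

noncomputable section

variable {n : ℕ}

/-- the rescaled function `v(y) = u(y / w)` -/
def dfsc_v (u : DgE n → ℝ) (w : ℝ) (y : DgE n) : ℝ := u (w⁻¹ • y)

/-- the energy density at layer width `w` (the words of `dfmE`) -/
def dfsc_e (w : ℝ) (v : DgE n → ℝ) (y : DgE n) : ℝ := w / 2 * ‖fderiv ℝ v y‖ ^ 2 + dgW (v y) / w

theorem dfsc_contDiff {u : DgE n → ℝ} {k : WithTop ℕ∞} (hu : ContDiff ℝ k u) (w : ℝ) :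
    ContDiff ℝ k (dfsc_v u w) :=
  hu.comp (contDiff_id.const_smul w⁻¹)

theorem dfsc_smooth {u : DgE n → ℝ} (hu : DgSol n u) (w : ℝ) : ContDiff ℝ ∞ (dfsc_v u w) :=
  dfsc_contDiff (dgA3_smooth hu.smooth hu.range hu.pde) w

theorem dfsc_range {u : DgE n → ℝ} (hu : DgSol n u) (w : ℝ) (y : DgE n) :
    dfsc_v u w y ∈ Set.Icc (-1 : ℝ) 1 := hu.range _

theorem dfsc_fderiv (u : DgE n → ℝ) (w : ℝ) (y : DgE n) :
    fderiv ℝ (dfsc_v u w) y = w⁻¹ • fderiv ℝ u (w⁻¹ • y) :=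
  fderiv_comp_smul (f := u) w⁻¹

theorem dfsc_gradient (u : DgE n → ℝ) (w : ℝ) (y : DgE n) :
    gradient (dfsc_v u w) y = w⁻¹ • gradient u (w⁻¹ • y) := by
  unfold gradient
  rw [dfsc_fderiv, map_smul]

theorem dfsc_norm_fderiv (u : DgE n → ℝ) {w : ℝ} (hw : 0 < w) (y : DgE n) :
    ‖fderiv ℝ (dfsc_v u w) y‖ = w⁻¹ * ‖fderiv ℝ u (w⁻¹ • y)‖ := by
  rw [dfsc_fderiv, norm_smul, Real.norm_eq_abs, abs_of_pos (inv_pos.2 hw)]

theorem dfsc_laplacian (u : DgE n → ℝ) (w : ℝ) (y : DgE n) :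
    Laplacian.laplacian (dfsc_v u w) y = (w⁻¹) ^ 2 * Laplacian.laplacian u (w⁻¹ • y) :=
  dgl2_laplacian_comp_smul u w⁻¹ y

/-- the rescaled equation `w Δv = W'(v)/w`. -/
theorem dfsc_pde {u : DgE n → ℝ} (hu : DgSol n u) {w : ℝ} (hw : 0 < w) (y : DgE n) :
    w * Laplacian.laplacian (dfsc_v u w) y = (dfsc_v u w y ^ 3 - dfsc_v u w y) / w := by
  rw [dfsc_laplacian, hu.pde]
  unfold dfsc_v
  field_simp

/-- the rescaled density. -/
theorem dfsc_dens (u : DgE n → ℝ) {w : ℝ} (hw : 0 < w) (y : DgE n) :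
    dfsc_e w (dfsc_v u w) y = w⁻¹ * dgDens n u (w⁻¹ • y) := by
  unfold dfsc_e
  rw [dfsc_norm_fderiv u hw, dgDens]
  unfold dfsc_v
  field_simp

/-- Modica's bound, rescaled. -/
theorem dfsc_modica {u : DgE n → ℝ} (hu : DgSol n u) {w : ℝ} (hw : 0 < w) (y : DgE n) :
    w / 2 * ‖fderiv ℝ (dfsc_v u w) y‖ ^ 2 ≤ dgW (dfsc_v u w y) / w := by
  have h := dg258_exit_modica hu (w⁻¹ • y)
  rw [dfsc_norm_fderiv u hw]
  unfold dfsc_v
  rw [le_div_iff₀ hw]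
  calc w / 2 * (w⁻¹ * ‖fderiv ℝ u (w⁻¹ • y)‖) ^ 2 * w = ‖fderiv ℝ u (w⁻¹ • y)‖ ^ 2 / 2 := by
        field_simp
    _ ≤ _ := h

/-- change of variables `x = y / w` on the whole space. -/
theorem dfsc_integral (F : DgE n → ℝ) {w : ℝ} (hw : 0 < w) :
    ∫ y, F (w⁻¹ • y) = w ^ n * ∫ x, F x := by
  rw [Measure.integral_comp_smul_of_nonneg volume F w⁻¹ (hR := (inv_pos.2 hw).le), finrank_euclideanSpace_fin,
    smul_eq_mul, inv_pow, inv_inv]

/-- change of variables `x = y / w` on balls. -/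
theorem dfsc_setIntegral (F : DgE n → ℝ) {w : ℝ} (hw : 0 < w) (y₀ : DgE n) (ρ : ℝ) :
    ∫ y in ball y₀ ρ, F (w⁻¹ • y) = w ^ n * ∫ x in ball (w⁻¹ • y₀) (w⁻¹ * ρ), F x := by
  have hi : 0 < w⁻¹ := inv_pos.2 hw
  rw [Measure.setIntegral_comp_smul_of_pos volume F (ball y₀ ρ) hi, _root_.smul_ball hi.ne',
    Real.norm_eq_abs, abs_of_pos hi, finrank_euclideanSpace_fin, smul_eq_mul, inv_pow, inv_inv]

/-- the rescaled energy in balls. -/
theorem dfsc_energy (hn : 1 ≤ n) (u : DgE n → ℝ) {w : ℝ} (hw : 0 < w) (y₀ : DgE n) (ρ : ℝ) :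
    ∫ y in ball y₀ ρ, dfsc_e w (dfsc_v u w) y = w ^ (n - 1) * dgEn n u (w⁻¹ • y₀) (w⁻¹ * ρ) := by
  simp only [dfsc_dens u hw]
  rw [integral_const_mul, dfsc_setIntegral (fun x => dgDens n u x) hw, dgEn, ← mul_assoc]
  congr 1
  obtain ⟨m, rfl⟩ : ∃ m, n = m + 1 := ⟨n - 1, by omega⟩
  simp only [Nat.add_sub_cancel]
  rw [pow_succ]
  field_simp

/-- divergence of a rescaled field. -/
theorem dfsc_div (X : DgE n → DgE n) (w : ℝ) (x : DgE n) :
    Gmt.gmtDiv (fun z => X (w • z)) x = w * Gmt.gmtDiv X (w • x) := by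
  unfold Gmt.gmtDiv
  rw [fderiv_comp_smul (f := X) w, Finset.mul_sum]
  rfl

/-- **The stress identity at layer width `w`**: `∫ (e_w(v) div X - w ⟪∇v, DX ∇v⟫) = 0` for `X ∈ C¹_c`. -/
theorem dfsc_stress {u : DgE n → ℝ} (hu : DgSol n u) {w : ℝ} (hw : 0 < w) {X : DgE n → DgE n}
    (hX : ContDiff ℝ 1 X) (hc : HasCompactSupport X) :
    ∫ y, (dfsc_e w (dfsc_v u w) y * Gmt.gmtDiv X y -
      w * ⟪gradient (dfsc_v u w) y, fderiv ℝ X y (gradient (dfsc_v u w) y)⟫) = 0 := by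
  have hX' : ContDiff ℝ 1 (fun z => X (w • z)) := hX.comp (contDiff_id.const_smul w)
  have hc' : HasCompactSupport (fun z => X (w • z)) :=
    hc.comp_homeomorph (Homeomorph.smulOfNeZero w hw.ne')
  have h0 := dgFI_stress hu.smooth hu.pde hX' hc'
  have hpt : ∀ y, dfsc_e w (dfsc_v u w) y * Gmt.gmtDiv X y -
      w * ⟪gradient (dfsc_v u w) y, fderiv ℝ X y (gradient (dfsc_v u w) y)⟫ =
      (w⁻¹) ^ 2 * (fun x => dgDens n u x * Gmt.gmtDiv (fun z => X (w • z)) x -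
        ⟪gradient u x, fderiv ℝ (fun z => X (w • z)) x (gradient u x)⟫) (w⁻¹ • y) := by
    intro y
    have e1 : w • w⁻¹ • y = y := by rw [smul_smul, mul_inv_cancel₀ hw.ne', one_smul]
    simp only []
    rw [dfsc_dens u hw, dfsc_gradient, dfsc_div, fderiv_comp_smul (f := X) w, e1]
    simp only [map_smul, inner_smul_left, inner_smul_right, smul_apply, RCLike.conj_to_real]
    field_simp
  simp_rw [hpt]
  rw [integral_const_mul]
  have h1 := dfsc_integral (fun x => dgDens n u x * Gmt.gmtDiv (fun z => X (w • z)) x -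
        ⟪gradient u x, fderiv ℝ (fun z => X (w • z)) x (gradient u x)⟫) hw
  rw [h0, mul_zero] at h1
  rw [h1, mul_zero]

/-! ## EXITS -/

/-- EXIT: all the facts at once for `v(y) = u(L(y/w) + c)` (rotation `L`, centre `c`, layer width `w`). -/
theorem dfsc_exit (hn : 1 ≤ n) {u : DgE n → ℝ} (hu : DgSol n u) (L : DgE n ≃ₗᵢ[ℝ] DgE n) (c : DgE n)
    {w : ℝ} (hw : 0 < w) :
    ContDiff ℝ ∞ (dfsc_v (fun x => u (L x + c)) w) ∧
    (∀ y, dfsc_v (fun x => u (L x + c)) w y ∈ Set.Icc (-1 : ℝ) 1) ∧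
    (∀ y, w * Laplacian.laplacian (dfsc_v (fun x => u (L x + c)) w) y =
      (dfsc_v (fun x => u (L x + c)) w y ^ 3 - dfsc_v (fun x => u (L x + c)) w y) / w) ∧
    (∀ y, w / 2 * ‖fderiv ℝ (dfsc_v (fun x => u (L x + c)) w) y‖ ^ 2 ≤
      dgW (dfsc_v (fun x => u (L x + c)) w y) / w) ∧
    (∀ y₀ ρ, ∫ y in ball y₀ ρ, dfsc_e w (dfsc_v (fun x => u (L x + c)) w) y =
      w ^ (n - 1) * dgEn n u (L (w⁻¹ • y₀) + c) (w⁻¹ * ρ)) ∧
    (∀ X : DgE n → DgE n, ContDiff ℝ 1 X → HasCompactSupport X →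
      ∫ y, (dfsc_e w (dfsc_v (fun x => u (L x + c)) w) y * Gmt.gmtDiv X y -
        w * ⟪gradient (dfsc_v (fun x => u (L x + c)) w) y,
          fderiv ℝ X y (gradient (dfsc_v (fun x => u (L x + c)) w) y)⟫) = 0) := by
  have h1 : DgSol n (fun x => u (L x + c)) := dgro_sol L c hu
  refine ⟨dfsc_smooth h1 w, dfsc_range h1 w, dfsc_pde h1 hw, dfsc_modica h1 hw, fun y₀ ρ => ?_,
    fun X hX hc => dfsc_stress h1 hw hX hc⟩
  rw [dfsc_energy hn _ hw, dgro_en]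

end

end Claimed.Agent.R329
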