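import Claimed.Agent.R329.Rot
import Claimed.Agent.R329.LapApi2
import Claimed.Agent.R329.DfDefs

/-!
# Row 329, K7, post P9 (chief: helper47, prefix `dfp9_`): SCALING.  From the class `DfClass` to the unit scale hypotheses `DfUnit`
# (port of `fl_unit_of_AM` of `Lib/Gmt/FlScale.lean`); the way back (flatness, the step at all scales) is in `DfGeo.lean` of helper88.

`v y = u (x₀ + ρ • L⁻¹ y)` (`L` a rotation, `ρ > 0`), layer width `w = ρ⁻¹`.   No test field is ever transported: only the scalar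
hypotheses (the `w`-equation, Modica, mass, Morrey bound of the discrepancy, lower density, flatness).
* `dfp9A`, `dfp9V` (`dfp9V u L x₀ ρ y = u (x₀ + ρ • L.symm y)` by `rfl`), change of variables `dfp9_setIntegral_preimage`, `dfp9_setIntegral_ball`;
* `dfp9_fderiv_apply`, `dfp9_norm_fderiv`, `dfp9_gradient`, `dfp9_laplacian`, `dfp9_pde`;
* `dfp9_E`, `dfp9_Xi`, `dfp9_Aden`, `dfp9_B` (the four densities of `DfDefs`), `dfp9_mass`, `dfp9_disc`, `dfp9_low`;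
* `dfp9_unit` : `DfClass` + `DfFlatU` ⇒ `DfUnit` (`= fl_unit_of_AM`);
* `dfp9U`, `dfp9_U_*` : back from `DfUnit` to an entire solution of the unscaled equation (for the tails, helper138 / helper169).
-/

set_option autoImplicit false
open scoped ContDiff RealInnerProductSpace
open MeasureTheory Metric Set Filter Topology
open scoped Pointwise

namespace Claimed.Agent.R329

open Claimed.Agent.Gmt

variable {n : ℕ}

/-! ## Definitions -/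

/-- the affine map `y ↦ x₀ + ρ L⁻¹ y` -/
noncomputable def dfp9A (L : DgE n ≃ₗᵢ[ℝ] DgE n) (x₀ : DgE n) (ρ : ℝ) (y : DgE n) : DgE n :=
  x₀ + ρ • L.symm y

/-- the rescaled, rotated, recentred function -/
noncomputable def dfp9V (u : DgE n → ℝ) (L : DgE n ≃ₗᵢ[ℝ] DgE n) (x₀ : DgE n) (ρ : ℝ) : DgE n → ℝ :=
  fun y => u (x₀ + ρ • L.symm y)

/-! ## The affine map -/

theorem dfp9_V_apply (u : DgE n → ℝ) (L : DgE n ≃ₗᵢ[ℝ] DgE n) (x₀ : DgE n) (ρ : ℝ) (y : DgE n) :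
    dfp9V u L x₀ ρ y = u (dfp9A L x₀ ρ y) := rfl

theorem dfp9_A_zero (L : DgE n ≃ₗᵢ[ℝ] DgE n) (x₀ : DgE n) (ρ : ℝ) : dfp9A L x₀ ρ 0 = x₀ := by
  simp [dfp9A]

theorem dfp9_A_eq (L : DgE n ≃ₗᵢ[ℝ] DgE n) (x₀ : DgE n) (ρ : ℝ) (y : DgE n) :
    dfp9A L x₀ ρ y = L.symm (ρ • y) + x₀ := by
  rw [dfp9A, map_smul, add_comm]

theorem dfp9_A_sub (L : DgE n ≃ₗᵢ[ℝ] DgE n) (x₀ : DgE n) (ρ : ℝ) (y z : DgE n) :
    dfp9A L x₀ ρ y - dfp9A L x₀ ρ z = ρ • L.symm (y - z) := by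
  rw [dfp9A, dfp9A, map_sub, smul_sub]; abel

theorem dfp9_A_dist (L : DgE n ≃ₗᵢ[ℝ] DgE n) (x₀ : DgE n) {ρ : ℝ} (hρ : 0 < ρ) (y z : DgE n) :
    dist (dfp9A L x₀ ρ y) (dfp9A L x₀ ρ z) = ρ * dist y z := by
  rw [dist_eq_norm, dfp9_A_sub, norm_smul, L.symm.norm_map, Real.norm_eq_abs, abs_of_pos hρ,
    dist_eq_norm]

/-- the inverse affine map -/
theorem dfp9_A_inv (L : DgE n ≃ₗᵢ[ℝ] DgE n) (x₀ : DgE n) {ρ : ℝ} (hρ : 0 < ρ) (x : DgE n) :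
    dfp9A L x₀ ρ (ρ⁻¹ • L (x - x₀)) = x := by
  rw [dfp9A, map_smul, L.symm_apply_apply, smul_smul, mul_inv_cancel₀ hρ.ne', one_smul]; abel

theorem dfp9_A_inv' (L : DgE n ≃ₗᵢ[ℝ] DgE n) (x₀ : DgE n) {ρ : ℝ} (hρ : 0 < ρ) (y : DgE n) :
    ρ⁻¹ • L (dfp9A L x₀ ρ y - x₀) = y := by
  rw [dfp9A, add_sub_cancel_left, map_smul, L.apply_symm_apply, smul_smul, inv_mul_cancel₀ hρ.ne',
    one_smul]

theorem dfp9_A_inner (L : DgE n ≃ₗᵢ[ℝ] DgE n) (x₀ : DgE n) (ρ : ℝ) (y e : DgE n) :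
    inner ℝ (dfp9A L x₀ ρ y - x₀) e = ρ * inner ℝ y (L e) := by
  rw [dfp9A, add_sub_cancel_left, real_inner_smul_left]
  congr 1
  conv_rhs => rw [← L.apply_symm_apply y]
  exact (L.inner_map_map _ _).symm

theorem dfp9_A_continuous (L : DgE n ≃ₗᵢ[ℝ] DgE n) (x₀ : DgE n) (ρ : ℝ) :
    Continuous (dfp9A L x₀ ρ) := by
  unfold dfp9A
  exact continuous_const.add (L.symm.continuous.const_smul ρ)

theorem dfp9_A_mem_ball (L : DgE n ≃ₗᵢ[ℝ] DgE n) (x₀ : DgE n) {ρ : ℝ} (hρ : 0 < ρ) (y z : DgE n)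
    (s : ℝ) : dfp9A L x₀ ρ z ∈ ball (dfp9A L x₀ ρ y) (ρ * s) ↔ z ∈ ball y s := by
  rw [mem_ball, mem_ball, dfp9_A_dist L x₀ hρ, mul_lt_mul_iff_right₀ hρ]

theorem dfp9_A_preimage_ball (L : DgE n ≃ₗᵢ[ℝ] DgE n) (x₀ : DgE n) {ρ : ℝ} (hρ : 0 < ρ) (y : DgE n)
    (s : ℝ) : dfp9A L x₀ ρ ⁻¹' ball (dfp9A L x₀ ρ y) (ρ * s) = ball y s := by
  ext z; exact dfp9_A_mem_ball L x₀ hρ y z s

/-! ## Change of variables -/

/-- **change of variables**, preimage form (no measurability needed). -/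
theorem dfp9_setIntegral_preimage (L : DgE n ≃ₗᵢ[ℝ] DgE n) (x₀ : DgE n) {ρ : ℝ} (hρ : 0 < ρ)
    (F : DgE n → ℝ) (S : Set (DgE n)) :
    ∫ y in dfp9A L x₀ ρ ⁻¹' S, F (dfp9A L x₀ ρ y) = (ρ ^ n)⁻¹ * ∫ x in S, F x := by
  have h1 : ∫ x in S, F x = ∫ z in (fun z => L.symm z + x₀) ⁻¹' S, F (L.symm z + x₀) :=
    ((dgro_measurePreserving L.symm x₀).setIntegral_preimage_emb
      (dgro_measurableEmbedding L.symm x₀) F S).symm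
  have h2 := Measure.setIntegral_comp_smul_of_pos (volume : Measure (DgE n))
    (fun z => F (L.symm z + x₀)) (dfp9A L x₀ ρ ⁻¹' S) hρ
  have h3 : ρ • (dfp9A L x₀ ρ ⁻¹' S) = (fun z => L.symm z + x₀) ⁻¹' S := by
    ext z
    rw [mem_smul_set_iff_inv_smul_mem₀ hρ.ne', mem_preimage, mem_preimage, dfp9_A_eq, smul_smul,
      mul_inv_cancel₀ hρ.ne', one_smul]
  rw [h3, finrank_euclideanSpace_fin, smul_eq_mul] at h2
  rw [h1, ← h2]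
  simp only [dfp9_A_eq]

theorem dfp9_setIntegral_ball (L : DgE n ≃ₗᵢ[ℝ] DgE n) (x₀ : DgE n) {ρ : ℝ} (hρ : 0 < ρ)
    (F : DgE n → ℝ) (y : DgE n) (s : ℝ) :
    ∫ z in ball y s, F (dfp9A L x₀ ρ z) = (ρ ^ n)⁻¹ * ∫ x in ball (dfp9A L x₀ ρ y) (ρ * s), F x := by
  rw [← dfp9_setIntegral_preimage L x₀ hρ, dfp9_A_preimage_ball L x₀ hρ]

theorem dfp9_integral (L : DgE n ≃ₗᵢ[ℝ] DgE n) (x₀ : DgE n) {ρ : ℝ} (hρ : 0 < ρ) (F : DgE n → ℝ) :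
    ∫ y, F (dfp9A L x₀ ρ y) = (ρ ^ n)⁻¹ * ∫ x, F x := by
  have := dfp9_setIntegral_preimage L x₀ hρ F univ
  simpa using this

/-! ## Derivatives -/

theorem dfp9_V_eq (u : DgE n → ℝ) (L : DgE n ≃ₗᵢ[ℝ] DgE n) (x₀ : DgE n) (ρ : ℝ) :
    dfp9V u L x₀ ρ = fun y => (fun z => u (L.symm z + x₀)) (ρ • y) := by
  funext y
  rw [dfp9_V_apply, dfp9_A_eq]

theorem dfp9_contDiff (L : DgE n ≃ₗᵢ[ℝ] DgE n) (x₀ : DgE n) (ρ : ℝ) {u : DgE n → ℝ}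
    {k : WithTop ℕ∞} (hu : ContDiff ℝ k u) : ContDiff ℝ k (dfp9V u L x₀ ρ) := by
  rw [dfp9_V_eq]
  exact (dgro_contDiff L.symm x₀ hu).comp (contDiff_const_smul ρ)

theorem dfp9_fderiv (u : DgE n → ℝ) (L : DgE n ≃ₗᵢ[ℝ] DgE n) (x₀ : DgE n) (ρ : ℝ) (y : DgE n) :
    fderiv ℝ (dfp9V u L x₀ ρ) y = ρ • fderiv ℝ (fun z => u (L.symm z + x₀)) (ρ • y) := by
  rw [dfp9_V_eq]
  exact fderiv_comp_smul (f := fun z => u (L.symm z + x₀)) ρ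

theorem dfp9_fderiv_apply (u : DgE n → ℝ) (L : DgE n ≃ₗᵢ[ℝ] DgE n) (x₀ : DgE n) (ρ : ℝ)
    (y a : DgE n) :
    fderiv ℝ (dfp9V u L x₀ ρ) y a = ρ * fderiv ℝ u (dfp9A L x₀ ρ y) (L.symm a) := by
  rw [dfp9_fderiv, _root_.smul_apply, dgro_fderiv_apply, smul_eq_mul, dfp9_A_eq]

theorem dfp9_norm_fderiv (u : DgE n → ℝ) (L : DgE n ≃ₗᵢ[ℝ] DgE n) (x₀ : DgE n) {ρ : ℝ} (hρ : 0 < ρ)
    (y : DgE n) : ‖fderiv ℝ (dfp9V u L x₀ ρ) y‖ = ρ * ‖fderiv ℝ u (dfp9A L x₀ ρ y)‖ := by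
  rw [dfp9_fderiv, norm_smul, dgro_norm_fderiv, Real.norm_eq_abs, abs_of_pos hρ, dfp9_A_eq]

theorem dfp9_gradient (u : DgE n → ℝ) (L : DgE n ≃ₗᵢ[ℝ] DgE n) (x₀ : DgE n) (ρ : ℝ) (y : DgE n) :
    gradient (dfp9V u L x₀ ρ) y = ρ • L (gradient u (dfp9A L x₀ ρ y)) := by
  refine ext_inner_right ℝ fun a => ?_
  rw [gradient, InnerProductSpace.toDual_symm_apply, dfp9_fderiv_apply, real_inner_smul_left]
  congr 1
  conv_rhs => rw [← L.apply_symm_apply a]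
  rw [L.inner_map_map, gradient, InnerProductSpace.toDual_symm_apply]

theorem dfp9_laplacian (u : DgE n → ℝ) (L : DgE n ≃ₗᵢ[ℝ] DgE n) (x₀ : DgE n) (ρ : ℝ) (y : DgE n) :
    Laplacian.laplacian (dfp9V u L x₀ ρ) y = ρ ^ 2 * Laplacian.laplacian u (dfp9A L x₀ ρ y) := by
  rw [dfp9_V_eq]
  refine (dgl2_laplacian_comp_smul (fun z => u (L.symm z + x₀)) ρ y).trans ?_
  rw [dgro_laplacian, dfp9_A_eq]

/-! ## The `w`-equation, the `w`-Modica inequality, the densities -/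

theorem dfp9_pde (L : DgE n ≃ₗᵢ[ℝ] DgE n) (x₀ : DgE n) {ρ : ℝ} (hρ : 0 < ρ) {u : DgE n → ℝ}
    (hu : ∀ x, Laplacian.laplacian u x = u x ^ 3 - u x) (y : DgE n) :
    ρ⁻¹ ^ 2 * Laplacian.laplacian (dfp9V u L x₀ ρ) y
      = dfp9V u L x₀ ρ y ^ 3 - dfp9V u L x₀ ρ y := by
  rw [dfp9_laplacian, hu, dfp9_V_apply]
  field_simp

theorem dfp9_S0_pos : 0 < dfS0 := by
  unfold dfS0
  positivity

theorem dfp9_E (u : DgE n → ℝ) (L : DgE n ≃ₗᵢ[ℝ] DgE n) (x₀ : DgE n) {ρ : ℝ} (hρ : 0 < ρ)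
    (y : DgE n) : dfE ρ⁻¹ (dfp9V u L x₀ ρ) y = ρ / dfS0 * dgDens n u (dfp9A L x₀ ρ y) := by
  have h0 := dfp9_S0_pos
  rw [dfE, dgDens, dfp9_norm_fderiv u L x₀ hρ, dfp9_V_apply]
  field_simp

theorem dfp9_Xi (u : DgE n → ℝ) (L : DgE n ≃ₗᵢ[ℝ] DgE n) (x₀ : DgE n) {ρ : ℝ} (hρ : 0 < ρ)
    (y : DgE n) : dfXi ρ⁻¹ (dfp9V u L x₀ ρ) y
      = ρ / dfS0 * (dgW (u (dfp9A L x₀ ρ y)) - ‖fderiv ℝ u (dfp9A L x₀ ρ y)‖ ^ 2 / 2) := by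
  have h0 := dfp9_S0_pos
  rw [dfXi, dfp9_norm_fderiv u L x₀ hρ, dfp9_V_apply]
  field_simp

theorem dfp9_Aden (u : DgE n → ℝ) (L : DgE n ≃ₗᵢ[ℝ] DgE n) (x₀ : DgE n) {ρ : ℝ} (hρ : 0 < ρ)
    (y : DgE n) : dfA ρ⁻¹ (dfp9V u L x₀ ρ) y = ρ / dfS0 * ‖fderiv ℝ u (dfp9A L x₀ ρ y)‖ ^ 2 := by
  have h0 := dfp9_S0_pos
  rw [dfA, dfp9_norm_fderiv u L x₀ hρ]
  field_simp

theorem dfp9_B (u : DgE n → ℝ) (L : DgE n ≃ₗᵢ[ℝ] DgE n) (x₀ : DgE n) {ρ : ℝ} (hρ : 0 < ρ)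
    (y : DgE n) : dfB (dfp9V u L x₀ ρ) y = ρ * dfB u (dfp9A L x₀ ρ y) := by
  rw [dfB, dfB, dfp9_norm_fderiv u L x₀ hρ, dfp9_V_apply]
  ring

theorem dfp9_E_one (v : DgE n → ℝ) (y : DgE n) : dfE 1 v y = dgDens n v y / dfS0 := by
  rw [dfE, dgDens]; ring

/-! ## Energies in sets and balls -/

/-- the `w`-energy of the rescaled function in a preimage. -/
theorem dfp9_E_preimage (u : DgE (n + 1) → ℝ) (L : DgE (n + 1) ≃ₗᵢ[ℝ] DgE (n + 1)) (x₀ : DgE (n + 1))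
    {ρ : ℝ} (hρ : 0 < ρ) (S : Set (DgE (n + 1))) :
    ∫ y in dfp9A L x₀ ρ ⁻¹' S, dfE ρ⁻¹ (dfp9V u L x₀ ρ) y
      = (dfS0 * ρ ^ n)⁻¹ * ∫ x in S, dgDens (n + 1) u x := by
  have h0 := dfp9_S0_pos
  simp only [dfp9_E u L x₀ hρ]
  rw [integral_const_mul, dfp9_setIntegral_preimage L x₀ hρ (dgDens (n + 1) u), ← mul_assoc]
  congr 1
  rw [pow_succ]
  field_simp

/-- **the `w`-energy of the rescaled function in a ball.** -/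
theorem dfp9_E_ball (u : DgE (n + 1) → ℝ) (L : DgE (n + 1) ≃ₗᵢ[ℝ] DgE (n + 1)) (x₀ : DgE (n + 1))
    {ρ : ℝ} (hρ : 0 < ρ) (y : DgE (n + 1)) (s : ℝ) :
    ∫ z in ball y s, dfE ρ⁻¹ (dfp9V u L x₀ ρ) z
      = (dfS0 * ρ ^ n)⁻¹ * dgEn (n + 1) u (dfp9A L x₀ ρ y) (ρ * s) := by
  rw [dgEn, ← dfp9_E_preimage u L x₀ hρ, dfp9_A_preimage_ball L x₀ hρ]

/-- **mass bound**, all centres, all radii. -/
theorem dfp9_mass {u : DgE (n + 1) → ℝ} (L : DgE (n + 1) ≃ₗᵢ[ℝ] DgE (n + 1)) (x₀ : DgE (n + 1))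
    {ρ : ℝ} (hρ : 0 < ρ) {C : ℝ} (h : ∀ x r, 0 < r → dgEn (n + 1) u x r ≤ dfS0 * C * r ^ n)
    (y : DgE (n + 1)) {s : ℝ} (hs : 0 < s) :
    ∫ z in ball y s, dfE ρ⁻¹ (dfp9V u L x₀ ρ) z ≤ C * s ^ n := by
  have h0 := dfp9_S0_pos
  rw [dfp9_E_ball u L x₀ hρ]
  have h1 := h (dfp9A L x₀ ρ y) (ρ * s) (by positivity)
  have h2 : 0 < dfS0 * ρ ^ n := by positivity
  rw [inv_mul_le_iff₀ h2]
  refine h1.trans (le_of_eq ?_)
  rw [mul_pow]; ring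

/-- **lower density bound** at interface points, radii `≥ r₀ w`. -/
theorem dfp9_low {u : DgE (n + 1) → ℝ} (L : DgE (n + 1) ≃ₗᵢ[ℝ] DgE (n + 1)) (x₀ : DgE (n + 1))
    {ρ : ℝ} (hρ : 0 < ρ) {c r₀ θ : ℝ}
    (h : ∀ x, |u x| ≤ θ → ∀ r, r₀ ≤ r → c * r ^ n ≤ dgEn (n + 1) u x r) (y : DgE (n + 1))
    (hy : |dfp9V u L x₀ ρ y| ≤ θ) {s : ℝ} (hs : r₀ * ρ⁻¹ ≤ s) :
    c / dfS0 * s ^ n ≤ ∫ z in ball y s, dfE ρ⁻¹ (dfp9V u L x₀ ρ) z := by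
  have h0 := dfp9_S0_pos
  rw [dfp9_E_ball u L x₀ hρ]
  have hs' : r₀ ≤ ρ * s := by
    have := mul_le_mul_of_nonneg_left hs hρ.le
    rwa [mul_comm r₀, ← mul_assoc, mul_inv_cancel₀ hρ.ne', one_mul] at this
  have h1 := h (dfp9A L x₀ ρ y) hy (ρ * s) hs'
  have h2 : 0 < dfS0 * ρ ^ n := by positivity
  rw [le_inv_mul_iff₀ h2]
  refine le_trans (le_of_eq ?_) h1
  rw [mul_pow]; field_simp

/-- **Morrey bound of the discrepancy**: `∫_{B_s(y)} ξ_w ≤ (K/s₀) w s^{n-1}`. -/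
theorem dfp9_disc (hn : 1 ≤ n) {u : DgE (n + 1) → ℝ} (L : DgE (n + 1) ≃ₗᵢ[ℝ] DgE (n + 1))
    (x₀ : DgE (n + 1)) {ρ : ℝ} (hρ : 0 < ρ) {K : ℝ}
    (h : ∀ x r, 0 < r → ∫ z in ball x r, (dgW (u z) - ‖fderiv ℝ u z‖ ^ 2 / 2) ≤ K * r ^ (n - 1))
    (y : DgE (n + 1)) {s : ℝ} (hs : 0 < s) :
    ∫ z in ball y s, dfXi ρ⁻¹ (dfp9V u L x₀ ρ) z ≤ K / dfS0 * ρ⁻¹ * s ^ (n - 1) := by
  have h0 := dfp9_S0_pos
  simp only [dfp9_Xi u L x₀ hρ]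
  rw [integral_const_mul,
    dfp9_setIntegral_ball L x₀ hρ (fun x => dgW (u x) - ‖fderiv ℝ u x‖ ^ 2 / 2)]
  have h1 := h (dfp9A L x₀ ρ y) (ρ * s) (by positivity)
  obtain ⟨m, rfl⟩ : ∃ m, n = m + 1 := ⟨n - 1, by omega⟩
  simp only [Nat.add_sub_cancel] at h1 ⊢
  have h2 : 0 < ρ / dfS0 * (ρ ^ (m + 1 + 1))⁻¹ := by positivity
  calc ρ / dfS0 * ((ρ ^ (m + 1 + 1))⁻¹ * ∫ x in ball (dfp9A L x₀ ρ y) (ρ * s),
          (dgW (u x) - ‖fderiv ℝ u x‖ ^ 2 / 2))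
      = ρ / dfS0 * (ρ ^ (m + 1 + 1))⁻¹ * ∫ x in ball (dfp9A L x₀ ρ y) (ρ * s),
          (dgW (u x) - ‖fderiv ℝ u x‖ ^ 2 / 2) := by ring
    _ ≤ ρ / dfS0 * (ρ ^ (m + 1 + 1))⁻¹ * (K * (ρ * s) ^ m) := mul_le_mul_of_nonneg_left h1 h2.le
    _ = K / dfS0 * ρ⁻¹ * s ^ m := by
        rw [mul_pow, pow_succ, pow_succ]
        field_simp

/-! ## `DfUnit` from `DfClass` -/

/-- **the unit scale hypotheses hold in the class `DfClass`** (`ρ = r/4`, `w = 4/r`, `ε = 4η`). -/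
theorem dfp9_unit (hn : 1 ≤ n) {K c₀ : ℝ} {u : E (n + 1) → ℝ} (hu : DfClass n K c₀ u)
    (L : E (n + 1) ≃ₗᵢ[ℝ] E (n + 1)) {x₀ e : E (n + 1)} (hL : L e = gmtEn n) {r η : ℝ} (hr : 0 < r)
    (hη : 0 < η) (hη' : η ≤ 1 / 32) (hw : 4 / r ≤ (4 * η) ^ 2) (hfl : DfFlatU u x₀ r η e) :
    DfUnit n (4 / r) (4 * η) (K / dfS0) (c₀ / dfS0) 1 (dfp9V u L x₀ (r / 4)) := by
  have h0 := dfp9_S0_pos
  have hρ : 0 < r / 4 := by positivity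
  have hwρ : 4 / r = (r / 4)⁻¹ := by rw [inv_div]
  have hgeo : ∀ y ∈ ball (0 : E (n + 1)) 4, dfp9A L x₀ (r / 4) y ∈ ball x₀ r := by
    intro y hy
    have := (dfp9_A_mem_ball L x₀ hρ 0 y 4).2 hy
    rw [dfp9_A_zero] at this
    have e1 : r / 4 * 4 = r := by ring
    rwa [e1] at this
  have hin : ∀ y, ⟪dfp9A L x₀ (r / 4) y - x₀, e⟫ = r / 4 * gmtVer y := by
    intro y
    rw [dfp9_A_inner, hL, fl_ver_eq_inner]
  refine ⟨by positivity, by positivity, by linarith, hw, div_nonneg hu.hK h0.le, div_pos hu.hc h0,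
    one_pos, dfp9_contDiff L x₀ _ hu.smooth, fun y => hu.range _, ?_, ?_, ?_, ?_, ?_, ?_, ?_⟩
  · intro y
    rw [hwρ]
    exact dfp9_pde L x₀ hρ hu.pde y
  · intro y
    rw [hwρ, dfp9_Xi u L x₀ hρ]
    have := hu.modica (dfp9A L x₀ (r / 4) y)
    exact mul_nonneg (by positivity) (by linarith)
  · intro y s hs
    rw [hwρ]
    exact dfp9_mass L x₀ hρ hu.mass y hs
  · intro y s hs
    rw [hwρ]
    exact dfp9_disc hn L x₀ hρ hu.disc y hs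
  · intro y hy s hs
    rw [hwρ] at hs ⊢
    exact dfp9_low L x₀ hρ hu.low y hy hs
  · intro y hy ht
    refine hfl.below _ (hgeo y hy) ?_
    show ⟪dfp9A L x₀ (r / 4) y - x₀, e⟫ < -(η * r)
    rw [hin]
    nlinarith
  · intro y hy ht
    refine hfl.above _ (hgeo y hy) ?_
    show η * r < ⟪dfp9A L x₀ (r / 4) y - x₀, e⟫
    rw [hin]
    nlinarith

/-! ## Back to the unscaled equation -/

/-- the unscaled function `x ↦ v (w x)` -/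
noncomputable def dfp9U (w : ℝ) (v : DgE n → ℝ) : DgE n → ℝ := fun x => v (w • x)

theorem dfp9_U_apply (w : ℝ) (v : DgE n → ℝ) (x : DgE n) : dfp9U w v x = v (w • x) := rfl

theorem dfp9_U_inv {w : ℝ} (hw : 0 < w) (v : DgE n → ℝ) (y : DgE n) :
    dfp9U w v (w⁻¹ • y) = v y := by
  rw [dfp9_U_apply, smul_smul, mul_inv_cancel₀ hw.ne', one_smul]

theorem dfp9_U_eq (w : ℝ) (v : DgE n → ℝ) :
    dfp9U w v = dfp9V v (LinearIsometryEquiv.refl ℝ (DgE n)) 0 w := by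
  funext x
  show v (w • x) = v (0 + w • x)
  rw [zero_add]

theorem dfp9_A_refl (w : ℝ) (x : DgE n) :
    dfp9A (LinearIsometryEquiv.refl ℝ (DgE n)) 0 w x = w • x := by
  show 0 + w • x = w • x
  rw [zero_add]

theorem dfp9_U_contDiff (w : ℝ) {v : DgE n → ℝ} {k : WithTop ℕ∞} (hv : ContDiff ℝ k v) :
    ContDiff ℝ k (dfp9U w v) := by
  rw [dfp9_U_eq]; exact dfp9_contDiff _ _ _ hv

theorem dfp9_U_norm_fderiv {w : ℝ} (hw : 0 < w) (v : DgE n → ℝ) (x : DgE n) :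
    ‖fderiv ℝ (dfp9U w v) x‖ = w * ‖fderiv ℝ v (w • x)‖ := by
  rw [dfp9_U_eq, dfp9_norm_fderiv _ _ _ hw, dfp9_A_refl]

theorem dfp9_U_fderiv_apply (w : ℝ) (v : DgE n → ℝ) (x a : DgE n) :
    fderiv ℝ (dfp9U w v) x a = w * fderiv ℝ v (w • x) a := by
  rw [dfp9_U_eq, dfp9_fderiv_apply, dfp9_A_refl]; rfl

theorem dfp9_U_laplacian (w : ℝ) (v : DgE n → ℝ) (x : DgE n) :
    Laplacian.laplacian (dfp9U w v) x = w ^ 2 * Laplacian.laplacian v (w • x) := by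
  rw [dfp9_U_eq, dfp9_laplacian, dfp9_A_refl]

/-- the `w`-densities of `v` in terms of the unscaled function. -/
theorem dfp9_U_E {w : ℝ} (hw : 0 < w) (v : DgE n → ℝ) (y : DgE n) :
    dfE w v y = dgDens n (dfp9U w v) (w⁻¹ • y) / (w * dfS0) := by
  have h0 := dfp9_S0_pos
  rw [dfE, dgDens, dfp9_U_norm_fderiv hw, dfp9_U_inv hw, smul_smul, mul_inv_cancel₀ hw.ne', one_smul]
  field_simp

theorem dfp9_U_modica {w : ℝ} (hw : 0 < w) {v : DgE n → ℝ} (hm : ∀ y, 0 ≤ dfXi w v y) (x : DgE n) :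
    ‖fderiv ℝ (dfp9U w v) x‖ ^ 2 / 2 ≤ dgW (dfp9U w v x) := by
  have h0 := dfp9_S0_pos
  have h1 := hm (w • x)
  rw [dfXi] at h1
  have h2 : 0 ≤ dgW (v (w • x)) / w - w * ‖fderiv ℝ v (w • x)‖ ^ 2 / 2 := by
    by_contra hcon
    exact absurd h1 (not_le.2 (div_neg_of_neg_of_pos (not_le.1 hcon) h0))
  rw [dfp9_U_norm_fderiv hw, dfp9_U_apply]
  have h3 : dgW (v (w • x)) / w - w * ‖fderiv ℝ v (w • x)‖ ^ 2 / 2
      = (dgW (v (w • x)) - (w * ‖fderiv ℝ v (w • x)‖) ^ 2 / 2) / w := by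
    field_simp
  rw [h3] at h2
  have h4 : 0 ≤ dgW (v (w • x)) - (w * ‖fderiv ℝ v (w • x)‖) ^ 2 / 2 := by
    by_contra hcon
    exact absurd h2 (not_le.2 (div_neg_of_neg_of_pos (not_le.1 hcon) hw))
  linarith

/-- **unscaling**: from `DfUnit` back to an entire solution of `Δ u = u³ - u`. -/
theorem dfp9_U_sol {w ε K c₀ r₀ : ℝ} {v : E (n + 1) → ℝ} (hv : DfUnit n w ε K c₀ r₀ v) :
    DgSol (n + 1) (dfp9U w v) where
  smooth := dfp9_U_contDiff w (hv.smooth.of_le (WithTop.coe_le_coe.2 le_top))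
  range := fun x => ⟨(hv.range _).1.le, (hv.range _).2.le⟩
  pde := fun x => by rw [dfp9_U_laplacian, hv.pde]; rfl

theorem dfp9_U_mem_ball {w : ℝ} (hw : 0 < w) {x : DgE n} {R : ℝ} (hx : x ∈ ball (0 : DgE n) (R / w)) :
    w • x ∈ ball (0 : DgE n) R := by
  rw [mem_ball, dist_zero_right] at hx ⊢
  rw [norm_smul, Real.norm_eq_abs, abs_of_pos hw]
  rw [lt_div_iff₀ hw] at hx
  linarith

/-- the unscaled function is flat in `ball 0 (4/w)`, half height `ε/w` (hypotheses of `dgTa_flat`, helper169). -/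
theorem dfp9_U_below {w ε K c₀ r₀ : ℝ} {v : E (n + 1) → ℝ} (hv : DfUnit n w ε K c₀ r₀ v) :
    ∀ x ∈ ball (0 : E (n + 1)) (4 / w), ⟪x - 0, gmtEn n⟫ < -(ε / w) → 7 / 8 ≤ dfp9U w v x := by
  intro x hx h
  have hw := hv.hw
  refine hv.below _ (dfp9_U_mem_ball hw hx) ?_
  rw [fl_ver_eq_inner, real_inner_smul_left]
  rw [sub_zero] at h
  have := mul_lt_mul_of_pos_left h hw
  have e1 : w * -(ε / w) = -ε := by field_simp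
  linarith

theorem dfp9_U_above {w ε K c₀ r₀ : ℝ} {v : E (n + 1) → ℝ} (hv : DfUnit n w ε K c₀ r₀ v) :
    ∀ x ∈ ball (0 : E (n + 1)) (4 / w), ε / w < ⟪x - 0, gmtEn n⟫ → dfp9U w v x ≤ -(7 / 8) := by
  intro x hx h
  have hw := hv.hw
  refine hv.above _ (dfp9_U_mem_ball hw hx) ?_
  rw [fl_ver_eq_inner, real_inner_smul_left]
  rw [sub_zero] at h
  have := mul_lt_mul_of_pos_left h hw
  have e1 : w * (ε / w) = ε := by field_simp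
  linarith

end Claimed.Agent.R329
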