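import Claimed.Agent.R329.Cone
import Claimed.Agent.R329.Mono
import Claimed.Agent.R329.Rot
import Claimed.Agent.R329.DfDefs

/-!
# Row 329, K7, post P11 = START of the flatness iteration (helper97), prefix `dfs_`

Flatness predicate: `DfFlatU u x r η e` of `DfDefs.lean` (`u ≥ 7/8` below the slab `|⟪y - x, e⟫| ≤ η r` in `ball x r`, `u ≤ -7/8` above).
No Caffarelli-Cordoba estimate: the weak convergence of the energy measures in `DgB5Exact` (posts B3 B4 B5) clears out the interface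
away from the limit plane, the `L¹` convergence fixes the sign on each side.

* `dfs_mu_ball`    : mass of a ball (any centre) for the rescaled energy measure `dgB5_mu`.
* `dfs_low`        : energy lower density at interface points (`|u y| ≤ 7/8`), from Modica's bound and the monotonicity formula.
* `dfs_clear`      : clearing out: no interface point away from the limit plane.
* `dfs_flat_of_limit` : a blow-down sequence whose limit is a half space is eventually flat, in the direction of its normal.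
* `dfs_start_fixed`: EXIT (IN 2 of P10): ONE direction `e₀`, arbitrarily large scales, every `ε`.
* `dfs_start`      : EXIT: every large scale is `η`-flat about `0` (in some direction).
* `dfs_start_at`   : EXIT at any centre, contracts of Part I as hypotheses on the class.
-/

set_option autoImplicit false
open scoped ENNReal RealInnerProductSpace Topology
open MeasureTheory Metric Set Filter

namespace Claimed.Agent.R329

open Claimed.Agent.Gmt

theorem dfs_flat_mono {n : ℕ} {u : DgE n → ℝ} {x : DgE n} {r η η' : ℝ} {e : DgE n} (h : DfFlatU u x r η e)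
    (hr : 0 ≤ r) (hη : η ≤ η') : DfFlatU u x r η' e where
  unit := h.unit
  below := fun y hy hlt => h.below y hy (lt_of_lt_of_le hlt (neg_le_neg (mul_le_mul_of_nonneg_right hη hr)))
  above := fun y hy hlt => h.above y hy (lt_of_le_of_lt (mul_le_mul_of_nonneg_right hη hr) hlt)

/-! ## 1. mass of balls -/

theorem dfs_mu_ball {n : ℕ} (hn : 1 ≤ n) {u : DgE n → ℝ} (hu : ContDiff ℝ 1 u) {R : ℝ} (hR : 0 < R) (z : DgE n) (r : ℝ) :
    dgB5_mu n u R (ball z r) = ENNReal.ofReal ((R ^ (n - 1))⁻¹ * dgEn n u (R • z) (R * r)) := by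
  unfold dgB5_mu
  have hi : IntegrableOn (fun x : DgE n => R * dgDens n u (R • x)) (ball z r) :=
    ((dgB5_resc_continuous hu R).continuousOn.integrableOn_compact (isCompact_closedBall z r)).mono_set
      ball_subset_closedBall
  rw [withDensity_apply _ measurableSet_ball, ← ofReal_integral_eq_lintegral_ofReal hi
    (Eventually.of_forall fun x => mul_nonneg hR.le (dg17_dens_nonneg n u _))]
  congr 1
  unfold dgEn
  rw [integral_const_mul, Measure.setIntegral_comp_smul_of_pos volume _ _ hR, _root_.smul_ball hR.ne',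
    Real.norm_of_nonneg hR.le, finrank_euclideanSpace_fin, smul_eq_mul, ← mul_assoc]
  congr 1
  obtain ⟨k, rfl⟩ : ∃ k, n = k + 1 := ⟨n - 1, by omega⟩
  rw [Nat.add_sub_cancel, pow_succ]
  field_simp

/-! ## 2. energy lower density -/

/-- the energy lower density at interface points. -/
def DfsLow (n : ℕ) (u : DgE n → ℝ) (c₀ : ℝ) : Prop :=
  ∀ y : DgE n, |u y| ≤ 7 / 8 → ∀ r : ℝ, 1 ≤ r → c₀ * r ^ (n - 1) ≤ dgEn n u y r

theorem dfs_low {m : ℕ} {u : DgE (m + 1) → ℝ} (hu : DgSol (m + 1) u)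
    (hmod : ∀ x, ‖fderiv ℝ u x‖ ^ 2 / 2 ≤ dgW (u x)) :
    DfsLow (m + 1) u (1 / 300 * (volume (ball (0 : DgE (m + 1)) (1 / 16))).toReal) := by
  intro y hy r hr
  have hu1 : ContDiff ℝ 1 u := hu.smooth.of_le (by norm_num)
  -- gradient bound
  have hg : ∀ x, ‖fderiv ℝ u x‖ ≤ 1 := by
    intro x
    have h1 := hmod x
    have h2 : dgW (u x) ≤ 1 / 4 := by
      unfold dgW
      have := hu.range x
      have h3 : 0 ≤ 1 - u x ^ 2 := by nlinarith [this.1, this.2]
      have h4 : 1 - u x ^ 2 ≤ 1 := by nlinarith [sq_nonneg (u x)]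
      nlinarith
    nlinarith [norm_nonneg (fderiv ℝ u x)]
  have hlip : ∀ x, |u x - u y| ≤ ‖x - y‖ := by
    intro x
    have := Convex.norm_image_sub_le_of_norm_fderiv_le (𝕜 := ℝ) (f := u) (s := univ) (C := 1)
      (fun z _ => (hu1.differentiable (by norm_num)) z) (fun z _ => hg z) convex_univ (mem_univ y) (mem_univ x)
    simpa using this
  -- lower bound of the density near `y`
  have hden : ∀ x ∈ ball y (1 / 16), (1 / 300 : ℝ) ≤ dgDens (m + 1) u x := by
    intro x hx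
    have hx' : ‖x - y‖ < 1 / 16 := by rwa [mem_ball, dist_eq_norm] at hx
    have h1 := hlip x
    have h2 : |u x| ≤ 15 / 16 := by
      have := abs_sub_abs_le_abs_sub (u x) (u y)
      linarith
    have h3 : u x ^ 2 ≤ 225 / 256 := by
      have := sq_le_sq' (by linarith [abs_le.1 h2] : -(15 / 16 : ℝ) ≤ u x) (abs_le.1 h2).2
      linarith
    unfold dgDens dgW
    have h4 : (31 / 256 : ℝ) ≤ 1 - u x ^ 2 := by linarith
    have h5 : (31 / 256 : ℝ) ^ 2 ≤ (1 - u x ^ 2) ^ 2 := pow_le_pow_left₀ (by norm_num) h4 2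
    have h6 : 0 ≤ ‖fderiv ℝ u x‖ ^ 2 / 2 := by positivity
    nlinarith
  have hE1 : 1 / 300 * (volume (ball (0 : DgE (m + 1)) (1 / 16))).toReal ≤ dgEn (m + 1) u y 1 := by
    unfold dgEn
    have hsub : ball y (1 / 16) ⊆ ball y 1 := ball_subset_ball (by norm_num)
    have hI := dg17_dens_integrableOn hu1 y 1
    calc 1 / 300 * (volume (ball (0 : DgE (m + 1)) (1 / 16))).toReal
        = ∫ _x in ball y (1 / 16), (1 / 300 : ℝ) := by
          rw [setIntegral_const, smul_eq_mul, mul_comm]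
          congr 1
          simp only [Measure.real]
          rw [Measure.addHaar_ball_center volume y]
      _ ≤ ∫ x in ball y (1 / 16), dgDens (m + 1) u x :=
          setIntegral_mono_on (integrableOn_const (by exact measure_ball_lt_top.ne)) (hI.mono_set hsub) measurableSet_ball hden
      _ ≤ ∫ x in ball y 1, dgDens (m + 1) u x :=
          setIntegral_mono_set hI (Eventually.of_forall fun x => dg17_dens_nonneg _ u x) (LE.le.eventuallyLE hsub)
  have hmono := dgA6_mono hu.smooth hu.pde hmod y (mem_Ioi.2 one_pos)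
    (mem_Ioi.2 (lt_of_lt_of_le one_pos hr)) hr
  simp only [one_pow, div_one] at hmono
  have hrpos : 0 < r ^ m := by positivity
  rw [le_div_iff₀ hrpos] at hmono
  simp only [Nat.add_sub_cancel]
  calc 1 / 300 * (volume (ball (0 : DgE (m + 1)) (1 / 16))).toReal * r ^ m ≤ dgEn (m + 1) u y 1 * r ^ m :=
        mul_le_mul_of_nonneg_right hE1 hrpos.le
    _ ≤ _ := hmono

/-! ## 3. clearing out -/

/-- the perimeter measure of (a set a.e. equal to) a half space does not charge sets off the plane. -/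
theorem dfs_half_null {n : ℕ} {S : Set (DgE n)} (hS : MeasurableSet S) {ν : DgE n} (hν : ‖ν‖ = 1)
    (hSν : S =ᵐ[volume] gmtHalf 0 ν) {K : Set (DgE n)} (hK : ∀ z ∈ K, ⟪z, ν⟫ ≠ 0) : gmtMu S K = 0 := by
  have h1 : gmtMu S = gmtMu (gmtHalf 0 ν) := by
    have := gmtMu_restrict_congr isOpen_univ hS (measurableSet_gmtHalf 0 ν) (hSν.inter (ae_eq_refl _))
    simpa using this
  rw [h1]
  refine measure_mono_null (fun z hz => ?_) (gmtMu_gmtHalf_compl 0 hν)
  simpa using hK z hz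

theorem dfs_clear {n : ℕ} (hn : 1 ≤ n) {u : DgE n → ℝ} (hu : ContDiff ℝ 1 u) {s : ℝ} {c₀ : ℝ} (hc₀ : 0 < c₀)
    (hlow : DfsLow n u c₀) {S : Set (DgE n)} (hS : GmtLF S univ) {ν : DgE n} (hν : ‖ν‖ = 1)
    (hSν : S =ᵐ[volume] gmtHalf 0 ν) {R : ℕ → ℝ} (hR : Tendsto R atTop atTop)
    (hw : GmtWk univ (fun j => dgB5_mu n u (R j)) (ENNReal.ofReal s • gmtMu S)) {η : ℝ} (hη : 0 < η) (hη1 : η ≤ 1) :
    ∀ᶠ j in atTop, ∀ z ∈ ball (0 : DgE n) 1, η < |⟪z, ν⟫| → 7 / 8 < |u (R j • z)| := by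
  set K : Set (DgE n) := closedBall 0 2 ∩ {z | η / 2 ≤ |⟪z, ν⟫|} with hK
  have hKc : IsCompact K :=
    (isCompact_closedBall 0 2).inter_right (isClosed_le continuous_const (by fun_prop))
  set μ' : Measure (DgE n) := ENNReal.ofReal s • gmtMu S with hμ'
  have hμK : μ' K = 0 := by
    rw [hμ', Measure.smul_apply, dfs_half_null hS.1 hν hSν (fun z hz => ?_), smul_zero]
    intro h0
    have : η / 2 ≤ |⟪z, ν⟫| := hz.2
    rw [h0, abs_zero] at this
    linarith
  have hf : ∀ K : Set (DgE n), IsCompact K → K ⊆ univ → μ' K ≠ ⊤ := fun K hK _ => by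
    rw [hμ', Measure.smul_apply, smul_eq_mul]
    exact ENNReal.mul_ne_top ENNReal.ofReal_ne_top (gmtMu_compact_ne_top isOpen_univ hS hK (subset_univ _))
  have hfi : ∀ i, ∀ K : Set (DgE n), IsCompact K → K ⊆ univ → dgB5_mu n u (R i) K ≠ ⊤ :=
    fun i K hK _ => dgB5_mu_compact_ne_top hu _ hK
  have hls := GmtWk.limsup_le isOpen_univ hw hf hfi hKc (subset_univ _)
  rw [hμK] at hls
  have ht : Tendsto (fun j => dgB5_mu n u (R j) K) atTop (𝓝 0) :=
    tendsto_of_le_liminf_of_limsup_le (zero_le) hls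
  have hpos : (0 : ℝ≥0∞) < ENNReal.ofReal (c₀ * (η / 2) ^ (n - 1)) := ENNReal.ofReal_pos.2 (by positivity)
  have hev : ∀ᶠ j in atTop, dgB5_mu n u (R j) K < ENNReal.ofReal (c₀ * (η / 2) ^ (n - 1)) :=
    (tendsto_order.1 ht).2 _ hpos
  filter_upwards [hev, hR.eventually_ge_atTop (2 / η), hR.eventually_gt_atTop 0] with j h1 h2 h3 z hz hzη
  by_contra hcon
  rw [not_lt] at hcon
  have hz1 : ‖z‖ < 1 := by simpa using hz
  have hsub : ball z (η / 2) ⊆ K := by
    intro w hw'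
    have hw1 : ‖w - z‖ < η / 2 := by rwa [mem_ball, dist_eq_norm] at hw'
    refine ⟨?_, ?_⟩
    · rw [mem_closedBall_zero_iff]
      calc ‖w‖ = ‖z + (w - z)‖ := by congr 1; abel
        _ ≤ ‖z‖ + ‖w - z‖ := norm_add_le _ _
        _ ≤ 2 := by linarith
    · show η / 2 ≤ |⟪w, ν⟫|
      have e1 : ⟪z, ν⟫ = ⟪w, ν⟫ - ⟪w - z, ν⟫ := by rw [← inner_sub_left]; congr 1; abel
      have e2 : |⟪w - z, ν⟫| ≤ ‖w - z‖ := by
        have := abs_real_inner_le_norm (w - z) ν
        rwa [hν, mul_one] at this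
      have e3 : |⟪z, ν⟫| ≤ |⟪w, ν⟫| + |⟪w - z, ν⟫| := by rw [e1]; exact abs_sub _ _
      linarith
  have hR1 : 1 ≤ R j * (η / 2) := by
    rw [div_le_iff₀ hη] at h2
    linarith
  have hE := hlow (R j • z) hcon (R j * (η / 2)) hR1
  have hge : ENNReal.ofReal (c₀ * (η / 2) ^ (n - 1)) ≤ dgB5_mu n u (R j) K := by
    calc ENNReal.ofReal (c₀ * (η / 2) ^ (n - 1))
        ≤ ENNReal.ofReal ((R j ^ (n - 1))⁻¹ * dgEn n u (R j • z) (R j * (η / 2))) := by
          refine ENNReal.ofReal_le_ofReal ?_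
          rw [← div_eq_inv_mul, le_div_iff₀ (pow_pos h3 _)]
          calc c₀ * (η / 2) ^ (n - 1) * R j ^ (n - 1) = c₀ * (R j * (η / 2)) ^ (n - 1) := by rw [mul_pow]; ring
            _ ≤ _ := hE
      _ = dgB5_mu n u (R j) (ball z (η / 2)) := (dfs_mu_ball hn hu h3 z _).symm
      _ ≤ _ := measure_mono hsub
  exact absurd h1 (not_lt.2 hge)

/-! ## 4. the sign on each side -/

theorem dfs_side {n : ℕ} {g χ : DgE n → ℝ} (hg : Continuous g) (hχm : Measurable χ) (hχb : ∀ x, |χ x| ≤ 1)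
    {A K : Set (DgE n)} (hK : IsCompact K) (hAK : A ⊆ K) (hAo : IsOpen A) (hAc : Convex ℝ A)
    (hχ : ∀ᵐ x : DgE n, x ∈ A → χ x = 1) (hcl : ∀ z ∈ A, 7 / 8 < |g z|)
    (hint : ∫ x in K, |g x - χ x| < (volume A).toReal) : ∀ z ∈ A, 7 / 8 ≤ g z := by
  intro z₀ hz₀
  by_contra hcon
  rw [not_le] at hcon
  have hz₀' : g z₀ < -(7 / 8) := by
    rcases lt_abs.1 (hcl z₀ hz₀) with h | h
    · linarith
    · linarith
  have hall : ∀ w ∈ A, g w < -(7 / 8) := by
    intro w hw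
    by_contra hw'
    rw [not_lt] at hw'
    have hw2 : 7 / 8 < g w := by
      rcases lt_abs.1 (hcl w hw) with h | h
      · exact h
      · linarith
    have hiv := hAc.isPreconnected.intermediate_value hz₀ hw hg.continuousOn
    obtain ⟨p, hp, hp0⟩ := hiv (show (0 : ℝ) ∈ Icc (g z₀) (g w) from ⟨by linarith, by linarith⟩)
    have := hcl p hp
    rw [hp0, abs_zero] at this
    linarith
  have hI : IntegrableOn (fun x => |g x - χ x|) K := dgB5_intOn hg hχm hχb hK
  have hAfin : volume A ≠ ⊤ := ne_top_of_le_ne_top hK.measure_lt_top.ne (measure_mono hAK)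
  have h1 : (volume A).toReal ≤ ∫ x in A, |g x - χ x| := by
    calc (volume A).toReal = ∫ _x in A, (1 : ℝ) := by
          rw [setIntegral_const, smul_eq_mul, mul_one]; rfl
      _ ≤ ∫ x in A, |g x - χ x| := by
          refine setIntegral_mono_on_ae (integrableOn_const hAfin) (hI.mono_set hAK) hAo.measurableSet ?_
          filter_upwards [hχ] with x hx hxA
          rw [hx hxA]
          have := hall x hxA
          rw [abs_of_neg (by linarith)]
          linarith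
  have h2 : ∫ x in A, |g x - χ x| ≤ ∫ x in K, |g x - χ x| :=
    setIntegral_mono_set hI (Eventually.of_forall fun x => abs_nonneg _) (LE.le.eventuallyLE hAK)
  linarith

/-! ## 5. a blow-down sequence with a half space as limit is eventually flat -/

theorem dfs_flat_of_limit {n : ℕ} (hn : 1 ≤ n) {u : DgE n → ℝ} (hu : ContDiff ℝ 1 u) {s : ℝ} {c₀ : ℝ} (hc₀ : 0 < c₀)
    (hlow : DfsLow n u c₀) {S : Set (DgE n)} (hS : GmtLF S univ) {ν : DgE n} (hν : ‖ν‖ = 1)
    (hSν : S =ᵐ[volume] gmtHalf 0 ν) {R : ℕ → ℝ} (hR : Tendsto R atTop atTop)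
    (hl : Tendsto (fun j => ∫ x in closedBall (0 : DgE n) 1,
      |u (R j • x) - (2 * S.indicator (fun _ => (1 : ℝ)) x - 1)|) atTop (𝓝 0))
    (hw : GmtWk univ (fun j => dgB5_mu n u (R j)) (ENNReal.ofReal s • gmtMu S)) {η : ℝ} (hη : 0 < η) (hη1 : η < 1) :
    ∀ᶠ j in atTop, DfFlatU u 0 (R j) η ν := by
  set χ : DgE n → ℝ := fun x => 2 * S.indicator (fun _ => (1 : ℝ)) x - 1 with hχ
  have hχm : Measurable χ := ((measurable_const.indicator hS.1).const_mul 2).sub_const 1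
  have hχb : ∀ x, |χ x| ≤ 1 := by
    intro x
    by_cases hx : x ∈ S <;> simp [hχ, hx]; norm_num
  set Am : Set (DgE n) := ball 0 1 ∩ {z | ⟪z, ν⟫ < -η} with hAm
  set Ap : Set (DgE n) := ball 0 1 ∩ {z | η < ⟪z, ν⟫} with hAp
  have hAmo : IsOpen Am := isOpen_ball.inter (isOpen_lt (by fun_prop) continuous_const)
  have hApo : IsOpen Ap := isOpen_ball.inter (isOpen_lt continuous_const (by fun_prop))
  have hlin : IsLinearMap ℝ fun z : DgE n => ⟪z, ν⟫ :=
    ⟨fun a b => inner_add_left a b ν, fun c a => by simp [inner_smul_left]⟩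
  have hAmc : Convex ℝ Am := (convex_ball 0 1).inter (convex_halfSpace_lt hlin _)
  have hApc : Convex ℝ Ap := (convex_ball 0 1).inter (convex_halfSpace_gt hlin _)
  have hνν : ⟪ν, ν⟫ = 1 := by rw [real_inner_self_eq_norm_sq, hν, one_pow]
  have hAmn : Am.Nonempty := by
    refine ⟨(-((1 + η) / 2)) • ν, ?_, ?_⟩
    · rw [mem_ball_zero_iff, norm_smul, hν, mul_one, Real.norm_eq_abs, abs_neg, abs_of_pos (by linarith)]
      linarith
    · show ⟪(-((1 + η) / 2)) • ν, ν⟫ < -η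
      rw [inner_smul_left, hνν]
      simp only [conj_trivial, mul_one]
      linarith
  have hApn : Ap.Nonempty := by
    refine ⟨((1 + η) / 2) • ν, ?_, ?_⟩
    · rw [mem_ball_zero_iff, norm_smul, hν, mul_one, Real.norm_eq_abs, abs_of_pos (by linarith)]
      linarith
    · show η < ⟪((1 + η) / 2) • ν, ν⟫
      rw [inner_smul_left, hνν]
      simp only [conj_trivial, mul_one]
      linarith
  have hKc : IsCompact (closedBall (0 : DgE n) 1) := isCompact_closedBall 0 1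
  have hAmK : Am ⊆ closedBall 0 1 := inter_subset_left.trans ball_subset_closedBall
  have hApK : Ap ⊆ closedBall 0 1 := inter_subset_left.trans ball_subset_closedBall
  have hvm : 0 < (volume Am).toReal :=
    ENNReal.toReal_pos (hAmo.measure_pos volume hAmn).ne' (ne_top_of_le_ne_top hKc.measure_lt_top.ne (measure_mono hAmK))
  have hvp : 0 < (volume Ap).toReal :=
    ENNReal.toReal_pos (hApo.measure_pos volume hApn).ne' (ne_top_of_le_ne_top hKc.measure_lt_top.ne (measure_mono hApK))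
  -- `χ` on the two sides
  have hχ1 : ∀ᵐ x : DgE n, x ∈ Am → χ x = 1 := by
    filter_upwards [hSν] with x hx hxA
    have hxS : x ∈ S := by
      have : x ∈ gmtHalf 0 ν := by
        show ⟪x - 0, ν⟫ < 0
        rw [sub_zero]
        have : ⟪x, ν⟫ < -η := hxA.2
        linarith
      exact (Iff.of_eq hx).2 this
    simp [hχ, hxS]; norm_num
  have hχ2 : ∀ᵐ x : DgE n, x ∈ Ap → -χ x = 1 := by
    filter_upwards [hSν] with x hx hxA
    have hxS : x ∉ S := by
      intro hxS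
      have : x ∈ gmtHalf 0 ν := (Iff.of_eq hx).1 hxS
      have h1 : ⟪x - 0, ν⟫ < 0 := this
      rw [sub_zero] at h1
      have : η < ⟪x, ν⟫ := hxA.2
      linarith
    simp [hχ, hxS]
  have hcl := dfs_clear hn hu hc₀ hlow hS hν hSν hR hw hη hη1.le
  filter_upwards [hcl, (tendsto_order.1 hl).2 _ hvm, (tendsto_order.1 hl).2 _ hvp, hR.eventually_gt_atTop 0]
    with j h1 h2 h3 h4
  have hgc : Continuous fun x : DgE n => u (R j • x) := hu.continuous.comp (continuous_const_smul (R j))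
  have hbelow := dfs_side hgc hχm hχb hKc hAmK hAmo hAmc hχ1
    (fun z hz => h1 z hz.1 (by
      have : ⟪z, ν⟫ < -η := hz.2
      rw [lt_abs]; right; linarith)) h2
  have habove := dfs_side (g := fun x => -u (R j • x)) (χ := fun x => -χ x) hgc.neg hχm.neg
    (fun x => by rw [abs_neg]; exact hχb x) hKc hApK hApo hApc hχ2
    (fun z hz => by
      rw [abs_neg]
      exact h1 z hz.1 (by
        have : η < ⟪z, ν⟫ := hz.2
        rw [lt_abs]; left; exact this))
    (by
      have e : (fun x => |-u (R j • x) - -χ x|) = fun x => |u (R j • x) - χ x| := by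
        funext x
        rw [← abs_neg]
        congr 1
        ring
      rw [e]
      exact h3)
  have hscale : ∀ y ∈ ball (0 : DgE n) (R j), (R j)⁻¹ • y ∈ ball (0 : DgE n) 1 := by
    intro y hy
    rw [mem_ball_zero_iff] at hy ⊢
    rw [norm_smul, norm_inv, Real.norm_of_nonneg h4.le, inv_mul_lt_iff₀ h4, mul_one]
    exact hy
  have hback : ∀ y : DgE n, R j • ((R j)⁻¹ • y) = y := fun y => by
    rw [smul_smul, mul_inv_cancel₀ h4.ne', one_smul]
  have hinn : ∀ y : DgE n, ⟪(R j)⁻¹ • y, ν⟫ = (R j)⁻¹ * ⟪y, ν⟫ := fun y => by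
    rw [inner_smul_left]; simp
  refine ⟨hν, fun y hy hlt => ?_, fun y hy hlt => ?_⟩
  · rw [sub_zero] at hlt
    have := hbelow ((R j)⁻¹ • y) ⟨hscale y hy, by
      show ⟪(R j)⁻¹ • y, ν⟫ < -η
      rw [hinn, inv_mul_lt_iff₀ h4]
      linarith⟩
    rwa [hback] at this
  · rw [sub_zero] at hlt
    have := habove ((R j)⁻¹ • y) ⟨hscale y hy, by
      show η < ⟪(R j)⁻¹ • y, ν⟫
      rw [hinn, lt_inv_mul_iff₀ h4]
      linarith⟩
    simp only [hback] at this
    linarith

/-! ## 6. EXITS -/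

/-- **START of the flatness iteration** (centre `0`): every large scale is `η`-flat in some direction. -/
theorem dfs_start {n : ℕ} (hn : 1 ≤ n) {u : DgE n → ℝ} (hu : ContDiff ℝ 1 u) {e₀ : DgE n}
    (hmono : ∀ x, 0 < fderiv ℝ u x e₀) {s : ℝ} (hs : 0 < s) (hex : DgB5Exact n s u) {L : ℝ} (hL0 : 0 < L)
    (hL : Tendsto (fun T : ℝ => dgEn n u 0 T / (s * gmtOm (n - 1) * T ^ (n - 1))) atTop (𝓝 L))
    (hK6e : ∀ S : Set (DgE n), GmtMin univ S → GmtCone S →
      (∀ t : ℝ, 0 ≤ t → ∀ᵐ x : DgE n, x ∈ S → x + t • e₀ ∈ S) → gmtP S (ball 0 1) ≠ 0 →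
      ∃ ν : DgE n, ‖ν‖ = 1 ∧ S =ᵐ[volume] gmtHalf 0 ν)
    {c₀ : ℝ} (hc₀ : 0 < c₀) (hlow : DfsLow n u c₀) {η : ℝ} (hη : 0 < η) :
    ∃ R₀ : ℝ, ∀ R : ℝ, R₀ ≤ R → ∃ e : DgE n, DfFlatU u 0 R η e := by
  by_contra h
  push Not at h
  choose Rk hRk1 hRk2 using fun k : ℕ => h (k : ℝ)
  have hRk : Tendsto Rk atTop atTop := tendsto_atTop_mono hRk1 tendsto_natCast_atTop_atTop
  obtain ⟨φ, S, hφ, hS, hl, hw⟩ := hex Rk hRk
  have hR' : Tendsto (fun j => Rk (φ j)) atTop atTop := hRk.comp hφ.tendsto_atTop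
  have hLF : GmtLF S univ := GmtLAM.lf isOpen_univ (gmtInt_eu _) hS
  have hom : 0 < gmtOm (n - 1) := by
    unfold gmtOm
    exact ENNReal.toReal_pos (measure_ball_pos _ _ one_pos).ne' measure_ball_lt_top.ne
  have hP : ∀ r : ℝ, 0 < r → gmtP S (ball 0 r) = ENNReal.ofReal (L * (gmtOm (n - 1) * r ^ (n - 1))) := fun r hr => by
    rw [← gmtMu_open S isOpen_ball]
    exact dgB5_mass hn hu hs hLF hR' hw hL hr
  have hcone : GmtCone S := dgB5_cone_of_ratio hn hS (c := L * gmtOm (n - 1)) fun r hr => by rw [hP r hr, mul_assoc]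
  have hdir : ∀ t : ℝ, 0 ≤ t → ∀ᵐ x : DgE n, x ∈ S → x + t • e₀ ∈ S := fun t ht =>
    dgB5_directed hu.continuous (fun x τ hτ => dgB5_mono_line hu hmono x hτ) hS.meas hR' hl ht
  have hne : gmtP S (ball 0 1) ≠ 0 := by
    rw [hP 1 one_pos]
    simp only [one_pow, mul_one, ne_eq, ENNReal.ofReal_eq_zero, not_le]
    positivity
  obtain ⟨ν, hν, hSν⟩ := hK6e S hS hcone hdir hne
  have hη' : 0 < min η (1 / 2) := lt_min hη (by norm_num)
  have hfl := dfs_flat_of_limit hn hu hc₀ hlow hLF hν hSν hR' (hl _ (isCompact_closedBall 0 1)) hw hη'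
    (lt_of_le_of_lt (min_le_right _ _) (by norm_num))
  obtain ⟨j, hj, hj0⟩ := (hfl.and (hR'.eventually_gt_atTop 0)).exists
  exact hRk2 (φ j) ν (dfs_flat_mono hj hj0.le (min_le_left _ _))

/-- **START, fixed direction** (IN 2 of post P10): ONE direction `e₀`; for every `ε` there are arbitrarily large `ε`-flat scales. -/
theorem dfs_start_fixed {n : ℕ} (hn : 1 ≤ n) {u : DgE n → ℝ} (hu : ContDiff ℝ 1 u) {e₀ : DgE n}
    (hmono : ∀ x, 0 < fderiv ℝ u x e₀) {s : ℝ} (hs : 0 < s) (hex : DgB5Exact n s u) {L : ℝ} (hL0 : 0 < L)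
    (hL : Tendsto (fun T : ℝ => dgEn n u 0 T / (s * gmtOm (n - 1) * T ^ (n - 1))) atTop (𝓝 L))
    (hK6e : ∀ S : Set (DgE n), GmtMin univ S → GmtCone S →
      (∀ t : ℝ, 0 ≤ t → ∀ᵐ x : DgE n, x ∈ S → x + t • e₀ ∈ S) → gmtP S (ball 0 1) ≠ 0 →
      ∃ ν : DgE n, ‖ν‖ = 1 ∧ S =ᵐ[volume] gmtHalf 0 ν)
    {c₀ : ℝ} (hc₀ : 0 < c₀) (hlow : DfsLow n u c₀) :
    ∃ e : DgE n, ∀ ε : ℝ, 0 < ε → ∀ R₀ : ℝ, ∃ R : ℝ, R₀ ≤ R ∧ DfFlatU u 0 R ε e := by
  obtain ⟨φ, S, hφ, hS, hl, hw⟩ := hex (fun j => (j : ℝ)) tendsto_natCast_atTop_atTop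
  have hR' : Tendsto (fun j => ((φ j : ℕ) : ℝ)) atTop atTop := tendsto_natCast_atTop_atTop.comp hφ.tendsto_atTop
  have hLF : GmtLF S univ := GmtLAM.lf isOpen_univ (gmtInt_eu _) hS
  have hom : 0 < gmtOm (n - 1) := by
    unfold gmtOm
    exact ENNReal.toReal_pos (measure_ball_pos _ _ one_pos).ne' measure_ball_lt_top.ne
  have hP : ∀ r : ℝ, 0 < r → gmtP S (ball 0 r) = ENNReal.ofReal (L * (gmtOm (n - 1) * r ^ (n - 1))) := fun r hr => by
    rw [← gmtMu_open S isOpen_ball]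
    exact dgB5_mass hn hu hs hLF hR' hw hL hr
  have hcone : GmtCone S := dgB5_cone_of_ratio hn hS (c := L * gmtOm (n - 1)) fun r hr => by rw [hP r hr, mul_assoc]
  have hdir : ∀ t : ℝ, 0 ≤ t → ∀ᵐ x : DgE n, x ∈ S → x + t • e₀ ∈ S := fun t ht =>
    dgB5_directed hu.continuous (fun x τ hτ => dgB5_mono_line hu hmono x hτ) hS.meas hR' hl ht
  have hne : gmtP S (ball 0 1) ≠ 0 := by
    rw [hP 1 one_pos]
    simp only [one_pow, mul_one, ne_eq, ENNReal.ofReal_eq_zero, not_le]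
    positivity
  obtain ⟨ν, hν, hSν⟩ := hK6e S hS hcone hdir hne
  refine ⟨ν, fun ε hε R₀ => ?_⟩
  have hε' : 0 < min ε (1 / 2) := lt_min hε (by norm_num)
  have hfl := dfs_flat_of_limit hn hu hc₀ hlow hLF hν hSν hR' (hl _ (isCompact_closedBall 0 1)) hw hε'
    (lt_of_le_of_lt (min_le_right _ _) (by norm_num))
  obtain ⟨j, ⟨hj, hj0⟩, hj1⟩ := ((hfl.and (hR'.eventually_gt_atTop 0)).and (hR'.eventually_ge_atTop R₀)).exists
  exact ⟨_, hj1, dfs_flat_mono hj hj0.le (min_le_left _ _)⟩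

/-- flatness of the translate about `0` is flatness about the centre. -/
theorem dfs_flat_translate {n : ℕ} {u : DgE n → ℝ} {x₀ : DgE n} {r η : ℝ} {e : DgE n}
    (h : DfFlatU (fun x => u (x + x₀)) 0 r η e) : DfFlatU u x₀ r η e where
  unit := h.unit
  below := fun y hy hlt => by
    have := h.below (y - x₀) (by rwa [mem_ball_zero_iff, ← dist_eq_norm, ← mem_ball]) (by rwa [sub_zero])
    simpa using this
  above := fun y hy hlt => by
    have := h.above (y - x₀) (by rwa [mem_ball_zero_iff, ← dist_eq_norm, ← mem_ball]) (by rwa [sub_zero])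
    simpa using this

/-- **START at any centre**: the contracts of Part I enter as hypotheses on the whole class (it is invariant under translations).
`R₀` depends on the centre; the iteration downwards forgets it. -/
theorem dfs_start_at {m : ℕ} {u : DgE (m + 1) → ℝ} (hu : DgSol (m + 1) u) (hmin : DgMin (m + 1) u) {e₀ : DgE (m + 1)}
    (hmono : ∀ x, 0 < fderiv ℝ u x e₀) {s : ℝ} (hs : 0 < s)
    (Hmod : ∀ w : DgE (m + 1) → ℝ, DgSol (m + 1) w → ∀ x, ‖fderiv ℝ w x‖ ^ 2 / 2 ≤ dgW (w x))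
    (Hex : ∀ w : DgE (m + 1) → ℝ, DgSol (m + 1) w → DgMin (m + 1) w → DgB5Exact (m + 1) s w)
    (HL : ∀ w : DgE (m + 1) → ℝ, DgSol (m + 1) w → DgMin (m + 1) w → (∀ x, 0 < fderiv ℝ w x e₀) →
      ∃ L : ℝ, 0 < L ∧ Tendsto (fun T : ℝ => dgEn (m + 1) w 0 T / (s * gmtOm (m + 1 - 1) * T ^ (m + 1 - 1))) atTop (𝓝 L))
    (hK6e : ∀ S : Set (DgE (m + 1)), GmtMin univ S → GmtCone S →
      (∀ t : ℝ, 0 ≤ t → ∀ᵐ x : DgE (m + 1), x ∈ S → x + t • e₀ ∈ S) → gmtP S (ball 0 1) ≠ 0 →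
      ∃ ν : DgE (m + 1), ‖ν‖ = 1 ∧ S =ᵐ[volume] gmtHalf 0 ν)
    (x₀ : DgE (m + 1)) {η : ℝ} (hη : 0 < η) :
    ∃ R₀ : ℝ, ∀ R : ℝ, R₀ ≤ R → ∃ e : DgE (m + 1), DfFlatU u x₀ R η e := by
  have hu1 : ContDiff ℝ 1 u := hu.smooth.of_le (by norm_num)
  have hw : DgSol (m + 1) (fun x => u (x + x₀)) := dgro_sol_translate x₀ hu
  have hwmin : DgMin (m + 1) (fun x => u (x + x₀)) := dgro_min_translate x₀ hu1 hmin
  have hwmono : ∀ x, 0 < fderiv ℝ (fun x => u (x + x₀)) x e₀ := by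
    intro x
    rw [fderiv_comp_add_right]
    exact hmono _
  obtain ⟨L, hL0, hL⟩ := HL _ hw hwmin hwmono
  have hc₀ : 0 < 1 / 300 * (volume (ball (0 : DgE (m + 1)) (1 / 16))).toReal :=
    mul_pos (by norm_num) (ENNReal.toReal_pos (measure_ball_pos _ _ (by norm_num)).ne' measure_ball_lt_top.ne)
  obtain ⟨R₀, hR₀⟩ := dfs_start (Nat.succ_le_succ (Nat.zero_le m)) (hw.smooth.of_le (by norm_num)) hwmono hs
    (Hex _ hw hwmin) hL0 hL hK6e hc₀ (dfs_low hw (Hmod _ hw)) hη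
  exact ⟨R₀, fun R hR => (hR₀ R hR).imp fun e he => dfs_flat_translate he⟩

end Claimed.Agent.R329
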