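import Claimed.Agent.R329.DfHub

/-!
# Row 329, K7, post P8 (F8): improvement of flatness at unit scale, from the contracts of `DfHub.lean`.     (pen: helper298)

Numbers only; model = `fl_L2`, `fl_sup`, `fl_step_consts`, `fl_unit_step` of `Lib/Gmt/FlStep.lean`.
1. `h = dfH v`: `df_H_continuous`, `df_H_bound` (`3ε`), `df_harm` (`om = C ε²`), `fl_moll n` AS IT IS give `a, p`, `|a| ≤ 3ε`, `‖p‖ ≤ 3 C₅ ε`,
   `∫_{D_ρ} (h - a - p·z)² ≤ C₅ (3 C ε³ + 9 ε² ρ^{n+4})` for `ρ ≤ 1/2`.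
2. `df_height` with `ρ = 2R`, `R = 4τ²`:  `∫_{flCyl (2R)} L² dfE ≤ C (ε³ + ε² (4R)^{n+4} + w)`,  `L(y) = t - a - p·z = -a + ⟪q, y⟫`, `q = gmtEn n - flInc n p`, `‖q‖ ≤ 2`.
3. Let `y₀ ∈ ball 0 R`, `|v y₀| ≤ 7/8`, `D' = |L(y₀)|`, and suppose `D' > D = ε τ³/2`.  `s = D'/4 (2s ≤ R` since `D' ≤ C ε)`.  On `ball y₀ s`: `|L| ≥ D'/2`;
   field `low`: `∫_{ball y₀ s} dfE ≥ c₀ s^n`  as soon as `s ≥ r₀ w`  (`s ≥ ε τ³/8`, `w ≤ c₁ ε²`).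
   `df_mean`:  `c₀ D'²/4 ≤ C R^{-n} ∫_{ball y₀ R} L² dfE ≤ C R^{-n} ∫_{flCyl (2R)} L² dfE`.
   So `D'² ≤ C (τ⁸ ε² + C(τ)(ε³ + w))`, `< ε² τ⁶/4` by the choice of `τ`, then `ε₀`, `c₁`.   Contradiction.
4. `y₀ = 0` gives `|a| ≤ D`;  hence `|t - p·z| ≤ 2D = ε τ³` at every interface point of `ball 0 (4τ²)`.
-/

set_option autoImplicit false
open scoped ContDiff RealInnerProductSpace
open MeasureTheory Metric Set Filter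

namespace Claimed.Agent.R329

open Claimed.Agent.Gmt

theorem dfs8_S0_pos : 0 < dfS0 := by unfold dfS0; positivity

theorem dfs8_E_nonneg {m : ℕ} {w : ℝ} (hw : 0 < w) (v : E m → ℝ) (y : E m) : 0 ≤ dfE w v y := by
  unfold dfE dgW
  have := dfs8_S0_pos
  positivity

theorem dfs8_E_continuous {m : ℕ} (w : ℝ) {v : E m → ℝ} (hv : ContDiff ℝ 1 v) : Continuous (dfE w v) := by
  have h1 : Continuous fun y => ‖fderiv ℝ v y‖ := (hv.continuous_fderiv one_ne_zero).norm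
  have h2 := hv.continuous
  unfold dfE dgW
  fun_prop

/-- `L²(μ_e)` closeness to an affine function (model: `fl_L2`). -/
theorem dfs8_L2 (n : ℕ) (K : ℝ) : ∃ C ε₁ : ℝ, 0 < C ∧ 0 < ε₁ ∧ ∀ (w ε c₀ r₀ : ℝ) (v : E (n + 1) → ℝ),
    DfUnit n w ε K c₀ r₀ v → ε ≤ ε₁ →
      ∃ (a : ℝ) (p : E n), |a| ≤ 3 * ε ∧ ‖p‖ ≤ C * ε ∧ ‖p‖ ≤ 1 ∧ ∀ ρ : ℝ, 0 < ρ → ρ ≤ 1 / 4 →
        ∫ y in flCyl ρ, (gmtVer y - a - ⟪p, gmtHor y⟫) ^ 2 * dfE w v y ≤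
          C * (ε ^ 2 * ρ ^ (n + 4) + ε ^ 3 + w) := by
  obtain ⟨εb, hεb, hb⟩ := df_H_bound n
  obtain ⟨C₄, hC₄, h4⟩ := df_harm n K
  obtain ⟨C₅, hC₅, h5⟩ := fl_moll n
  obtain ⟨C₆, hC₆, h6⟩ := df_height n K
  have h2n : (0 : ℝ) < 2 ^ (n + 4) := by positivity
  refine ⟨3 * C₅ + 3 * C₅ * C₄ + 9 * C₅ * 2 ^ (n + 4) + C₆ * (4 + 3 * C₅) ^ 2 + C₆,
    min εb (1 / (3 * C₅)), by positivity, lt_min hεb (by positivity), ?_⟩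
  intro w ε c₀ r₀ v H hε
  have hε0 := H.hε
  have hε8 := H.hε'
  have hw0 := H.hw
  have hεb' : ε ≤ εb := hε.trans (min_le_left _ _)
  have hε5 : ε ≤ 1 / (3 * C₅) := hε.trans (min_le_right _ _)
  have hcont : Continuous (dfH v) := df_H_continuous H.smooth.continuous
  obtain ⟨a, p, ha, hp, hρ⟩ := h5 (dfH v) (3 * ε) (C₄ * ε ^ 2) hcont.measurable (by positivity) (by positivity)
    (Filter.Eventually.of_forall fun z hz => hb w ε K c₀ r₀ v H hεb' z hz) (h4 w ε c₀ r₀ v H)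
  have hp1 : ‖p‖ ≤ 1 := by
    refine hp.trans ?_
    have := mul_le_mul_of_nonneg_left hε5 (by positivity : 0 ≤ 3 * C₅)
    rw [mul_one_div_cancel (by positivity)] at this
    linarith
  have ha1 : |a| ≤ 1 := by linarith
  have hCC : C₅ * (3 * ε) ≤
      (3 * C₅ + 3 * C₅ * C₄ + 9 * C₅ * 2 ^ (n + 4) + C₆ * (4 + 3 * C₅) ^ 2 + C₆) * ε := by
    have : 0 ≤ (3 * C₅ * C₄ + 9 * C₅ * 2 ^ (n + 4) + C₆ * (4 + 3 * C₅) ^ 2 + C₆) * ε := by positivity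
    nlinarith
  refine ⟨a, p, ha, hp.trans hCC, hp1, ?_⟩
  intro ρ hρ0 hρ1
  have h7 := h6 w ε c₀ r₀ v H a p ρ ha1 hp1 hρ0 hρ1
  have h8 := hρ (2 * ρ) (by linarith) (by linarith)
  have h13 : (2 * ρ) ^ (n + 4) = 2 ^ (n + 4) * ρ ^ (n + 4) := mul_pow _ _ _
  rw [h13] at h8
  have h11 : (ε + |a| + ‖p‖) ^ 2 * ε ^ 2 ≤ (4 + 3 * C₅) ^ 2 * ε ^ 3 := by
    have e1 : ε + |a| + ‖p‖ ≤ (4 + 3 * C₅) * ε := by nlinarith
    have e0 : 0 ≤ ε + |a| + ‖p‖ := by positivity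
    have e2 : (ε + |a| + ‖p‖) ^ 2 ≤ ((4 + 3 * C₅) * ε) ^ 2 := pow_le_pow_left₀ e0 e1 2
    have e3 : ε ^ 4 ≤ ε ^ 3 := by
      have : ε ^ 4 = ε ^ 3 * ε := by ring
      rw [this]
      have h3 : 0 ≤ ε ^ 3 := by positivity
      nlinarith
    calc (ε + |a| + ‖p‖) ^ 2 * ε ^ 2 ≤ ((4 + 3 * C₅) * ε) ^ 2 * ε ^ 2 :=
          mul_le_mul_of_nonneg_right e2 (by positivity)
      _ = (4 + 3 * C₅) ^ 2 * ε ^ 4 := by ring
      _ ≤ _ := mul_le_mul_of_nonneg_left e3 (by positivity)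
  set X := ε ^ 2 * ρ ^ (n + 4) with hX
  set Y := ε ^ 3 with hY
  have hX0 : 0 ≤ X := by positivity
  have hY0 : 0 ≤ Y := by positivity
  have h14 : C₅ * (3 * ε * (C₄ * ε ^ 2) + (3 * ε) ^ 2 * (2 ^ (n + 4) * ρ ^ (n + 4))) =
      3 * C₅ * C₄ * Y + 9 * C₅ * 2 ^ (n + 4) * X := by rw [hX, hY]; ring
  rw [h14] at h8
  have h15 : C₆ * ((ε + |a| + ‖p‖) ^ 2 * ε ^ 2 + w) ≤ C₆ * ((4 + 3 * C₅) ^ 2 * Y + w) :=
    mul_le_mul_of_nonneg_left (by linarith) hC₆.le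
  have hA : 0 ≤ C₅ * C₄ := by positivity
  have hB : 0 ≤ C₅ * 2 ^ (n + 4) := by positivity
  have hD : 0 ≤ C₆ * (4 + 3 * C₅) ^ 2 := by positivity
  calc _ ≤ _ := h7
    _ ≤ 3 * C₅ * C₄ * Y + 9 * C₅ * 2 ^ (n + 4) * X + C₆ * ((4 + 3 * C₅) ^ 2 * Y + w) := by linarith
    _ ≤ _ := by
      have t1 := mul_nonneg hC₅.le hX0
      have t2 := mul_nonneg hC₅.le hY0
      have t3 := mul_nonneg hC₅.le hw0.le
      have t4 := mul_nonneg hA hX0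
      have t6 := mul_nonneg hA hw0.le
      have t8 := mul_nonneg hB hY0
      have t9 := mul_nonneg hB hw0.le
      have t10 := mul_nonneg hC₆.le hX0
      have t11 := mul_nonneg hC₆.le hY0
      have t13 := mul_nonneg hD hX0
      have t15 := mul_nonneg hD hw0.le
      nlinarith

/-- from `L²(μ_e)` to `sup` on the interface (model: `fl_sup`). -/
theorem dfs8_sup (n : ℕ) (hn : 1 ≤ n) : ∃ C : ℝ, 0 < C ∧
    ∀ (w ε K c₀ r₀ : ℝ) (v : E (n + 1) → ℝ), DfUnit n w ε K c₀ r₀ v →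
      ∀ (a : ℝ) (p : E n) (R D : ℝ), ‖p‖ ≤ 1 → 0 < R → R ≤ 1 / 8 → 0 < D → D ≤ 2 * R → r₀ * w ≤ D / 4 →
        C * ((R ^ n)⁻¹ * ∫ y in flCyl (2 * R), (gmtVer y - a - ⟪p, gmtHor y⟫) ^ 2 * dfE w v y) < c₀ * D ^ 2 →
        ∀ y ∈ ball (0 : E (n + 1)) R, |v y| ≤ 7 / 8 → |gmtVer y - a - ⟪p, gmtHor y⟫| ≤ D := by
  obtain ⟨C₇, hC₇, h7⟩ := df_mean n hn
  refine ⟨4 * C₇, by positivity, ?_⟩
  intro w ε K c₀ r₀ v H a p R D hp hR hR8 hD hDR hlow hlt y0 hy0R hy0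
  by_contra hcon
  rw [not_le] at hcon
  set q : E (n + 1) := gmtEn n - flInc n p with hq
  have hqn : ‖q‖ ≤ 2 := (fl_aff_norm p).trans (by linarith)
  have hL : ∀ y : E (n + 1), gmtVer y - a - ⟪p, gmtHor y⟫ = -a + ⟪q, y⟫ := fun y => fl_aff_eq a p y
  simp only [hL] at hlt hcon
  have hy0n : ‖y0‖ < R := by simpa using hy0R
  have hE0 : ∀ y, 0 ≤ dfE w v y := dfs8_E_nonneg H.hw v
  have hEc : Continuous (dfE w v) := dfs8_E_continuous w (H.smooth.of_le (by exact_mod_cast le_top))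
  -- geometry
  have hsubC : ball y0 R ⊆ (flCyl (2 * R) : Set (E (n + 1))) := by
    refine Subset.trans ?_ (fl_ball_subset_cyl (by linarith))
    intro y hy
    have : ‖y - y0‖ < R := by simpa [dist_eq_norm] using hy
    have h1 : ‖y‖ ≤ ‖y - y0‖ + ‖y0‖ := by
      have := norm_add_le (y - y0) y0
      simpa using this
    simp only [mem_ball, dist_zero_right]
    linarith
  have hcyl2 : (flCyl (2 * R) : Set (E (n + 1))) ⊆ closedBall 0 2 := by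
    intro y hy
    have := fl_cyl_subset_ball (y := y) (by linarith [hy.1]) hy.2.le
    exact ball_subset_closedBall this
  -- integrability
  have hcont : Continuous fun y : E (n + 1) => (-a + ⟪q, y⟫) ^ 2 * dfE w v y :=
    (by fun_prop : Continuous fun y : E (n + 1) => (-a + ⟪q, y⟫) ^ 2).mul hEc
  have hint2 : IntegrableOn (fun y : E (n + 1) => (-a + ⟪q, y⟫) ^ 2 * dfE w v y) (closedBall 0 2) :=
    hcont.continuousOn.integrableOn_compact (isCompact_closedBall _ _)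
  have hintC : IntegrableOn (fun y : E (n + 1) => (-a + ⟪q, y⟫) ^ 2 * dfE w v y) (flCyl (2 * R)) :=
    hint2.mono_set hcyl2
  -- mean value inequality
  have hs : 0 < D / 4 := by positivity
  have key := h7 w ε K c₀ r₀ v H y0 q (-a) (D / 4) R hqn hs (by linarith) (by linarith)
  -- upper bound of the right side
  have hup : ∫ y in ball y0 R, (-a + ⟪q, y⟫) ^ 2 * dfE w v y ≤
      ∫ y in flCyl (2 * R), (-a + ⟪q, y⟫) ^ 2 * dfE w v y :=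
    setIntegral_mono_set hintC (Filter.Eventually.of_forall fun y => mul_nonneg (sq_nonneg _) (hE0 y))
      (Filter.Eventually.of_forall hsubC)
  -- lower bound of the left side
  have hsR : ball y0 (D / 4) ⊆ ball y0 R := ball_subset_ball (by linarith)
  have hints : IntegrableOn (fun y : E (n + 1) => (-a + ⟪q, y⟫) ^ 2 * dfE w v y) (ball y0 (D / 4)) :=
    hintC.mono_set (hsR.trans hsubC)
  have hintE : IntegrableOn (fun y : E (n + 1) => dfE w v y) (ball y0 (D / 4)) :=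
    (hEc.continuousOn.integrableOn_compact (isCompact_closedBall y0 (D / 4))).mono_set ball_subset_closedBall
  have hlo : c₀ * (D / 4) ^ n ≤ ∫ y in ball y0 (D / 4), dfE w v y := H.low y0 hy0 (D / 4) hlow
  have hlow2 : D ^ 2 / 4 * ∫ y in ball y0 (D / 4), dfE w v y ≤
      ∫ y in ball y0 (D / 4), (-a + ⟪q, y⟫) ^ 2 * dfE w v y := by
    rw [← integral_const_mul]
    refine setIntegral_mono_on (hintE.const_mul _) hints measurableSet_ball ?_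
    intro y hy
    have hyn : ‖y - y0‖ < D / 4 := by simpa [dist_eq_norm] using hy
    have h2 : |⟪q, y - y0⟫| ≤ D / 2 := by
      refine (abs_real_inner_le_norm q _).trans ?_
      nlinarith [norm_nonneg q, norm_nonneg (y - y0)]
    have h3 : -a + ⟪q, y⟫ = (-a + ⟪q, y0⟫) + ⟪q, y - y0⟫ := by
      rw [inner_sub_right]; ring
    have h4 : D / 2 ≤ |-a + ⟪q, y⟫| := by
      rw [h3]
      have := abs_sub_abs_le_abs_sub (-a + ⟪q, y0⟫) (-⟪q, y - y0⟫)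
      rw [abs_neg, sub_neg_eq_add] at this
      linarith
    have h5 : (D / 2) ^ 2 ≤ |-a + ⟪q, y⟫| ^ 2 := pow_le_pow_left₀ (by positivity) h4 2
    rw [sq_abs] at h5
    exact mul_le_mul_of_nonneg_right (by linarith) (hE0 y)
  have hRn : 0 < R ^ n := by positivity
  have hsn : 0 < (D / 4) ^ n := by positivity
  have h8 : c₀ * D ^ 2 / 4 ≤ ((D / 4) ^ n)⁻¹ * ∫ y in ball y0 (D / 4), (-a + ⟪q, y⟫) ^ 2 * dfE w v y := by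
    have h9 : D ^ 2 / 4 * (c₀ * (D / 4) ^ n) ≤ ∫ y in ball y0 (D / 4), (-a + ⟪q, y⟫) ^ 2 * dfE w v y :=
      (mul_le_mul_of_nonneg_left hlo (by positivity)).trans hlow2
    have h10 := mul_le_mul_of_nonneg_left h9 (inv_nonneg.2 hsn.le)
    have h11 : ((D / 4) ^ n)⁻¹ * (D ^ 2 / 4 * (c₀ * (D / 4) ^ n)) = c₀ * D ^ 2 / 4 := by
      field_simp
    rw [h11] at h10
    exact h10
  have h12 : C₇ * ((R ^ n)⁻¹ * ∫ y in ball y0 R, (-a + ⟪q, y⟫) ^ 2 * dfE w v y) ≤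
      C₇ * ((R ^ n)⁻¹ * ∫ y in flCyl (2 * R), (-a + ⟪q, y⟫) ^ 2 * dfE w v y) := by
    apply mul_le_mul_of_nonneg_left _ hC₇.le
    exact mul_le_mul_of_nonneg_left hup (inv_nonneg.2 hRn.le)
  linarith

/-- the choice of the constants (model: `fl_step_consts`). -/
theorem dfs8_consts (n : ℕ) {c₀ r₀ C₂ C₃ : ℝ} (hc : 0 < c₀) (hr : 0 < r₀) (hC₂ : 0 < C₂) (hC₃ : 0 < C₃) :
    ∃ τ c₁ b : ℝ, 0 < τ ∧ τ ≤ 1 / 8 ∧ 0 < c₁ ∧ 0 < b ∧ ∀ ε w : ℝ, 0 < ε → ε ≤ 1 / 8 → ε ≤ b → 0 < w →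
      w ≤ c₁ * ε ^ 2 → r₀ * w ≤ ε * τ ^ 3 / 2 / 4 ∧
        C₃ * (((4 * τ ^ 2) ^ n)⁻¹ * (C₂ * (ε ^ 2 * (2 * (4 * τ ^ 2)) ^ (n + 4) + ε ^ 3 + w))) <
          c₀ * (ε * τ ^ 3 / 2) ^ 2 := by
  obtain ⟨K₁, hK₁0, hK₁⟩ : ∃ K₁ : ℝ, 0 < K₁ ∧ K₁ = C₃ * C₂ * (2 ^ n * 4096) :=
    ⟨_, by positivity, rfl⟩
  obtain ⟨τ, hτ0, hτ8, hτK⟩ : ∃ τ : ℝ, 0 < τ ∧ τ ≤ 1 / 8 ∧ K₁ * τ ≤ c₀ / 32 := by
    refine ⟨min (1 / 8) (c₀ / (32 * K₁)), lt_min (by norm_num) (by positivity), min_le_left _ _, ?_⟩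
    have := mul_le_mul_of_nonneg_left (min_le_right (1 / 8) (c₀ / (32 * K₁))) hK₁0.le
    have e5 : K₁ * (c₀ / (32 * K₁)) = c₀ / 32 := by field_simp
    rwa [e5] at this
  obtain ⟨Rn, hRn, hRn'⟩ : ∃ Rn : ℝ, 0 < Rn ∧ Rn = (4 * τ ^ 2) ^ n := ⟨_, by positivity, rfl⟩
  obtain ⟨b, hb0, hbb⟩ : ∃ b : ℝ, 0 < b ∧ C₃ * (Rn⁻¹ * (C₂ * b)) = c₀ * τ ^ 6 / 32 := by
    refine ⟨c₀ * τ ^ 6 * Rn / (32 * (C₃ * C₂)), by positivity, ?_⟩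
    field_simp
  refine ⟨τ, min b (τ ^ 3 / r₀), b, hτ0, hτ8, lt_min hb0 (by positivity), hb0, ?_⟩
  intro ε w hε0 hε8 hεb hw0 hw
  rw [← hRn']
  have hw1 : w ≤ b * ε ^ 2 := hw.trans (mul_le_mul_of_nonneg_right (min_le_left _ _) (sq_nonneg ε))
  have hw2 : w ≤ τ ^ 3 / r₀ * ε ^ 2 := hw.trans (mul_le_mul_of_nonneg_right (min_le_right _ _) (sq_nonneg ε))
  refine ⟨?_, ?_⟩
  · have e1 : r₀ * w ≤ r₀ * (τ ^ 3 / r₀ * ε ^ 2) := mul_le_mul_of_nonneg_left hw2 hr.le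
    have e2 : r₀ * (τ ^ 3 / r₀ * ε ^ 2) = τ ^ 3 * ε ^ 2 := by field_simp
    have e3 : τ ^ 3 * ε ^ 2 ≤ ε * τ ^ 3 / 2 / 4 := by
      have : 0 ≤ τ ^ 3 * ε := by positivity
      nlinarith
    linarith
  · have t1 : C₃ * (Rn⁻¹ * (C₂ * (ε ^ 2 * (2 * (4 * τ ^ 2)) ^ (n + 4)))) ≤ c₀ * ε ^ 2 * τ ^ 6 / 32 := by
      have e1 : C₃ * (Rn⁻¹ * (C₂ * (ε ^ 2 * (2 * (4 * τ ^ 2)) ^ (n + 4)))) =
          K₁ * τ ^ 2 * (ε ^ 2 * τ ^ 6) := by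
        have : (2 * (4 * τ ^ 2)) ^ (n + 4) = 2 ^ n * 16 * (Rn * (4 * τ ^ 2) ^ 4) := by
          rw [mul_pow, pow_add, pow_add, hRn']; norm_num
        rw [this, hK₁]
        field_simp
        ring
      rw [e1]
      have e3 : K₁ * τ ^ 2 ≤ c₀ / 32 := by
        have : τ ^ 2 ≤ τ := by nlinarith
        nlinarith
      have := mul_le_mul_of_nonneg_right e3 (by positivity : 0 ≤ ε ^ 2 * τ ^ 6)
      linarith
    have t2 : C₃ * (Rn⁻¹ * (C₂ * ε ^ 3)) ≤ c₀ * ε ^ 2 * τ ^ 6 / 32 := by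
      have e0 : ε ^ 3 ≤ ε ^ 2 * b := by
        have : ε ^ 3 = ε ^ 2 * ε := by ring
        rw [this]
        exact mul_le_mul_of_nonneg_left hεb (sq_nonneg ε)
      have e1 : C₃ * (Rn⁻¹ * (C₂ * ε ^ 3)) ≤ C₃ * (Rn⁻¹ * (C₂ * (ε ^ 2 * b))) := by gcongr
      have e2 : C₃ * (Rn⁻¹ * (C₂ * (ε ^ 2 * b))) = ε ^ 2 * (C₃ * (Rn⁻¹ * (C₂ * b))) := by ring
      rw [e2, hbb] at e1
      linarith
    have t3 : C₃ * (Rn⁻¹ * (C₂ * w)) ≤ c₀ * ε ^ 2 * τ ^ 6 / 32 := by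
      have e0 : w ≤ ε ^ 2 * b := by linarith
      have e1 : C₃ * (Rn⁻¹ * (C₂ * w)) ≤ C₃ * (Rn⁻¹ * (C₂ * (ε ^ 2 * b))) := by gcongr
      have e2 : C₃ * (Rn⁻¹ * (C₂ * (ε ^ 2 * b))) = ε ^ 2 * (C₃ * (Rn⁻¹ * (C₂ * b))) := by ring
      rw [e2, hbb] at e1
      linarith
    have t5 : c₀ * (ε * τ ^ 3 / 2) ^ 2 = c₀ * ε ^ 2 * τ ^ 6 / 4 := by ring
    have t6 : 0 < c₀ * ε ^ 2 * τ ^ 6 := by positivity
    rw [t5]
    have t8 : C₃ * (Rn⁻¹ * (C₂ * (ε ^ 2 * (2 * (4 * τ ^ 2)) ^ (n + 4) + ε ^ 3 + w))) =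
        C₃ * (Rn⁻¹ * (C₂ * (ε ^ 2 * (2 * (4 * τ ^ 2)) ^ (n + 4)))) +
        C₃ * (Rn⁻¹ * (C₂ * ε ^ 3)) + C₃ * (Rn⁻¹ * (C₂ * w)) := by ring
    rw [t8]
    linarith

/-- P8 (F8): **improvement of flatness at unit scale.** -/
theorem df_unit_step (n : ℕ) (hn : 1 ≤ n) (K c₀ r₀ : ℝ) (hK : 0 ≤ K) (hc : 0 < c₀) (hr : 0 < r₀) :
    ∃ τ ε₀ c₁ C₁ : ℝ, 0 < τ ∧ τ ≤ 1 / 8 ∧ 0 < ε₀ ∧ 0 < c₁ ∧ 0 < C₁ ∧
      ∀ (w ε : ℝ) (v : E (n + 1) → ℝ), DfUnit n w ε K c₀ r₀ v → ε ≤ ε₀ → w ≤ c₁ * ε ^ 2 → |v 0| ≤ 7 / 8 →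
        ∃ p : E n, ‖p‖ ≤ C₁ * ε ∧ ∀ y ∈ ball (0 : E (n + 1)) (4 * τ ^ 2), |v y| ≤ 7 / 8 →
          |gmtVer y - ⟪p, gmtHor y⟫| ≤ ε * τ ^ 3 := by
  obtain ⟨C₂, ε₁, hC₂, hε₁, h2⟩ := dfs8_L2 n K
  obtain ⟨C₃, hC₃, h3⟩ := dfs8_sup n hn
  obtain ⟨τ, c₁, b, hτ0, hτ8, hc₁0, hb0, hcon⟩ := dfs8_consts n hc hr hC₂ hC₃
  refine ⟨τ, min ε₁ b, c₁, C₂, hτ0, hτ8, lt_min hε₁ hb0, hc₁0, hC₂, ?_⟩
  intro w ε v H hε hw h0
  have hε0 := H.hε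
  have hε8 := H.hε'
  obtain ⟨hlow, hmain'⟩ := hcon ε w hε0 hε8 (hε.trans (min_le_right _ _)) H.hw hw
  obtain ⟨a, p, ha, hp, hp1, hρ⟩ := h2 w ε c₀ r₀ v H (hε.trans (min_le_left _ _))
  have hD0 : 0 < ε * τ ^ 3 / 2 := by positivity
  have hR0 : 0 < 4 * τ ^ 2 := by positivity
  have hτ2 : τ ^ 2 ≤ 1 / 64 := by nlinarith
  have hR8 : 4 * τ ^ 2 ≤ 1 / 8 := by linarith
  have hDR : ε * τ ^ 3 / 2 ≤ 2 * (4 * τ ^ 2) := by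
    have : ε * τ ^ 3 = (ε * τ) * τ ^ 2 := by ring
    have h1 : ε * τ ≤ 1 := by nlinarith
    nlinarith [sq_nonneg τ]
  have hI := hρ (2 * (4 * τ ^ 2)) (by positivity) (by linarith)
  have hRn : 0 < (4 * τ ^ 2) ^ n := by positivity
  have hmain : C₃ * (((4 * τ ^ 2) ^ n)⁻¹ *
      ∫ y in flCyl (2 * (4 * τ ^ 2)), (gmtVer y - a - ⟪p, gmtHor y⟫) ^ 2 * dfE w v y) <
      c₀ * (ε * τ ^ 3 / 2) ^ 2 := by
    refine lt_of_le_of_lt ?_ hmain'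
    apply mul_le_mul_of_nonneg_left _ hC₃.le
    exact mul_le_mul_of_nonneg_left hI (inv_nonneg.2 hRn.le)
  have hfin := h3 w ε K c₀ r₀ v H a p _ _ hp1 hR0 hR8 hD0 hDR hlow hmain
  have ha' : |a| ≤ ε * τ ^ 3 / 2 := by
    have := hfin 0 (mem_ball_self hR0) h0
    have e1 : gmtVer (0 : E (n + 1)) = 0 := by simp [gmtVer]
    have e2 : gmtHor (0 : E (n + 1)) = 0 := by simp [gmtHor]
    rw [e1, e2, inner_zero_right] at this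
    simpa using this
  refine ⟨p, hp, fun y hyR hy => ?_⟩
  have h4 := hfin y hyR hy
  have h5 : gmtVer y - ⟪p, gmtHor y⟫ = (gmtVer y - a - ⟪p, gmtHor y⟫) + a := by ring
  rw [h5]
  refine (abs_add_le _ _).trans ?_
  linarith

end Claimed.Agent.R329
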