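import Claimed.Agent.R329.Defs
import Claimed.Agent.R329.DgBase
import Claimed.Agent.R329.LapApi
import Claimed.Agent.R329.Smp
import Claimed.Agent.R329.Reg

/-!
# Row 329 (S0587, S0588), cell C6, post C1 = `01-diffuse.tex`.   Pen: helper228.   Prefix `dgC1_` / `DgC1`.   0 sorry.

* PART 0: the one-dimensional layer (`DgC1Sol h p`: `h' = p`, `p' = h³ - h`): first integral, `energy_nonpos`, touching a well, `eq_tanh_of_pos`,
  `classify` (five classes; the last one = negative energy = `0` and the periodic profiles).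
* PART 1: wide cut-offs by scaling: an inequality `∫ a η² ≤ ∫ b |∇η|²` for all `η ∈ C¹_c` with `a ≥ c > 0`, `0 ≤ b ≤ 1` is impossible.
* PART 2: functions of `⟨a, x⟩`: gradient, Laplacian, the profile solves the ODE.
* PART 3: the diffuse variables `q = 1 - v²`, `P = q² - 2|∇v|² (= q² D)`; the `q`-test (78's `dg8_q_test`) in these words; a uniform positive defect
  is unstable; `v = 0` is unstable.
* PART 4: coordinate calculus, **Bochner's identity** `dgC1_bochner`.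
* PART 5: the inverse profile `U = g⁻¹(v)`, `D = 1 - |∇U|²`: (2.6) `dgC1_lap_U`, (2.7) `dgC1_D_eqn`, (2.8) `dgC1_L_q`, (2.9) `dgC1_P_eq`, `dgC1_P_eq_D`.
* EXITS (end of the file): `dgC1_oneD_rigid : DgSol n v → DgStable n v → DgOneD n v → DgRigid n v`,
  `dgC1_oneD_mono` (the conclusion of S0587 from `DgOneD`), `dgC1_zero_unstable`, `dgC1_unstable_of_gap`,
  `dgC1_planar_of_defect_zero` (Modica's bound + equality at one point ⟹ planar; end of Section 2.1).
-/

set_option autoImplicit false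
open scoped Topology ContDiff
open MeasureTheory Set Filter

namespace Claimed.Agent.R329

/-! ## PART 0: the one-dimensional layer -/

theorem dgC1_W_nonneg (s : ℝ) : 0 ≤ dgW s := by unfold dgW; positivity

theorem dgC1_W_le {s : ℝ} (hs : |s| ≤ 1) : dgW s ≤ 1 / 4 := by
  unfold dgW
  have h1 : s ^ 2 ≤ 1 := by
    have := sq_le_sq' (neg_le_of_abs_le hs) (le_of_abs_le hs); simpa using this
  have h2 : 0 ≤ s ^ 2 := sq_nonneg s
  nlinarith

theorem dgC1_tanh_hasDerivAt (x : ℝ) : HasDerivAt Real.tanh (1 - Real.tanh x ^ 2) x := by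
  have h1 : HasDerivAt (fun y => Real.sinh y / Real.cosh y)
      ((Real.cosh x * Real.cosh x - Real.sinh x * Real.sinh x) / Real.cosh x ^ 2) x :=
    (Real.hasDerivAt_sinh x).div (Real.hasDerivAt_cosh x) (Real.cosh_pos x).ne'
  have h2 : Real.tanh = fun y => Real.sinh y / Real.cosh y := by
    funext y; exact Real.tanh_eq_sinh_div_cosh y
  have h3 : 1 - Real.tanh x ^ 2
      = (Real.cosh x * Real.cosh x - Real.sinh x * Real.sinh x) / Real.cosh x ^ 2 := by
    rw [Real.tanh_eq_sinh_div_cosh]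
    have := (Real.cosh_pos x).ne'
    field_simp
  rw [h3, h2]; exact h1

theorem dgC1_sqrt2_pos : 0 < Real.sqrt 2 := Real.sqrt_pos.mpr (by norm_num)

theorem dgC1_sqrt2_sq : Real.sqrt 2 * Real.sqrt 2 = 2 := Real.mul_self_sqrt (by norm_num)

theorem dgC1_G_abs_lt (s : ℝ) : |dgG s| < 1 := by
  unfold dgG
  exact abs_lt.mpr ⟨Real.neg_one_lt_tanh _, Real.tanh_lt_one _⟩

/-- `g' = (1 - g²)/√2`. -/
theorem dgC1_G_hasDerivAt (s : ℝ) : HasDerivAt dgG ((1 - dgG s ^ 2) / Real.sqrt 2) s := by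
  have h1 : HasDerivAt (fun y : ℝ => y / Real.sqrt 2) (1 / Real.sqrt 2) s :=
    (hasDerivAt_id s).div_const _
  have h2 := (dgC1_tanh_hasDerivAt (s / Real.sqrt 2)).comp s h1
  have h3 : (1 - Real.tanh (s / Real.sqrt 2) ^ 2) * (1 / Real.sqrt 2)
      = (1 - dgG s ^ 2) / Real.sqrt 2 := by unfold dgG; ring
  rw [h3] at h2
  exact h2

/-- `g'' = g³ - g`. -/
theorem dgC1_G_hasDerivAt2 (s : ℝ) :
    HasDerivAt (fun y => (1 - dgG y ^ 2) / Real.sqrt 2) (dgG s ^ 3 - dgG s) s := by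
  have h1 := (((dgC1_G_hasDerivAt s).fun_pow 2).const_sub 1).div_const (Real.sqrt 2)
  have h2 : -((2 : ℕ) * dgG s ^ (2 - 1) * ((1 - dgG s ^ 2) / Real.sqrt 2)) / Real.sqrt 2
      = dgG s ^ 3 - dgG s := by
    have h := dgC1_sqrt2_pos.ne'
    have hh := dgC1_sqrt2_sq
    have e : -((2 : ℕ) * dgG s ^ (2 - 1) * ((1 - dgG s ^ 2) / Real.sqrt 2)) / Real.sqrt 2
        = -(2 * dgG s * (1 - dgG s ^ 2)) / (Real.sqrt 2 * Real.sqrt 2) := by
      field_simp
      push_cast
      ring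
    rw [e, hh]; ring
  rw [h2] at h1
  exact h1

/-- `h' = p`, `p' = h³ - h` on the whole line. -/
structure DgC1Sol (h p : ℝ → ℝ) : Prop where
  d1 : ∀ t, HasDerivAt h (p t) t
  d2 : ∀ t, HasDerivAt p (h t ^ 3 - h t) t

theorem dgC1_G_sol (c : ℝ) :
    DgC1Sol (fun t => dgG (t - c)) (fun t => (1 - dgG (t - c) ^ 2) / Real.sqrt 2) := by
  constructor
  · intro t
    exact HasDerivAt.comp_sub_const t c (dgC1_G_hasDerivAt (t - c))
  · intro t
    exact HasDerivAt.comp_sub_const (f := fun y => (1 - dgG y ^ 2) / Real.sqrt 2) t c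
      (dgC1_G_hasDerivAt2 (t - c))

theorem DgC1Sol.neg {h p : ℝ → ℝ} (H : DgC1Sol h p) : DgC1Sol (fun t => - h t) (fun t => - p t) := by
  constructor
  · intro t; exact (H.d1 t).fun_neg
  · intro t
    have := (H.d2 t).fun_neg
    have e : -(h t ^ 3 - h t) = (- h t) ^ 3 - (- h t) := by ring
    rw [e] at this; exact this

theorem DgC1Sol.refl {h p : ℝ → ℝ} (H : DgC1Sol h p) :
    DgC1Sol (fun t => h (-t)) (fun t => - p (-t)) := by
  constructor
  · intro t
    have h1 : HasDerivAt (h ∘ fun y : ℝ => -y) (p (-t) * (-1)) t :=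
      (H.d1 (-t)).comp t (hasDerivAt_neg t)
    have e : p (-t) * (-1) = - p (-t) := by ring
    rw [e] at h1; exact h1
  · intro t
    have h1 : HasDerivAt (p ∘ fun y : ℝ => -y) ((h (-t) ^ 3 - h (-t)) * (-1)) t :=
      (H.d2 (-t)).comp t (hasDerivAt_neg t)
    have h2 : HasDerivAt (fun y => - (p ∘ fun y : ℝ => -y) y) (-((h (-t) ^ 3 - h (-t)) * (-1))) t :=
      h1.fun_neg
    have e : -((h (-t) ^ 3 - h (-t)) * (-1)) = h (-t) ^ 3 - h (-t) := by ring
    rw [e] at h2; exact h2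

theorem DgC1Sol.shift {h p : ℝ → ℝ} (H : DgC1Sol h p) (c : ℝ) :
    DgC1Sol (fun t => h (t - c)) (fun t => p (t - c)) := by
  constructor
  · intro t; exact HasDerivAt.comp_sub_const t c (H.d1 (t - c))
  · intro t; exact HasDerivAt.comp_sub_const t c (H.d2 (t - c))

theorem DgC1Sol.cont {h p : ℝ → ℝ} (H : DgC1Sol h p) : Continuous h :=
  continuous_iff_continuousAt.mpr fun t => (H.d1 t).continuousAt

theorem DgC1Sol.cont' {h p : ℝ → ℝ} (H : DgC1Sol h p) : Continuous p :=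
  continuous_iff_continuousAt.mpr fun t => (H.d2 t).continuousAt

/-- conservation of the energy `p²/2 - W(h)`. -/
theorem DgC1Sol.energy_const {h p : ℝ → ℝ} (H : DgC1Sol h p) (s t : ℝ) :
    p s ^ 2 / 2 - dgW (h s) = p t ^ 2 / 2 - dgW (h t) := by
  have hd : ∀ x, HasDerivAt (fun y => p y ^ 2 / 2 - dgW (h y)) 0 x := by
    intro x
    have h1 := ((H.d2 x).fun_pow 2).div_const 2
    have h2 := ((((H.d1 x).fun_pow 2).const_sub 1).fun_pow 2).div_const 4
    have h3 := h1.fun_sub h2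
    have e : (2 : ℕ) * p x ^ (2 - 1) * (h x ^ 3 - h x) / 2
        - (2 : ℕ) * (1 - h x ^ 2) ^ (2 - 1) * -((2 : ℕ) * h x ^ (2 - 1) * p x) / 4 = 0 := by
      push_cast; ring
    rw [e] at h3
    exact h3
  have hdiff : Differentiable ℝ (fun y => p y ^ 2 / 2 - dgW (h y)) :=
    fun x => (hd x).differentiableAt
  exact is_const_of_deriv_eq_zero hdiff (fun x => (hd x).deriv) s t

/-- mean value inequality in the form used below. -/
theorem dgC1_lin_lower {f f' : ℝ → ℝ} {a b C : ℝ} (hab : a ≤ b)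
    (hf : ∀ t ∈ Icc a b, HasDerivAt f (f' t) t) (hC : ∀ t ∈ Icc a b, C ≤ f' t) :
    C * (b - a) ≤ f b - f a := by
  have := Convex.mul_sub_le_image_sub_of_le_deriv (convex_Icc a b) (f := f)
    (fun t ht => (hf t ht).continuousAt.continuousWithinAt)
    (fun t ht => (hf t (interior_subset ht)).differentiableAt.differentiableWithinAt)
    (C := C) (fun t ht => by
      rw [(hf t (interior_subset ht)).deriv]; exact hC t (interior_subset ht))
    a (left_mem_Icc.mpr hab) b (right_mem_Icc.mpr hab) hab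
  exact this

theorem dgC1_sign_const {f : ℝ → ℝ} (hf : Continuous f) (h0 : ∀ t, f t ≠ 0) :
    (∀ t, 0 < f t) ∨ (∀ t, f t < 0) := by
  rcases lt_or_gt_of_ne (h0 0) with h | h
  · right
    intro t
    by_contra hc
    push Not at hc
    obtain ⟨s, hs⟩ := mem_range_of_exists_le_of_exists_ge hf ⟨0, h.le⟩ ⟨t, hc⟩
    exact h0 s hs
  · left
    intro t
    by_contra hc
    push Not at hc
    obtain ⟨s, hs⟩ := mem_range_of_exists_le_of_exists_ge hf ⟨t, hc⟩ ⟨0, h.le⟩
    exact h0 s hs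

/-- a nonnegative function with `|y'| ≤ K y` which vanishes somewhere vanishes identically. -/
theorem dgC1_gronwall_zero {y y' : ℝ → ℝ} {K t0 : ℝ} (hy : ∀ t, HasDerivAt y (y' t) t)
    (h0 : ∀ t, 0 ≤ y t) (hK : ∀ t, |y' t| ≤ K * y t) (hz : y t0 = 0) : ∀ t, y t = 0 := by
  have hF : ∀ t, HasDerivAt (fun s => y s * Real.exp (-K * s))
      (y' t * Real.exp (-K * t) + y t * (Real.exp (-K * t) * (-K))) t := by
    intro t
    have h1 : HasDerivAt (fun s : ℝ => -K * s) (-K) t := by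
      simpa using (hasDerivAt_id t).const_mul (-K)
    exact (hy t).fun_mul h1.exp
  have hG : ∀ t, HasDerivAt (fun s => y s * Real.exp (K * s))
      (y' t * Real.exp (K * t) + y t * (Real.exp (K * t) * K)) t := by
    intro t
    have h1 : HasDerivAt (fun s : ℝ => K * s) K t := by
      simpa using (hasDerivAt_id t).const_mul K
    exact (hy t).fun_mul h1.exp
  have hFa : Antitone (fun s => y s * Real.exp (-K * s)) := by
    apply antitone_of_deriv_nonpos (fun t => (hF t).differentiableAt)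
    intro t
    rw [(hF t).deriv]
    have h1 := le_of_abs_le (hK t)
    have h2 := Real.exp_pos (-K * t)
    nlinarith
  have hGm : Monotone (fun s => y s * Real.exp (K * s)) := by
    apply monotone_of_deriv_nonneg (fun t => (hG t).differentiableAt)
    intro t
    rw [(hG t).deriv]
    have h1 := neg_le_of_abs_le (hK t)
    have h2 := Real.exp_pos (K * t)
    nlinarith
  intro t
  rcases le_total t0 t with h | h
  · have h1 : y t * Real.exp (-K * t) ≤ y t0 * Real.exp (-K * t0) := hFa h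
    rw [hz, zero_mul] at h1
    have h2 := Real.exp_pos (-K * t)
    have h3 : y t ≤ 0 := by
      by_contra hc; push Not at hc
      have := mul_pos hc h2; linarith
    exact le_antisymm h3 (h0 t)
  · have h1 : y t * Real.exp (K * t) ≤ y t0 * Real.exp (K * t0) := hGm h
    rw [hz, zero_mul] at h1
    have h2 := Real.exp_pos (K * t)
    have h3 : y t ≤ 0 := by
      by_contra hc; push Not at hc
      have := mul_pos hc h2; linarith
    exact le_antisymm h3 (h0 t)

/-- a bounded solution has nonpositive energy. -/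
theorem DgC1Sol.energy_nonpos {h p : ℝ → ℝ} (H : DgC1Sol h p) (hb : ∀ t, |h t| ≤ 1) (t : ℝ) :
    p t ^ 2 / 2 - dgW (h t) ≤ 0 := by
  by_contra hc
  push Not at hc
  set E := p t ^ 2 / 2 - dgW (h t) with hE
  have hall : ∀ s, 2 * E ≤ p s ^ 2 := by
    intro s
    have h1 := H.energy_const s t
    have h2 := dgC1_W_nonneg (h s)
    linarith
  have key : ∀ (h p : ℝ → ℝ), DgC1Sol h p → (∀ t, |h t| ≤ 1) → (∀ s, 2 * E ≤ p s ^ 2) →
      (∀ s, 0 < p s) → False := by
    intro h p H hb hall hpos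
    set m := Real.sqrt (2 * E) with hm
    have hmpos : 0 < m := Real.sqrt_pos.mpr (by linarith)
    have hmp : ∀ s, m ≤ p s := by
      intro s
      have h1 := Real.sqrt_le_sqrt (hall s)
      rwa [Real.sqrt_sq (hpos s).le] at h1
    have h1 := dgC1_lin_lower (f := h) (f' := p) (a := 0) (b := 3 / m) (C := m) (by positivity)
      (fun t _ => H.d1 t) (fun t _ => hmp t)
    have h2 : m * (3 / m - 0) = 3 := by rw [sub_zero]; field_simp
    rw [h2] at h1
    have h3 := le_of_abs_le (hb (3 / m))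
    have h4 := neg_le_of_abs_le (hb 0)
    linarith
  have hne : ∀ s, p s ≠ 0 := by
    intro s hs
    have := hall s
    rw [hs] at this
    nlinarith
  rcases dgC1_sign_const H.cont' hne with hpos | hneg
  · exact key h p H hb hall hpos
  · exact key _ _ H.neg (fun t => by simpa using hb t) (fun s => by simpa using hall s)
      (fun s => by simpa using hneg s)

/-- a solution with values in `[-1,1]` which touches `1` is `≡ 1`. -/
theorem DgC1Sol.eq_one_of_touch {h p : ℝ → ℝ} (H : DgC1Sol h p) (hb : ∀ t, |h t| ≤ 1) {t0 : ℝ}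
    (h0 : h t0 = 1) : ∀ t, h t = 1 := by
  have hp0 : p t0 = 0 := by
    have hmax : IsLocalMax h t0 := by
      refine Filter.Eventually.of_forall fun t => ?_
      rw [h0]; exact le_of_abs_le (hb t)
    exact hmax.hasDerivAt_eq_zero (H.d1 t0)
  have hE : ∀ t, p t ^ 2 / 2 = dgW (h t) := by
    intro t
    have h1 := H.energy_const t t0
    rw [hp0, h0] at h1
    unfold dgW at h1 ⊢
    norm_num at h1
    linarith
  have hy : ∀ t, HasDerivAt (fun s => 1 - h s) (- p t) t := fun t => (H.d1 t).const_sub 1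
  have hz := dgC1_gronwall_zero (K := 2) (t0 := t0) hy
    (fun t => by have := le_of_abs_le (hb t); linarith)
    (fun t => by
      have h1 := hE t
      unfold dgW at h1
      have h2 := le_of_abs_le (hb t)
      have h3 := neg_le_of_abs_le (hb t)
      rw [abs_neg]
      have e : p t ^ 2 = (1 - h t) ^ 2 * (1 + h t) ^ 2 / 2 := by
        have : (1 - h t ^ 2) ^ 2 = (1 - h t) ^ 2 * (1 + h t) ^ 2 := by ring
        linarith
      have h4 : (1 + h t) ^ 2 ≤ 4 := by nlinarith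
      have hsq : p t ^ 2 ≤ (2 * (1 - h t)) ^ 2 := by
        rw [e]; nlinarith [sq_nonneg (1 - h t)]
      exact abs_le_of_sq_le_sq hsq (by linarith))
    (by simp [h0])
  intro t
  have := hz t
  linarith

theorem DgC1Sol.eq_neg_one_of_touch {h p : ℝ → ℝ} (H : DgC1Sol h p) (hb : ∀ t, |h t| ≤ 1) {t0 : ℝ}
    (h0 : h t0 = -1) : ∀ t, h t = -1 := by
  have := H.neg.eq_one_of_touch (fun t => by simpa using hb t) (t0 := t0) (by simp [h0])
  intro t
  have h1 := this t
  linarith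

/-- the first order equation `h' = (1-h²)/√2` with `|h| < 1` has only the translates of the profile as solutions. -/
theorem dgC1_first_order {h : ℝ → ℝ} (hb : ∀ t, |h t| < 1)
    (hd : ∀ t, HasDerivAt h ((1 - h t ^ 2) / Real.sqrt 2) t) :
    ∃ c : ℝ, ∀ t, h t = Real.tanh ((t - c) / Real.sqrt 2) := by
  have hs := dgC1_sqrt2_pos
  have hlo : ∀ t, 0 < 1 + h t := fun t => by have := (abs_lt.mp (hb t)).1; linarith
  have hhi : ∀ t, 0 < 1 - h t := fun t => by have := (abs_lt.mp (hb t)).2; linarith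
  have hw : ∀ t, HasDerivAt
      (fun s => (Real.log (1 + h s) - Real.log (1 - h s)) / 2 - s / Real.sqrt 2) 0 t := by
    intro t
    have h1 := ((hd t).const_add 1).log (hlo t).ne'
    have h2 := ((hd t).const_sub 1).log (hhi t).ne'
    have h3 := ((h1.fun_sub h2).div_const 2).fun_sub ((hasDerivAt_id t).div_const (Real.sqrt 2))
    have e : ((1 - h t ^ 2) / Real.sqrt 2 / (1 + h t) - -((1 - h t ^ 2) / Real.sqrt 2) / (1 - h t)) / 2
        - 1 / Real.sqrt 2 = 0 := by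
      have a1 := (hlo t).ne'
      have a2 := (hhi t).ne'
      have a3 := hs.ne'
      field_simp
      ring
    rw [e] at h3
    exact h3
  have hconst := is_const_of_deriv_eq_zero (fun t => (hw t).differentiableAt)
    (fun t => (hw t).deriv)
  refine ⟨- Real.sqrt 2 * ((Real.log (1 + h 0) - Real.log (1 - h 0)) / 2), fun t => ?_⟩
  have h1 := hconst t 0
  simp only [zero_div, sub_zero] at h1
  have hmem : h t ∈ Ioo (-1 : ℝ) 1 := ⟨(abs_lt.mp (hb t)).1, (abs_lt.mp (hb t)).2⟩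
  have h2 : Real.artanh (h t) = (Real.log (1 + h t) - Real.log (1 - h t)) / 2 := by
    rw [Real.artanh_eq_half_log ⟨hmem.1.le, hmem.2.le⟩, Real.log_div (hlo t).ne' (hhi t).ne']
    ring
  have h3 : (t - - Real.sqrt 2 * ((Real.log (1 + h 0) - Real.log (1 - h 0)) / 2)) / Real.sqrt 2
      = Real.artanh (h t) := by
    rw [h2]
    have a3 := hs.ne'
    field_simp
    field_simp at h1
    linarith
  rw [h3, Real.tanh_artanh hmem]

/-- auxiliary: an increasing solution which stays away from the wells cannot be positive somewhere. -/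
theorem DgC1Sol.aux_pos {h p : ℝ → ℝ} (H : DgC1Sol h p) (hp : ∀ t, 0 < p t) {κ : ℝ} (hκ : 0 < κ)
    (hκh : ∀ t, κ ≤ 1 - h t ^ 2) {t0 : ℝ} (h0 : 0 < h t0) : False := by
  have hmono : ∀ t, t0 ≤ t → h t0 ≤ h t := by
    intro t ht
    have := dgC1_lin_lower (f := h) (f' := p) (C := 0) ht (fun s _ => H.d1 s) (fun s _ => (hp s).le)
    linarith
  set μ := h t0 * κ with hμ
  have hμpos : 0 < μ := mul_pos h0 hκ
  have h1 := dgC1_lin_lower (f := fun s => - p s) (f' := fun s => -(h s ^ 3 - h s)) (a := t0)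
    (b := t0 + p t0 / μ) (C := μ) (by have := div_pos (hp t0) hμpos; linarith)
    (fun s _ => (H.d2 s).fun_neg) (fun s hs => by
      have a1 := hmono s hs.1
      have a2 := hκh s
      have e : -(h s ^ 3 - h s) = h s * (1 - h s ^ 2) := by ring
      rw [e, hμ]
      exact mul_le_mul a1 a2 hκ.le (le_trans h0.le a1))
  have h2 : μ * (t0 + p t0 / μ - t0) = p t0 := by
    have := hμpos.ne'
    field_simp
    ring
  rw [h2] at h1
  have h3 := hp (t0 + p t0 / μ)
  linarith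

/-- an increasing solution with values in `(-1,1)` has zero energy. -/
theorem DgC1Sol.energy_zero_of_pos {h p : ℝ → ℝ} (H : DgC1Sol h p) (hb : ∀ t, |h t| < 1)
    (hp : ∀ t, 0 < p t) (t : ℝ) : p t ^ 2 / 2 - dgW (h t) = 0 := by
  have hle := H.energy_nonpos (fun t => (hb t).le) t
  by_contra hne
  have hlt : p t ^ 2 / 2 - dgW (h t) < 0 := lt_of_le_of_ne hle hne
  set δ := -(p t ^ 2 / 2 - dgW (h t)) with hδ
  have hδpos : 0 < δ := by linarith
  have hκh : ∀ s, 4 * δ ≤ 1 - h s ^ 2 := by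
    intro s
    have h1 := H.energy_const s t
    have h2 : δ ≤ dgW (h s) := by nlinarith [sq_nonneg (p s)]
    unfold dgW at h2
    have h3 : h s ^ 2 < 1 := by
      have := (sq_lt_one_iff_abs_lt_one (h s)).mpr (hb s); exact this
    have h4 : 0 ≤ h s ^ 2 := sq_nonneg _
    nlinarith
  have hlt01 : h 0 < h 1 := by
    have hsm : StrictMono h := strictMono_of_deriv_pos (fun s => by rw [(H.d1 s).deriv]; exact hp s)
    exact hsm (by norm_num)
  rcases lt_trichotomy (h 0) 0 with h0 | h0 | h0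
  · -- reflect
    have H' := H.refl.neg
    refine H'.aux_pos (fun s => by simpa using hp (-s)) (κ := 4 * δ) (by linarith)
      (fun s => by simpa using hκh (-s)) (t0 := 0) (by simpa using h0)
  · exact H.aux_pos hp (κ := 4 * δ) (by linarith) hκh (t0 := 1) (by linarith)
  · exact H.aux_pos hp (κ := 4 * δ) (by linarith) hκh (t0 := 0) h0

/-- zero energy, values in `(-1,1)`, increasing: the first order equation. -/
theorem DgC1Sol.first_order {h p : ℝ → ℝ} (hb : ∀ t, |h t| < 1)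
    (hp : ∀ t, 0 < p t) (hE : ∀ t, p t ^ 2 / 2 - dgW (h t) = 0) (t : ℝ) :
    p t = (1 - h t ^ 2) / Real.sqrt 2 := by
  have h1 := hE t
  unfold dgW at h1
  have h3 : h t ^ 2 < 1 := (sq_lt_one_iff_abs_lt_one (h t)).mpr (hb t)
  have hs := dgC1_sqrt2_pos
  have hss := dgC1_sqrt2_sq
  have h4 : (p t * Real.sqrt 2) ^ 2 = (1 - h t ^ 2) ^ 2 := by
    have : (p t * Real.sqrt 2) ^ 2 = p t ^ 2 * (Real.sqrt 2 * Real.sqrt 2) := by ring
    rw [this, hss]; linarith
  have h5 : p t * Real.sqrt 2 = 1 - h t ^ 2 := by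
    have a1 : 0 ≤ p t * Real.sqrt 2 := (mul_pos (hp t) hs).le
    have a2 : 0 ≤ 1 - h t ^ 2 := by linarith
    exact (pow_left_inj₀ a1 a2 (by norm_num)).mp h4
  rw [eq_div_iff hs.ne']; exact h5

/-- **1D De Giorgi**: an increasing solution with values in `(-1,1)` is a translate of the profile. -/
theorem DgC1Sol.eq_tanh_of_pos {h p : ℝ → ℝ} (H : DgC1Sol h p) (hb : ∀ t, |h t| < 1)
    (hp : ∀ t, 0 < p t) : ∃ c : ℝ, ∀ t, h t = Real.tanh ((t - c) / Real.sqrt 2) := by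
  apply dgC1_first_order hb
  intro t
  rw [← DgC1Sol.first_order hb hp (H.energy_zero_of_pos hb hp) t]
  exact H.d1 t

/-- **classification of the 1D solutions with values in `[-1,1]`.**   The last class (negative energy) contains `h ≡ 0` and the periodic solutions;
it is unstable (`Defect.lean`). -/
theorem DgC1Sol.classify {h p : ℝ → ℝ} (H : DgC1Sol h p) (hb : ∀ t, |h t| ≤ 1) :
    (∀ t, h t = 1) ∨ (∀ t, h t = -1) ∨
    (∃ c : ℝ, ∀ t, h t = Real.tanh ((t - c) / Real.sqrt 2)) ∨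
    (∃ c : ℝ, ∀ t, h t = - Real.tanh ((t - c) / Real.sqrt 2)) ∨
    (∃ δ : ℝ, 0 < δ ∧ ∀ t, p t ^ 2 / 2 - dgW (h t) = -δ) := by
  by_cases h1 : ∃ t0, h t0 = 1
  · obtain ⟨t0, h0⟩ := h1; exact Or.inl (H.eq_one_of_touch hb h0)
  by_cases h2 : ∃ t0, h t0 = -1
  · obtain ⟨t0, h0⟩ := h2; exact Or.inr (Or.inl (H.eq_neg_one_of_touch hb h0))
  push Not at h1 h2
  have hb' : ∀ t, |h t| < 1 := by
    intro t
    rw [abs_lt]
    exact ⟨lt_of_le_of_ne (neg_le_of_abs_le (hb t)) (Ne.symm (h2 t)),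
      lt_of_le_of_ne (le_of_abs_le (hb t)) (h1 t)⟩
  rcases lt_or_eq_of_le (H.energy_nonpos hb 0) with hE | hE
  · refine Or.inr (Or.inr (Or.inr (Or.inr ⟨-(p 0 ^ 2 / 2 - dgW (h 0)), by linarith, fun t => ?_⟩)))
    rw [H.energy_const t 0]; ring
  · have hEt : ∀ t, p t ^ 2 / 2 - dgW (h t) = 0 := fun t => by rw [H.energy_const t 0]; exact hE
    have hne : ∀ t, p t ≠ 0 := by
      intro t ht
      have a1 := hEt t
      rw [ht] at a1
      unfold dgW at a1
      have a3 : h t ^ 2 < 1 := (sq_lt_one_iff_abs_lt_one (h t)).mpr (hb' t)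
      have a4 : 0 < (1 - h t ^ 2) ^ 2 := by have : 0 < 1 - h t ^ 2 := by linarith
                                            positivity
      linarith
    rcases dgC1_sign_const H.cont' hne with hpos | hneg
    · exact Or.inr (Or.inr (Or.inl (H.eq_tanh_of_pos hb' hpos)))
    · obtain ⟨c, hc⟩ := H.neg.eq_tanh_of_pos (fun t => by simpa using hb' t)
        (fun t => by simpa using hneg t)
      refine Or.inr (Or.inr (Or.inr (Or.inl ⟨c, fun t => ?_⟩)))
      have := hc t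
      linarith


/-! ## PART 1: wide cut-offs by scaling -/

section wide

variable {n : ℕ}

/-- the dilated test function `η₀(r x)`. -/
theorem dgC1_scale_contDiff {η : DgE n → ℝ} (hη : ContDiff ℝ 1 η) (r : ℝ) :
    ContDiff ℝ 1 (fun x => η (r • x)) :=
  hη.comp (contDiff_const_smul r)

theorem dgC1_scale_int_sq (η : DgE n → ℝ) (r : ℝ) :
    ∫ x, (η (r • x)) ^ 2 = |(r ^ n)⁻¹| * ∫ x, η x ^ 2 := by
  have := Measure.integral_comp_smul (volume : Measure (DgE n)) (fun x => η x ^ 2) r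
  simpa using this

theorem dgC1_scale_int_grad (η : DgE n → ℝ) (r : ℝ) :
    ∫ x, ‖fderiv ℝ (fun y => η (r • y)) x‖ ^ 2 = r ^ 2 * (|(r ^ n)⁻¹| * ∫ x, ‖fderiv ℝ η x‖ ^ 2) := by
  have h1 : ∀ x, ‖fderiv ℝ (fun y => η (r • y)) x‖ ^ 2 = r ^ 2 * ‖fderiv ℝ η (r • x)‖ ^ 2 := by
    intro x
    rw [fderiv_comp_smul, norm_smul, mul_pow, Real.norm_eq_abs, sq_abs]
  simp_rw [h1]
  rw [integral_const_mul]
  have := Measure.integral_comp_smul (volume : Measure (DgE n)) (fun x => ‖fderiv ℝ η x‖ ^ 2) r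
  rw [this]
  simp

/-- **no spectral gap at the bottom of `-Δ` on `ℝⁿ`**: `∫ a η² ≤ ∫ b |∇η|²` for all `η ∈ C¹_c`, `a ≥ c > 0`, `b ≤ 1` is impossible. -/
theorem dgC1_no_gap {a b : DgE n → ℝ} {c : ℝ} (hc : 0 < c) (ha : Continuous a) (hb : Continuous b)
    (hac : ∀ x, c ≤ a x) (hb1 : ∀ x, b x ≤ 1)
    (H : ∀ η : DgE n → ℝ, ContDiff ℝ 1 η → HasCompactSupport η →
      ∫ x, a x * η x ^ 2 ≤ ∫ x, b x * ‖fderiv ℝ η x‖ ^ 2) : False := by
  let f : ContDiffBump (0 : DgE n) := default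
  set η₀ : DgE n → ℝ := fun x => f x with hη₀
  have h1 : ContDiff ℝ 1 η₀ := f.contDiff (n := 1)
  have h2 : HasCompactSupport η₀ := f.hasCompactSupport
  set A := ∫ x, ‖fderiv ℝ η₀ x‖ ^ 2 with hA
  set B := ∫ x, η₀ x ^ 2 with hB
  have hA0 : 0 ≤ A := integral_nonneg fun x => by positivity
  have hsqc : HasCompactSupport (fun x => η₀ x ^ 2) := by
    have : (fun y => η₀ y ^ 2) = fun y => η₀ y * η₀ y := by funext y; ring
    rw [this]; exact h2.mul_left
  have hB0 : 0 < B := by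
    refine Continuous.integral_pos_of_hasCompactSupport_nonneg_nonzero (x := 0)
      (h1.continuous.pow 2) hsqc (fun x => by positivity) ?_
    have : η₀ 0 = 1 := f.one_of_mem_closedBall (by simp [f.rIn_pos.le])
    simp [this]
  -- the scale
  set r : ℝ := min 1 (c * B / (2 * (A + 1))) with hr
  have hr0 : 0 < r := lt_min one_pos (by positivity)
  have hr1 : r ≤ 1 := min_le_left _ _
  have hr2 : r ≤ c * B / (2 * (A + 1)) := min_le_right _ _
  have hη : ContDiff ℝ 1 (fun x => η₀ (r • x)) := dgC1_scale_contDiff h1 r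
  have hηc : HasCompactSupport (fun x => η₀ (r • x)) := h2.comp_smul hr0.ne'
  have hH := H _ hη hηc
  have hηsqc : HasCompactSupport (fun x => η₀ (r • x) ^ 2) := by
    have : (fun y => η₀ (r • y) ^ 2) = fun y => η₀ (r • y) * η₀ (r • y) := by funext y; ring
    rw [this]; exact hηc.mul_left
  have hgc : Continuous fun x => ‖fderiv ℝ (fun y => η₀ (r • y)) x‖ ^ 2 :=
    dg8_continuous_norm_fderiv_sq hη
  have hgs : HasCompactSupport fun x => ‖fderiv ℝ (fun y => η₀ (r • y)) x‖ ^ 2 :=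
    dg8_hasCompactSupport_norm_fderiv_sq hηc
  have hL : c * ∫ x, η₀ (r • x) ^ 2 ≤ ∫ x, a x * η₀ (r • x) ^ 2 := by
    rw [← integral_const_mul]
    refine integral_mono
      ((Continuous.integrable_of_hasCompactSupport (hη.continuous.pow 2) hηsqc).const_mul c)
      (Continuous.integrable_of_hasCompactSupport (ha.mul (hη.continuous.pow 2)) hηsqc.mul_left)
      (fun x => ?_)
    exact mul_le_mul_of_nonneg_right (hac x) (by positivity)
  have hR : ∫ x, b x * ‖fderiv ℝ (fun y => η₀ (r • y)) x‖ ^ 2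
      ≤ ∫ x, ‖fderiv ℝ (fun y => η₀ (r • y)) x‖ ^ 2 := by
    refine integral_mono
      (Continuous.integrable_of_hasCompactSupport (hb.mul hgc) hgs.mul_left)
      (Continuous.integrable_of_hasCompactSupport hgc hgs) (fun x => ?_)
    have : 0 ≤ ‖fderiv ℝ (fun y => η₀ (r • y)) x‖ ^ 2 := by positivity
    show b x * ‖fderiv ℝ (fun y => η₀ (r • y)) x‖ ^ 2 ≤ ‖fderiv ℝ (fun y => η₀ (r • y)) x‖ ^ 2
    nlinarith [hb1 x]
  rw [dgC1_scale_int_sq] at hL
  rw [dgC1_scale_int_grad] at hR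
  have hk : 0 < |(r ^ n)⁻¹| := abs_pos.mpr (inv_ne_zero (pow_ne_zero _ hr0.ne'))
  have h3 : c * (|(r ^ n)⁻¹| * B) ≤ r ^ 2 * (|(r ^ n)⁻¹| * A) := le_trans hL (le_trans hH hR)
  have h4 : c * B ≤ r ^ 2 * A := by
    have : |(r ^ n)⁻¹| * (c * B) ≤ |(r ^ n)⁻¹| * (r ^ 2 * A) := by nlinarith
    exact le_of_mul_le_mul_left this hk
  have h5 : r ^ 2 * A ≤ r * A := by
    have : r ^ 2 ≤ r := by nlinarith
    exact mul_le_mul_of_nonneg_right this hA0
  have h6 : r * (2 * (A + 1)) ≤ c * B := by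
    rwa [le_div_iff₀ (by positivity)] at hr2
  have h7 : 0 < c * B := mul_pos hc hB0
  nlinarith

end wide

/-! ## PART 2: functions of `⟨a, x⟩` -/

section oneD

variable {n : ℕ}

theorem dgC1_hasFDerivAt_comp_inner {φ : ℝ → ℝ} {φ' : ℝ} (a x : DgE n)
    (hφ : HasDerivAt φ φ' (inner ℝ a x)) :
    HasFDerivAt (fun y : DgE n => φ (inner ℝ a y)) (φ' • innerSL ℝ a) x := by
  have h := (innerSL ℝ a).hasFDerivAt (x := x)
  exact HasDerivAt.comp_hasFDerivAt (f := fun y => innerSL ℝ a y) x hφ h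

theorem dgC1_D_comp_inner {φ : ℝ → ℝ} {φ' : ℝ} (a x : DgE n)
    (hφ : HasDerivAt φ φ' (inner ℝ a x)) (i : Fin n) :
    dg8D i (fun y : DgE n => φ (inner ℝ a y)) x = φ' * a i := by
  unfold dg8D
  rw [(dgC1_hasFDerivAt_comp_inner a x hφ).fderiv]
  simp [EuclideanSpace.inner_single_right]

theorem dgC1_sum_sq (a : DgE n) : ∑ i, a i ^ 2 = ‖a‖ ^ 2 := by
  rw [EuclideanSpace.norm_sq_eq]
  refine Finset.sum_congr rfl fun i _ => ?_
  rw [Real.norm_eq_abs, sq_abs]

theorem dgC1_inner_smul_self {a : DgE n} (ha : ‖a‖ = 1) (t : ℝ) : inner ℝ a (t • a) = t := by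
  rw [inner_smul_right, real_inner_self_eq_norm_sq, ha]; ring

/-- the profile of a one-dimensional solution solves the ODE; gradient of the solution. -/
theorem dgC1_profile {u : DgE n → ℝ} (hu : DgSol n u) {a : DgE n} {h : ℝ → ℝ} (ha : ‖a‖ = 1)
    (hx : ∀ x, u x = h (inner ℝ a x)) :
    DgC1Sol h (deriv h) ∧ (∀ t, |h t| ≤ 1) ∧
      (∀ x, ‖fderiv ℝ u x‖ ^ 2 = deriv h (inner ℝ a x) ^ 2) ∧
      (∀ x w, fderiv ℝ u x w = deriv h (inner ℝ a x) * inner ℝ a w) := by
  have hh : h = fun t => u (t • a) := by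
    funext t; rw [hx, dgC1_inner_smul_self ha]
  have hu' : u = fun y => h (inner ℝ a y) := funext hx
  have hC2 : ContDiff ℝ 2 h := by
    rw [hh]
    exact hu.smooth.comp (contDiff_id.smul contDiff_const)
  have hd1 : ∀ t, HasDerivAt h (deriv h t) t :=
    fun t => ((hC2.differentiable (by norm_num)) t).hasDerivAt
  have hC1 : ContDiff ℝ 1 (deriv h) := by
    have := ContDiff.iterate_deriv' 1 1 (f := h) (by exact_mod_cast hC2)
    simpa using this
  have hd2 : ∀ t, HasDerivAt (deriv h) (deriv (deriv h) t) t :=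
    fun t => ((hC1.differentiable (by norm_num)) t).hasDerivAt
  have hD1 : ∀ i, dg8D i u = fun y => (fun t => deriv h t * a i) (inner ℝ a y) := by
    intro i; funext y
    rw [hu']
    exact dgC1_D_comp_inner a y (hd1 _) i
  have hlap : ∀ x, Laplacian.laplacian u x = deriv (deriv h) (inner ℝ a x) := by
    intro x
    rw [dg8_laplacian_eq_sum_DD hu.smooth]
    have : ∀ i, dg8D i (dg8D i u) x = deriv (deriv h) (inner ℝ a x) * a i ^ 2 := by
      intro i
      rw [hD1 i, dgC1_D_comp_inner a x ((hd2 (inner ℝ a x)).mul_const (a i)) i]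
      ring
    simp_rw [this]
    rw [← Finset.mul_sum, dgC1_sum_sq, ha]; ring
  refine ⟨⟨hd1, fun t => ?_⟩, fun t => ?_, fun x => ?_, fun x w => ?_⟩
  · have h1 := hlap (t • a)
    rw [hu.pde, dgC1_inner_smul_self ha, hx, dgC1_inner_smul_self ha] at h1
    rw [h1]; exact hd2 t
  · have := hu.range (t • a)
    rw [hx, dgC1_inner_smul_self ha] at this
    exact abs_le.mpr this
  · rw [dg8_norm_fderiv_sq]
    have : ∀ i, dg8D i u x ^ 2 = deriv h (inner ℝ a x) ^ 2 * a i ^ 2 := by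
      intro i; rw [hD1 i]; ring
    simp_rw [this]
    rw [← Finset.mul_sum, dgC1_sum_sq, ha]; ring
  · have h1 := (dgC1_hasFDerivAt_comp_inner a x (hd1 (inner ℝ a x))).fderiv
    rw [← hu'] at h1
    rw [h1]; simp

end oneD

/-! ## PART 3: the diffuse variables and the `q`-test -/

section diffuse

variable {n : ℕ}

/-- `q = 1 - v²`. -/
noncomputable def dgC1_q (v : DgE n → ℝ) (x : DgE n) : ℝ := 1 - v x ^ 2

/-- the polynomial form of the defect: `P = q² - 2|∇v|² = q² D = 4 (W(v) - |∇v|²/2)`. -/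
noncomputable def dgC1_P (v : DgE n → ℝ) (x : DgE n) : ℝ := (1 - v x ^ 2) ^ 2 - 2 * ‖fderiv ℝ v x‖ ^ 2

theorem dgC1_q_nonneg {v : DgE n → ℝ} (hv : DgSol n v) (x : DgE n) : 0 ≤ dgC1_q v x := by
  unfold dgC1_q
  have := hv.range x
  nlinarith [this.1, this.2]

theorem dgC1_q_le_one (v : DgE n → ℝ) (x : DgE n) : dgC1_q v x ≤ 1 := by
  unfold dgC1_q; nlinarith [sq_nonneg (v x)]

theorem dgC1_q_cont {v : DgE n → ℝ} (hv : DgSol n v) : Continuous (dgC1_q v) := by
  unfold dgC1_q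
  have := hv.smooth.continuous
  fun_prop

theorem dgC1_P_cont {v : DgE n → ℝ} (hv : DgSol n v) : Continuous (dgC1_P v) := by
  unfold dgC1_P
  have h1 := hv.smooth.continuous
  have h2 := dg8_continuous_norm_fderiv_sq (hv.smooth.of_le (by norm_num))
  fun_prop

/-- (2.9) `W(v) - |∇v|²/2 = q² D / 4`, in the polynomial form. -/
theorem dgC1_P_eq (v : DgE n → ℝ) (x : DgE n) :
    dgC1_P v x = 4 * (dgW (v x) - ‖fderiv ℝ v x‖ ^ 2 / 2) := by
  unfold dgC1_P dgW; ring

/-- (2.8) `(-Δ + 3v² - 1) q = - q² D`, in the polynomial form. -/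
theorem dgC1_L_q {v : DgE n → ℝ} (hv : DgSol n v) (x : DgE n) :
    - Laplacian.laplacian (dgC1_q v) x + (3 * v x ^ 2 - 1) * dgC1_q v x = - dgC1_P v x := by
  have : dgC1_q v = fun y => 1 - v y ^ 2 := rfl
  rw [this, dg8_laplacian_q hv.smooth, hv.pde]
  unfold dgC1_P
  ring

/-- **the `q`-test** (2.10): `∫ q P η² ≤ ∫ q² |∇η|²` for a stable solution (`q P = q³ D`). -/
theorem dgC1_q_test {v : DgE n → ℝ} (hv : DgSol n v) (hs : DgStable n v) {η : DgE n → ℝ}
    (hη : ContDiff ℝ 1 η) (hηc : HasCompactSupport η) :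
    ∫ x, (dgC1_q v x * dgC1_P v x) * η x ^ 2 ≤ ∫ x, dgC1_q v x ^ 2 * ‖fderiv ℝ η x‖ ^ 2 := by
  have h := dg8_q_test hv.smooth hv.pde hs hη hηc
  have e : ∀ x, (dgC1_q v x * dgC1_P v x) * η x ^ 2
      = ((1 - v x ^ 2) ^ 3 - 2 * (1 - v x ^ 2) * ‖fderiv ℝ v x‖ ^ 2) * η x ^ 2 := by
    intro x; unfold dgC1_q dgC1_P; ring
  simp_rw [e]
  exact h

/-- a uniformly positive weighted defect is unstable. -/
theorem dgC1_unstable_of_gap {v : DgE n → ℝ} (hv : DgSol n v) {c : ℝ} (hc : 0 < c)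
    (hgap : ∀ x, c ≤ dgC1_q v x * dgC1_P v x) : ¬ DgStable n v := by
  intro hs
  refine dgC1_no_gap (a := fun x => dgC1_q v x * dgC1_P v x) (b := fun x => dgC1_q v x ^ 2) hc
    ((dgC1_q_cont hv).mul (dgC1_P_cont hv)) ((dgC1_q_cont hv).pow 2) hgap (fun x => ?_)
    (fun η hη hηc => dgC1_q_test hv hs hη hηc)
  have h0 := dgC1_q_nonneg hv x
  have h1 := dgC1_q_le_one v x
  nlinarith

end diffuse

/-! ## PART 4: coordinate calculus and the Bochner identity -/

section bochner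

variable {n : ℕ}

theorem dgC1_D_add {f g : DgE n → ℝ} {x : DgE n} (hf : DifferentiableAt ℝ f x)
    (hg : DifferentiableAt ℝ g x) (i : Fin n) :
    dg8D i (fun y => f y + g y) x = dg8D i f x + dg8D i g x := by
  unfold dg8D; rw [fderiv_fun_add hf hg]; rfl

theorem dgC1_D_sub {f g : DgE n → ℝ} {x : DgE n} (hf : DifferentiableAt ℝ f x)
    (hg : DifferentiableAt ℝ g x) (i : Fin n) :
    dg8D i (fun y => f y - g y) x = dg8D i f x - dg8D i g x := by
  unfold dg8D; rw [fderiv_fun_sub hf hg]; rfl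

theorem dgC1_D_const (c : ℝ) (x : DgE n) (i : Fin n) : dg8D i (fun _ : DgE n => c) x = 0 := by
  unfold dg8D; simp

theorem dgC1_D_const_mul {f : DgE n → ℝ} {x : DgE n} (hf : DifferentiableAt ℝ f x) (c : ℝ)
    (i : Fin n) : dg8D i (fun y => c * f y) x = c * dg8D i f x := by
  unfold dg8D; rw [fderiv_const_mul hf]; rfl

theorem dgC1_D_sum {ι : Type} (s : Finset ι) {f : ι → DgE n → ℝ} {x : DgE n}
    (hf : ∀ j ∈ s, DifferentiableAt ℝ (f j) x) (i : Fin n) :
    dg8D i (fun y => ∑ j ∈ s, f j y) x = ∑ j ∈ s, dg8D i (f j) x := by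
  unfold dg8D; rw [fderiv_fun_sum hf]; simp

theorem dgC1_DD_eq {f : DgE n → ℝ} (hf : ContDiff ℝ 2 f) (i j : Fin n) (x : DgE n) :
    dg8D i (dg8D j f) x =
      fderiv ℝ (fderiv ℝ f) x (EuclideanSpace.single i 1) (EuclideanSpace.single j 1) := by
  have h : ContDiff ℝ 1 (fderiv ℝ f) := hf.fderiv_right (by norm_cast)
  have hd : DifferentiableAt ℝ (fderiv ℝ f) x := (h.differentiable (by norm_num)) x
  unfold dg8D
  rw [fderiv_clm_apply hd (differentiableAt_const _)]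
  simp

theorem dgC1_D_comm {f : DgE n → ℝ} (hf : ContDiff ℝ 2 f) (i j : Fin n) (x : DgE n) :
    dg8D i (dg8D j f) x = dg8D j (dg8D i f) x := by
  rw [dgC1_DD_eq hf, dgC1_DD_eq hf]
  exact (hf.contDiffAt.isSymmSndFDerivAt (by simp)).eq _ _

theorem dgC1_diff_D {f : DgE n → ℝ} (hf : ContDiff ℝ 2 f) (i : Fin n) :
    Differentiable ℝ (dg8D i f) :=
  (dg8_contDiff_D (k := 1) (by exact_mod_cast hf) i).differentiable (by norm_num)

/-- **Bochner's identity** on `ℝⁿ`: `Δ |∇U|² = 2 |∇²U|² + 2 ∇U · ∇ΔU`. -/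
theorem dgC1_bochner {U : DgE n → ℝ} (hU : ContDiff ℝ 3 U) (x : DgE n) :
    Laplacian.laplacian (fun y => ‖fderiv ℝ U y‖ ^ 2) x =
      2 * ∑ i, ∑ j, dg8D j (dg8D i U) x ^ 2
        + 2 * ∑ i, dg8D i U x * dg8D i (Laplacian.laplacian U) x := by
  have hU2 : ContDiff ℝ 2 U := hU.of_le (by norm_num)
  have h1 : ∀ i, ContDiff ℝ 2 (dg8D i U) := fun i => dg8_contDiff_D (k := 2) (by exact_mod_cast hU) i
  have h1d : ∀ i, Differentiable ℝ (dg8D i U) := fun i => (h1 i).differentiable (by norm_num)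
  have h2 : ∀ i j, ContDiff ℝ 1 (dg8D j (dg8D i U)) :=
    fun i j => dg8_contDiff_D (k := 1) (by exact_mod_cast h1 i) j
  have h2d : ∀ i j, Differentiable ℝ (dg8D j (dg8D i U)) :=
    fun i j => (h2 i j).differentiable (by norm_num)
  have eN : (fun y => ‖fderiv ℝ U y‖ ^ 2) = fun y => ∑ i, dg8D i U y ^ 2 := by
    funext y; exact dg8_norm_fderiv_sq U y
  have hN : ContDiff ℝ 2 (fun y => ∑ i, dg8D i U y ^ 2) :=
    ContDiff.sum fun i _ => (h1 i).pow 2
  have eL : Laplacian.laplacian U = fun y => ∑ j, dg8D j (dg8D j U) y := by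
    funext y; exact dg8_laplacian_eq_sum_DD hU2 y
  -- first derivative of N
  have e1 : ∀ j, dg8D j (fun y => ∑ i, dg8D i U y ^ 2)
      = fun y => ∑ i, 2 * (dg8D i U y * dg8D j (dg8D i U) y) := by
    intro j; funext y
    rw [dgC1_D_sum (f := fun i y => dg8D i U y ^ 2) Finset.univ (fun i _ => ((h1d i) y).pow 2)]
    refine Finset.sum_congr rfl fun i _ => ?_
    rw [dg8_D_sq ((h1d i) y)]; ring
  -- second derivative
  have e2 : ∀ j, dg8D j (dg8D j (fun y => ∑ i, dg8D i U y ^ 2)) x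
      = ∑ i, (2 * dg8D j (dg8D i U) x ^ 2 + 2 * (dg8D i U x * dg8D j (dg8D j (dg8D i U)) x)) := by
    intro j
    rw [e1 j, dgC1_D_sum (f := fun i y => 2 * (dg8D i U y * dg8D j (dg8D i U) y)) Finset.univ
      (fun i _ => (((h1d i) x).mul ((h2d i j) x)).const_mul 2)]
    refine Finset.sum_congr rfl fun i _ => ?_
    rw [dgC1_D_const_mul (f := fun y => dg8D i U y * dg8D j (dg8D i U) y)
      (((h1d i) x).mul ((h2d i j) x)), dg8_D_mul ((h1d i) x) ((h2d i j) x)]
    ring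
  -- commutation of third derivatives
  have e3 : ∀ i j, dg8D j (dg8D j (dg8D i U)) x = dg8D i (dg8D j (dg8D j U)) x := by
    intro i j
    have a1 : dg8D j (dg8D i U) = dg8D i (dg8D j U) := by
      funext y; exact dgC1_D_comm hU2 j i y
    rw [a1]
    exact dgC1_D_comm (h1 j) j i x
  have e4 : ∀ i, dg8D i (Laplacian.laplacian U) x = ∑ j, dg8D i (dg8D j (dg8D j U)) x := by
    intro i
    rw [eL, dgC1_D_sum (f := fun j y => dg8D j (dg8D j U) y) Finset.univ (fun j _ => (h2d j j) x)]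
  rw [eN, dg8_laplacian_eq_sum_DD hN]
  have e5 : ∀ j, dg8D j (dg8D j (fun y => ∑ i, dg8D i U y ^ 2)) x
      = ∑ i, (2 * dg8D j (dg8D i U) x ^ 2 + 2 * (dg8D i U x * dg8D i (dg8D j (dg8D j U)) x)) := by
    intro j; rw [e2 j]
    exact Finset.sum_congr rfl fun i _ => by rw [e3 i j]
  rw [Finset.sum_congr rfl fun j _ => e5 j, Finset.sum_comm, Finset.mul_sum, Finset.mul_sum,
    ← Finset.sum_add_distrib]
  refine Finset.sum_congr rfl fun i _ => ?_
  rw [e4 i, Finset.sum_add_distrib, Finset.mul_sum, Finset.mul_sum, Finset.mul_sum]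

end bochner

/-! ## PART 5: the inverse profile `U = g⁻¹(v)`, the defect `D = 1 - |∇U|²`, (2.6)-(2.9) -/

section inverse

variable {n : ℕ}

/-- `g⁻¹(s) = √2 artanh s`. -/
noncomputable def dgC1_f (s : ℝ) : ℝ := Real.sqrt 2 / 2 * (Real.log (1 + s) - Real.log (1 - s))

theorem dgC1_one_sub_sq_pos {s : ℝ} (hs : s ∈ Ioo (-1 : ℝ) 1) : 0 < 1 - s ^ 2 := by
  nlinarith [hs.1, hs.2]

theorem dgC1_f_hasDerivAt {s : ℝ} (hs : s ∈ Ioo (-1 : ℝ) 1) :
    HasDerivAt dgC1_f (Real.sqrt 2 / (1 - s ^ 2)) s := by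
  have h1 : 0 < 1 + s := by linarith [hs.1]
  have h2 : 0 < 1 - s := by linarith [hs.2]
  have a1 := ((hasDerivAt_id s).const_add 1).log h1.ne'
  have a2 := ((hasDerivAt_id s).const_sub 1).log h2.ne'
  have a3 := (a1.fun_sub a2).const_mul (Real.sqrt 2 / 2)
  have e : Real.sqrt 2 / 2 * (1 / (1 + id s) - -1 / (1 - id s)) = Real.sqrt 2 / (1 - s ^ 2) := by
    have h3 : (1 - s ^ 2) = (1 + s) * (1 - s) := by ring
    rw [h3]
    simp only [id]
    field_simp
    ring
  rw [e] at a3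
  exact a3

theorem dgC1_f_deriv_eventually {s : ℝ} (hs : s ∈ Ioo (-1 : ℝ) 1) :
    deriv dgC1_f =ᶠ[𝓝 s] fun t => Real.sqrt 2 / (1 - t ^ 2) := by
  filter_upwards [isOpen_Ioo.mem_nhds hs] with t ht
  exact (dgC1_f_hasDerivAt ht).deriv

theorem dgC1_f_deriv2 {s : ℝ} (hs : s ∈ Ioo (-1 : ℝ) 1) :
    deriv (deriv dgC1_f) s = 2 * Real.sqrt 2 * s / (1 - s ^ 2) ^ 2 := by
  rw [(dgC1_f_deriv_eventually hs).deriv_eq]
  have hq := dgC1_one_sub_sq_pos hs
  have b1 : HasDerivAt (fun t : ℝ => 1 - t ^ 2) (-((2 : ℕ) * s ^ (2 - 1) * 1)) s :=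
    ((hasDerivAt_id s).fun_pow 2).const_sub 1
  have b2 := (hasDerivAt_const s (Real.sqrt 2)).fun_div b1 hq.ne'
  rw [b2.deriv]
  field_simp
  push_cast
  ring

theorem dgC1_f_contDiffAt {s : ℝ} (hs : s ∈ Ioo (-1 : ℝ) 1) : ContDiffAt ℝ ∞ dgC1_f s := by
  have h1 : (1 + s) ≠ 0 := by linarith [hs.1]
  have h2 : (1 - s) ≠ 0 := by linarith [hs.2]
  unfold dgC1_f
  exact contDiffAt_const.mul (((contDiffAt_const.add contDiffAt_id).log h1).sub
    ((contDiffAt_const.sub contDiffAt_id).log h2))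

theorem dgC1_tanh_f {s : ℝ} (hs : s ∈ Ioo (-1 : ℝ) 1) : Real.tanh (dgC1_f s / Real.sqrt 2) = s := by
  have h1 : (1 + s) ≠ 0 := by linarith [hs.1]
  have h2 : (1 - s) ≠ 0 := by linarith [hs.2]
  have e : dgC1_f s / Real.sqrt 2 = Real.artanh s := by
    rw [Real.artanh_eq_half_log ⟨hs.1.le, hs.2.le⟩, Real.log_div h1 h2]
    unfold dgC1_f
    have := dgC1_sqrt2_pos.ne'
    field_simp
  rw [e, Real.tanh_artanh hs]

/-- the inverse profile `U = g⁻¹(v)`. -/
noncomputable def dgC1_U (v : DgE n → ℝ) (x : DgE n) : ℝ := dgC1_f (v x)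

/-- the defect `D = 1 - |∇U|²`. -/
noncomputable def dgC1_Dd (v : DgE n → ℝ) (x : DgE n) : ℝ := 1 - ‖fderiv ℝ (dgC1_U v) x‖ ^ 2

/-- `|T|² = |∇²U|²`. -/
noncomputable def dgC1_T2 (v : DgE n → ℝ) (x : DgE n) : ℝ :=
  ∑ i, ∑ j, dg8D j (dg8D i (dgC1_U v)) x ^ 2

/-- the drift `-2√2 v ∇U` of the operator `𝓛` of (2.7). -/
noncomputable def dgC1_b (v : DgE n → ℝ) (x : DgE n) : DgE n :=
  ∑ i, (-(2 * Real.sqrt 2 * v x) * dg8D i (dgC1_U v) x) • EuclideanSpace.single i (1 : ℝ)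

variable {v : DgE n → ℝ}

theorem dgC1_v_smooth (hv : DgSol n v) : ContDiff ℝ ∞ v := dgA3_smooth hv.smooth hv.range hv.pde

theorem dgC1_U_smooth (hv : DgSol n v) (hlt : ∀ x, v x ∈ Ioo (-1 : ℝ) 1) :
    ContDiff ℝ ∞ (dgC1_U v) := by
  rw [contDiff_iff_contDiffAt]
  intro x
  exact (dgC1_f_contDiffAt (hlt x)).comp x (dgC1_v_smooth hv).contDiffAt

theorem dgC1_U_hasFDerivAt (hv : DgSol n v) (hlt : ∀ x, v x ∈ Ioo (-1 : ℝ) 1) (x : DgE n) :
    HasFDerivAt (dgC1_U v) ((Real.sqrt 2 / (1 - v x ^ 2)) • fderiv ℝ v x) x :=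
  (dgC1_f_hasDerivAt (hlt x)).comp_hasFDerivAt x
    ((hv.smooth.differentiable (by norm_num)) x).hasFDerivAt

theorem dgC1_U_D (hv : DgSol n v) (hlt : ∀ x, v x ∈ Ioo (-1 : ℝ) 1) (i : Fin n) (x : DgE n) :
    dg8D i (dgC1_U v) x = Real.sqrt 2 / (1 - v x ^ 2) * dg8D i v x := by
  unfold dg8D
  rw [(dgC1_U_hasFDerivAt hv hlt x).fderiv]
  rfl

theorem dgC1_v_D (hv : DgSol n v) (hlt : ∀ x, v x ∈ Ioo (-1 : ℝ) 1) (i : Fin n) (x : DgE n) :
    dg8D i v x = (1 - v x ^ 2) / Real.sqrt 2 * dg8D i (dgC1_U v) x := by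
  rw [dgC1_U_D hv hlt]
  have h1 := (dgC1_one_sub_sq_pos (hlt x)).ne'
  have h2 := dgC1_sqrt2_pos.ne'
  field_simp

theorem dgC1_N_eq (hv : DgSol n v) (hlt : ∀ x, v x ∈ Ioo (-1 : ℝ) 1) (x : DgE n) :
    ‖fderiv ℝ (dgC1_U v) x‖ ^ 2 = 2 * ‖fderiv ℝ v x‖ ^ 2 / (1 - v x ^ 2) ^ 2 := by
  rw [(dgC1_U_hasFDerivAt hv hlt x).fderiv, norm_smul, mul_pow, Real.norm_eq_abs, sq_abs, div_pow,
    Real.sq_sqrt (by norm_num)]
  ring

/-- `P = q² D`. -/
theorem dgC1_P_eq_D (hv : DgSol n v) (hlt : ∀ x, v x ∈ Ioo (-1 : ℝ) 1) (x : DgE n) :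
    dgC1_P v x = dgC1_q v x ^ 2 * dgC1_Dd v x := by
  unfold dgC1_P dgC1_q dgC1_Dd
  rw [dgC1_N_eq hv hlt]
  have h1 := (dgC1_one_sub_sq_pos (hlt x)).ne'
  field_simp

/-- `v = g(U)`. -/
theorem dgC1_v_eq (hlt : ∀ x, v x ∈ Ioo (-1 : ℝ) 1) (x : DgE n) :
    v x = Real.tanh (dgC1_U v x / Real.sqrt 2) := (dgC1_tanh_f (hlt x)).symm

/-- (2.6) `Δ U = - √2 v D`. -/
theorem dgC1_lap_U (hv : DgSol n v) (hlt : ∀ x, v x ∈ Ioo (-1 : ℝ) 1) (x : DgE n) :
    Laplacian.laplacian (dgC1_U v) x = - Real.sqrt 2 * v x * dgC1_Dd v x := by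
  have h := dgL_lap_comp (f := dgC1_f) (u := v) (x := x)
    ((dgC1_f_contDiffAt (hlt x)).of_le (by norm_cast)) hv.smooth.contDiffAt
  have e : (fun y => dgC1_f (v y)) = dgC1_U v := rfl
  rw [e] at h
  rw [h, dgC1_f_deriv2 (hlt x), (dgC1_f_hasDerivAt (hlt x)).deriv, hv.pde]
  unfold dgC1_Dd
  rw [dgC1_N_eq hv hlt]
  have h1 := (dgC1_one_sub_sq_pos (hlt x)).ne'
  field_simp
  ring

theorem dgC1_Dd_smooth (hv : DgSol n v) (hlt : ∀ x, v x ∈ Ioo (-1 : ℝ) 1) :
    ContDiff ℝ 2 (dgC1_Dd v) := by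
  have hU : ContDiff ℝ 3 (dgC1_U v) := (dgC1_U_smooth hv hlt).of_le (by norm_cast)
  have e : dgC1_Dd v = fun y => 1 - ∑ i, dg8D i (dgC1_U v) y ^ 2 := by
    funext y; unfold dgC1_Dd; rw [dg8_norm_fderiv_sq]
  rw [e]
  exact contDiff_const.sub (ContDiff.sum fun i _ =>
    (dg8_contDiff_D (k := 2) (by exact_mod_cast hU) i).pow 2)

theorem dgC1_fderiv_b (w : DgE n → ℝ) (x : DgE n) :
    fderiv ℝ w x (dgC1_b v x)
      = ∑ i, (-(2 * Real.sqrt 2 * v x) * dg8D i (dgC1_U v) x) * dg8D i w x := by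
  unfold dgC1_b dg8D
  rw [map_sum]
  refine Finset.sum_congr rfl fun i _ => ?_
  rw [map_smul, smul_eq_mul]

/-- (2.7) `𝓛 D = 2 |T|²`, `𝓛 = -Δ + 2√2 v ∇U·∇ + 2 q |∇U|²`. -/
theorem dgC1_D_eqn (hv : DgSol n v) (hlt : ∀ x, v x ∈ Ioo (-1 : ℝ) 1) (x : DgE n) :
    Laplacian.laplacian (dgC1_Dd v) x + fderiv ℝ (dgC1_Dd v) x (dgC1_b v x)
      = 2 * dgC1_q v x * ‖fderiv ℝ (dgC1_U v) x‖ ^ 2 * dgC1_Dd v x - 2 * dgC1_T2 v x := by
  have hU : ContDiff ℝ 3 (dgC1_U v) := (dgC1_U_smooth hv hlt).of_le (by norm_cast)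
  have hD := dgC1_Dd_smooth hv hlt
  have hDd : Differentiable ℝ (dgC1_Dd v) := hD.differentiable (by norm_num)
  have hvd : Differentiable ℝ v := hv.smooth.differentiable (by norm_num)
  have hN : ContDiff ℝ 2 (fun y => ‖fderiv ℝ (dgC1_U v) y‖ ^ 2) := by
    have e : (fun y => ‖fderiv ℝ (dgC1_U v) y‖ ^ 2) = fun y => 1 - dgC1_Dd v y := by
      funext y; unfold dgC1_Dd; ring
    rw [e]; exact contDiff_const.sub hD
  have e1 : Laplacian.laplacian (dgC1_Dd v) x
      = - Laplacian.laplacian (fun y => ‖fderiv ℝ (dgC1_U v) y‖ ^ 2) x := by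
    have : dgC1_Dd v = fun y => (fun _ => (1 : ℝ)) y - (fun y => ‖fderiv ℝ (dgC1_U v) y‖ ^ 2) y := rfl
    rw [this, dgL_lap_sub contDiffAt_const hN.contDiffAt, dgL_lap_const]
    ring
  have e2 : Laplacian.laplacian (dgC1_U v) = fun y => (- Real.sqrt 2 * v y) * dgC1_Dd v y := by
    funext y; exact dgC1_lap_U hv hlt y
  have e3 : ∀ i, dg8D i (Laplacian.laplacian (dgC1_U v)) x
      = (- Real.sqrt 2 * dg8D i v x) * dgC1_Dd v x + (- Real.sqrt 2 * v x) * dg8D i (dgC1_Dd v) x := by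
    intro i
    rw [e2, dg8_D_mul ((hvd x).const_mul _) (hDd x), dgC1_D_const_mul (hvd x)]
  rw [e1, dgC1_bochner hU, dgC1_fderiv_b]
  simp_rw [e3, dgC1_v_D hv hlt]
  have e4 : ‖fderiv ℝ (dgC1_U v) x‖ ^ 2 = ∑ i, dg8D i (dgC1_U v) x ^ 2 := dg8_norm_fderiv_sq _ x
  rw [e4]
  unfold dgC1_T2 dgC1_q
  have hs := dgC1_sqrt2_pos.ne'
  have hss := dgC1_sqrt2_sq
  have e5 : ∀ i, dg8D i (dgC1_U v) x *
      (-Real.sqrt 2 * ((1 - v x ^ 2) / Real.sqrt 2 * dg8D i (dgC1_U v) x) * dgC1_Dd v x +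
        -Real.sqrt 2 * v x * dg8D i (dgC1_Dd v) x)
      = - ((1 - v x ^ 2) * dgC1_Dd v x) * dg8D i (dgC1_U v) x ^ 2
        - Real.sqrt 2 * v x * (dg8D i (dgC1_U v) x * dg8D i (dgC1_Dd v) x) := by
    intro i
    field_simp
    ring
  simp_rw [e5]
  rw [Finset.sum_sub_distrib, ← Finset.mul_sum, ← Finset.mul_sum]
  have e6 : ∑ i, -(2 * Real.sqrt 2 * v x) * dg8D i (dgC1_U v) x * dg8D i (dgC1_Dd v) x
      = -(2 * Real.sqrt 2 * v x) * ∑ i, dg8D i (dgC1_U v) x * dg8D i (dgC1_Dd v) x := by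
    rw [Finset.mul_sum]
    exact Finset.sum_congr rfl fun i _ => by ring
  rw [e6]
  ring

theorem dgC1_b_cont (hv : DgSol n v) (hlt : ∀ x, v x ∈ Ioo (-1 : ℝ) 1) : Continuous (dgC1_b v) := by
  have hU : ContDiff ℝ 1 (dgC1_U v) := (dgC1_U_smooth hv hlt).of_le (by norm_cast)
  have h1 : ∀ i, Continuous (dg8D i (dgC1_U v)) :=
    fun i => (dg8_contDiff_D (k := 0) (by exact_mod_cast hU) i).continuous
  have h2 := hv.smooth.continuous
  unfold dgC1_b
  refine continuous_finsetSum _ fun i _ => ?_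
  have := h1 i
  fun_prop

/-- a function all of whose second partial derivatives vanish is affine. -/
theorem dgC1_affine_of_hess_zero {U : DgE n → ℝ} (hU : ContDiff ℝ 2 U)
    (h0 : ∀ i j x, dg8D j (dg8D i U) x = 0) :
    ∃ a : DgE n, (∀ x, U x = inner ℝ a x + U 0) ∧ ∀ x, ‖fderiv ℝ U x‖ ^ 2 = ‖a‖ ^ 2 := by
  have h1 : ∀ i, Differentiable ℝ (dg8D i U) := dgC1_diff_D hU
  have hUd : Differentiable ℝ U := hU.differentiable (by norm_num)
  have hz : ∀ (w : DgE n → ℝ) (x : DgE n), (∀ j, dg8D j w x = 0) → fderiv ℝ w x = 0 := by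
    intro w x hw
    have : ‖fderiv ℝ w x‖ ^ 2 = 0 := by
      rw [dg8_norm_fderiv_sq]
      exact Finset.sum_eq_zero fun j _ => by rw [hw j]; ring
    exact norm_eq_zero.mp (pow_eq_zero_iff (by norm_num) |>.mp this)
  have h2 : ∀ i x, dg8D i U x = dg8D i U 0 := by
    intro i x
    exact is_const_of_fderiv_eq_zero (h1 i) (fun y => hz _ y fun j => h0 i j y) x 0
  let a : DgE n := WithLp.toLp 2 fun i => dg8D i U 0
  have ha : ∀ i, a i = dg8D i U 0 := fun i => rfl
  have hin : ∀ y : DgE n, HasFDerivAt (fun z : DgE n => inner ℝ a z) (innerSL ℝ a) y :=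
    fun y => (innerSL ℝ a).hasFDerivAt
  have h3 : ∀ x, U x - inner ℝ a x = U 0 - inner ℝ a (0 : DgE n) := by
    intro x
    refine is_const_of_fderiv_eq_zero (f := fun z => U z - inner ℝ a z)
      (hUd.sub fun y => (hin y).differentiableAt) (fun y => hz _ y fun j => ?_) x 0
    rw [dgC1_D_sub (hUd y) (hin y).differentiableAt, h2 j y]
    unfold dg8D
    rw [(hin y).fderiv]
    simp [EuclideanSpace.inner_single_right, ha, dg8D]
  refine ⟨a, fun x => ?_, fun x => ?_⟩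
  · have := h3 x
    rw [inner_zero_right] at this
    linarith
  · rw [dg8_norm_fderiv_sq, ← dgC1_sum_sq]
    exact Finset.sum_congr rfl fun i _ => by rw [h2 i x, ha]

end inverse

/-! ## EXITS -/

section exits

variable {n : ℕ}

theorem dgC1_zero_sol : DgSol n (fun _ : DgE n => (0 : ℝ)) := by
  refine ⟨contDiff_const, fun x => by simp, fun x => ?_⟩
  rw [dg8_laplacian_eq]
  simp

/-- EXIT: `v = 0` is unstable (end of Section 2.1 of the paper). -/
theorem dgC1_zero_unstable : ¬ DgStable n (fun _ : DgE n => (0 : ℝ)) := by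
  refine dgC1_unstable_of_gap dgC1_zero_sol (c := 1) one_pos fun x => ?_
  unfold dgC1_q dgC1_P
  simp

/-- EXIT: **a stable one-dimensional solution is a well or a planar transition** (any dimension). -/
theorem dgC1_oneD_rigid {v : DgE n → ℝ} (hv : DgSol n v) (hs : DgStable n v) (h1 : DgOneD n v) :
    DgRigid n v := by
  obtain ⟨a, h, ha, hx⟩ := h1
  obtain ⟨H, hb, hg, -⟩ := dgC1_profile hv ha hx
  rcases H.classify hb with c1 | c2 | ⟨c, hc⟩ | ⟨c, hc⟩ | ⟨δ, hδ, hE⟩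
  · exact Or.inl fun x => by rw [hx, c1]
  · exact Or.inr (Or.inl fun x => by rw [hx, c2])
  · exact Or.inr (Or.inr ⟨a, ha, c, fun x => by rw [hx, hc]⟩)
  · refine Or.inr (Or.inr ⟨-a, by rw [norm_neg, ha], -c, fun x => ?_⟩)
    rw [hx, hc, ← Real.tanh_neg, inner_neg_left]
    congr 1; ring
  · exfalso
    refine dgC1_unstable_of_gap hv (c := 16 * δ ^ 2) (by positivity) (fun x => ?_) hs
    have e1 := hE (inner ℝ a x)
    have e2 : dgC1_P v x = 4 * δ := by
      rw [dgC1_P_eq, hg, hx]; linarith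
    have e3 : 4 * δ ≤ dgC1_q v x := by
      have h0 := dgC1_q_nonneg hv x
      have h1 := dgC1_q_le_one v x
      have h2 : dgC1_q v x ^ 2 = 4 * dgW (v x) := by unfold dgC1_q dgW; ring
      have h3 : δ ≤ dgW (v x) := by
        rw [hx]; nlinarith [sq_nonneg (deriv h (inner ℝ a x))]
      nlinarith
    rw [e2]
    nlinarith

/-- EXIT: **a one-dimensional solution which is strictly increasing in some direction `e₀` is a planar transition oriented by `e₀`**. -/
theorem dgC1_oneD_mono {u : DgE n → ℝ} (hu : DgSol n u) (e₀ : DgE n)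
    (hmono : ∀ x, 0 < fderiv ℝ u x e₀) (h1 : DgOneD n u) :
    ∃ e : DgE n, ‖e‖ = 1 ∧ 0 < inner ℝ e e₀ ∧ ∃ c : ℝ,
      ∀ x, u x = Real.tanh ((inner ℝ e x - c) / Real.sqrt 2) := by
  obtain ⟨a, h, ha, hx⟩ := h1
  obtain ⟨H, hb, -, hf⟩ := dgC1_profile hu ha hx
  have hprod : ∀ t, 0 < deriv h t * inner ℝ a e₀ := by
    intro t
    have := hmono (t • a)
    rwa [hf, dgC1_inner_smul_self ha] at this
  have hne : ∀ t, deriv h t ≠ 0 := by
    intro t ht
    have := hprod t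
    rw [ht, zero_mul] at this
    exact lt_irrefl _ this
  have hb' : ∀ t, |h t| < 1 := by
    intro t
    rcases lt_or_eq_of_le (hb t) with h2 | h2
    · exact h2
    · exfalso
      rcases abs_eq (zero_le_one' ℝ) |>.mp h2 with h3 | h3
      · have hc := H.eq_one_of_touch hb h3
        have : h = fun _ => 1 := funext hc
        apply hne 0
        rw [this]; simp
      · have hc := H.eq_neg_one_of_touch hb h3
        have : h = fun _ => -1 := funext hc
        apply hne 0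
        rw [this]; simp
  rcases dgC1_sign_const H.cont' hne with hpos | hneg
  · obtain ⟨c, hc⟩ := H.eq_tanh_of_pos hb' hpos
    refine ⟨a, ha, ?_, c, fun x => by rw [hx, hc]⟩
    have h2 := hprod 0
    have h3 := hpos 0
    by_contra hcon
    push Not at hcon
    nlinarith
  · obtain ⟨c, hc⟩ := H.refl.eq_tanh_of_pos (fun t => hb' (-t)) (fun t => by simpa using hneg (-t))
    refine ⟨-a, by rw [norm_neg, ha], ?_, c, fun x => ?_⟩
    · rw [inner_neg_left]
      have h2 := hprod 0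
      have h3 := hneg 0
      nlinarith
    · have h2 := hc (- inner ℝ a x)
      simp only [neg_neg] at h2
      rw [hx, h2, inner_neg_left]

/-- EXIT: the last step of S0587 in the frozen words. -/
theorem dgC1_oneD_S0587 {u : DgE 8 → ℝ} (hu : DgSol 8 u)
    (hmono : ∀ x, 0 < fderiv ℝ u x (EuclideanSpace.single 7 1)) (h1 : DgOneD 8 u) :
    ∃ e : DgE 8, ‖e‖ = 1 ∧ 0 < e 7 ∧ ∃ c : ℝ,
      ∀ x, u x = Real.tanh ((inner ℝ e x - c) / Real.sqrt 2) := by
  obtain ⟨e, he, hpos, c, hc⟩ := dgC1_oneD_mono hu _ hmono h1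
  refine ⟨e, he, ?_, c, hc⟩
  simpa [EuclideanSpace.inner_single_right] using hpos

theorem dgC1_planar_oneD {u : DgE n → ℝ} (hu : DgPlanar n u) : DgOneD n u := by
  obtain ⟨a, ha, b, hb⟩ := hu
  exact ⟨a, fun t => Real.tanh ((t - b) / Real.sqrt 2), ha, hb⟩

variable {v : DgE n → ℝ}

/-- **EXIT (end of Section 2.1): if the defect vanishes at one point, the solution is a planar transition.**
`hmod` is Modica's bound (post A5) in the polynomial form `2|∇v|² ≤ (1-v²)²`. -/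
theorem dgC1_planar_of_defect_zero (hv : DgSol n v) (hlt : ∀ x, v x ∈ Ioo (-1 : ℝ) 1)
    (hmod : ∀ x, 0 ≤ dgC1_P v x) {x₀ : DgE n} (h0 : dgC1_P v x₀ = 0) : DgPlanar n v := by
  have hq : ∀ x, 0 < dgC1_q v x := fun x => dgC1_one_sub_sq_pos (hlt x)
  have hD0 : ∀ x, 0 ≤ dgC1_Dd v x := by
    intro x
    have h1 := hmod x
    rw [dgC1_P_eq_D hv hlt] at h1
    exact nonneg_of_mul_nonneg_right h1 (by have := hq x; positivity)
  have hDx : dgC1_Dd v x₀ = 0 := by
    rw [dgC1_P_eq_D hv hlt] at h0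
    rcases mul_eq_zero.mp h0 with h | h
    · exact absurd h (by have := hq x₀; positivity)
    · exact h
  have hU1 : ContDiff ℝ 1 (dgC1_U v) := (dgC1_U_smooth hv hlt).of_le (by norm_cast)
  have hT0 : ∀ x, 0 ≤ dgC1_T2 v x := fun x => by unfold dgC1_T2; positivity
  have hc : Continuous fun x => 2 * dgC1_q v x * ‖fderiv ℝ (dgC1_U v) x‖ ^ 2 :=
    (continuous_const.mul (dgC1_q_cont hv)).mul (dg8_continuous_norm_fderiv_sq hU1)
  have hzero : ∀ x ∈ (univ : Set (DgE n)), dgC1_Dd v x = 0 :=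
    dgA2_strong_min_drift_on (b := dgC1_b v)
      (c := fun x => 2 * dgC1_q v x * ‖fderiv ℝ (dgC1_U v) x‖ ^ 2) isOpen_univ isPreconnected_univ
      (dgA2_locBdd_of_continuousOn_vec isOpen_univ (dgC1_b_cont hv hlt).continuousOn)
      (dgA2_locBdd_of_continuousOn isOpen_univ hc.continuousOn)
      (dgC1_Dd_smooth hv hlt).contDiffOn
      (fun x _ => by rw [dgC1_D_eqn hv hlt]; linarith [hT0 x])
      (fun x _ => hD0 x) (mem_univ x₀) hDx
  have hDz : dgC1_Dd v = fun _ => 0 := funext fun x => hzero x (mem_univ x)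
  have hT : ∀ x, dgC1_T2 v x = 0 := by
    intro x
    have h1 := dgC1_D_eqn hv hlt x
    rw [hDz] at h1
    simp only [dgL_lap_const, fderiv_fun_const, Pi.zero_apply, zero_apply,
      mul_zero, zero_sub, add_zero] at h1
    linarith
  have hH : ∀ i j x, dg8D j (dg8D i (dgC1_U v)) x = 0 := by
    intro i j x
    have h1 := hT x
    unfold dgC1_T2 at h1
    have h2 := (Finset.sum_eq_zero_iff_of_nonneg (fun i _ => by positivity)).mp h1 i (Finset.mem_univ i)
    have h3 := (Finset.sum_eq_zero_iff_of_nonneg (fun j _ => by positivity)).mp h2 j (Finset.mem_univ j)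
    exact pow_eq_zero_iff (by norm_num) |>.mp h3
  obtain ⟨a, ha, hn⟩ := dgC1_affine_of_hess_zero ((dgC1_U_smooth hv hlt).of_le (by norm_cast)) hH
  refine ⟨a, ?_, - dgC1_U v 0, fun x => ?_⟩
  · have h1 := hzero 0 (mem_univ _)
    unfold dgC1_Dd at h1
    rw [hn] at h1
    have h2 : ‖a‖ ^ 2 = 1 := by linarith
    have h3 : 0 ≤ ‖a‖ := norm_nonneg a
    nlinarith
  · rw [dgC1_v_eq hlt x, ha x]
    congr 1; ring

theorem dgC1_eqns_cite : True := by
  have := @dgC1_q.eq_1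
  have := @dgC1_P.eq_1
  have := @dgC1_f.eq_1
  have := @dgC1_U.eq_1
  have := @dgC1_Dd.eq_1
  have := @dgC1_T2.eq_1
  have := @dgC1_b.eq_1
  trivial

end exits

end Claimed.Agent.R329
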