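import Claimed.Agent.Lib.Gmt.IFc

/-!
# Row 329, post B6: a DIRECTED perimeter minimising cone is a half space.      (pen: helper38)

Paper: Lemma "Flatness of the directed cone" (`lem:monotone-flat-cone`, Section 3.3 of `02-monotone.tex`).

Everything is built on `Lib/Gmt` (regularity, Federer reduction, the ambient calculus `Sim*` of Simons' theorem):
`Σ = gmtBd S`, `μ = gmtMu S`, `(U, u)` the tube of the cone (`u` = signed distance, `|∇u| = 1`, `a = |D²u|²`).

ROUTE (shorter than the paper's: no geometry of the link, no strong maximum principle, no components)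
 1. `k = 8`: `Σ \ {0}` is regular (tangent cone at a singular `z ≠ 0` has `z` in its spine; `gmt_spine_bound`).
 2. Jacobi equation for `f = ∂_j u`:  `L f = - a f` on `{u = 0}`   (`dgB6_jacobi`).
 3. tangential divergence theorem with `Y = ψ² ∇f`, `ψ` radial: `∇f·x = 0`, `∇f·∇u = 0`, so `∫ ψ² a f dμ = 0`;
    with the sign of `f`:  `a f = 0` on `Σ \ {0}`   (`dgB6_af_zero`).
 4. if `a (x₁) > 0` then `f = 0` on the tube over `{a > 0}`, so `u` and `a` are constant along a half line `x₁ ± t e_j`;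
    but `a` is homogeneous of degree `-2` and bounded on the link: contradiction.  So `a = 0`   (`dgB6_A_zero`).
 5. `gmtSim_flat_local`, `gmtSim_flat_global`: half space.
-/

set_option autoImplicit false
open scoped ContDiff ENNReal RealInnerProductSpace Topology
open MeasureTheory Metric Set Filter

namespace Claimed.Agent.R329

open Claimed.Agent.Gmt

variable {k : ℕ} {U : Set (E k)} {u : E k → ℝ}

/-! ## 1. pointwise calculus -/

/-- a smooth function vanishing on `{u = 0}` has a normal gradient there. -/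
theorem dgB6_grad_normal (hU : IsOpen U) (hu : ContDiffOn ℝ ∞ u U)
    (hproj : ∀ x ∈ U, gmtSimPi u x ∈ U ∧ u (gmtSimPi u x) = 0)
    {F : E k → ℝ} (hF : ContDiffOn ℝ ∞ F U) (hF0 : ∀ x ∈ U, u x = 0 → F x = 0)
    {p : E k} (hp : p ∈ U) (hp0 : u p = 0) (j : Fin k) :
    gmtSimPd j F p = gmtSimPd j u p * ∑ l, gmtSimPd l u p * gmtSimPd l F p := by
  have hdu : DifferentiableAt ℝ u p := gmtSimId_diff hU hu hp
  have hd : ∀ i, DifferentiableAt ℝ (gmtSimPd i u) p := fun i =>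
    gmtSimId_diff hU (gmtSim_contDiffOn_pd hU hu i) hp
  have hdP : DifferentiableAt ℝ (gmtSimPi u) p :=
    ((gmtSimId_Pi_smooth hU hu).contDiffAt (hU.mem_nhds hp)).differentiableAt (by simp)
  have hPp : gmtSimPi u p = p := by unfold gmtSimPi; rw [hp0]; simp
  have hdF : DifferentiableAt ℝ F (gmtSimPi u p) := by rw [hPp]; exact gmtSimId_diff hU hF hp
  have hdPi : ∀ l, gmtSimPd j (fun y => gmtSimPi u y l) p =
      (if l = j then 1 else 0) - gmtSimPd j u p * gmtSimPd l u p := by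
    intro l
    have e : (fun y => gmtSimPi u y l) = fun y => y l - u y * gmtSimPd l u y :=
      funext fun y => gmtSimId_Pi_apply u y l
    rw [e, gmtSimId_pd_sub (gmtSimId_diff_coord p l) (hdu.fun_mul (hd l)),
      gmtSimId_pd_coord, gmtSimId_pd_mul hdu (hd l), hp0]
    ring
  have h0 : gmtSimPd j (fun y => F (gmtSimPi u y)) p = 0 := by
    rw [gmtSim_pd_congr hU (g := fun _ => (0 : ℝ))
      (fun x hx => hF0 _ (hproj x hx).1 (hproj x hx).2) hp j, gmtSimId_pd_const]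
  rw [gmtSimId_chain hdF hdP, hPp] at h0
  simp only [hdPi, mul_sub, Finset.sum_sub_distrib, mul_ite, mul_one, mul_zero,
    Finset.sum_ite_eq', Finset.mem_univ, if_true] at h0
  rw [Finset.mul_sum]
  have e2 : ∑ l, gmtSimPd j u p * (gmtSimPd l u p * gmtSimPd l F p)
      = ∑ l, gmtSimPd l F p * (gmtSimPd j u p * gmtSimPd l u p) :=
    Finset.sum_congr rfl fun l _ => by ring
  rw [e2]
  linarith

/-- **Jacobi equation** for the normal component of a translation: `L (∂_j u) = - a ∂_j u` on `{u = 0}`. -/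
theorem dgB6_jacobi (hU : IsOpen U) (hu : ContDiffOn ℝ ∞ u U)
    (heik : ∀ x ∈ U, ‖gradient u x‖ = 1)
    (hproj : ∀ x ∈ U, gmtSimPi u x ∈ U ∧ u (gmtSimPi u x) = 0)
    (hharm : ∀ x ∈ U, u x = 0 → gmtDiv (gradient u) x = 0)
    {p : E k} (hp : p ∈ U) (hp0 : u p = 0) (j : Fin k) :
    gmtSimL u (gmtSimPd j u) p = - (gmtSimA u p * gmtSimPd j u p) := by
  have hf : ContDiffOn ℝ ∞ (gmtSimPd j u) U := gmtSim_contDiffOn_pd hU hu j
  have hH0 : ∀ x ∈ U, u x = 0 → gmtSimLapl u x = 0 := by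
    intro x hx hx0
    have := hharm x hx hx0
    rw [gmtSim_div_gradient hU hu hx] at this
    exact this
  have hAp : gmtSimA u p = ∑ i, ∑ l, gmtSimU2 u i l p ^ 2 := gmtSim_A_eq hU hu hp
  -- the Laplacian term
  have h1 : gmtDiv (gradient (gmtSimPd j u)) p = - (gmtSimA u p * gmtSimPd j u p) := by
    rw [gmtSim_div_gradient hU hf hp]
    have e1 : ∑ i, gmtSimPd i (gmtSimPd i (gmtSimPd j u)) p = gmtSimPd j (gmtSimLapl u) p := by
      rw [gmtSimId_Lapl_pd hU hu hp]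
      refine Finset.sum_congr rfl fun i _ => ?_
      show gmtSimU3 u i i j p = gmtSimU3 u j i i p
      rw [(gmtSim_U3_symm hU hu hp i i j).2, (gmtSim_U3_symm hU hu hp i j i).1]
    rw [e1, dgB6_grad_normal hU hu hproj (gmtSimId_Lapl_smooth hU hu) hH0 hp hp0 j,
      gmtSim_H1 hU hu heik hp, ← hAp]
    ring
  -- the normal second derivative vanishes
  have h2 : ⟪gmtSimH (gmtSimPd j u) p (gradient u p), gradient u p⟫ = 0 := by
    rw [gmtSimId_H_bilin hU hf hp]
    simp only [gmtSim_gradient_apply]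
    have e : ∀ l, ∑ m, gmtSimPd l u p * gmtSimPd m u p * gmtSimPd l (gmtSimPd m (gmtSimPd j u)) p
        = gmtSimPd l u p * ∑ m, gmtSimPd m u p * gmtSimU3 u m l j p := by
      intro l
      rw [Finset.mul_sum]
      refine Finset.sum_congr rfl fun m _ => ?_
      have : gmtSimPd l (gmtSimPd m (gmtSimPd j u)) p = gmtSimU3 u m l j p :=
        (gmtSim_U3_symm hU hu hp l m j).1
      rw [this]; ring
    simp only [e, gmtSim_E2 hU hu heik hp]
    simp only [mul_neg, Finset.sum_neg_distrib, Finset.mul_sum]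
    rw [Finset.sum_comm]
    have e3 : ∀ m, ∑ l, gmtSimPd l u p * (gmtSimU2 u l m p * gmtSimU2 u m j p)
        = (∑ l, gmtSimPd l u p * gmtSimU2 u l m p) * gmtSimU2 u m j p := by
      intro m
      rw [Finset.sum_mul]
      exact Finset.sum_congr rfl fun l _ => by ring
    simp only [e3, gmtSim_E1 hU hu heik hp]
    simp
  unfold gmtSimL
  rw [h1, h2, sub_zero]

/-! ## 2. the integral identity -/

/-- integration by parts on the cone against a test function supported in the tube. -/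
theorem dgB6_ibp {S U : Set (E k)} {u : E k → ℝ} (hmin : GmtMin univ S) (hc : GmtSimCone S U u)
    {f : E k → ℝ} (hf : ContDiffOn ℝ ∞ f U) {ψ : E k → ℝ} (hψ : GmtTestS0 U ψ) :
    ∫ x, (2 * ψ x * gmtSimTg u f ψ x + ψ x ^ 2 * gmtSimL u f x) ∂(gmtMu S) = 0 := by
  have hU := hc.opn
  have hKc : IsCompact (tsupport ψ) := hψ.cpt
  have hz : ∀ x, x ∉ tsupport ψ → ψ x = 0 := fun x hx => image_eq_zero_of_notMem_tsupport hx
  have hψ2z : ∀ x, x ∉ tsupport ψ → ψ x ^ 2 = 0 := fun x hx => by rw [hz x hx]; simp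
  have hψ2 : GmtTestS0 U (fun x => ψ x ^ 2) :=
    ⟨hψ.smooth.pow 2, (gmtSimV_cs hKc hψ2z).1, (gmtSimV_cs hKc hψ2z).2.trans hψ.sub⟩
  have hY : GmtTestS U (fun x => ψ x ^ 2 • gradient f x) :=
    gmtSim_test_smul hU (gmtSim_contDiffOn_gradient hU hf) hψ2
  have hibp := gmtSim_ibp hmin hc.toGmtSimTube hY
  rw [← hibp]
  refine integral_congr_ae (Eventually.of_forall fun x => ?_)
  by_cases hxU : x ∈ U
  · exact (gmtSimI_div_Y hU hf hψ.smooth hxU).symm
  · have hxK : x ∉ tsupport ψ := fun h => hxU (hψ.sub h)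
    have hxY : x ∉ tsupport (fun x => ψ x ^ 2 • gradient f x) := fun h => hxU (hY.sub h)
    show 2 * ψ x * gmtSimTg u f ψ x + ψ x ^ 2 * gmtSimL u f x
      = gmtDiv (fun x => ψ x ^ 2 • gradient f x) x
        - ⟪fderiv ℝ (fun x => ψ x ^ 2 • gradient f x) x (gradient u x), gradient u x⟫
    rw [hz x hxK, gmtSim_div_eq_tr, fderiv_of_notMem_tsupport ℝ hxY]
    simp [gmtSimTr]

theorem dgB6_fderiv_rad {G : ℝ → ℝ} (hG : ContDiff ℝ ∞ G) {x : E k} (hx : x ≠ 0) (v : E k) :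
    fderiv ℝ (gmtSimRad G : E k → ℝ) x v
      = deriv G (Real.log ‖x‖) * ((‖x‖ ^ 2)⁻¹ * ⟪x, v⟫) := by
  have hd : HasDerivAt G (deriv G (Real.log ‖x‖)) (Real.log ‖x‖) :=
    (hG.differentiable (by simp) _).hasDerivAt
  have h1 := hd.comp_hasFDerivAt x (gmtSimRad_hasFDerivAt_log hx)
  have h2 : fderiv ℝ (gmtSimRad G : E k → ℝ) x =
      deriv G (Real.log ‖x‖) • ((‖x‖ ^ 2)⁻¹ • innerSL ℝ x) := by
    rw [(gmtSimRad_eventuallyEq G hx).fderiv_eq]
    exact h1.fderiv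
  rw [h2]
  simp [innerSL_apply_apply]

/-- `∫ ζ² a ∂_j u dμ = 0` for a test function `ζ` in the tube which is radial on the cone. -/
theorem dgB6_int_zero {S U : Set (E k)} {u : E k → ℝ} (hmin : GmtMin univ S)
    (hc : GmtSimCone S U u) (j : Fin k) {G : ℝ → ℝ} (hG : ContDiff ℝ ∞ G)
    (hGc : HasCompactSupport G) :
    ∃ ζ : E k → ℝ, GmtTestS0 U ζ ∧ (∀ x ∈ gmtBd S, ζ x = gmtSimRad G x) ∧
      ∫ x, ζ x ^ 2 * (gmtSimA u x * gmtSimPd j u x) ∂(gmtMu S) = 0 := by
  have hU := hc.opn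
  obtain ⟨hψ, -⟩ := gmtSim_radial_test k hG hGc
  have hK : IsCompact (gmtBd S ∩ tsupport (gmtSimRad G : E k → ℝ)) :=
    hψ.cpt.inter_left (isClosed_gmtBd S)
  have hKU : gmtBd S ∩ tsupport (gmtSimRad G : E k → ℝ) ⊆ U := fun x hx =>
    hc.bd x hx.1 (fun h0 => hψ.sub hx.2 (by simpa using h0))
  obtain ⟨χ, hχ, hχ1, -⟩ := gmtSim_exists_cutoff hK hU hKU
  have hψ' : GmtTestS0 U (fun x => gmtSimRad G x * χ x) :=
    gmtSim_test_mul hU hψ.smooth.contDiffOn hχ
  have hf : ContDiffOn ℝ ∞ (gmtSimPd j u) U := gmtSim_contDiffOn_pd hU hc.smooth j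
  have h := dgB6_ibp hmin hc hf hψ'
  have hbd : ∀ᵐ x ∂(gmtMu S), x ∈ gmtBd S := mem_ae_iff.2 (gmtMu_compl_gmtBd hmin.meas)
  have hloc : ∀ x ∈ gmtBd S, (fun y => gmtSimRad G y * χ y) =ᶠ[𝓝 x] (gmtSimRad G : E k → ℝ) := by
    intro x hx
    by_cases hxs : x ∈ tsupport (gmtSimRad G : E k → ℝ)
    · have h1 : ∀ᶠ y in 𝓝 x, χ y = 1 := hχ1.filter_mono
        (nhds_le_nhdsSet (show x ∈ gmtBd S ∩ tsupport (gmtSimRad G : E k → ℝ) from ⟨hx, hxs⟩))
      filter_upwards [h1] with y hy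
      rw [hy, mul_one]
    · have h1 : (gmtSimRad G : E k → ℝ) =ᶠ[𝓝 x] fun _ => 0 :=
        notMem_tsupport_iff_eventuallyEq.mp hxs
      filter_upwards [h1] with y hy
      rw [hy, zero_mul]
  refine ⟨fun x => gmtSimRad G x * χ x, hψ', fun x hx => (hloc x hx).eq_of_nhds, ?_⟩
  have key : ∫ x, (2 * (gmtSimRad G x * χ x) *
        gmtSimTg u (gmtSimPd j u) (fun y => gmtSimRad G y * χ y) x
        + (gmtSimRad G x * χ x) ^ 2 * gmtSimL u (gmtSimPd j u) x) ∂(gmtMu S)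
      = ∫ x, -((gmtSimRad G x * χ x) ^ 2 * (gmtSimA u x * gmtSimPd j u x)) ∂(gmtMu S) := by
    refine integral_congr_ae ?_
    filter_upwards [hbd] with x hx
    have e1 : gmtSimRad G x * χ x = gmtSimRad G x := (hloc x hx).eq_of_nhds
    by_cases hx0 : x = 0
    · have : (gmtSimRad G x : ℝ) = 0 := by rw [hx0]; exact gmtSimRad_zero G
      rw [e1, this]; simp
    · have hxU := hc.bd x hx hx0
      have hux : u x = 0 := (hc.zero_iff x hxU).2 hx
      have e2 : gradient (fun y => gmtSimRad G y * χ y) x = gradient (gmtSimRad G : E k → ℝ) x := by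
        unfold gradient; rw [(hloc x hx).fderiv_eq]
      have e3 : ⟪gradient (gmtSimPd j u) x, gradient u x⟫ = 0 := by
        rw [gmtSim_inner_eq_sum]
        simp only [gmtSim_gradient_apply]
        refine (Finset.sum_congr rfl fun i _ => ?_).trans (gmtSim_E1 hU hc.smooth hc.eik hxU j)
        rw [mul_comm]; rfl
      have e4 : ⟪gradient (gmtSimPd j u) x, gradient (gmtSimRad G : E k → ℝ) x⟫ = 0 := by
        rw [real_inner_comm, gmtSim_inner_gradient, dgB6_fderiv_rad hG hx0]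
        have : ⟪x, gradient (gmtSimPd j u) x⟫ = 0 := by
          rw [gmtSim_inner_eq_sum]
          simp only [gmtSim_gradient_apply]
          exact gmtSim_C1 hU hc.smooth hc.hom hxU j
        rw [this]; simp
      have e5 : gmtSimTg u (gmtSimPd j u) (fun y => gmtSimRad G y * χ y) x = 0 := by
        unfold gmtSimTg
        rw [e2, e3, e4]; simp
      rw [e5, dgB6_jacobi hU hc.smooth hc.eik hc.proj hc.harm hxU hux j]
      ring
  rw [key, integral_neg] at h
  exact neg_eq_zero.1 h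

/-- with the sign of the normal: `a ∂_j u = 0` on the cone. -/
theorem dgB6_af_zero {S U : Set (E k)} {u : E k → ℝ} (hmin : GmtMin univ S)
    (hc : GmtSimCone S U u) (j : Fin k)
    (hdir : ∀ᵐ x ∂(gmtMu S), ⟪gmtNu S x, eb j⟫ ≤ 0) :
    ∀ x ∈ gmtBd S, x ≠ 0 → gmtSimA u x * gmtSimPd j u x = 0 := by
  intro x₁ hx₁ hx₁0
  by_contra hne
  have hU := hc.opn
  have hLFU : GmtLF S U := gmtSimV_lf_mono (gmtSim_min_lf hmin)
  have hx₁U : x₁ ∈ U := hc.bd x₁ hx₁ hx₁0
  let b : ContDiffBump (Real.log ‖x₁‖) := ⟨1, 2, one_pos, one_lt_two⟩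
  obtain ⟨ζ, hζ, hζr, hint0⟩ := dgB6_int_zero hmin hc j (G := b) b.contDiff b.hasCompactSupport
  have hζ1 : ζ x₁ = 1 := by
    rw [hζr x₁ hx₁, gmtSimRad_of_ne _ hx₁0]
    exact b.one_of_mem_closedBall (mem_closedBall_self b.rIn_pos.le)
  have hcont : ContinuousOn (fun x => ζ x ^ 2 * (gmtSimA u x * gmtSimPd j u x)) U :=
    (hζ.smooth.continuous.continuousOn.pow 2).mul
      ((gmtSim_contDiffOn_A hU hc.smooth).continuousOn.mul
        (gmtSim_contDiffOn_pd hU hc.smooth j).continuousOn)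
  have hz : ∀ x, x ∉ tsupport ζ → ζ x ^ 2 * (gmtSimA u x * gmtSimPd j u x) = 0 := fun x hx => by
    rw [image_eq_zero_of_notMem_tsupport hx]; simp
  have hintg : Integrable (fun x => ζ x ^ 2 * (gmtSimA u x * gmtSimPd j u x)) (gmtMu S) :=
    gmtSim_integrable hU hLFU hcont (gmtSimV_cs hζ.cpt hz).1 ((gmtSimV_cs hζ.cpt hz).2.trans hζ.sub)
  have hsign : ∀ᵐ x ∂(gmtMu S), 0 ≤ -(ζ x ^ 2 * (gmtSimA u x * gmtSimPd j u x)) := by
    filter_upwards [hdir, gmtSimV_ae hmin.meas hc.toGmtSimTube] with x h1 h2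
    by_cases hxU : x ∈ U
    · have h3 : gmtSimPd j u x ≤ 0 := by
        rw [← gmtSim_gradient_apply, ← gmtSim_inner_eb, ← (h2 hxU).1]
        exact h1
      have h4 := gmtSim_A_nonneg u x
      have h5 : gmtSimA u x * gmtSimPd j u x ≤ 0 := mul_nonpos_of_nonneg_of_nonpos h4 h3
      have h6 : ζ x ^ 2 * (gmtSimA u x * gmtSimPd j u x) ≤ 0 :=
        mul_nonpos_of_nonneg_of_nonpos (sq_nonneg _) h5
      linarith
    · rw [hz x (fun h => hxU (hζ.sub h))]; simp
  have hae : (fun x => -(ζ x ^ 2 * (gmtSimA u x * gmtSimPd j u x))) =ᵐ[gmtMu S] 0 := by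
    rw [← integral_eq_zero_iff_of_nonneg_ae hsign hintg.neg, integral_neg, hint0, neg_zero]
  -- the open set where the integrand does not vanish
  have hW : IsOpen (U ∩ (fun x => ζ x ^ 2 * (gmtSimA u x * gmtSimPd j u x)) ⁻¹' {0}ᶜ) :=
    hcont.isOpen_inter_preimage hU isOpen_compl_singleton
  have hx₁W : x₁ ∈ U ∩ (fun x => ζ x ^ 2 * (gmtSimA u x * gmtSimPd j u x)) ⁻¹' {0}ᶜ := by
    refine ⟨hx₁U, ?_⟩
    simp only [mem_preimage, mem_compl_iff, mem_singleton_iff, hζ1]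
    simpa using hne
  obtain ⟨r, hr, hball⟩ := Metric.isOpen_iff.1 hW x₁ hx₁W
  have hpos := (gmtBd_iff_gmtMu hmin.meas x₁).1 hx₁ r hr
  have hnull : gmtMu S (ball x₁ r) = 0 := by
    rw [measure_eq_zero_iff_ae_notMem]
    filter_upwards [hae] with x hx hxb
    have := (hball hxb).2
    simp only [mem_preimage, mem_compl_iff, mem_singleton_iff] at this
    apply this
    simpa using hx
  rw [hnull] at hpos
  exact lt_irrefl _ hpos

/-! ## 3. the half line argument -/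

/-- a function with `∂_j F = 0` on a ball is constant along the `j`-th direction through the centre. -/
theorem dgB6_const_line {F : E k → ℝ} {y : E k} {r : ℝ} (j : Fin k)
    (hd : ∀ z ∈ ball y r, DifferentiableAt ℝ F z) (h0 : ∀ z ∈ ball y r, gmtSimPd j F z = 0)
    {s : ℝ} (hs : |s| < r) : F (y + s • eb j) = F y := by
  have hr : 0 < r := lt_of_le_of_lt (abs_nonneg s) hs
  have hmem : ∀ t ∈ Ioo (-r) r, y + t • (eb j : E k) ∈ ball y r := by
    intro t ht
    rw [mem_ball, dist_eq_norm, add_sub_cancel_left, norm_smul, Real.norm_eq_abs]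
    have : ‖(eb j : E k)‖ = 1 := by simp [eb]
    rw [this, mul_one]
    exact abs_lt.2 ht
  have hder : ∀ t ∈ Ioo (-r) r, HasDerivAt (fun t : ℝ => F (y + t • eb j)) 0 t := by
    intro t ht
    have h1 : HasDerivAt (fun t : ℝ => y + t • (eb j : E k)) (eb j) t := by
      simpa using ((hasDerivAt_id t).smul_const (eb j : E k)).const_add y
    have h2 := (hd _ (hmem t ht)).hasFDerivAt.comp_hasDerivAt t h1
    have h3 : fderiv ℝ F (y + t • eb j) (eb j) = 0 := h0 _ (hmem t ht)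
    rw [h3] at h2
    exact h2
  have := isOpen_Ioo.is_const_of_deriv_eq_zero isPreconnected_Ioo
    (fun t ht => (hder t ht).differentiableAt.differentiableWithinAt)
    (fun t ht => (hder t ht).deriv) (abs_lt.1 hs) (show (0 : ℝ) ∈ Ioo (-r) r from ⟨by linarith, hr⟩)
  simpa using this

/-- near a point of the cone with `a ≠ 0` the function `∂_j u` vanishes identically. -/
theorem dgB6_local {S U : Set (E k)} {u : E k → ℝ} (hc : GmtSimCone S U u) (j : Fin k)
    (haf : ∀ x ∈ gmtBd S, x ≠ 0 → gmtSimA u x * gmtSimPd j u x = 0)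
    {y : E k} (hy : y ∈ gmtBd S) (hy0 : y ≠ 0) (hay : gmtSimA u y ≠ 0) :
    ∃ r > 0, ball y r ⊆ U ∧ ∀ z ∈ ball y r, gmtSimPd j u z = 0 := by
  have hU := hc.opn
  have hyU : y ∈ U := hc.bd y hy hy0
  have huy : u y = 0 := (hc.zero_iff y hyU).2 hy
  have hPy : gmtSimPi u y = y := by unfold gmtSimPi; rw [huy]; simp
  have hPc : ContinuousAt (gmtSimPi u) y :=
    ((gmtSimId_Pi_smooth hU hc.smooth).continuousOn).continuousAt (hU.mem_nhds hyU)
  have hAc : ContinuousAt (gmtSimA u) (gmtSimPi u y) := by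
    rw [hPy]
    exact ((gmtSim_contDiffOn_A hU hc.smooth).continuousOn).continuousAt (hU.mem_nhds hyU)
  have hcomp : ContinuousAt (fun z => gmtSimA u (gmtSimPi u z)) y := hAc.comp hPc
  have hne : ∀ᶠ z in 𝓝 y, gmtSimA u (gmtSimPi u z) ≠ 0 :=
    hcomp.eventually_ne (by show gmtSimA u (gmtSimPi u y) ≠ 0; rw [hPy]; exact hay)
  obtain ⟨r, hr, hball⟩ := Metric.eventually_nhds_iff_ball.1 (hne.and (hU.eventually_mem hyU))
  refine ⟨r, hr, fun z hz => (hball z hz).2, fun z hz => ?_⟩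
  obtain ⟨h1, hzU⟩ := hball z hz
  obtain ⟨hπU, hπ0⟩ := hc.proj z hzU
  have hπb : gmtSimPi u z ∈ gmtBd S := (hc.zero_iff _ hπU).1 hπ0
  have hπne : gmtSimPi u z ≠ 0 := fun h => hc.zero (h ▸ hπU)
  have h2 : gmtSimPd j u (gmtSimPi u z) = 0 := by
    rcases mul_eq_zero.1 (haf _ hπb hπne) with h | h
    · exact absurd h h1
    · exact h
  rw [← gmtSim_gradient_apply, ← hc.grad_proj z hzU, gmtSim_gradient_apply]
  exact h2

/-- if `∂_j u = 0` on a ball then `∂_j a = 0` on it. -/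
theorem dgB6_pd_A {U : Set (E k)} {u : E k → ℝ} (hU : IsOpen U) (hu : ContDiffOn ℝ ∞ u U)
    (j : Fin k) {y : E k} {r : ℝ} (hb : ball y r ⊆ U) (h0 : ∀ z ∈ ball y r, gmtSimPd j u z = 0) :
    ∀ z ∈ ball y r, gmtSimPd j (gmtSimA u) z = 0 := by
  intro z hz
  have hzU := hb hz
  rw [gmtSim_A1 hU hu hzU]
  have h1 : ∀ l, ∀ w ∈ ball y r, gmtSimPd l (gmtSimPd j u) w = 0 := by
    intro l w hw
    rw [gmtSim_pd_congr isOpen_ball (g := fun _ => (0 : ℝ)) h0 hw l, gmtSimId_pd_const]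
  have h2 : ∀ i l, gmtSimPd i (gmtSimPd l (gmtSimPd j u)) z = 0 := by
    intro i l
    rw [gmtSim_pd_congr isOpen_ball (g := fun _ => (0 : ℝ)) (h1 l) hz i, gmtSimId_pd_const]
  have h3 : ∀ i l, gmtSimU3 u j i l z = 0 := by
    intro i l
    rw [(gmtSim_U3_symm hU hu hzU j i l).1, (gmtSim_U3_symm hU hu hzU i j l).2]
    exact h2 i l
  simp [h3]

/-- **the second fundamental form of a directed cone vanishes.** -/
theorem dgB6_A_zero {S U : Set (E k)} {u : E k → ℝ} (hcone : GmtCone S) (hc : GmtSimCone S U u)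
    (j : Fin k) (haf : ∀ x ∈ gmtBd S, x ≠ 0 → gmtSimA u x * gmtSimPd j u x = 0) :
    ∀ x ∈ gmtBd S, x ≠ 0 → gmtSimA u x = 0 := by
  intro x₁ hx₁ hx₁0
  by_contra hα
  have hU := hc.opn
  have hαpos : 0 < gmtSimA u x₁ := lt_of_le_of_ne (gmtSim_A_nonneg u x₁) (Ne.symm hα)
  -- the direction of the half line
  obtain ⟨σ, hσ, hσx⟩ : ∃ σ : ℝ, |σ| = 1 ∧ 0 ≤ σ * x₁ j := by
    rcases le_total 0 (x₁ j) with h | h
    · exact ⟨1, by simp, by simpa using h⟩
    · exact ⟨-1, by simp, by simpa using h⟩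
  have hσ2 : σ * σ = 1 := by
    rw [← abs_mul_abs_self, hσ]; norm_num
  set ℓ : ℝ → E k := fun t => x₁ + (σ * t) • eb j with hℓ
  have hℓc : Continuous ℓ := by
    rw [hℓ]; fun_prop
  have hℓj : ∀ t, ℓ t j = x₁ j + σ * t := by
    intro t; simp [hℓ, eb]
  have hnorm : ∀ t, 0 ≤ t → t ≤ ‖ℓ t‖ := by
    intro t ht
    have h1 : |ℓ t j| ≤ ‖ℓ t‖ := by
      have := PiLp.norm_apply_le (ℓ t) j
      simpa using this
    refine le_trans ?_ h1
    have h2 : σ * ℓ t j = σ * x₁ j + t := by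
      rw [hℓj]
      calc σ * (x₁ j + σ * t) = σ * x₁ j + (σ * σ) * t := by ring
        _ = σ * x₁ j + t := by rw [hσ2, one_mul]
    have h3 : |σ * ℓ t j| = |ℓ t j| := by rw [abs_mul, hσ, one_mul]
    rw [← h3, h2]
    exact le_trans (by linarith) (le_abs_self _)
  have hℓ0 : ∀ t, 0 ≤ t → ℓ t ≠ 0 := by
    intro t ht h
    rcases eq_or_lt_of_le ht with h0 | h0
    · apply hx₁0
      rw [← h, hℓ, ← h0]; simp
    · have := hnorm t ht
      rw [h, norm_zero] at this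
      linarith
  -- the set of good times
  set T : Set ℝ := {t | ℓ t ∈ gmtBd S ∧ gmtSimA u (ℓ t) = gmtSimA u x₁} with hT
  have hgood : ∀ b : ℝ, 0 ≤ b → Icc 0 b ⊆ T := by
    intro b _
    apply IsClosed.Icc_subset_of_forall_mem_nhdsWithin
    · -- closedness
      have hs : IsClosed (Icc (0 : ℝ) b ∩ ℓ ⁻¹' gmtBd S) :=
        isClosed_Icc.inter ((isClosed_gmtBd S).preimage hℓc)
      have hmaps : MapsTo ℓ (Icc (0 : ℝ) b ∩ ℓ ⁻¹' gmtBd S) U := fun t ht =>
        hc.bd _ ht.2 (hℓ0 t ht.1.1)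
      have hco : ContinuousOn (fun t => gmtSimA u (ℓ t)) (Icc (0 : ℝ) b ∩ ℓ ⁻¹' gmtBd S) :=
        ((gmtSim_contDiffOn_A hU hc.smooth).continuousOn).comp hℓc.continuousOn hmaps
      have := hco.preimage_isClosed_of_isClosed hs (isClosed_singleton (x := gmtSimA u x₁))
      convert this using 1
      ext t
      simp only [hT, mem_inter_iff, mem_ofPred_eq, mem_preimage, mem_singleton_iff]
      tauto
    · refine ⟨?_, ?_⟩ <;> simp [hℓ, hx₁]
    · intro t ht
      obtain ⟨⟨htb, hta⟩, ht0, _⟩ := ht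
      have hy0 := hℓ0 t ht0
      obtain ⟨r, hr, hbU, hz⟩ := dgB6_local hc j haf htb hy0 (by rw [hta]; exact hα)
      have hzA := dgB6_pd_A hU hc.smooth j hbU hz
      refine Filter.mem_of_superset (Ioo_mem_nhdsGT (show t < t + r by linarith)) ?_
      intro t' ht'
      have e : ℓ t' = ℓ t + (σ * (t' - t)) • eb j := by
        simp only [hℓ]
        rw [add_assoc, ← add_smul]
        congr 2
        ring
      have hs : |σ * (t' - t)| < r := by
        rw [abs_mul, hσ, one_mul, abs_of_pos (by linarith [ht'.1])]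
        linarith [ht'.2]
      have hmem : ℓ t' ∈ ball (ℓ t) r := by
        rw [e, mem_ball, dist_eq_norm, add_sub_cancel_left, norm_smul, Real.norm_eq_abs]
        have : ‖(eb j : E k)‖ = 1 := by simp [eb]
        rw [this, mul_one]
        exact hs
      have hu1 : u (ℓ t') = u (ℓ t) := by
        rw [e]
        exact dgB6_const_line j (fun z hz' => gmtSimId_diff hU hc.smooth (hbU hz')) hz hs
      have ha1 : gmtSimA u (ℓ t') = gmtSimA u (ℓ t) := by
        rw [e]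
        exact dgB6_const_line j
          (fun z hz' => gmtSimId_diff hU (gmtSim_contDiffOn_A hU hc.smooth) (hbU hz')) hzA hs
      refine ⟨(hc.zero_iff _ (hbU hmem)).1 ?_, by rw [ha1, hta]⟩
      rw [hu1]
      exact (hc.zero_iff _ (hc.bd _ htb hy0)).2 htb
  -- the bound on the link
  have hK : IsCompact (gmtBd S ∩ sphere (0 : E k) 1) :=
    (isCompact_sphere _ _).inter_left (isClosed_gmtBd S)
  have hKU : gmtBd S ∩ sphere (0 : E k) 1 ⊆ U := fun x hx =>
    hc.bd x hx.1 (fun h => by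
      have := hx.2
      rw [h, mem_sphere_zero_iff_norm, norm_zero] at this
      exact zero_ne_one this)
  obtain ⟨M, hM⟩ := hK.exists_bound_of_continuousOn
    (((gmtSim_contDiffOn_A hU hc.smooth).continuousOn).mono hKU)
  set t₀ : ℝ := max 1 ((|M| + 1) / gmtSimA u x₁) with ht₀
  have ht₀1 : 1 ≤ t₀ := le_max_left _ _
  have ht₀0 : 0 ≤ t₀ := by linarith
  obtain ⟨hb, ha⟩ := hgood t₀ ht₀0 ⟨ht₀0, le_refl _⟩
  have hn0 := hℓ0 t₀ ht₀0
  have hnpos : 0 < ‖ℓ t₀‖ := norm_pos_iff.2 hn0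
  have hsc := hc.homA (ℓ t₀) hb hn0 (‖ℓ t₀‖⁻¹) (inv_pos.2 hnpos)
  have hmemK : ‖ℓ t₀‖⁻¹ • ℓ t₀ ∈ gmtBd S ∩ sphere (0 : E k) 1 := by
    refine ⟨(gmtSim_bd_smul hcone (inv_pos.2 hnpos) _).2 hb, ?_⟩
    rw [mem_sphere_zero_iff_norm, norm_smul, norm_inv, norm_norm, inv_mul_cancel₀ hnpos.ne']
  have h1 := hM _ hmemK
  rw [hsc, ha, Real.norm_eq_abs] at h1
  have h2 : ((‖ℓ t₀‖⁻¹) ^ 2)⁻¹ = ‖ℓ t₀‖ ^ 2 := by
    rw [inv_pow, inv_inv]
  rw [h2] at h1
  have h3 : t₀ ≤ ‖ℓ t₀‖ := hnorm t₀ ht₀0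
  have h4 : (|M| + 1) / gmtSimA u x₁ ≤ t₀ := le_max_right _ _
  have h5 : |M| + 1 ≤ t₀ * gmtSimA u x₁ := (div_le_iff₀ hαpos).1 h4
  have h6 : t₀ * gmtSimA u x₁ ≤ ‖ℓ t₀‖ ^ 2 * gmtSimA u x₁ := by
    apply mul_le_mul_of_nonneg_right _ hαpos.le
    nlinarith
  have h7 : ‖ℓ t₀‖ ^ 2 * gmtSimA u x₁ ≤ M := le_trans (le_abs_self _) h1
  have h8 := le_abs_self M
  linarith

/-! ## 4. regularity away from the vertex in dimension eight -/

/-- a perimeter minimising cone in `E 8` is regular away from its vertex. -/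
theorem dgB6_reg8 {S : Set (E 8)} (hmin : GmtMin univ S) (hcone : GmtCone S) :
    ∀ x ∈ gmtBd S, x ≠ 0 → GmtReg S x := by
  intro z hzb hz0
  by_contra hzr
  have hzs : z ∈ gmtSing S univ := ⟨mem_univ _, hzb, hzr⟩
  have hm : 2 ≤ 8 := by norm_num
  have hr : ∀ i : ℕ, 0 < 1 / ((i : ℝ) + 1) := fun i => Nat.one_div_pos_of_nat
  have hr0 : Tendsto (fun i : ℕ => 1 / ((i : ℝ) + 1)) atTop (𝓝 0) :=
    tendsto_one_div_add_atTop_nhds_zero_nat
  have hmin' : GmtLAM (fun _ => gmtEu 8) (fun _ => 0) univ S := hmin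
  obtain ⟨φ, C₁, hφ, hC₁, hc⟩ :=
    gmt_tangent_exists hm gmtData_eu hmin' (mem_univ z) gmt_frame_eu hr hr0
  have hr' : ∀ i : ℕ, 0 < 1 / (((φ i : ℕ) : ℝ) + 1) := fun i => hr (φ i)
  have hr0' : Tendsto (fun i : ℕ => 1 / (((φ i : ℕ) : ℝ) + 1)) atTop (𝓝 0) :=
    hr0.comp hφ.tendsto_atTop
  obtain ⟨h1, h2, -, -, h5⟩ :=
    gmt_tangent_props hm gmtData_eu hmin' (mem_univ z) gmt_frame_eu hr' hr0' hC₁ hc
  have hsc : GmtSingCone C₁ := ⟨hC₁, h1, h2, h5 hzs⟩
  have hz' : z ∈ gmtSpine C₁ := by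
    refine gmt_tangent_of_cone hm hmin hcone z hr' hr0' hC₁ ?_
    simpa only [gmtBlow_refl] using hc
  have hb := (gmt_spine_bound gmt_simons_all hsc).2
  have hbot : gmtSpine C₁ = ⊥ := Submodule.finrank_eq_zero.1 (by omega)
  rw [hbot] at hz'
  exact hz0 ((Submodule.mem_bot ℝ).1 hz')

/-! ## 5. from the distributional form of the monotonicity to the sign of the normal -/

/-- a bounded measurable `g` with `∫ ψ g dμ ≤ 0` for all smooth `ψ ≥ 0` of compact support is `≤ 0` a.e. -/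
theorem dgB6_ae_nonpos {μ : Measure (E k)} [IsFiniteMeasureOnCompacts μ] {g : E k → ℝ}
    (hg : Measurable g) (hB : ∀ x, |g x| ≤ 1)
    (H : ∀ ψ : E k → ℝ, GmtTestS0 univ ψ → (∀ x, 0 ≤ ψ x) → ∫ x, ψ x * g x ∂μ ≤ 0) :
    ∀ᵐ x ∂μ, g x ≤ 0 := by
  by_contra hcon
  have h1 : ∃ n : ℕ, μ {x | 1 / ((n : ℝ) + 1) < g x} ≠ 0 := by
    by_contra hn
    push Not at hn
    apply hcon
    have h0 : μ (⋃ n : ℕ, {x | 1 / ((n : ℝ) + 1) < g x}) = 0 := measure_iUnion_null hn
    rw [ae_iff]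
    refine measure_mono_null (fun x hx => ?_) h0
    have hx' : 0 < g x := not_le.1 hx
    obtain ⟨n, hn⟩ := exists_nat_one_div_lt hx'
    exact mem_iUnion.2 ⟨n, hn⟩
  obtain ⟨n, hn⟩ := h1
  set ε : ℝ := 1 / ((n : ℝ) + 1) with hε
  have hε0 : 0 < ε := Nat.one_div_pos_of_nat
  have hPm : MeasurableSet {x | ε < g x} := measurableSet_lt measurable_const hg
  obtain ⟨K, hKP, hK, hKpos⟩ := hPm.exists_lt_isCompact (pos_iff_ne_zero.2 hn)
  have hKfin : μ K ≠ ⊤ := hK.measure_lt_top.ne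
  have hm0 : 0 < μ.real K := ENNReal.toReal_pos hKpos.ne' hKfin
  have hδ : ENNReal.ofReal (ε * μ.real K / 2) ≠ 0 := by
    rw [Ne, ENNReal.ofReal_eq_zero, not_le]; positivity
  obtain ⟨V, hKV, hV, hVlt⟩ := K.exists_isOpen_lt_add hKfin hδ
  obtain ⟨χ, hχ, hχ1, hχ01⟩ := gmtSim_exists_cutoff hK hV hKV
  have hχK : ∀ x ∈ K, χ x = 1 := fun x hx => (hχ1.filter_mono (nhds_le_nhdsSet hx)).self_of_nhds
  have hχV : ∀ x, x ∉ V → χ x = 0 := fun x hx =>
    image_eq_zero_of_notMem_tsupport fun h => hx (hχ.sub h)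
  have hVfin : μ V ≠ ⊤ :=
    (hVlt.trans (ENNReal.add_lt_top.2 ⟨hKfin.lt_top, ENNReal.ofReal_lt_top⟩)).ne
  have hDfin : μ (V \ K) ≠ ⊤ := ne_top_of_le_ne_top hVfin (measure_mono sdiff_subset)
  have hdiff : μ.real (V \ K) < ε * μ.real K / 2 := by
    have h2 : μ (V \ K) < ENNReal.ofReal (ε * μ.real K / 2) := by
      rw [measure_sdiff hKV hK.measurableSet.nullMeasurableSet hKfin]
      exact ENNReal.sub_lt_of_lt_add (measure_mono hKV) (by rwa [add_comm] at hVlt)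
    exact (ENNReal.lt_ofReal_iff_toReal_lt hDfin).1 h2
  have hH := H χ ⟨hχ.smooth, hχ.cpt, subset_univ _⟩ (fun x => (hχ01 x).1)
  have hlow : ∀ x, K.indicator (fun _ => ε) x - (V \ K).indicator (fun _ => (1 : ℝ)) x
      ≤ χ x * g x := by
    intro x
    by_cases hxK : x ∈ K
    · have hn' : x ∉ V \ K := fun h => h.2 hxK
      rw [indicator_of_mem hxK, indicator_of_notMem hn', hχK x hxK, one_mul, sub_zero]
      exact le_of_lt (hKP hxK)
    · by_cases hxV : x ∈ V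
      · rw [indicator_of_notMem hxK, indicator_of_mem (show x ∈ V \ K from ⟨hxV, hxK⟩), zero_sub]
        have h1 := hχ01 x
        have h2 := abs_le.1 (hB x)
        nlinarith [h1.1, h1.2, h2.1, h2.2]
      · rw [indicator_of_notMem hxK, indicator_of_notMem (fun h => hxV h.1), hχV x hxV]; simp
  have hDm : MeasurableSet (V \ K) := hV.measurableSet.diff hK.measurableSet
  have hi1 : Integrable (K.indicator (fun _ => ε)) μ :=
    (integrableOn_const hKfin).integrable_indicator hK.measurableSet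
  have hi2 : Integrable ((V \ K).indicator (fun _ => (1 : ℝ))) μ :=
    (integrableOn_const hDfin).integrable_indicator hDm
  have hi3 : Integrable (V.indicator (fun _ => (1 : ℝ))) μ :=
    (integrableOn_const hVfin).integrable_indicator hV.measurableSet
  have hi : Integrable (fun x => χ x * g x) μ := by
    refine hi3.mono' (hχ.smooth.continuous.measurable.mul hg).aestronglyMeasurable
      (Eventually.of_forall fun x => ?_)
    by_cases hxV : x ∈ V
    · rw [indicator_of_mem hxV, Real.norm_eq_abs, abs_mul, abs_of_nonneg (hχ01 x).1]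
      exact mul_le_one₀ (hχ01 x).2 (abs_nonneg _) (hB x)
    · rw [indicator_of_notMem hxV, hχV x hxV]; simp
  have hmono := integral_mono (hi1.sub hi2) hi hlow
  have e : ∫ x, (K.indicator (fun _ => ε) - (V \ K).indicator (fun _ => (1 : ℝ))) x ∂μ
      = μ.real K * ε - μ.real (V \ K) := by
    simp only [Pi.sub_apply]
    rw [integral_sub hi1 hi2, integral_indicator_const _ hK.measurableSet,
      integral_indicator_const _ hDm]
    simp
  rw [e] at hmono
  nlinarith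

/-- from the distributional form of monotonicity to the sign of the normal. -/
theorem dgB6_nu_of_test {S : Set (E k)} (hmin : GmtMin univ S) (j : Fin k)
    (hdir : ∀ ψ : E k → ℝ, GmtTest0 univ ψ → (∀ x, 0 ≤ ψ x) →
      ∫ x in S, fderiv ℝ ψ x (eb j) ≤ 0) :
    ∀ᵐ x ∂(gmtMu S), ⟪gmtNu S x, eb j⟫ ≤ 0 := by
  have := gmtSimRad_finCompacts hmin
  refine dgB6_ae_nonpos (g := fun x => ⟪gmtNu S x, eb j⟫)
    ((measurable_gmtNu S).inner measurable_const) (fun x => ?_) (fun ψ hψ hψ0 => ?_)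
  · refine (abs_real_inner_le_norm _ _).trans ?_
    have h1 : ‖(eb j : E k)‖ = 1 := by simp [eb]
    rw [h1, mul_one]
    exact norm_gmtNu_le_one S x
  · have hc1 : ContDiff ℝ 1 ψ := hψ.smooth.of_le (by exact_mod_cast le_top)
    have hT : GmtTest univ (fun x => ψ x • (eb j : E k)) :=
      ⟨hc1.smul contDiff_const, hψ.cpt.smul_right, subset_univ _⟩
    have hgg := gmt_gauss_green isOpen_univ (gmtSim_min_lf hmin) hT
    have e1 : ∀ x, gmtDiv (fun y => ψ y • (eb j : E k)) x = fderiv ℝ ψ x (eb j) := by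
      intro x
      have hd : DifferentiableAt ℝ ψ x := (hc1.differentiable one_ne_zero) x
      rw [gmtDiv_smul hd (differentiableAt_const _)]
      simp [gmtDiv]
    simp only [e1] at hgg
    have e2 : ∫ x, ψ x * ⟪gmtNu S x, eb j⟫ ∂(gmtMu S)
        = ∫ x, ⟪ψ x • (eb j : E k), gmtNu S x⟫ ∂(gmtMu S) := by
      refine integral_congr_ae (Eventually.of_forall fun x => ?_)
      show ψ x * ⟪gmtNu S x, eb j⟫ = ⟪ψ x • (eb j : E k), gmtNu S x⟫
      rw [real_inner_smul_left, real_inner_comm]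
    rw [e2, ← hgg]
    exact hdir ψ ⟨hc1, hψ.cpt, subset_univ _⟩ hψ0

/-! ## EXITS -/

/-- a directed minimising cone which is regular away from its vertex is a half space (`k ≥ 3`). -/
theorem dgB6_directed_cone_of_reg (hk : 3 ≤ k) {S : Set (E k)} (hmin : GmtMin univ S)
    (hcone : GmtCone S) (hreg : ∀ x ∈ gmtBd S, x ≠ 0 → GmtReg S x) (h0 : (0 : E k) ∈ gmtBd S)
    (j : Fin k) (hdir : ∀ᵐ x ∂(gmtMu S), ⟪gmtNu S x, eb j⟫ ≤ 0) :
    ∃ e : E k, ‖e‖ = 1 ∧ S =ᵐ[volume] gmtHalf 0 e := by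
  obtain ⟨U, u, hc⟩ := gmtSim_cone_exists hmin hcone hreg
  exact gmtSim_flat_global hk hmin.meas h0
    (gmtSim_flat_local hc (dgB6_A_zero hcone hc j (dgB6_af_zero hmin hc j hdir)))

/-- **Flatness of the directed cone** (`lem:monotone-flat-cone`), normal form of the hypothesis:
the OUTER normal of `S` has a nonpositive `j`-th component. -/
theorem dgB6_directed_cone_nu {S : Set (E 8)} (hmin : GmtMin univ S) (hcone : GmtCone S)
    (h0 : (0 : E 8) ∈ gmtBd S) (j : Fin 8)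
    (hdir : ∀ᵐ x ∂(gmtMu S), ⟪gmtNu S x, eb j⟫ ≤ 0) :
    ∃ e : E 8, ‖e‖ = 1 ∧ S =ᵐ[volume] gmtHalf 0 e :=
  dgB6_directed_cone_of_reg (by norm_num) hmin hcone (dgB6_reg8 hmin hcone) h0 j hdir

/-- **Flatness of the directed cone** (`lem:monotone-flat-cone`), distributional form of the hypothesis
(`∂_j χ_S ≥ 0`). -/
theorem dgB6_directed_cone {S : Set (E 8)} (hmin : GmtMin univ S) (hcone : GmtCone S)
    (h0 : (0 : E 8) ∈ gmtBd S) (j : Fin 8)
    (hdir : ∀ ψ : E 8 → ℝ, GmtTest0 univ ψ → (∀ x, 0 ≤ ψ x) →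
      ∫ x in S, fderiv ℝ ψ x (eb j) ≤ 0) :
    ∃ e : E 8, ‖e‖ = 1 ∧ S =ᵐ[volume] gmtHalf 0 e :=
  dgB6_directed_cone_nu hmin hcone h0 j (dgB6_nu_of_test hmin j hdir)

end Claimed.Agent.R329
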