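import Claimed.Agent.R329.Defs
import Claimed.Agent.Lib.Ell.Api
import Claimed.Agent.Lib.Gmt.FlCoord2
import Claimed.Agent.R329.Cpt
import Claimed.Agent.R329.StabMono

/-!
# Row 329, post A8 (helper88, prefix `dg88e_`): END PROFILES (Lemma 3.1 of the paper, `lem:monotone-ends`).

`u : ℝ^{n+1} → [-1,1]` an entire solution of `Δ u = u³ - u`, strictly increasing in the last variable, stable, with bounds of all
derivatives (contract of post A3: `Dg88eBdd`).  Then the limits `v±(x') = lim_{t → ±∞} u(x', t)` exist, are solutions in `ℝⁿ`, are stable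
in `ℝⁿ` (long cylinder test), `v- < u < v+`, and the vertical translates of `u` converge to `v± ∘ (first n coordinates)` with all derivatives,
uniformly on balls.

Parts:  A. limits of translates (any sequence of translations, any direction);  B. functions which do not depend on the last variable
(descent of the equation and of stability);  C. monotone limits;  EXITS.
-/

set_option autoImplicit false
open MeasureTheory Metric Set Filter
open scoped ContDiff Topology RealInnerProductSpace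

namespace Claimed.Agent.R329

open Claimed.Agent.Gmt Claimed.Agent.Lib.Ell

/-- contract of post A3 (regularity): `u` is smooth and every derivative is bounded on the whole space. -/
def Dg88eBdd (n : ℕ) (u : DgE n → ℝ) : Prop :=
  ContDiff ℝ ∞ u ∧ ∀ k : ℕ, ∃ C : ℝ, ∀ x, ‖iteratedFDeriv ℝ k u x‖ ≤ C

/-! ## A. limits of translates -/

section A

variable {n : ℕ}

/-- the Laplacian in the coordinate basis. -/
theorem dg88e_lap_eq (f : DgE n → ℝ) (x : DgE n) :
    Laplacian.laplacian f x = ∑ i : Fin n, iteratedFDeriv ℝ 2 f x ![eb i, eb i] := by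
  have h := InnerProductSpace.laplacian_eq_iteratedFDeriv_orthonormalBasis f (EuclideanSpace.basisFun (Fin n) ℝ)
  rw [h]
  simp [EuclideanSpace.basisFun_apply]

theorem dg88e_lap_translate (f : DgE n → ℝ) (a x : DgE n) :
    Laplacian.laplacian (fun y => f (y + a)) x = Laplacian.laplacian f (x + a) := by
  rw [dg88e_lap_eq, dg88e_lap_eq]
  simp only [iteratedFDeriv_comp_add_right]

theorem DgSol.dg88e_translate {u : DgE n → ℝ} (hu : DgSol n u) (a : DgE n) : DgSol n (fun y => u (y + a)) where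
  smooth := hu.smooth.comp (contDiff_id.add contDiff_const)
  range := fun x => hu.range _
  pde := fun x => by rw [dg88e_lap_translate]; exact hu.pde _

theorem dg88e_fderiv_translate (φ : DgE n → ℝ) (a x : DgE n) :
    fderiv ℝ (fun y => φ (y + a)) x = fderiv ℝ φ (x + a) := by
  simpa using fderiv_comp_add_right (f := φ) (x := x) a

theorem DgStable.dg88e_translate {u : DgE n → ℝ} (hu : DgStable n u) (a : DgE n) :
    DgStable n (fun y => u (y + a)) := by
  intro φ hφ hc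
  have h1 := hu (fun y => φ (y + (-a))) (hφ.comp (contDiff_id.add contDiff_const))
    (hc.comp_homeomorph (Homeomorph.addRight (-a)))
  have h2 := integral_add_right_eq_self (μ := (volume : Measure (DgE n)))
    (fun x => ‖fderiv ℝ (fun y => φ (y + (-a))) x‖ ^ 2 + (3 * u x ^ 2 - 1) * (φ (x + (-a))) ^ 2) a
  rw [← h2] at h1
  simpa [dg88e_fderiv_translate] using h1

/-- the integrand of the second variation is integrable (`v` continuous, `φ ∈ C¹_c`). -/
theorem dg88e_integrable_Q {v φ : DgE n → ℝ} (hv : Continuous v) (hφ : ContDiff ℝ 1 φ) (hc : HasCompactSupport φ) :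
    Integrable (fun x => ‖fderiv ℝ φ x‖ ^ 2 + (3 * v x ^ 2 - 1) * φ x ^ 2) := by
  have h1 : Continuous (fun x => ‖fderiv ℝ φ x‖ ^ 2 + (3 * v x ^ 2 - 1) * φ x ^ 2) := by
    have := hφ.continuous_fderiv one_ne_zero
    have := hφ.continuous
    fun_prop
  refine h1.integrable_of_hasCompactSupport ?_
  refine HasCompactSupport.intro hc.isCompact ?_
  intro x hx
  have h2 : φ x = 0 := image_eq_zero_of_notMem_tsupport hx
  have h3 : fderiv ℝ φ x = 0 := by
    have : x ∉ tsupport (fderiv ℝ φ) := fun h => hx (tsupport_fderiv_subset ℝ h)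
    exact image_eq_zero_of_notMem_tsupport this
  simp [h2, h3]

/-- **stability passes to bounded pointwise limits.** -/
theorem dg88e_stable_of_tendsto {un : ℕ → DgE n → ℝ} {V : DgE n → ℝ} (hs : ∀ j, DgStable n (un j))
    (hcont : ∀ j, Continuous (un j)) (hb : ∀ j x, un j x ∈ Set.Icc (-1 : ℝ) 1)
    (hlim : ∀ x, Tendsto (fun j => un j x) atTop (𝓝 (V x))) : DgStable n V := by
  intro φ hφ hc
  have hbound : Integrable (fun x => ‖fderiv ℝ φ x‖ ^ 2 + (3 * (1 : ℝ) ^ 2 - 1) * φ x ^ 2) :=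
    dg88e_integrable_Q (v := fun _ => (1 : ℝ)) continuous_const hφ hc
  have hT : Tendsto (fun j => ∫ x, (‖fderiv ℝ φ x‖ ^ 2 + (3 * un j x ^ 2 - 1) * φ x ^ 2)) atTop
      (𝓝 (∫ x, (‖fderiv ℝ φ x‖ ^ 2 + (3 * V x ^ 2 - 1) * φ x ^ 2))) := by
    refine tendsto_integral_of_dominated_convergence
      (fun x => ‖fderiv ℝ φ x‖ ^ 2 + (3 * (1 : ℝ) ^ 2 - 1) * φ x ^ 2) ?_ hbound ?_ ?_
    · intro j
      exact (dg88e_integrable_Q (hcont j) hφ hc).aestronglyMeasurable
    · intro j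
      refine Eventually.of_forall fun x => ?_
      have h1 := hb j x
      have h2 : un j x ^ 2 ≤ 1 := by
        have := h1.1; have := h1.2; nlinarith
      have h3 : 0 ≤ un j x ^ 2 := sq_nonneg _
      have h4 : 0 ≤ φ x ^ 2 := sq_nonneg _
      have h5 : 0 ≤ ‖fderiv ℝ φ x‖ ^ 2 := sq_nonneg _
      rw [Real.norm_eq_abs, abs_le]
      constructor <;> nlinarith
    · refine Eventually.of_forall fun x => ?_
      exact tendsto_const_nhds.add ((((hlim x).pow 2).const_mul 3).sub_const 1 |>.mul_const _)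
  exact ge_of_tendsto' hT fun j => hs j φ hφ hc

/-- **Limits of translates.**  `u` a solution with bounds of all derivatives, `a j` any sequence of translations such that
`u (x + a j)` converges pointwise to `V x`.  Then `V` is smooth, a solution, all derivatives converge uniformly on balls. -/
theorem dg88e_limit {u : DgE n → ℝ} (hu : DgSol n u) (hb : Dg88eBdd n u) {a : ℕ → DgE n} {V : DgE n → ℝ}
    (hlim : ∀ x, Tendsto (fun j => u (x + a j)) atTop (𝓝 (V x))) :
    ContDiff ℝ ∞ V ∧ DgSol n V ∧ Dg88eBdd n V ∧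
      ∀ (k : ℕ) (R : ℝ), TendstoUniformlyOn (fun j x => iteratedFDeriv ℝ k (fun y => u (y + a j)) x)
        (fun x => iteratedFDeriv ℝ k V x) atTop (ball 0 R) := by
  have hsm : ∀ j, ContDiff ℝ ∞ (fun y => u (y + a j)) := fun j => hb.1.comp (contDiff_id.add contDiff_const)
  have key : ∀ R : ℝ, ContDiffOn ℝ ∞ V (ball 0 R) ∧
      ∀ k : ℕ, TendstoUniformlyOn (fun j x => iteratedFDeriv ℝ k (fun y => u (y + a j)) x)
        (fun x => iteratedFDeriv ℝ k V x) atTop (ball 0 R) := by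
    intro R
    refine ell_smooth_conv (un := fun j y => u (y + a j)) (fun j => (hsm j).contDiffOn) ?_ (fun x _ => hlim x)
    intro k
    obtain ⟨C, hC⟩ := hb.2 k
    refine ⟨C, fun j x _ => ?_⟩
    rw [iteratedFDeriv_comp_add_right]
    exact hC _
  have hV : ContDiff ℝ ∞ V := by
    rw [contDiff_iff_contDiffAt]
    intro x
    exact (key (‖x‖ + 1)).1.contDiffAt (isOpen_ball.mem_nhds (by simp))
  have hpt : ∀ (k : ℕ) (x : DgE n), Tendsto (fun j => iteratedFDeriv ℝ k u (x + a j)) atTop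
      (𝓝 (iteratedFDeriv ℝ k V x)) := by
    intro k x
    have h1 := ((key (‖x‖ + 1)).2 k).tendsto_at (x := x) (by simp)
    simpa only [iteratedFDeriv_comp_add_right] using h1
  have hsol : DgSol n V := by
    refine ⟨hV.of_le (by norm_cast), fun x => ?_, fun x => ?_⟩
    · exact isClosed_Icc.mem_of_tendsto (hlim x) (Eventually.of_forall fun j => hu.range _)
    · have h1 : Tendsto (fun j => Laplacian.laplacian u (x + a j)) atTop (𝓝 (Laplacian.laplacian V x)) := by
        simp only [dg88e_lap_eq]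
        refine tendsto_finsetSum _ fun i _ => ?_
        exact ((ContinuousMultilinearMap.apply ℝ (fun _ : Fin 2 => DgE n) ℝ ![eb i, eb i]).continuous.tendsto _).comp
          (hpt 2 x)
      have h2 : Tendsto (fun j => Laplacian.laplacian u (x + a j)) atTop (𝓝 (V x ^ 3 - V x)) := by
        simp only [hu.pde]
        exact ((hlim x).pow 3).sub (hlim x)
      exact tendsto_nhds_unique h1 h2
  refine ⟨hV, hsol, ⟨hV, fun k => ?_⟩, fun k R => (key R).2 k⟩
  obtain ⟨C, hC⟩ := hb.2 k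
  exact ⟨C, fun x => le_of_tendsto' ((continuous_norm.tendsto _).comp (hpt k x)) fun j => hC _⟩

end A

/-! ## B. functions which do not depend on the last variable -/

section B

variable {n : ℕ}

/-- `V` does not depend on the last variable. -/
def Dg88eVert (n : ℕ) (V : DgE (n + 1) → ℝ) : Prop :=
  ∀ (x : DgE (n + 1)) (t : ℝ), V (x + t • gmtEn n) = V x

theorem dg88e_snoc_eq (x' : DgE n) (t : ℝ) : dgSnoc x' t = gmtJoin x' t := rfl

theorem dg88e_snoc_add (x' : DgE n) (t : ℝ) : dgSnoc x' t = dgSnoc x' 0 + t • gmtEn n := by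
  rw [dg88e_snoc_eq, dg88e_snoc_eq, fl_join_eq, fl_join_eq]
  simp

theorem Dg88eVert.eq_hor {V : DgE (n + 1) → ℝ} (h : Dg88eVert n V) (y : DgE (n + 1)) :
    V y = V (dgSnoc (gmtHor y) 0) := by
  conv_lhs => rw [← fl_join_hor_ver y, ← dg88e_snoc_eq, dg88e_snoc_add]
  exact h _ _

theorem dg88e_hasFDerivAt_hor (y : DgE (n + 1)) : HasFDerivAt (gmtHor : DgE (n + 1) → DgE n) (gmtHorL n) y :=
  (gmtHorL n).hasFDerivAt

theorem dg88e_hasFDerivAt_ver (y : DgE (n + 1)) : HasFDerivAt (gmtVer : DgE (n + 1) → ℝ) (gmtVerL n) y :=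
  (gmtVerL n).hasFDerivAt

theorem Dg88eVert.fderiv_en {V : DgE (n + 1) → ℝ} (h : Dg88eVert n V) (hV : Differentiable ℝ V) (y : DgE (n + 1)) :
    fderiv ℝ V y (gmtEn n) = 0 := by
  have h0 : HasDerivAt (fun t : ℝ => y + t • gmtEn n) (gmtEn n) 0 := by
    simpa using ((hasDerivAt_id (0 : ℝ)).smul_const (gmtEn n)).const_add y
  have h1 : HasDerivAt (fun t : ℝ => V (y + t • gmtEn n)) (fderiv ℝ V y (gmtEn n)) 0 := by
    have h2 : HasFDerivAt V (fderiv ℝ V y) (y + (0 : ℝ) • gmtEn n) := by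
      simpa using (hV y).hasFDerivAt
    exact h2.comp_hasDerivAt 0 h0
  have h2 : (fun t : ℝ => V (y + t • gmtEn n)) = fun _ => V y := funext (h y)
  rw [h2] at h1
  exact h1.unique (hasDerivAt_const _ _)

theorem Dg88eVert.d2_en {V : DgE (n + 1) → ℝ} (h : Dg88eVert n V) (hV : ContDiff ℝ 2 V) (y : DgE (n + 1)) :
    iteratedFDeriv ℝ 2 V y ![gmtEn n, gmtEn n] = 0 := by
  rw [iteratedFDeriv_two_apply]
  have h1 := ell_d2_apply_aux (U := univ) isOpen_univ hV.contDiffOn (mem_univ y) (gmtEn n) (gmtEn n)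
  simp only [Matrix.cons_val_zero, Matrix.cons_val_one]
  rw [h1]
  have h2 : dd (gmtEn n) V = fun _ => 0 := by
    funext z
    exact h.fderiv_en (hV.differentiable (by norm_num)) z
  rw [h2]
  simp [dd]

theorem dg88e_inc_eb (i : Fin n) : flInc n (eb i) = eb (Fin.castSucc i) := by
  rw [fl_inc_apply]
  ext j
  refine Fin.lastCases ?_ (fun k => ?_) j
  · rw [fl_join_last]
    simp [(Fin.castSucc_lt_last i).ne']
  · rw [fl_join_castSucc]
    simp

/-- descent of the Laplacian. -/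
theorem Dg88eVert.lap {V : DgE (n + 1) → ℝ} (h : Dg88eVert n V) (hV : ContDiff ℝ 2 V) (x' : DgE n) :
    Laplacian.laplacian (fun z : DgE n => V (dgSnoc z 0)) x' = Laplacian.laplacian V (dgSnoc x' 0) := by
  rw [dg88e_lap_eq, dg88e_lap_eq, Fin.sum_univ_castSucc, h.d2_en hV, add_zero]
  refine Finset.sum_congr rfl fun i _ => ?_
  have h1 : (fun z : DgE n => V (dgSnoc z 0)) = V ∘ (flInc n) := rfl
  rw [h1, (flInc n).iteratedFDeriv_comp_right hV x' le_rfl, ContinuousMultilinearMap.compContinuousLinearMap_apply]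
  congr 1
  funext j
  fin_cases j <;> simp [dg88e_inc_eb]

/-- descent of the equation. -/
theorem Dg88eVert.sol {V : DgE (n + 1) → ℝ} (h : Dg88eVert n V) (hV : DgSol (n + 1) V) :
    DgSol n (fun z : DgE n => V (dgSnoc z 0)) where
  smooth := hV.smooth.comp (flInc n).contDiff
  range := fun x => hV.range _
  pde := fun x => by rw [h.lap hV.smooth]; exact hV.pde _

/-! ### Fubini for products -/

theorem dg88e_integrable_prod {f : DgE n → ℝ} {g : ℝ → ℝ} (hf : Integrable f) (hg : Integrable g) :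
    Integrable (fun y : DgE (n + 1) => f (gmtHor y) * g (gmtVer y)) :=
  (fl_measurePreserving (n := n)).integrable_comp_of_integrable (hf.mul_prod hg)

theorem dg88e_integral_prod {f : DgE n → ℝ} {g : ℝ → ℝ} (hf : Integrable f) (hg : Integrable g) :
    ∫ y : DgE (n + 1), f (gmtHor y) * g (gmtVer y) = (∫ z, f z) * ∫ t, g t := by
  rw [fl_integral_join (dg88e_integrable_prod hf hg)]
  simp only [fl_hor_join, fl_ver_join, integral_const_mul, integral_mul_const]

/-! ### the covector `a ∘ hor + c • ver` -/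

theorem dg88e_norm_sq_le (a : DgE n →L[ℝ] ℝ) (c : ℝ) :
    ‖a.comp (gmtHorL n) + c • gmtVerL n‖ ^ 2 ≤ ‖a‖ ^ 2 + c ^ 2 := by
  have hM : 0 ≤ ‖a‖ ^ 2 + c ^ 2 := by positivity
  have h1 : ‖a.comp (gmtHorL n) + c • gmtVerL n‖ ≤ Real.sqrt (‖a‖ ^ 2 + c ^ 2) := by
    refine ContinuousLinearMap.opNorm_le_bound _ (Real.sqrt_nonneg _) fun y => ?_
    have e1 : (a.comp (gmtHorL n) + c • gmtVerL n) y = a (gmtHor y) + c * gmtVer y := rfl
    have h2 : ‖a (gmtHor y) + c * gmtVer y‖ ≤ ‖a‖ * ‖gmtHor y‖ + |c| * |gmtVer y| := by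
      refine (norm_add_le _ _).trans (add_le_add (a.le_opNorm _) ?_)
      rw [Real.norm_eq_abs, abs_mul]
    have h3 : (‖a‖ * ‖gmtHor y‖ + |c| * |gmtVer y|) ^ 2 ≤ (‖a‖ ^ 2 + c ^ 2) * ‖y‖ ^ 2 := by
      rw [fl_norm_sq, ← sq_abs c, ← sq_abs (gmtVer y)]
      nlinarith [sq_nonneg (‖a‖ * |gmtVer y| - |c| * ‖gmtHor y‖)]
    have h4 : ‖a‖ * ‖gmtHor y‖ + |c| * |gmtVer y| ≤ Real.sqrt (‖a‖ ^ 2 + c ^ 2) * ‖y‖ := by
      have h5 : 0 ≤ ‖a‖ * ‖gmtHor y‖ + |c| * |gmtVer y| := by positivity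
      calc ‖a‖ * ‖gmtHor y‖ + |c| * |gmtVer y| = Real.sqrt ((‖a‖ * ‖gmtHor y‖ + |c| * |gmtVer y|) ^ 2) :=
            (Real.sqrt_sq h5).symm
        _ ≤ Real.sqrt ((‖a‖ ^ 2 + c ^ 2) * ‖y‖ ^ 2) := Real.sqrt_le_sqrt h3
        _ = Real.sqrt (‖a‖ ^ 2 + c ^ 2) * ‖y‖ := by rw [Real.sqrt_mul hM, Real.sqrt_sq (norm_nonneg _)]
    rw [e1]
    exact h2.trans h4
  calc ‖a.comp (gmtHorL n) + c • gmtVerL n‖ ^ 2 ≤ Real.sqrt (‖a‖ ^ 2 + c ^ 2) ^ 2 :=
        pow_le_pow_left₀ (norm_nonneg _) h1 2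
    _ = ‖a‖ ^ 2 + c ^ 2 := Real.sq_sqrt hM

/-! ### the product test function `η(z,t) = φ(z) ψ(t)` -/

theorem dg88e_eta_hasFDerivAt {φ : DgE n → ℝ} {ψ : ℝ → ℝ} (hφ : ContDiff ℝ 1 φ) (hψ : ContDiff ℝ 1 ψ) (y : DgE (n + 1)) :
    HasFDerivAt (fun y : DgE (n + 1) => φ (gmtHor y) * ψ (gmtVer y))
      ((ψ (gmtVer y) • fderiv ℝ φ (gmtHor y)).comp (gmtHorL n) + (φ (gmtHor y) * deriv ψ (gmtVer y)) • gmtVerL n) y := by
  have h1 : HasFDerivAt (fun y : DgE (n + 1) => φ (gmtHor y)) ((fderiv ℝ φ (gmtHor y)).comp (gmtHorL n)) y :=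
    ((hφ.differentiable one_ne_zero _).hasFDerivAt).comp y (dg88e_hasFDerivAt_hor y)
  have h2 : HasFDerivAt (fun y : DgE (n + 1) => ψ (gmtVer y)) (deriv ψ (gmtVer y) • gmtVerL n) y :=
    ((hψ.differentiable one_ne_zero _).hasDerivAt).comp_hasFDerivAt y (dg88e_hasFDerivAt_ver y)
  have h3 := h1.mul h2
  refine h3.congr_fderiv ?_
  ext w
  simp only [add_apply, smul_apply, ContinuousLinearMap.comp_apply, smul_eq_mul]
  ring

theorem dg88e_eta_contDiff {φ : DgE n → ℝ} {ψ : ℝ → ℝ} (hφ : ContDiff ℝ 1 φ) (hψ : ContDiff ℝ 1 ψ) :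
    ContDiff ℝ 1 (fun y : DgE (n + 1) => φ (gmtHor y) * ψ (gmtVer y)) :=
  (hφ.comp (gmtHorL n).contDiff).mul (hψ.comp (gmtVerL n).contDiff)

theorem dg88e_eta_compact {φ : DgE n → ℝ} {ψ : ℝ → ℝ} (hφ : HasCompactSupport φ) (hψ : HasCompactSupport ψ) :
    HasCompactSupport (fun y : DgE (n + 1) => φ (gmtHor y) * ψ (gmtVer y)) := by
  have hK : IsCompact ((fun p : DgE n × ℝ => gmtJoin p.1 p.2) '' (tsupport φ ×ˢ tsupport ψ)) :=
    (hφ.isCompact.prod hψ.isCompact).image fl_continuous_join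
  refine HasCompactSupport.intro hK fun y hy => ?_
  by_cases h1 : gmtHor y ∈ tsupport φ
  · by_cases h2 : gmtVer y ∈ tsupport ψ
    · exact absurd ⟨(gmtHor y, gmtVer y), ⟨h1, h2⟩, fl_join_hor_ver y⟩ hy
    · simp [image_eq_zero_of_notMem_tsupport h2]
  · simp [image_eq_zero_of_notMem_tsupport h1]

/-- the key inequality: `Q_{n+1}(φ ⊗ ψ) ≤ Q_n(φ) ∫ψ² + ∫φ² ∫ψ'²` for `V = v ∘ hor`. -/
theorem dg88e_Q_prod_le {v φ : DgE n → ℝ} {ψ : ℝ → ℝ} (hv : Continuous v) (hφ : ContDiff ℝ 1 φ)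
    (hφc : HasCompactSupport φ) (hψ : ContDiff ℝ 1 ψ) (hψc : HasCompactSupport ψ) :
    ∫ y : DgE (n + 1), (‖fderiv ℝ (fun y : DgE (n + 1) => φ (gmtHor y) * ψ (gmtVer y)) y‖ ^ 2 +
        (3 * v (gmtHor y) ^ 2 - 1) * (φ (gmtHor y) * ψ (gmtVer y)) ^ 2) ≤
      (∫ z, (‖fderiv ℝ φ z‖ ^ 2 + (3 * v z ^ 2 - 1) * φ z ^ 2)) * (∫ t, ψ t ^ 2) +
        (∫ z, φ z ^ 2) * ∫ t, deriv ψ t ^ 2 := by
  have iF : Integrable (fun z => ‖fderiv ℝ φ z‖ ^ 2 + (3 * v z ^ 2 - 1) * φ z ^ 2) := dg88e_integrable_Q hv hφ hφc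
  have iG : Integrable (fun z => φ z ^ 2) :=
    (hφ.continuous.pow 2).integrable_of_hasCompactSupport
      (HasCompactSupport.intro hφc.isCompact fun x hx => by simp [image_eq_zero_of_notMem_tsupport hx])
  have iZ1 : Integrable (fun t => ψ t ^ 2) :=
    (hψ.continuous.pow 2).integrable_of_hasCompactSupport
      (HasCompactSupport.intro hψc.isCompact fun x hx => by simp [image_eq_zero_of_notMem_tsupport hx])
  have iZ2 : Integrable (fun t => deriv ψ t ^ 2) :=
    ((hψ.continuous_deriv le_rfl).pow 2).integrable_of_hasCompactSupport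
      (HasCompactSupport.intro hψc.deriv.isCompact fun x hx => by simp [image_eq_zero_of_notMem_tsupport hx])
  rw [← dg88e_integral_prod iF iZ1, ← dg88e_integral_prod iG iZ2,
    ← integral_add (dg88e_integrable_prod iF iZ1) (dg88e_integrable_prod iG iZ2)]
  refine integral_mono ?_ ((dg88e_integrable_prod iF iZ1).add (dg88e_integrable_prod iG iZ2)) fun y => ?_
  · exact dg88e_integrable_Q (v := fun y : DgE (n + 1) => v (gmtHor y)) (hv.comp fl_continuous_hor)
      (dg88e_eta_contDiff hφ hψ) (dg88e_eta_compact hφc hψc)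
  · simp only
    rw [(dg88e_eta_hasFDerivAt hφ hψ y).fderiv]
    have h1 := dg88e_norm_sq_le (ψ (gmtVer y) • fderiv ℝ φ (gmtHor y)) (φ (gmtHor y) * deriv ψ (gmtVer y))
    rw [norm_smul, Real.norm_eq_abs, mul_pow, sq_abs] at h1
    nlinarith [h1]

/-- the fixed vertical profile. -/
noncomputable def dg88eZeta : ℝ → ℝ := (default : ContDiffBump (0 : ℝ))

theorem dg88e_zeta_contDiff : ContDiff ℝ 1 dg88eZeta := (default : ContDiffBump (0 : ℝ)).contDiff

theorem dg88e_zeta_compact : HasCompactSupport dg88eZeta := (default : ContDiffBump (0 : ℝ)).hasCompactSupport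

theorem dg88e_zeta_int_pos : 0 < ∫ t, dg88eZeta t ^ 2 := by
  have hc : Continuous (fun t => dg88eZeta t ^ 2) := dg88e_zeta_contDiff.continuous.pow 2
  refine hc.integral_pos_of_hasCompactSupport_nonneg_nonzero
    (HasCompactSupport.intro dg88e_zeta_compact.isCompact fun x hx => by simp [image_eq_zero_of_notMem_tsupport hx])
    (fun t => sq_nonneg _) (x := 0) ?_
  have : dg88eZeta 0 = 1 := (default : ContDiffBump (0 : ℝ)).one_of_mem_closedBall (by
    simpa using (default : ContDiffBump (0 : ℝ)).rIn_pos.le)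
  simp [this]

/-- **Descent of stability** (long cylinder test). -/
theorem Dg88eVert.stable {V : DgE (n + 1) → ℝ} (h : Dg88eVert n V) (hV : Continuous V) (hs : DgStable (n + 1) V) :
    DgStable n (fun z : DgE n => V (dgSnoc z 0)) := by
  intro φ hφ hφc
  set v : DgE n → ℝ := fun z => V (dgSnoc z 0) with hv
  have hvc : Continuous v := hV.comp (flInc n).continuous
  set Q : ℝ := ∫ z, (‖fderiv ℝ φ z‖ ^ 2 + (3 * v z ^ 2 - 1) * φ z ^ 2) with hQ
  set P : ℝ := ∫ z, φ z ^ 2 with hP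
  set A : ℝ := ∫ t, dg88eZeta t ^ 2 with hA
  set B : ℝ := ∫ t, deriv dg88eZeta t ^ 2 with hB
  have hA0 : 0 < A := dg88e_zeta_int_pos
  -- the inequality at scale `L`
  have key : ∀ L : ℝ, 0 < L → 0 ≤ Q * (L * A) + P * (B / L) := by
    intro L hL
    set ψ : ℝ → ℝ := fun t => dg88eZeta (t / L) with hψ
    have hψ1 : ContDiff ℝ 1 ψ := dg88e_zeta_contDiff.comp (contDiff_id.div_const L)
    have hψc : HasCompactSupport ψ := by
      have h0 := dg88e_zeta_compact.comp_homeomorph (Homeomorph.mulRight₀ (L⁻¹) (inv_ne_zero hL.ne'))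
      have e : ψ = dg88eZeta ∘ ⇑(Homeomorph.mulRight₀ (L⁻¹) (inv_ne_zero hL.ne')) := by
        funext t
        simp [hψ, div_eq_mul_inv]
      rw [e]
      exact h0
    have h1 := hs (fun y : DgE (n + 1) => φ (gmtHor y) * ψ (gmtVer y)) (dg88e_eta_contDiff hφ hψ1)
      (dg88e_eta_compact hφc hψc)
    have h2 := dg88e_Q_prod_le hvc hφ hφc hψ1 hψc
    have e0 : ∀ y : DgE (n + 1), V y = v (gmtHor y) := fun y => h.eq_hor y
    simp only [e0] at h1
    have e1 : ∫ t, ψ t ^ 2 = L * A := by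
      have := Measure.integral_comp_div (fun s => dg88eZeta s ^ 2) L
      rw [abs_of_pos hL, smul_eq_mul] at this
      exact this
    have e2 : ∫ t, deriv ψ t ^ 2 = B / L := by
      have hd : ∀ t, deriv ψ t = deriv dg88eZeta (t / L) / L := by
        intro t
        have h3 : HasDerivAt dg88eZeta (deriv dg88eZeta (t / L)) (t / L) :=
          (dg88e_zeta_contDiff.differentiable one_ne_zero _).hasDerivAt
        have h4 : HasDerivAt (fun t : ℝ => t / L) (1 / L) t := (hasDerivAt_id t).div_const L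
        have h5 := h3.comp t h4
        rw [show ψ = dg88eZeta ∘ fun t : ℝ => t / L from rfl, h5.deriv]
        ring
      have := Measure.integral_comp_div (fun s => (deriv dg88eZeta s / L) ^ 2) L
      rw [abs_of_pos hL, smul_eq_mul] at this
      simp only [hd]
      rw [this]
      simp only [div_pow]
      rw [integral_div, ← hB]
      field_simp
    rw [e1, e2] at h2
    exact h1.trans h2
  -- let `L → ∞`
  have hT : Tendsto (fun k : ℕ => Q * A + P * B / ((k : ℝ) + 1) ^ 2) atTop (𝓝 (Q * A + 0)) := by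
    refine tendsto_const_nhds.add ?_
    have h1 : Tendsto (fun k : ℕ => ((k : ℝ) + 1) ^ 2) atTop atTop :=
      (tendsto_pow_atTop two_ne_zero).comp (tendsto_atTop_add_const_right _ _ tendsto_natCast_atTop_atTop)
    exact h1.const_div_atTop _
  have h0 : 0 ≤ Q * A + 0 := by
    refine ge_of_tendsto' hT fun k => ?_
    have hk : (0 : ℝ) < (k : ℝ) + 1 := by positivity
    have h1 := key ((k : ℝ) + 1) hk
    have h2 : Q * A + P * B / ((k : ℝ) + 1) ^ 2 = (Q * (((k : ℝ) + 1) * A) + P * (B / ((k : ℝ) + 1))) / ((k : ℝ) + 1) := by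
      field_simp
    rw [h2]
    positivity
  rw [add_zero] at h0
  exact nonneg_of_mul_nonneg_left h0 hA0

end B

/-! ## C. monotone limits -/

section C

variable {n : ℕ}

theorem dg88e_hasDerivAt_line {u : DgE (n + 1) → ℝ} (hu : Differentiable ℝ u) (x : DgE (n + 1)) (t : ℝ) :
    HasDerivAt (fun t : ℝ => u (x + t • gmtEn n)) (fderiv ℝ u (x + t • gmtEn n) (gmtEn n)) t := by
  have h0 : HasDerivAt (fun t : ℝ => x + t • gmtEn n) (gmtEn n) t := by
    simpa using ((hasDerivAt_id t).smul_const (gmtEn n)).const_add x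
  exact ((hu _).hasFDerivAt).comp_hasDerivAt t h0

theorem dg88e_strictMono {u : DgE (n + 1) → ℝ} (hu : Differentiable ℝ u)
    (hmono : ∀ x, 0 < fderiv ℝ u x (gmtEn n)) (x : DgE (n + 1)) :
    StrictMono (fun t : ℝ => u (x + t • gmtEn n)) := by
  refine strictMono_of_deriv_pos fun t => ?_
  rw [(dg88e_hasDerivAt_line hu x t).deriv]
  exact hmono _

/-- the upper end profile, as a function on `ℝ^{n+1}`. -/
noncomputable def dg88eUp (u : DgE (n + 1) → ℝ) (x : DgE (n + 1)) : ℝ := ⨆ t : ℝ, u (x + t • gmtEn n)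

/-- the lower end profile, as a function on `ℝ^{n+1}`. -/
noncomputable def dg88eDown (u : DgE (n + 1) → ℝ) (x : DgE (n + 1)) : ℝ := ⨅ t : ℝ, u (x + t • gmtEn n)

theorem dg88e_bddAbove {u : DgE (n + 1) → ℝ} (hr : ∀ x, u x ∈ Set.Icc (-1 : ℝ) 1) (x : DgE (n + 1)) :
    BddAbove (range fun t : ℝ => u (x + t • gmtEn n)) :=
  ⟨1, by rintro _ ⟨t, rfl⟩; exact (hr _).2⟩

theorem dg88e_bddBelow {u : DgE (n + 1) → ℝ} (hr : ∀ x, u x ∈ Set.Icc (-1 : ℝ) 1) (x : DgE (n + 1)) :
    BddBelow (range fun t : ℝ => u (x + t • gmtEn n)) :=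
  ⟨-1, by rintro _ ⟨t, rfl⟩; exact (hr _).1⟩

theorem dg88e_tendsto_up {u : DgE (n + 1) → ℝ} (hm : ∀ x, Monotone (fun t : ℝ => u (x + t • gmtEn n)))
    (hr : ∀ x, u x ∈ Set.Icc (-1 : ℝ) 1) (x : DgE (n + 1)) :
    Tendsto (fun t : ℝ => u (x + t • gmtEn n)) atTop (𝓝 (dg88eUp u x)) :=
  tendsto_atTop_ciSup (hm x) (dg88e_bddAbove hr x)

theorem dg88e_tendsto_down {u : DgE (n + 1) → ℝ} (hm : ∀ x, Monotone (fun t : ℝ => u (x + t • gmtEn n)))
    (hr : ∀ x, u x ∈ Set.Icc (-1 : ℝ) 1) (x : DgE (n + 1)) :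
    Tendsto (fun t : ℝ => u (x + t • gmtEn n)) atBot (𝓝 (dg88eDown u x)) :=
  tendsto_atBot_ciInf (hm x) (dg88e_bddBelow hr x)

theorem dg88e_vert_up {u : DgE (n + 1) → ℝ} (hm : ∀ x, Monotone (fun t : ℝ => u (x + t • gmtEn n)))
    (hr : ∀ x, u x ∈ Set.Icc (-1 : ℝ) 1) : Dg88eVert n (dg88eUp u) := by
  intro x τ
  have h1 := dg88e_tendsto_up hm hr (x + τ • gmtEn n)
  have h2 : Tendsto (fun t : ℝ => u (x + (τ + t) • gmtEn n)) atTop (𝓝 (dg88eUp u x)) :=
    (dg88e_tendsto_up hm hr x).comp (tendsto_atTop_add_const_left atTop τ tendsto_id)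
  have e : (fun t : ℝ => u (x + τ • gmtEn n + t • gmtEn n)) = fun t : ℝ => u (x + (τ + t) • gmtEn n) := by
    funext t; rw [add_smul, add_assoc]
  rw [e] at h1
  exact tendsto_nhds_unique h1 h2

theorem dg88e_vert_down {u : DgE (n + 1) → ℝ} (hm : ∀ x, Monotone (fun t : ℝ => u (x + t • gmtEn n)))
    (hr : ∀ x, u x ∈ Set.Icc (-1 : ℝ) 1) : Dg88eVert n (dg88eDown u) := by
  intro x τ
  have h1 := dg88e_tendsto_down hm hr (x + τ • gmtEn n)
  have h2 : Tendsto (fun t : ℝ => u (x + (τ + t) • gmtEn n)) atBot (𝓝 (dg88eDown u x)) :=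
    (dg88e_tendsto_down hm hr x).comp (tendsto_atBot_add_const_left atBot τ tendsto_id)
  have e : (fun t : ℝ => u (x + τ • gmtEn n + t • gmtEn n)) = fun t : ℝ => u (x + (τ + t) • gmtEn n) := by
    funext t; rw [add_smul, add_assoc]
  rw [e] at h1
  exact tendsto_nhds_unique h1 h2

theorem dg88e_lt_up {u : DgE (n + 1) → ℝ} (hm : ∀ x, StrictMono (fun t : ℝ => u (x + t • gmtEn n)))
    (hr : ∀ x, u x ∈ Set.Icc (-1 : ℝ) 1) (x : DgE (n + 1)) : u x < dg88eUp u x := by
  have h1 : u (x + (0 : ℝ) • gmtEn n) < u (x + (1 : ℝ) • gmtEn n) := hm x zero_lt_one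
  have h2 : u (x + (1 : ℝ) • gmtEn n) ≤ dg88eUp u x := le_ciSup (dg88e_bddAbove hr x) (1 : ℝ)
  simp only [zero_smul, add_zero] at h1
  exact h1.trans_le h2

theorem dg88e_down_lt {u : DgE (n + 1) → ℝ} (hm : ∀ x, StrictMono (fun t : ℝ => u (x + t • gmtEn n)))
    (hr : ∀ x, u x ∈ Set.Icc (-1 : ℝ) 1) (x : DgE (n + 1)) : dg88eDown u x < u x := by
  have h1 : u (x + (-1 : ℝ) • gmtEn n) < u (x + (0 : ℝ) • gmtEn n) := hm x (by norm_num)
  have h2 : dg88eDown u x ≤ u (x + (-1 : ℝ) • gmtEn n) := ciInf_le (dg88e_bddBelow hr x) (-1 : ℝ)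
  simp only [zero_smul, add_zero] at h1
  exact h2.trans_lt h1

end C

/-! ## EXITS -/

section Exits

variable {n : ℕ}

/-- **The end profiles of `u`** (`lem:monotone-ends`): what the rest of Part I may use. -/
structure Dg88eEnds (n : ℕ) (u : DgE (n + 1) → ℝ) (vm vp : DgE n → ℝ) : Prop where
  sol_m : DgSol n vm
  sol_p : DgSol n vp
  stable_m : DgStable n vm
  stable_p : DgStable n vp
  lt_m : ∀ x' t, vm x' < u (dgSnoc x' t)
  lt_p : ∀ x' t, u (dgSnoc x' t) < vp x'
  lim_m : ∀ x', Tendsto (fun t => u (dgSnoc x' t)) atBot (𝓝 (vm x'))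
  lim_p : ∀ x', Tendsto (fun t => u (dgSnoc x' t)) atTop (𝓝 (vp x'))
  /-- the extensions which do not depend on the last variable -/
  ext_sol_m : DgSol (n + 1) (fun y => vm (gmtHor y))
  ext_sol_p : DgSol (n + 1) (fun y => vp (gmtHor y))
  ext_stable_m : DgStable (n + 1) (fun y => vm (gmtHor y))
  ext_stable_p : DgStable (n + 1) (fun y => vp (gmtHor y))
  ext_bdd_m : Dg88eBdd (n + 1) (fun y => vm (gmtHor y))
  ext_bdd_p : Dg88eBdd (n + 1) (fun y => vp (gmtHor y))
  /-- `C^k_loc` convergence of the vertical translates, along every sequence -/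
  conv_m : ∀ s : ℕ → ℝ, Tendsto s atTop atBot → ∀ (k : ℕ) (R : ℝ),
    TendstoUniformlyOn (fun j x => iteratedFDeriv ℝ k (fun y => u (y + s j • gmtEn n)) x)
      (fun x => iteratedFDeriv ℝ k (fun y => vm (gmtHor y)) x) atTop (ball 0 R)
  conv_p : ∀ s : ℕ → ℝ, Tendsto s atTop atTop → ∀ (k : ℕ) (R : ℝ),
    TendstoUniformlyOn (fun j x => iteratedFDeriv ℝ k (fun y => u (y + s j • gmtEn n)) x)
      (fun x => iteratedFDeriv ℝ k (fun y => vp (gmtHor y)) x) atTop (ball 0 R)

/-- **Lemma 3.1 (end profiles).**  Contracts used: `hb` (post A3: bounds of all derivatives), `hst` (post A7: monotone ⟹ stable). -/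
theorem dg88e_ends {u : DgE (n + 1) → ℝ} (hu : DgSol (n + 1) u) (hb : Dg88eBdd (n + 1) u)
    (hmono : ∀ x, 0 < fderiv ℝ u x (EuclideanSpace.single (Fin.last n) 1)) (hst : DgStable (n + 1) u) :
    ∃ vm vp : DgE n → ℝ, Dg88eEnds n u vm vp := by
  have hd : Differentiable ℝ u := hu.smooth.differentiable (by norm_num)
  have hsm : ∀ x, StrictMono (fun t : ℝ => u (x + t • gmtEn n)) := dg88e_strictMono hd hmono
  have hm : ∀ x, Monotone (fun t : ℝ => u (x + t • gmtEn n)) := fun x => (hsm x).monotone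
  have hr := hu.range
  have hvp := dg88e_vert_up hm hr
  have hvm := dg88e_vert_down hm hr
  -- limits along sequences
  have Lp : ∀ s : ℕ → ℝ, Tendsto s atTop atTop → ∀ x, Tendsto (fun j => u (x + s j • gmtEn n)) atTop (𝓝 (dg88eUp u x)) :=
    fun s hs x => (dg88e_tendsto_up hm hr x).comp hs
  have Lm : ∀ s : ℕ → ℝ, Tendsto s atTop atBot → ∀ x, Tendsto (fun j => u (x + s j • gmtEn n)) atTop (𝓝 (dg88eDown u x)) :=
    fun s hs x => (dg88e_tendsto_down hm hr x).comp hs
  have sp : Tendsto (fun j : ℕ => (j : ℝ)) atTop atTop := tendsto_natCast_atTop_atTop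
  have sm : Tendsto (fun j : ℕ => -(j : ℝ)) atTop atBot := tendsto_neg_atTop_atBot.comp tendsto_natCast_atTop_atTop
  obtain ⟨-, hSp, hBp, -⟩ := dg88e_limit hu hb (a := fun j : ℕ => (j : ℝ) • gmtEn n) (Lp _ sp)
  obtain ⟨-, hSm, hBm, -⟩ := dg88e_limit hu hb (a := fun j : ℕ => (-(j : ℝ)) • gmtEn n) (Lm _ sm)
  have hStp : DgStable (n + 1) (dg88eUp u) :=
    dg88e_stable_of_tendsto (un := fun j y => u (y + (j : ℝ) • gmtEn n)) (fun j => hst.dg88e_translate _)
      (fun j => hu.smooth.continuous.comp (continuous_id.add continuous_const)) (fun j x => hr _) (Lp _ sp)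
  have hStm : DgStable (n + 1) (dg88eDown u) :=
    dg88e_stable_of_tendsto (un := fun j y => u (y + (-(j : ℝ)) • gmtEn n)) (fun j => hst.dg88e_translate _)
      (fun j => hu.smooth.continuous.comp (continuous_id.add continuous_const)) (fun j x => hr _) (Lm _ sm)
  have ep : (fun y : DgE (n + 1) => dg88eUp u (dgSnoc (gmtHor y) 0)) = dg88eUp u := funext fun y => (hvp.eq_hor y).symm
  have em : (fun y : DgE (n + 1) => dg88eDown u (dgSnoc (gmtHor y) 0)) = dg88eDown u := funext fun y => (hvm.eq_hor y).symm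
  refine ⟨fun z => dg88eDown u (dgSnoc z 0), fun z => dg88eUp u (dgSnoc z 0), ?_⟩
  refine
    { sol_m := hvm.sol hSm
      sol_p := hvp.sol hSp
      stable_m := hvm.stable hSm.smooth.continuous hStm
      stable_p := hvp.stable hSp.smooth.continuous hStp
      lt_m := fun x' t => ?_
      lt_p := fun x' t => ?_
      lim_m := fun x' => ?_
      lim_p := fun x' => ?_
      ext_sol_m := by rw [em]; exact hSm
      ext_sol_p := by rw [ep]; exact hSp
      ext_stable_m := by rw [em]; exact hStm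
      ext_stable_p := by rw [ep]; exact hStp
      ext_bdd_m := by rw [em]; exact hBm
      ext_bdd_p := by rw [ep]; exact hBp
      conv_m := fun s hs k R => ?_
      conv_p := fun s hs k R => ?_ }
  · have h1 := dg88e_down_lt hsm hr (dgSnoc x' t)
    rw [dg88e_snoc_add x' t, hvm] at h1
    rw [dg88e_snoc_add x' t]
    exact h1
  · have h1 := dg88e_lt_up hsm hr (dgSnoc x' t)
    rw [dg88e_snoc_add x' t, hvp] at h1
    rw [dg88e_snoc_add x' t]
    exact h1
  · have e : (fun t => u (dgSnoc x' t)) = fun t : ℝ => u (dgSnoc x' 0 + t • gmtEn n) :=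
      funext fun t => by rw [dg88e_snoc_add x' t]
    rw [e]
    exact dg88e_tendsto_down hm hr _
  · have e : (fun t => u (dgSnoc x' t)) = fun t : ℝ => u (dgSnoc x' 0 + t • gmtEn n) :=
      funext fun t => by rw [dg88e_snoc_add x' t]
    rw [e]
    exact dg88e_tendsto_up hm hr _
  · rw [em]
    exact (dg88e_limit hu hb (a := fun j => s j • gmtEn n) (Lm s hs)).2.2.2 k R
  · rw [ep]
    exact (dg88e_limit hu hb (a := fun j => s j • gmtEn n) (Lp s hs)).2.2.2 k R

/-- the same in the very words of S0587 (`n + 1 = 8`). -/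
theorem dg88e_ends_eight {u : EuclideanSpace ℝ (Fin 8) → ℝ} (hu : ContDiff ℝ 2 u)
    (hrange : ∀ x, u x ∈ Set.Ioo (-1 : ℝ) 1)
    (hpde : ∀ x, Laplacian.laplacian u x = u x ^ 3 - u x)
    (hmono : ∀ x, 0 < fderiv ℝ u x (EuclideanSpace.single 7 1))
    (hb : Dg88eBdd 8 u) (hst : DgStable 8 u) :
    ∃ vm vp : DgE 7 → ℝ, Dg88eEnds 7 u vm vp :=
  dg88e_ends (n := 7) ⟨hu, fun x => Set.Ioo_subset_Icc_self (hrange x), hpde⟩ hb hmono hst

end Exits

/-! ## K2 of the Hub, unconditional -/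

section K2

variable {n : ℕ}

/-- the contract of post A3 is proved (`Reg.lean`, `Cpt.lean`). -/
theorem DgSol.dg88e_bdd {u : DgE n → ℝ} (hu : DgSol n u) : Dg88eBdd n u :=
  ⟨hu.contDiff_top, fun k => by
    obtain ⟨C, hC⟩ := dgA4_reg n k
    exact ⟨C, (hC u hu).2⟩⟩

theorem dg88e_hor_eq (x : DgE (n + 1)) : gmtHor x = WithLp.toLp 2 fun i : Fin n => x i.castSucc := rfl

theorem dg88e_snoc_hor_ver (x : DgE (n + 1)) : dgSnoc (gmtHor x) (gmtVer x) = x := fl_join_hor_ver x

/-- uniform convergence of the values on compact sets, along the real parameter. -/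
theorem dg88e_unif_of_seq {u : DgE (n + 1) → ℝ} {V : DgE (n + 1) → ℝ} {l : Filter ℝ} [l.IsCountablyGenerated]
    (h : ∀ s : ℕ → ℝ, Tendsto s atTop l → ∀ (k : ℕ) (R : ℝ),
      TendstoUniformlyOn (fun j x => iteratedFDeriv ℝ k (fun y => u (y + s j • gmtEn n)) x)
        (fun x => iteratedFDeriv ℝ k V x) atTop (ball 0 R))
    {K : Set (DgE (n + 1))} (hK : IsCompact K) :
    TendstoUniformlyOn (fun (s : ℝ) x => u (x + s • gmtEn n)) V l K := by
  rw [tendstoUniformlyOn_iff_seq_tendstoUniformlyOn]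
  intro s hs
  obtain ⟨R, hR⟩ := hK.isBounded.subset_ball (0 : DgE (n + 1))
  have h0 := (h s hs 0 R).mono hR
  rw [Metric.tendstoUniformlyOn_iff] at h0 ⊢
  intro ε hε
  filter_upwards [h0 ε hε] with j hj x hx
  have := hj x hx
  rw [iteratedFDeriv_zero_eq_comp, iteratedFDeriv_zero_eq_comp, Function.comp_apply, Function.comp_apply,
    LinearIsometryEquiv.dist_map] at this
  exact this

/-- **Lemma 3.1, unconditional** (posts A3 and A7 are proved). -/
theorem dg88e_ends' {u : DgE (n + 1) → ℝ} (hu : DgSol (n + 1) u)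
    (hmono : ∀ x, 0 < fderiv ℝ u x (EuclideanSpace.single (Fin.last n) 1)) :
    ∃ vm vp : DgE n → ℝ, Dg88eEnds n u vm vp :=
  dg88e_ends hu hu.dg88e_bdd hmono (dgA7_stable hu _ hmono)

/-- **K2 in the words of the Hub** (`dgInit x` and `dgE8` written out). -/
theorem dg88e_K2 {u : DgE 8 → ℝ} (hu : DgSol 8 u) (hmono : ∀ x, 0 < fderiv ℝ u x (EuclideanSpace.single 7 1)) :
    ∃ vm vp : DgE 7 → ℝ, DgSol 7 vm ∧ DgSol 7 vp ∧ DgStable 7 vm ∧ DgStable 7 vp ∧
      (∀ x : DgE 8, vm (WithLp.toLp 2 fun i : Fin 7 => x i.castSucc) < u x ∧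
        u x < vp (WithLp.toLp 2 fun i : Fin 7 => x i.castSucc)) ∧
      (∀ K : Set (DgE 8), IsCompact K →
        TendstoUniformlyOn (fun (s : ℝ) x => u (x + s • (EuclideanSpace.single 7 1 : DgE 8)))
          (fun x => vp (WithLp.toLp 2 fun i : Fin 7 => x i.castSucc)) atTop K) ∧
      (∀ K : Set (DgE 8), IsCompact K →
        TendstoUniformlyOn (fun (s : ℝ) x => u (x + s • (EuclideanSpace.single 7 1 : DgE 8)))
          (fun x => vm (WithLp.toLp 2 fun i : Fin 7 => x i.castSucc)) atBot K) := by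
  obtain ⟨vm, vp, h⟩ := dg88e_ends' (n := 7) hu hmono
  refine ⟨vm, vp, h.sol_m, h.sol_p, h.stable_m, h.stable_p, fun x => ?_, fun K hK => ?_, fun K hK => ?_⟩
  · have h1 := h.lt_m (gmtHor x) (gmtVer x)
    have h2 := h.lt_p (gmtHor x) (gmtVer x)
    rw [dg88e_snoc_hor_ver] at h1 h2
    exact ⟨h1, h2⟩
  · exact dg88e_unif_of_seq (n := 7) h.conv_p hK
  · exact dg88e_unif_of_seq (n := 7) h.conv_m hK

end K2

end Claimed.Agent.R329
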