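import Claimed.Agent.R329.Defs
import Claimed.Agent.R329.WeakForm

/-!
# Row 329 (De Giorgi in dimension eight): the extremal-field identity      (pen: helper268, prefix `dgF_`)

Step (c) of the road to contract K4 of the Hub (Lemma 3.2 of the paper, Alberti-Ambrosio-Cabré Theorem 4.4) without direct method, boundary
regularity or sliding.  For EVERY `C²` solution `u` of `Δ u = u³ - u`, every direction `ν` and every `σ ∈ C¹_c`:

  `∫ [ e(u(· + σ ν)) - e(u) ] = ½ ∫ (∂_ν u)(x + σ(x) ν)² |∇σ(x)|² dx ≥ 0`,      `e(w) = |∇w|²/2 + W(w)`.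

If `∂_ν u > 0`, every `C¹` competitor which agrees with `u` off a compact set and takes at `x` a value of `s ↦ u (x + s ν)` is of the form
`u(· + σ ν)`, so `u` minimises the energy among them.
-/

set_option autoImplicit false
set_option linter.unusedSectionVars false

open MeasureTheory InnerProductSpace Filter Topology Set

namespace Claimed.Agent.R329

section General

variable {E : Type*} [NormedAddCommGroup E] [InnerProductSpace ℝ E] [FiniteDimensional ℝ E]

theorem dgF_hasFDerivAt_shift {σ : E → ℝ} (hσ : ContDiff ℝ 1 σ) (ν : E) (r : ℝ) (x : E) :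
    HasFDerivAt (fun y => y + (r * σ y) • ν)
      (ContinuousLinearMap.id ℝ E + (r • fderiv ℝ σ x).smulRight ν) x := by
  have h1 : HasFDerivAt σ (fderiv ℝ σ x) x := (hσ.differentiable (by norm_num) x).hasFDerivAt
  exact (hasFDerivAt_id x).add ((h1.const_mul r).smul_const ν)

theorem dgF_contDiff_shift {σ : E → ℝ} (hσ : ContDiff ℝ 1 σ) (ν : E) (r : ℝ) :
    ContDiff ℝ 1 (fun y => y + (r * σ y) • ν) :=
  contDiff_id.add ((contDiff_const.mul hσ).smul contDiff_const)

/-- derivative of `f (x + r σ(x) ν)` in the direction `b` -/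
theorem dgF_fderiv_comp_shift {f σ : E → ℝ} (hf : ContDiff ℝ 1 f) (hσ : ContDiff ℝ 1 σ) (ν b : E) (r : ℝ) (x : E) :
    fderiv ℝ (fun y => f (y + (r * σ y) • ν)) x b =
      fderiv ℝ f (x + (r * σ x) • ν) b + r * fderiv ℝ σ x b * fderiv ℝ f (x + (r * σ x) • ν) ν := by
  have h1 : HasFDerivAt f (fderiv ℝ f (x + (r * σ x) • ν)) (x + (r * σ x) • ν) :=
    (hf.differentiable (by norm_num) _).hasFDerivAt
  have h2 := h1.comp x (dgF_hasFDerivAt_shift hσ ν r x)
  have h3 : fderiv ℝ (fun y => f (y + (r * σ y) • ν)) x = _ := h2.fderiv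
  rw [h3]
  simp [mul_comm]

/-- derivative of `σ(x) f (x + r σ(x) ν)` in the direction `b` -/
theorem dgF_fderiv_G {f σ : E → ℝ} (hf : ContDiff ℝ 1 f) (hσ : ContDiff ℝ 1 σ) (ν b : E) (r : ℝ) (x : E) :
    fderiv ℝ (fun y => σ y * f (y + (r * σ y) • ν)) x b =
      fderiv ℝ σ x b * f (x + (r * σ x) • ν) + σ x * fderiv ℝ f (x + (r * σ x) • ν) b
        + r * σ x * fderiv ℝ σ x b * fderiv ℝ f (x + (r * σ x) • ν) ν := by
  have h1 : DifferentiableAt ℝ σ x := hσ.differentiable (by norm_num) x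
  have h2 : DifferentiableAt ℝ (fun y => f (y + (r * σ y) • ν)) x :=
    (hf.comp (dgF_contDiff_shift hσ ν r)).differentiable (by norm_num) x
  have h3 := (h1.hasFDerivAt.mul h2.hasFDerivAt).fderiv
  have h4 : fderiv ℝ (fun y => σ y * f (y + (r * σ y) • ν)) x = _ := h3
  rw [h4]
  simp only [add_apply, smul_apply, smul_eq_mul,
    dgF_fderiv_comp_shift hf hσ ν b r x]
  ring

variable [MeasurableSpace E] [BorelSpace E]

theorem dgF_integral_fderiv_eq_zero {g : E → ℝ} (hg : ContDiff ℝ 1 g) (hc : HasCompactSupport g) (v : E) :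
    ∫ x, fderiv ℝ g x v = 0 := by
  have h := integral_mul_fderiv_eq_neg_fderiv_mul_of_integrable (μ := (volume : Measure E))
    (f := fun _ : E => (1 : ℝ)) (g := g) (v := v) (by simp) ?_ ?_
    (fun x _ => differentiableAt_const _) (fun x _ => hg.differentiable (by norm_num) x)
  · simpa using h
  · simpa using (dg98_continuous_fderiv_apply hg v).integrable_of_hasCompactSupport
      (hc.fderiv_apply (𝕜 := ℝ) v)
  · simpa using hg.continuous.integrable_of_hasCompactSupport hc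

/-- the integrand of the homotopy, in closed form -/
noncomputable def dgF_D {ι : Type*} [Fintype ι] (f : ι → E → ℝ) (σ : E → ℝ) (b : ι → E) (ν : E) (r : ℝ) (x : E) : ℝ :=
  ∑ i, (fderiv ℝ σ x (b i) * f i (x + (r * σ x) • ν) + σ x * fderiv ℝ (f i) (x + (r * σ x) • ν) (b i)
    + r * σ x * fderiv ℝ σ x (b i) * fderiv ℝ (f i) (x + (r * σ x) • ν) ν)

theorem dgF_continuous_D {ι : Type*} [Fintype ι] {f : ι → E → ℝ} {σ : E → ℝ} (b : ι → E) (ν : E)
    (hf : ∀ i, ContDiff ℝ 1 (f i)) (hσ : ContDiff ℝ 1 σ) :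
    Continuous (Function.uncurry (dgF_D f σ b ν)) := by
  have hσ0 : Continuous σ := hσ.continuous
  have hX : Continuous fun p : ℝ × E => p.2 + (p.1 * σ p.2) • ν :=
    continuous_snd.add ((continuous_fst.mul (hσ0.comp continuous_snd)).smul continuous_const)
  have hs : Continuous fun p : ℝ × E => σ p.2 := hσ0.comp continuous_snd
  have hds : ∀ c : E, Continuous fun p : ℝ × E => fderiv ℝ σ p.2 c := fun c =>
    (dg98_continuous_fderiv_apply hσ c).comp continuous_snd
  have hfX : ∀ i, Continuous fun p : ℝ × E => f i (p.2 + (p.1 * σ p.2) • ν) := fun i =>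
    (hf i).continuous.comp hX
  have hdfX : ∀ i (c : E), Continuous fun p : ℝ × E => fderiv ℝ (f i) (p.2 + (p.1 * σ p.2) • ν) c := fun i c =>
    (dg98_continuous_fderiv_apply (hf i) c).comp hX
  unfold Function.uncurry dgF_D
  refine continuous_finsetSum _ fun i _ => ?_
  exact (((hds (b i)).mul (hfX i)).add (hs.mul (hdfX i (b i)))).add
    (((continuous_fst.mul hs).mul (hds (b i))).mul (hdfX i ν))

theorem dgF_D_eq_zero {ι : Type*} [Fintype ι] {f : ι → E → ℝ} {σ : E → ℝ} (b : ι → E) (ν : E) (r : ℝ) {x : E}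
    (hx : x ∉ tsupport σ) : dgF_D f σ b ν r x = 0 := by
  have h1 : σ x = 0 := image_eq_zero_of_notMem_tsupport hx
  have h2 : fderiv ℝ σ x = 0 := by
    have : x ∉ tsupport (fderiv ℝ σ) := fun h => hx (tsupport_fderiv_subset ℝ h)
    exact image_eq_zero_of_notMem_tsupport this
  simp [dgF_D, h1, h2]

theorem dgF_integrable_D {ι : Type*} [Fintype ι] {f : ι → E → ℝ} {σ : E → ℝ} (b : ι → E) (ν : E)
    (hf : ∀ i, ContDiff ℝ 1 (f i)) (hσ : ContDiff ℝ 1 σ) (hσc : HasCompactSupport σ) :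
    Integrable (Function.uncurry (dgF_D f σ b ν))
      (((volume : Measure ℝ).restrict (Set.uIoc 0 1)).prod (volume : Measure E)) := by
  have hc := dgF_continuous_D b ν hf hσ
  have h1 : IntegrableOn (Function.uncurry (dgF_D f σ b ν)) (Icc (0 : ℝ) 1 ×ˢ tsupport σ)
      ((volume : Measure ℝ).prod (volume : Measure E)) :=
    hc.continuousOn.integrableOn_compact (isCompact_Icc.prod hσc.isCompact)
  have h2 : IntegrableOn (Function.uncurry (dgF_D f σ b ν)) (Set.uIoc (0 : ℝ) 1 ×ˢ (univ : Set E))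
      ((volume : Measure ℝ).prod (volume : Measure E)) := by
    refine h1.of_forall_sdiff_eq_zero (measurableSet_uIoc.prod MeasurableSet.univ) ?_
    rintro ⟨r, x⟩ ⟨⟨hr, -⟩, hn⟩
    have hr' : r ∈ Icc (0 : ℝ) 1 := by
      rw [Set.uIoc_of_le zero_le_one] at hr
      exact Ioc_subset_Icc_self hr
    have hx : x ∉ tsupport σ := fun hx => hn ⟨hr', hx⟩
    exact dgF_D_eq_zero b ν r hx
  rw [IntegrableOn, ← Measure.prod_restrict, Measure.restrict_univ] at h2
  exact h2

theorem dgF_integral_D {ι : Type*} [Fintype ι] {f : ι → E → ℝ} {σ : E → ℝ} (b : ι → E) (ν : E)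
    (hf : ∀ i, ContDiff ℝ 1 (f i)) (hσ : ContDiff ℝ 1 σ) (hσc : HasCompactSupport σ) (r : ℝ) :
    ∫ x, dgF_D f σ b ν r x = 0 := by
  have hG : ∀ i, ContDiff ℝ 1 (fun y => σ y * f i (y + (r * σ y) • ν)) := fun i =>
    hσ.mul ((hf i).comp (dgF_contDiff_shift hσ ν r))
  have hGc : ∀ i, HasCompactSupport (fun y => σ y * f i (y + (r * σ y) • ν)) := fun i => hσc.mul_right
  have e : ∀ x, dgF_D f σ b ν r x = ∑ i, fderiv ℝ (fun y => σ y * f i (y + (r * σ y) • ν)) x (b i) := fun x =>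
    Finset.sum_congr rfl fun i _ => (dgF_fderiv_G (hf i) hσ ν (b i) r x).symm
  simp only [e]
  rw [integral_finsetSum]
  · exact Finset.sum_eq_zero fun i _ => dgF_integral_fderiv_eq_zero (hG i) (hGc i) (b i)
  · intro i _
    exact (dg98_continuous_fderiv_apply (hG i) (b i)).integrable_of_hasCompactSupport
      ((hGc i).fderiv_apply (𝕜 := ℝ) (b i))

theorem dgF_hasDerivAt_H {ι : Type*} [Fintype ι] {f : ι → E → ℝ} {g σ : E → ℝ} (b : ι → E) (ν : E)
    (hf : ∀ i, ContDiff ℝ 1 (f i)) (hg : ContDiff ℝ 1 g)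
    (hdiv : ∀ y, ∑ i, fderiv ℝ (f i) y (b i) = fderiv ℝ g y ν) (x : E) (r : ℝ) :
    HasDerivAt (fun r : ℝ => r * ∑ i, f i (x + (r * σ x) • ν) * fderiv ℝ σ x (b i) + g (x + (r * σ x) • ν))
      (dgF_D f σ b ν r x) r := by
  have hX : HasDerivAt (fun r : ℝ => x + (r * σ x) • ν) (σ x • ν) r := by
    have h1 : HasDerivAt (fun r : ℝ => r * σ x) (σ x) r := by
      simpa using (hasDerivAt_id r).mul_const (σ x)
    simpa using (h1.smul_const ν).const_add x
  have hcomp : ∀ h : E → ℝ, ContDiff ℝ 1 h →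
      HasDerivAt (fun r : ℝ => h (x + (r * σ x) • ν)) (σ x * fderiv ℝ h (x + (r * σ x) • ν) ν) r := by
    intro h hh
    have h1 : HasFDerivAt h (fderiv ℝ h (x + (r * σ x) • ν)) (x + (r * σ x) • ν) :=
      (hh.differentiable (by norm_num) _).hasFDerivAt
    have h2 := h1.comp_hasDerivAt r hX
    have e : (fderiv ℝ h (x + (r * σ x) • ν)) (σ x • ν) = σ x * fderiv ℝ h (x + (r * σ x) • ν) ν := by
      simp
    rw [e] at h2
    exact h2
  have hS : HasDerivAt (fun r : ℝ => ∑ i, f i (x + (r * σ x) • ν) * fderiv ℝ σ x (b i))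
      (∑ i, σ x * fderiv ℝ (f i) (x + (r * σ x) • ν) ν * fderiv ℝ σ x (b i)) r := by
    have := HasDerivAt.fun_sum (u := Finset.univ) (fun i _ => (hcomp (f i) (hf i)).mul_const (fderiv ℝ σ x (b i)))
    exact this
  have h3 := ((hasDerivAt_id r).mul hS).add (hcomp g hg)
  refine h3.congr_deriv ?_
  rw [← hdiv]
  simp only [dgF_D, id, one_mul, Finset.mul_sum, ← Finset.sum_add_distrib]
  refine Finset.sum_congr rfl fun i _ => ?_
  ring

/-- **The null Lagrangian.**  If `div (f₁, …) = ∂_ν g`, then `g(X) - g + ⟨f(X), ∇σ⟩`, `X = x + σ(x) ν`, has integral zero. -/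
theorem dgF_null {ι : Type*} [Fintype ι] {f : ι → E → ℝ} {g σ : E → ℝ} (b : ι → E) (ν : E)
    (hf : ∀ i, ContDiff ℝ 1 (f i)) (hg : ContDiff ℝ 1 g) (hσ : ContDiff ℝ 1 σ) (hσc : HasCompactSupport σ)
    (hdiv : ∀ y, ∑ i, fderiv ℝ (f i) y (b i) = fderiv ℝ g y ν) :
    ∫ x, (g (x + σ x • ν) - g x + ∑ i, f i (x + σ x • ν) * fderiv ℝ σ x (b i)) = 0 := by
  have hc := dgF_continuous_D b ν hf hσ
  have h1 : ∀ x, ∫ r in (0 : ℝ)..1, dgF_D f σ b ν r x =
      g (x + σ x • ν) - g x + ∑ i, f i (x + σ x • ν) * fderiv ℝ σ x (b i) := by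
    intro x
    have hci : Continuous fun r : ℝ => dgF_D f σ b ν r x :=
      hc.comp (continuous_id.prodMk continuous_const)
    rw [intervalIntegral.integral_eq_sub_of_hasDerivAt
      (fun r _ => dgF_hasDerivAt_H (σ := σ) b ν hf hg hdiv x r) (hci.intervalIntegrable _ _)]
    simp
    ring
  have h2 := intervalIntegral_integral_swap (dgF_integrable_D b ν hf hσ hσc)
  simp only [dgF_integral_D b ν hf hσ hσc, intervalIntegral.integral_zero] at h2
  simp only [← h1]
  exact h2.symm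

/-! ## The energy density of a solution -/

theorem dgF_hasDerivAt_W (s : ℝ) : HasDerivAt dgW (s ^ 3 - s) s := by
  have h1 : HasDerivAt (fun t : ℝ => 1 - t ^ 2) (-(2 * s)) s := by
    have := ((hasDerivAt_id s).pow 2).const_sub 1
    simpa using this
  have h2 := (h1.mul h1).div_const 4
  refine (h2.congr_deriv ?_).congr_of_eventuallyEq (Eventually.of_forall fun t => ?_)
  · ring
  · simp only [dgW, Pi.mul_apply]; ring

theorem dgF_contDiff_W : ContDiff ℝ 1 dgW := by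
  unfold dgW
  fun_prop

theorem dgF_D2_symm {u : E → ℝ} (hu : ContDiff ℝ 2 u) (y a c : E) :
    fderiv ℝ (fun z => fderiv ℝ u z c) y a = fderiv ℝ (fun z => fderiv ℝ u z a) y c := by
  have hd : DifferentiableAt ℝ (fderiv ℝ u) y :=
    ((hu.fderiv_right (m := 1) (by norm_num)).differentiable (by norm_num)) y
  have h1 : ∀ a c : E, fderiv ℝ (fun z => fderiv ℝ u z c) y a = fderiv ℝ (fderiv ℝ u) y a c := by
    intro a c
    have h := (hd.hasFDerivAt.clm_apply (hasFDerivAt_const c y)).fderiv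
    rw [h]
    simp
  have hs : IsSymmSndFDerivAt ℝ u y := hu.contDiffAt.isSymmSndFDerivAt (by simp)
  rw [h1, h1, hs.eq]

/-- the energy density `|∇u|²/2 + W(u)` -/
noncomputable def dgF_e (u : E → ℝ) (x : E) : ℝ := ‖fderiv ℝ u x‖ ^ 2 / 2 + dgW (u x)

theorem dgF_e_eq {ι : Type*} [Fintype ι] (b : OrthonormalBasis ι ℝ E) (u : E → ℝ) :
    dgF_e u = fun x => (1 / 2) * ∑ i, fderiv ℝ u x (b i) * fderiv ℝ u x (b i) + dgW (u x) := by
  funext x
  rw [dgF_e, dg98_norm_sq_clm b]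
  simp only [sq]
  ring

theorem dgF_contDiff_e {u : E → ℝ} (hu : ContDiff ℝ 2 u) : ContDiff ℝ 1 (dgF_e u) := by
  rw [dgF_e_eq (stdOrthonormalBasis ℝ E)]
  have h1 : ∀ c : E, ContDiff ℝ 1 fun x => fderiv ℝ u x c := dg98_contDiff_fderiv_apply hu
  exact (contDiff_const.mul (ContDiff.sum fun i _ => (h1 _).mul (h1 _))).add
    (dgF_contDiff_W.comp (hu.of_le (by norm_num)))

theorem dgF_fderiv_e {ι : Type*} [Fintype ι] (b : OrthonormalBasis ι ℝ E) {u : E → ℝ} (hu : ContDiff ℝ 2 u) (y ν : E) :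
    fderiv ℝ (dgF_e u) y ν =
      ∑ i, fderiv ℝ u y (b i) * fderiv ℝ (fun z => fderiv ℝ u z (b i)) y ν + (u y ^ 3 - u y) * fderiv ℝ u y ν := by
  have hq : ∀ i, HasFDerivAt (fun z => fderiv ℝ u z (b i)) (fderiv ℝ (fun z => fderiv ℝ u z (b i)) y) y := fun i =>
    ((dg98_contDiff_fderiv_apply hu (b i)).differentiable (by norm_num) y).hasFDerivAt
  have h1 := HasFDerivAt.fun_sum (u := Finset.univ) fun i _ => (hq i).mul (hq i)
  have hu' : HasFDerivAt u (fderiv ℝ u y) y := (hu.differentiable (by norm_num) y).hasFDerivAt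
  have h2 := (dgF_hasDerivAt_W (u y)).comp_hasFDerivAt y hu'
  have h3 := ((h1.const_mul (1 / 2)).add h2).fderiv
  rw [dgF_e_eq b]
  have h4 : fderiv ℝ (fun x => (1 / 2) * ∑ i, fderiv ℝ u x (b i) * fderiv ℝ u x (b i) + dgW (u x)) y = _ := h3
  rw [h4]
  simp only [add_apply, smul_apply, smul_eq_mul, sum_apply, Finset.mul_sum]
  congr 1
  refine Finset.sum_congr rfl fun i _ => ?_
  ring

/-- `div (∂_ν u ∇u) = ∂_ν e(u)` for a solution. -/
theorem dgF_div {ι : Type*} [Fintype ι] (b : OrthonormalBasis ι ℝ E) {u : E → ℝ} (hu : ContDiff ℝ 2 u)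
    (hpde : ∀ x, Laplacian.laplacian u x = u x ^ 3 - u x) (ν y : E) :
    ∑ i, fderiv ℝ (fun z => fderiv ℝ u z ν * fderiv ℝ u z (b i)) y (b i) = fderiv ℝ (dgF_e u) y ν := by
  have hq : ∀ c : E, HasFDerivAt (fun z => fderiv ℝ u z c) (fderiv ℝ (fun z => fderiv ℝ u z c) y) y := fun c =>
    ((dg98_contDiff_fderiv_apply hu c).differentiable (by norm_num) y).hasFDerivAt
  have h1 : ∀ i, fderiv ℝ (fun z => fderiv ℝ u z ν * fderiv ℝ u z (b i)) y (b i) =
      fderiv ℝ u y ν * fderiv ℝ (fun z => fderiv ℝ u z (b i)) y (b i)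
        + fderiv ℝ u y (b i) * fderiv ℝ (fun z => fderiv ℝ u z (b i)) y ν := by
    intro i
    have h := ((hq ν).mul (hq (b i))).fderiv
    have h' : fderiv ℝ (fun z => fderiv ℝ u z ν * fderiv ℝ u z (b i)) y = _ := h
    rw [h']
    simp only [add_apply, smul_apply, smul_eq_mul]
    rw [dgF_D2_symm hu y (b i) ν]
  simp only [h1]
  rw [Finset.sum_add_distrib, ← Finset.mul_sum, ← dg98_laplacian_eq b hu, hpde, dgF_fderiv_e b hu]
  ring

/-! ## The identity -/

theorem dgF_fderiv_w {u σ : E → ℝ} (hu : ContDiff ℝ 1 u) (hσ : ContDiff ℝ 1 σ) (ν c x : E) :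
    fderiv ℝ (fun y => u (y + σ y • ν)) x c =
      fderiv ℝ u (x + σ x • ν) c + fderiv ℝ σ x c * fderiv ℝ u (x + σ x • ν) ν := by
  simpa using dgF_fderiv_comp_shift hu hσ ν c 1 x

theorem dgF_pointwise {ι : Type*} [Fintype ι] (b : OrthonormalBasis ι ℝ E) {u σ : E → ℝ} (hu : ContDiff ℝ 1 u)
    (hσ : ContDiff ℝ 1 σ) (ν x : E) :
    dgF_e (fun y => u (y + σ y • ν)) x - dgF_e u x =
      (dgF_e u (x + σ x • ν) - dgF_e u x
        + ∑ i, (fderiv ℝ u (x + σ x • ν) ν * fderiv ℝ u (x + σ x • ν) (b i)) * fderiv ℝ σ x (b i))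
        + (1 / 2) * ((fderiv ℝ u (x + σ x • ν) ν) ^ 2 * ‖fderiv ℝ σ x‖ ^ 2) := by
  simp only [dgF_e]
  rw [dg98_norm_sq_clm b (fderiv ℝ (fun y => u (y + σ y • ν)) x),
    dg98_norm_sq_clm b (fderiv ℝ u (x + σ x • ν)), dg98_norm_sq_clm b (fderiv ℝ σ x)]
  simp only [dgF_fderiv_w hu hσ]
  have key : ∑ i, (fderiv ℝ u (x + σ x • ν) (b i) + fderiv ℝ σ x (b i) * fderiv ℝ u (x + σ x • ν) ν) ^ 2 =
      ∑ i, (fderiv ℝ u (x + σ x • ν) (b i)) ^ 2
        + 2 * ∑ i, (fderiv ℝ u (x + σ x • ν) ν * fderiv ℝ u (x + σ x • ν) (b i)) * fderiv ℝ σ x (b i)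
        + (fderiv ℝ u (x + σ x • ν) ν) ^ 2 * ∑ i, (fderiv ℝ σ x (b i)) ^ 2 := by
    rw [Finset.mul_sum, Finset.mul_sum, ← Finset.sum_add_distrib, ← Finset.sum_add_distrib]
    exact Finset.sum_congr rfl fun i _ => by ring
  rw [key]
  ring

/-- **The extremal-field identity** (general finite-dimensional Euclidean space). -/
theorem dgF_field_identity_gen {u σ : E → ℝ} (hu : ContDiff ℝ 2 u)
    (hpde : ∀ x, Laplacian.laplacian u x = u x ^ 3 - u x) (ν : E) (hσ : ContDiff ℝ 1 σ) (hσc : HasCompactSupport σ) :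
    Integrable (fun x => dgF_e (fun y => u (y + σ y • ν)) x - dgF_e u x) ∧
      ∫ x, (dgF_e (fun y => u (y + σ y • ν)) x - dgF_e u x) =
        (1 / 2) * ∫ x, (fderiv ℝ u (x + σ x • ν) ν) ^ 2 * ‖fderiv ℝ σ x‖ ^ 2 := by
  set b := stdOrthonormalBasis ℝ E with hb
  have hu1 : ContDiff ℝ 1 u := hu.of_le (by norm_num)
  have hX : Continuous fun x => x + σ x • ν := continuous_id.add (hσ.continuous.smul continuous_const)
  have hdu : ∀ c : E, Continuous fun x => fderiv ℝ u (x + σ x • ν) c := fun c =>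
    (dg98_continuous_fderiv_apply hu1 c).comp hX
  have hz : ∀ x, x ∉ tsupport σ → σ x = 0 ∧ fderiv ℝ σ x = 0 := by
    intro x hx
    refine ⟨image_eq_zero_of_notMem_tsupport hx, ?_⟩
    have : x ∉ tsupport (fderiv ℝ σ) := fun h => hx (tsupport_fderiv_subset ℝ h)
    exact image_eq_zero_of_notMem_tsupport this
  have hN : Integrable fun x => dgF_e u (x + σ x • ν) - dgF_e u x
      + ∑ i, (fderiv ℝ u (x + σ x • ν) ν * fderiv ℝ u (x + σ x • ν) (b i)) * fderiv ℝ σ x (b i) := by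
    refine Continuous.integrable_of_hasCompactSupport ?_ (HasCompactSupport.intro hσc.isCompact fun x hx => ?_)
    · refine (((dgF_contDiff_e hu).continuous.comp hX).sub (dgF_contDiff_e hu).continuous).add ?_
      exact continuous_finsetSum _ fun i _ =>
        ((hdu ν).mul (hdu (b i))).mul (dg98_continuous_fderiv_apply hσ (b i))
    · obtain ⟨h1, h2⟩ := hz x hx
      simp [h1, h2]
  have hQ : Integrable fun x => (fderiv ℝ u (x + σ x • ν) ν) ^ 2 * ‖fderiv ℝ σ x‖ ^ 2 := by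
    refine Continuous.integrable_of_hasCompactSupport ?_ (HasCompactSupport.intro hσc.isCompact fun x hx => ?_)
    · exact ((hdu ν).pow 2).mul ((hσ.continuous_fderiv (by norm_num)).norm.pow 2)
    · obtain ⟨-, h2⟩ := hz x hx
      simp [h2]
  have hnull := dgF_null (f := fun i z => fderiv ℝ u z ν * fderiv ℝ u z (b i)) (g := dgF_e u) (σ := σ)
    (fun i => b i) ν
    (fun i => (dg98_contDiff_fderiv_apply hu ν).mul (dg98_contDiff_fderiv_apply hu (b i)))
    (dgF_contDiff_e hu) hσ hσc (dgF_div b hu hpde ν)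
  have e : (fun x => dgF_e (fun y => u (y + σ y • ν)) x - dgF_e u x) = fun x =>
      (dgF_e u (x + σ x • ν) - dgF_e u x
        + ∑ i, (fderiv ℝ u (x + σ x • ν) ν * fderiv ℝ u (x + σ x • ν) (b i)) * fderiv ℝ σ x (b i))
        + (1 / 2) * ((fderiv ℝ u (x + σ x • ν) ν) ^ 2 * ‖fderiv ℝ σ x‖ ^ 2) :=
    funext fun x => dgF_pointwise b hu1 hσ ν x
  rw [e]
  refine ⟨hN.add (hQ.const_mul _), ?_⟩
  rw [integral_add hN (hQ.const_mul _), hnull, integral_const_mul, zero_add]

/-! ## Competitors between the end profiles are vertical reparametrisations -/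

theorem dgF_hasDerivAt_line {u : E → ℝ} (hu : Differentiable ℝ u) (x ν : E) (t : ℝ) :
    HasDerivAt (fun t : ℝ => u (x + t • ν)) (fderiv ℝ u (x + t • ν) ν) t := by
  have h1 : HasDerivAt (fun t : ℝ => x + t • ν) ν t := by
    simpa using ((hasDerivAt_id t).smul_const ν).const_add x
  exact (hu (x + t • ν)).hasFDerivAt.comp_hasDerivAt t h1

theorem dgF_strictMono_line {u : E → ℝ} (hu : Differentiable ℝ u) {ν : E}
    (hmono : ∀ x, 0 < fderiv ℝ u x ν) (x : E) : StrictMono (fun t : ℝ => u (x + t • ν)) :=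
  strictMono_of_deriv_pos fun t => by
    rw [(dgF_hasDerivAt_line hu x ν t).deriv]
    exact hmono _

/-- The height function `σ` of a `C¹` competitor is `C¹` (implicit function theorem). -/
theorem dgF_contDiff_height {u w σ : E → ℝ} (hu : ContDiff ℝ 1 u) {ν : E} (hmono : ∀ x, 0 < fderiv ℝ u x ν)
    (hw : ContDiff ℝ 1 w) (hσ : ∀ x, u (x + σ x • ν) = w x) : ContDiff ℝ 1 σ := by
  have hud : Differentiable ℝ u := hu.differentiable (by norm_num)
  rw [contDiff_iff_contDiffAt]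
  intro x₀
  set Φ : E × ℝ → ℝ := fun p => u (p.1 + p.2 • ν) - w p.1 with hΦ
  have hΦc : ContDiff ℝ 1 Φ :=
    (hu.comp (contDiff_fst.add (contDiff_snd.smul contDiff_const))).sub (hw.comp contDiff_fst)
  set p₀ : E × ℝ := (x₀, σ x₀) with hp₀
  have hc : fderiv ℝ Φ p₀ ((0 : E), (1 : ℝ)) = fderiv ℝ u (x₀ + σ x₀ • ν) ν := by
    have h1 : HasDerivAt (fun s : ℝ => ((x₀, s) : E × ℝ)) ((0 : E), (1 : ℝ)) (σ x₀) :=
      (hasDerivAt_const (σ x₀) x₀).prodMk (hasDerivAt_id (σ x₀))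
    have h2 : HasDerivAt (fun s : ℝ => Φ (x₀, s)) (fderiv ℝ Φ p₀ ((0 : E), (1 : ℝ))) (σ x₀) :=
      ((hΦc.differentiable (by norm_num) p₀).hasFDerivAt).comp_hasDerivAt (σ x₀) h1
    have h3 : HasDerivAt (fun s : ℝ => Φ (x₀, s)) (fderiv ℝ u (x₀ + σ x₀ • ν) ν) (σ x₀) :=
      (dgF_hasDerivAt_line hud x₀ ν (σ x₀)).sub_const (w x₀)
    exact h2.unique h3
  have hne : fderiv ℝ u (x₀ + σ x₀ • ν) ν ≠ 0 := (hmono _).ne'
  have hinv : (fderiv ℝ Φ p₀ ∘L ContinuousLinearMap.inr ℝ E ℝ).IsInvertible := by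
    refine ⟨ContinuousLinearEquiv.unitsEquivAut ℝ (Units.mk0 _ hne), ?_⟩
    refine ContinuousLinearMap.ext_ring ?_
    simp [hc]
  have hcd : ContDiffAt ℝ 1 Φ p₀ := hΦc.contDiffAt
  have h1 := hcd.contDiffAt_implicitFunction (by norm_num) hinv
  have h2 := hcd.eventually_apply_implicitFunction (by norm_num) hinv
  refine h1.congr_of_eventuallyEq ?_
  have h0 : Φ p₀ = 0 := by simp [hΦ, hp₀, hσ x₀]
  filter_upwards [h2] with x hx
  rw [h0] at hx
  have h3 : u (x + hcd.implicitFunction (by norm_num) hinv x • ν) = u (x + σ x • ν) := by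
    rw [hσ x]
    simpa [hΦ, sub_eq_zero] using hx
  exact ((dgF_strictMono_line hud hmono x).injective h3).symm

/-- **Constrained minimality** (Alberti-Ambrosio-Cabré, Theorem 4.4): a solution which is strictly increasing in the direction `ν` minimises the
energy among the `C¹` compact perturbations whose value at `x` is taken by `u` on the line `x + ℝ ν`. -/
theorem dgF_constrained_min_gen {u φ : E → ℝ} (hu : ContDiff ℝ 2 u)
    (hpde : ∀ x, Laplacian.laplacian u x = u x ^ 3 - u x) {ν : E} (hmono : ∀ x, 0 < fderiv ℝ u x ν)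
    (hφ : ContDiff ℝ 1 φ) (hφc : HasCompactSupport φ) (hbetween : ∀ x, ∃ s : ℝ, u (x + s • ν) = u x + φ x) :
    Integrable (fun x => dgF_e (fun y => u y + φ y) x - dgF_e u x) ∧
      0 ≤ ∫ x, (dgF_e (fun y => u y + φ y) x - dgF_e u x) := by
  have hu1 : ContDiff ℝ 1 u := hu.of_le (by norm_num)
  have hud : Differentiable ℝ u := hu1.differentiable (by norm_num)
  choose σ hσ using hbetween
  have hσ1 : ContDiff ℝ 1 σ := dgF_contDiff_height hu1 hmono (hu1.add hφ) hσ
  have hσc : HasCompactSupport σ := by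
    refine hφc.mono fun x hx => ?_
    intro h0
    apply hx
    have h1 : u (x + σ x • ν) = u (x + (0 : ℝ) • ν) := by
      rw [hσ x, h0]; simp
    exact (dgF_strictMono_line hud hmono x).injective h1
  have e : (fun y => u y + φ y) = fun y => u (y + σ y • ν) := funext fun y => (hσ y).symm
  rw [e]
  obtain ⟨h1, h2⟩ := dgF_field_identity_gen hu hpde ν hσ1 hσc
  refine ⟨h1, ?_⟩
  rw [h2]
  have : 0 ≤ ∫ x, (fderiv ℝ u (x + σ x • ν) ν) ^ 2 * ‖fderiv ℝ σ x‖ ^ 2 :=
    integral_nonneg fun x => by positivity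
  linarith

/-- The same, with the constraint expressed by the two end profiles. -/
theorem dgF_constrained_min_ends {u φ am ap : E → ℝ} (hu : ContDiff ℝ 2 u)
    (hpde : ∀ x, Laplacian.laplacian u x = u x ^ 3 - u x) {ν : E} (hmono : ∀ x, 0 < fderiv ℝ u x ν)
    (hp : ∀ x, Tendsto (fun s : ℝ => u (x + s • ν)) atTop (𝓝 (ap x)))
    (hm : ∀ x, Tendsto (fun s : ℝ => u (x + s • ν)) atBot (𝓝 (am x)))
    (hφ : ContDiff ℝ 1 φ) (hφc : HasCompactSupport φ) (hlo : ∀ x, am x < u x + φ x) (hhi : ∀ x, u x + φ x < ap x) :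
    Integrable (fun x => dgF_e (fun y => u y + φ y) x - dgF_e u x) ∧
      0 ≤ ∫ x, (dgF_e (fun y => u y + φ y) x - dgF_e u x) := by
  refine dgF_constrained_min_gen hu hpde hmono hφ hφc fun x => ?_
  have hc : Continuous fun s : ℝ => u (x + s • ν) :=
    hu.continuous.comp (continuous_const.add (continuous_id.smul continuous_const))
  obtain ⟨s₁, hs₁⟩ := ((hp x).eventually (lt_mem_nhds (hhi x))).exists
  obtain ⟨s₂, hs₂⟩ := ((hm x).eventually (gt_mem_nhds (hlo x))).exists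
  have := mem_range_of_exists_le_of_exists_ge hc ⟨s₂, hs₂.le⟩ ⟨s₁, hs₁.le⟩
  exact this

end General

/-! ## EXITS -/

theorem dgF_e_eq_dgDens (n : ℕ) (u : DgE n → ℝ) (x : DgE n) : dgF_e u x = dgDens n u x := rfl

/-- (F1) **The extremal-field identity.** -/
theorem dgF_field_identity {n : ℕ} {u σ : DgE n → ℝ} (hu : ContDiff ℝ 2 u)
    (hpde : ∀ x, Laplacian.laplacian u x = u x ^ 3 - u x) (ν : DgE n) (hσ : ContDiff ℝ 1 σ)
    (hσc : HasCompactSupport σ) :
    Integrable (fun x => dgDens n (fun y => u (y + σ y • ν)) x - dgDens n u x) ∧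
      ∫ x, (dgDens n (fun y => u (y + σ y • ν)) x - dgDens n u x) =
        (1 / 2) * ∫ x, (fderiv ℝ u (x + σ x • ν) ν) ^ 2 * ‖fderiv ℝ σ x‖ ^ 2 :=
  dgF_field_identity_gen hu hpde ν hσ hσc

/-- (F2) **Constrained minimality.** -/
theorem dgF_constrained_min {n : ℕ} {u φ : DgE n → ℝ} (hu : ContDiff ℝ 2 u)
    (hpde : ∀ x, Laplacian.laplacian u x = u x ^ 3 - u x) {ν : DgE n} (hmono : ∀ x, 0 < fderiv ℝ u x ν)
    (hφ : ContDiff ℝ 1 φ) (hφc : HasCompactSupport φ) (hbetween : ∀ x, ∃ s : ℝ, u (x + s • ν) = u x + φ x) :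
    Integrable (fun x => dgDens n (fun y => u y + φ y) x - dgDens n u x) ∧
      0 ≤ ∫ x, (dgDens n (fun y => u y + φ y) x - dgDens n u x) :=
  dgF_constrained_min_gen hu hpde hmono hφ hφc hbetween

/-- (F3) Constrained minimality between the end profiles. -/
theorem dgF_constrained_min_of_ends {n : ℕ} {u φ am ap : DgE n → ℝ} (hu : ContDiff ℝ 2 u)
    (hpde : ∀ x, Laplacian.laplacian u x = u x ^ 3 - u x) {ν : DgE n} (hmono : ∀ x, 0 < fderiv ℝ u x ν)
    (hp : ∀ x, Tendsto (fun s : ℝ => u (x + s • ν)) atTop (𝓝 (ap x)))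
    (hm : ∀ x, Tendsto (fun s : ℝ => u (x + s • ν)) atBot (𝓝 (am x)))
    (hφ : ContDiff ℝ 1 φ) (hφc : HasCompactSupport φ) (hlo : ∀ x, am x < u x + φ x) (hhi : ∀ x, u x + φ x < ap x) :
    Integrable (fun x => dgDens n (fun y => u y + φ y) x - dgDens n u x) ∧
      0 ≤ ∫ x, (dgDens n (fun y => u y + φ y) x - dgDens n u x) :=
  dgF_constrained_min_ends hu hpde hmono hp hm hφ hφc hlo hhi

theorem dgF_continuous_dgDens {n : ℕ} {w : DgE n → ℝ} (hw : ContDiff ℝ 1 w) : Continuous (dgDens n w) :=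
  (((hw.continuous_fderiv (by norm_num)).norm.pow 2).div_const 2).add (dgF_contDiff_W.continuous.comp hw.continuous)

theorem dgF_integrableOn_dgDens {n : ℕ} {w : DgE n → ℝ} (hw : ContDiff ℝ 1 w) (x₀ : DgE n) (R : ℝ) :
    IntegrableOn (dgDens n w) (Metric.ball x₀ R) :=
  ((dgF_continuous_dgDens hw).continuousOn.integrableOn_compact (isCompact_closedBall x₀ R)).mono_set
    Metric.ball_subset_closedBall

/-- The difference of the energies in a ball which contains the support of the perturbation is the integral over the whole space. -/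
theorem dgF_dgEn_sub {n : ℕ} {u φ : DgE n → ℝ} (hu : ContDiff ℝ 1 u) (hφ : ContDiff ℝ 1 φ) {x₀ : DgE n} {R : ℝ}
    (hsupp : tsupport φ ⊆ Metric.ball x₀ R) :
    dgEn n (fun x => u x + φ x) x₀ R - dgEn n u x₀ R = ∫ x, (dgDens n (fun y => u y + φ y) x - dgDens n u x) := by
  unfold dgEn
  rw [← integral_sub (dgF_integrableOn_dgDens (hu.add hφ) x₀ R) (dgF_integrableOn_dgDens hu x₀ R)]
  refine setIntegral_eq_integral_of_forall_compl_eq_zero fun x hx => ?_
  have hx' : x ∉ tsupport φ := fun h => hx (hsupp h)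
  have h1 : φ x = 0 := image_eq_zero_of_notMem_tsupport hx'
  have h2 : fderiv ℝ φ x = 0 := by
    have : x ∉ tsupport (fderiv ℝ φ) := fun h => hx' (tsupport_fderiv_subset ℝ h)
    exact image_eq_zero_of_notMem_tsupport this
  have h3 : fderiv ℝ (fun y => u y + φ y) x = fderiv ℝ u x + fderiv ℝ φ x :=
    fderiv_fun_add (hu.differentiable (by norm_num) x) (hφ.differentiable (by norm_num) x)
  simp [dgDens, h1, h2, h3]

/-- (F4) In the words of `DgMin`: a strictly monotone solution minimises in every ball among the `C¹` competitors that stay strictly between its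
end profiles. -/
theorem dgF_min_between {n : ℕ} {u am ap : DgE n → ℝ} (hu : DgSol n u) {ν : DgE n} (hmono : ∀ x, 0 < fderiv ℝ u x ν)
    (hp : ∀ x, Tendsto (fun s : ℝ => u (x + s • ν)) atTop (𝓝 (ap x)))
    (hm : ∀ x, Tendsto (fun s : ℝ => u (x + s • ν)) atBot (𝓝 (am x)))
    (R : ℝ) (φ : DgE n → ℝ) (hφ : ContDiff ℝ 1 φ) (hφc : HasCompactSupport φ) (hsupp : tsupport φ ⊆ Metric.ball 0 R)
    (hlo : ∀ x, am x < u x + φ x) (hhi : ∀ x, u x + φ x < ap x) :
    dgEn n u 0 R ≤ dgEn n (fun x => u x + φ x) 0 R := by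
  have h1 := (dgF_constrained_min_of_ends hu.smooth hu.pde hmono hp hm hφ hφc hlo hhi).2
  rw [← dgF_dgEn_sub (hu.smooth.of_le (by norm_num)) hφ hsupp] at h1
  linarith

/-- (F5) = leaf `dgB2_min_between` of `Slide.lean` (helper138), verbatim: a `C¹` competitor which lies pointwise strictly between two translates
of `u` has at least the energy of `u`. -/
theorem dgF_min_between_translates {N : ℕ} {u : DgE N → ℝ} (hu : DgSol N u) (e : DgE N)
    (hmono : ∀ x, 0 < fderiv ℝ u x e)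
    (R : ℝ) (φ : DgE N → ℝ) (hφ : ContDiff ℝ 1 φ) (hc : HasCompactSupport φ)
    (hs : tsupport φ ⊆ Metric.ball 0 R)
    (hbetween : ∀ x, ∃ t₁ t₂ : ℝ, u (x + t₁ • e) < u x + φ x ∧ u x + φ x < u (x + t₂ • e)) :
    dgEn N u 0 R ≤ dgEn N (fun x => u x + φ x) 0 R := by
  have h1 := (dgF_constrained_min hu.smooth hu.pde hmono hφ hc fun x => by
    obtain ⟨t₁, t₂, h1, h2⟩ := hbetween x
    have hcont : Continuous fun s : ℝ => u (x + s • e) :=
      hu.smooth.continuous.comp (continuous_const.add (continuous_id.smul continuous_const))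
    exact mem_range_of_exists_le_of_exists_ge hcont ⟨t₁, h1.le⟩ ⟨t₂, h2.le⟩).2
  rw [← dgF_dgEn_sub (hu.smooth.of_le (by norm_num)) hφ hs] at h1
  linarith

end Claimed.Agent.R329
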