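/-
Row 329, post B7 = contract K7 of the Hub (unit density at infinity => planar).   Pen: helper258.   Prefix `dgB7_` / `DgB7`.

PLAN OF K7 (task force 286 190 8 43 169 258):
  START  (soft: blow-down): ONE centre, arbitrarily large radii `R` of flatness `η`, for every `η > 0`, direction free;
  STEP   (hard core: improvement of flatness above a summable threshold `T r`, e.g. `T r = C r^{-α}`), direction free;
  ITER   (this file, PROVED, 0 sorry): START + STEP  =>  contract (F) of helper8 (ONE direction, sublinear deviation, uniform in the centre);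
  END    (helper8, sliding): (F) => `DgOneD`;   `DgOneD` + monotone => `DgPlanar` (posts A1 / C1).

The step needs NO control of the new direction: two directions in which the same ball is flat are close (`dgB7_dir_close`).
-/
import Claimed.Agent.R329.Defs
import Claimed.Agent.R329.Base258
import Claimed.Agent.R329.Diffuse
import Claimed.Agent.R329.ExpDecay

set_option autoImplicit false

open Metric Set Filter Topology

namespace Claimed.Agent.R329

variable {n : ℕ} {a b : ℝ}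

/-- `u` is `η`-flat in `ball x r` in the direction `e` (level `b`): `u ≥ b` above the slab `|⟪y-x,e⟫| < η r`, `u ≤ -b` below it. -/
structure DgB7Flat (b : ℝ) (u : DgE n → ℝ) (x : DgE n) (r η : ℝ) (e : DgE n) : Prop where
  unit : ‖e‖ = 1
  above : ∀ y ∈ ball x r, η * r ≤ inner ℝ (y - x) e → b ≤ u y
  below : ∀ y ∈ ball x r, inner ℝ (y - x) e ≤ -(η * r) → u y ≤ -b

/-- contract (F) (helper8), levels `a` (centres) and `b`: ONE direction `e`; around every point `|u x₀| ≤ a` the set `{|u| < b}` stays in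
`|⟪x-x₀,e⟫| < ε |x-x₀| + K(ε)`.   helper8's form is `DgB7F (7/8) (3/4) u`. -/
def DgB7F (a b : ℝ) (u : DgE n → ℝ) : Prop :=
  ∃ e : DgE n, ‖e‖ = 1 ∧ ∀ ε : ℝ, 0 < ε → ∃ K : ℝ, ∀ x₀ x : DgE n, |u x₀| ≤ a →
    (ε * ‖x - x₀‖ + K ≤ inner ℝ (x - x₀) e → b ≤ u x) ∧
    (inner ℝ (x - x₀) e ≤ -(ε * ‖x - x₀‖) - K → u x ≤ -b)

/-- START (weak form: ONE centre `c`, which need not be an interface point, arbitrarily large radii, direction free). -/
def DgB7Start (b : ℝ) (u : DgE n → ℝ) (c : DgE n) : Prop :=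
  ∀ η : ℝ, 0 < η → ∀ R₀ : ℝ, ∃ R : ℝ, R₀ ≤ R ∧ ∃ e, DgB7Flat b u c R η e

/-- STEP: improvement of flatness at the interface points `|u x₀| ≤ a` as long as the flatness is above the threshold `T r`. -/
def DgB7Step (a b : ℝ) (u : DgE n → ℝ) (T : ℝ → ℝ) : Prop :=
  ∃ θ η₀ r₀ : ℝ, 0 < θ ∧ θ < 1 ∧ 0 < η₀ ∧ 0 < r₀ ∧ ∀ x₀ : DgE n, |u x₀| ≤ a → ∀ r : ℝ, r₀ ≤ r →
    ∀ (η : ℝ) (e : DgE n), η ≤ η₀ → T r ≤ η → DgB7Flat b u x₀ r η e → ∃ e', DgB7Flat b u x₀ (θ * r) (η / 2) e'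

/-! ### algebra of flatness -/

theorem DgB7Flat.mono {u : DgE n → ℝ} {x e : DgE n} {r η η' : ℝ} (h : DgB7Flat b u x r η e) (hr : 0 ≤ r)
    (hη : η ≤ η') : DgB7Flat b u x r η' e := by
  have h1 : η * r ≤ η' * r := mul_le_mul_of_nonneg_right hη hr
  exact ⟨h.unit, fun y hy hy' => h.above y hy (h1.trans hy'), fun y hy hy' => h.below y hy (by linarith)⟩

theorem DgB7Flat.pos {u : DgE n → ℝ} {x e : DgE n} {r η : ℝ} (h : DgB7Flat b u x r η e) (hb : 0 < b) (hr : 0 < r) :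
    0 < η := by
  by_contra hcon
  rw [not_lt] at hcon
  have h0 : η * r ≤ 0 := mul_nonpos_of_nonpos_of_nonneg hcon hr.le
  have hx : x ∈ ball x r := mem_ball_self hr
  have h1 := h.above x hx (by simpa using h0)
  have h2 := h.below x hx (by simpa using h0)
  linarith

theorem DgB7Flat.restrict {u : DgE n → ℝ} {x e : DgE n} {r r' η : ℝ} (h : DgB7Flat b u x r η e) (hr' : 0 < r')
    (hrr : r' ≤ r) : DgB7Flat b u x r' (η * r / r') e := by
  have h1 : η * r / r' * r' = η * r := by field_simp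
  refine ⟨h.unit, fun y hy hy' => h.above y (ball_subset_ball hrr hy) ?_,
    fun y hy hy' => h.below y (ball_subset_ball hrr hy) ?_⟩
  · rwa [h1] at hy'
  · rwa [h1] at hy'

theorem DgB7Flat.tilt {u : DgE n → ℝ} {x e e' : DgE n} {r η β : ℝ} (h : DgB7Flat b u x r η e) (he' : ‖e'‖ = 1)
    (hβ : ‖e - e'‖ ≤ β) : DgB7Flat b u x r (η + β) e' := by
  have key : ∀ y ∈ ball x r, |inner ℝ (y - x) e - inner ℝ (y - x) e'| ≤ β * r := by
    intro y hy
    rw [← inner_sub_right]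
    have h1 : ‖y - x‖ ≤ r := by
      rw [mem_ball, dist_eq_norm] at hy; exact hy.le
    have h0 : 0 ≤ β := (norm_nonneg _).trans hβ
    calc |inner ℝ (y - x) (e - e')| ≤ ‖y - x‖ * ‖e - e'‖ := abs_real_inner_le_norm _ _
      _ ≤ r * β := mul_le_mul h1 hβ (norm_nonneg _) ((norm_nonneg _).trans h1)
      _ = β * r := mul_comm _ _
  refine ⟨he', fun y hy hy' => h.above y hy ?_, fun y hy hy' => h.below y hy ?_⟩
  · have := abs_le.1 (key y hy)
    nlinarith [this.1]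
  · have := abs_le.1 (key y hy)
    nlinarith [this.2]

/-- an interface point of a flat ball lies in the slab. -/
theorem DgB7Flat.slab {u : DgE n → ℝ} {x e y : DgE n} {r η : ℝ} (h : DgB7Flat b u x r η e) (hab : a < b)
    (hy : y ∈ ball x r) (hu : |u y| ≤ a) : |inner ℝ (y - x) e| < η * r := by
  have hu' := abs_le.1 hu
  rw [abs_lt]
  constructor
  · by_contra hcon
    rw [not_lt] at hcon
    have := h.below y hy hcon
    linarith [hu'.1]
  · by_contra hcon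
    rw [not_lt] at hcon
    have := h.above y hy hcon
    linarith [hu'.2]

theorem DgB7Flat.recentre {u : DgE n → ℝ} {x₀ x₁ e : DgE n} {ρ η : ℝ} (h : DgB7Flat b u x₀ (2 * ρ) η e) (hab : a < b)
    (hx : x₁ ∈ ball x₀ ρ) (hu : |u x₁| ≤ a) : DgB7Flat b u x₁ ρ (4 * η) e := by
  have hρ : 0 < ρ := pos_of_mem_ball hx
  have h1 := abs_lt.1 (h.slab hab (ball_subset_ball (by linarith) hx) hu)
  have hsub : ∀ y ∈ ball x₁ ρ, y ∈ ball x₀ (2 * ρ) := by
    intro y hy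
    rw [mem_ball] at hy hx ⊢
    calc dist y x₀ ≤ dist y x₁ + dist x₁ x₀ := dist_triangle _ _ _
      _ < 2 * ρ := by linarith
  have hsplit : ∀ y : DgE n, inner ℝ (y - x₀) e = inner ℝ (y - x₁) e + inner ℝ (x₁ - x₀) e := by
    intro y
    rw [← inner_add_left]
    congr 1
    abel
  refine ⟨h.unit, fun y hy hy' => h.above y (hsub y hy) ?_, fun y hy hy' => h.below y (hsub y hy) ?_⟩
  · rw [hsplit]; nlinarith [h1.1]
  · rw [hsplit]; nlinarith [h1.2]

/-- two directions in which the same ball is flat are close. -/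
theorem dgB7_dir_close {u : DgE n → ℝ} {x e e' : DgE n} {r η η' : ℝ} (hb : 0 < b) (hr : 0 < r)
    (h : DgB7Flat b u x r η e) (h' : DgB7Flat b u x r η' e') : ‖e - e'‖ ≤ 4 * max η η' := by
  by_contra hcon
  rw [not_le] at hcon
  have hη : 0 < η := h.pos hb hr
  have hd : 0 < ‖e - e'‖ := lt_of_le_of_lt (by positivity) hcon
  set d := ‖e - e'‖ with hdd
  have hsq : d ^ 2 = 2 - 2 * inner ℝ e e' := by
    rw [hdd, @norm_sub_sq_real, h.unit, h'.unit]; ring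
  set y : DgE n := x + (r / 2 / d) • (e - e') with hy
  have hyx : y - x = (r / 2 / d) • (e - e') := by rw [hy]; abel
  have hball : y ∈ ball x r := by
    rw [mem_ball, dist_eq_norm, hyx, norm_smul, ← hdd, Real.norm_eq_abs, abs_of_pos (by positivity)]
    have : r / 2 / d * d = r / 2 := by field_simp
    rw [this]; linarith
  have hee : inner ℝ e e = (1 : ℝ) := by rw [real_inner_self_eq_norm_sq, h.unit]; norm_num
  have hee' : inner ℝ e' e' = (1 : ℝ) := by rw [real_inner_self_eq_norm_sq, h'.unit]; norm_num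
  have h1 : inner ℝ (y - x) e = r * d / 4 := by
    rw [hyx, real_inner_smul_left, inner_sub_left, hee, real_inner_comm e e']
    have : 1 - inner ℝ e e' = d ^ 2 / 2 := by linarith
    rw [this]; field_simp; ring
  have h2 : inner ℝ (y - x) e' = -(r * d / 4) := by
    rw [hyx, real_inner_smul_left, inner_sub_left, hee']
    have : inner ℝ e e' - 1 = -(d ^ 2 / 2) := by linarith
    rw [this]; field_simp; ring
  have h3 : η * r ≤ r * d / 4 := by
    have := le_max_left η η'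
    nlinarith
  have h4 : η' * r ≤ r * d / 4 := by
    have := le_max_right η η'
    nlinarith
  have h5 := h.above y hball (by rw [h1]; exact h3)
  have h6 := h'.below y hball (by rw [h2]; linarith)
  linarith

/-! ### ITER: START + STEP => flatness `T r` at every scale `r ≥ r₁` -/

/-- admissible thresholds. -/
structure DgB7Thr (T : ℝ → ℝ) : Prop where
  pos : ∀ r : ℝ, 0 < r → 0 < T r
  anti : ∀ r s : ℝ, 0 < r → r ≤ s → T s ≤ T r
  summ : ∀ ρ : ℝ, 0 < ρ → Summable fun k : ℕ => T (ρ * 2 ^ k)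

theorem DgB7Thr.eventually_le {T : ℝ → ℝ} (hT : DgB7Thr T) {t : ℝ} (ht : 0 < t) :
    ∃ r₁ : ℝ, 0 < r₁ ∧ ∀ r : ℝ, r₁ ≤ r → T r ≤ t := by
  have h1 := (hT.summ 1 one_pos).tendsto_atTop_zero
  obtain ⟨k, hk⟩ := ((tendsto_order.1 h1).2 t ht).exists
  refine ⟨1 * 2 ^ k, by positivity, fun r hr => (hT.anti _ _ (by positivity) hr).trans hk.le⟩

theorem dgB7_chain {u : DgE n → ℝ} {T : ℝ → ℝ} (hT : DgB7Thr T) {θ η₀ r₀ r₁ : ℝ} (hθ0 : 0 < θ) (hθ1 : θ < 1)
    (hη₀ : 0 < η₀) (hr₀ : 0 < r₀) (hr₁ : r₀ ≤ r₁) (hTr₁ : ∀ r : ℝ, r₁ ≤ r → T r ≤ η₀) {x₀ : DgE n}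
    (hstep : ∀ r : ℝ, r₀ ≤ r → ∀ (η : ℝ) (e : DgE n), η ≤ η₀ → T r ≤ η → DgB7Flat b u x₀ r η e →
      ∃ e', DgB7Flat b u x₀ (θ * r) (η / 2) e')
    {ρ : ℝ} (hρ : ∃ e, DgB7Flat b u x₀ ρ η₀ e) (j : ℕ) :
    r₁ ≤ ρ * θ ^ j → ∃ e, DgB7Flat b u x₀ (ρ * θ ^ j) (max (η₀ / 2 ^ j) (T (ρ * θ ^ j))) e := by
  induction j with
  | zero =>
    intro h
    obtain ⟨e, he⟩ := hρ
    simp only [pow_zero, mul_one, div_one] at h ⊢
    exact ⟨e, he.mono (by linarith) (le_max_left _ _)⟩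
  | succ j ih =>
    intro h
    have hr₁0 : 0 < r₁ := lt_of_lt_of_le hr₀ hr₁
    have hpos : 0 < ρ * θ ^ (j + 1) := lt_of_lt_of_le hr₁0 h
    have hρ0 : 0 < ρ := by
      by_contra hcon
      rw [not_lt] at hcon
      have : ρ * θ ^ (j + 1) ≤ 0 := mul_nonpos_of_nonpos_of_nonneg hcon (by positivity)
      linarith
    have hle : ρ * θ ^ (j + 1) ≤ ρ * θ ^ j := by
      rw [pow_succ, ← mul_assoc]
      have : 0 < ρ * θ ^ j := by positivity
      nlinarith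
    have hj : r₁ ≤ ρ * θ ^ j := h.trans hle
    obtain ⟨e, he⟩ := ih hj
    have hmax : max (η₀ / 2 ^ j) (T (ρ * θ ^ j)) ≤ η₀ := by
      refine max_le ?_ (hTr₁ _ hj)
      exact div_le_self hη₀.le (one_le_pow₀ (by norm_num))
    obtain ⟨e', he'⟩ := hstep _ (hr₁.trans hj) _ e hmax (le_max_right _ _) he
    have heq : θ * (ρ * θ ^ j) = ρ * θ ^ (j + 1) := by rw [pow_succ]; ring
    rw [heq] at he'
    refine ⟨e', he'.mono hpos.le ?_⟩
    have hTp : 0 < T (ρ * θ ^ j) := hT.pos _ (by positivity)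
    have hTa : T (ρ * θ ^ j) ≤ T (ρ * θ ^ (j + 1)) := hT.anti _ _ hpos hle
    rcases le_total (η₀ / 2 ^ j) (T (ρ * θ ^ j)) with hc | hc
    · rw [max_eq_right hc]
      exact le_max_of_le_right (by linarith)
    · rw [max_eq_left hc]
      refine le_max_of_le_left (le_of_eq ?_)
      rw [pow_succ]; field_simp

/-- from the weak START: around every interface point there are arbitrarily large radii `r / θ^j` of flatness `η₀`. -/
theorem dgB7_start_at {u : DgE n → ℝ} {c : DgE n} (hab : a < b) (hstart : DgB7Start b u c) {θ η₀ : ℝ} (hθ0 : 0 < θ)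
    (hθ1 : θ < 1) (hη₀ : 0 < η₀) {x₀ : DgE n} (hx₀ : |u x₀| ≤ a) {r : ℝ} (hr : 0 < r) (J : ℕ) :
    ∃ j : ℕ, J ≤ j ∧ ∃ e, DgB7Flat b u x₀ (r / θ ^ j) η₀ e := by
  have hθJ : 0 < θ ^ J := by positivity
  obtain ⟨R, hR, e, he⟩ := hstart (η₀ * θ / 4) (by positivity) (2 * (dist x₀ c + 1 + r / θ ^ J))
  have hd : 0 ≤ dist x₀ c := dist_nonneg
  have hrJ : 0 < r / θ ^ J := by positivity
  set ρ' : ℝ := R / 2 with hρ'
  have hρ'1 : dist x₀ c < ρ' := by rw [hρ']; linarith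
  have hρ'2 : r / θ ^ J ≤ ρ' := by rw [hρ']; linarith
  have hρ'0 : 0 < ρ' := lt_of_lt_of_le hrJ hρ'2
  have hR2 : R = 2 * ρ' := by rw [hρ']; ring
  rw [hR2] at he
  have h1 := he.recentre hab (mem_ball.2 hρ'1) hx₀
  have hone : (1 : ℝ) ≤ ρ' / r := by
    rw [le_div_iff₀ hr, one_mul]
    refine le_trans ?_ hρ'2
    rw [le_div_iff₀ hθJ]
    have : θ ^ J ≤ 1 := pow_le_one₀ hθ0.le hθ1.le
    nlinarith
  obtain ⟨j, hj1, hj2⟩ := exists_nat_pow_near hone (one_lt_inv₀ hθ0 |>.2 hθ1)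
  have hθj : 0 < θ ^ j := by positivity
  rw [inv_pow, le_div_iff₀ hr] at hj1
  rw [inv_pow, div_lt_iff₀ hr] at hj2
  have e1 : r / θ ^ j = (θ ^ j)⁻¹ * r := by rw [div_eq_mul_inv, mul_comm]
  refine ⟨j, ?_, e, ?_⟩
  · -- `J ≤ j`
    by_contra hcon
    rw [not_le] at hcon
    have h2 : θ ^ J ≤ θ ^ (j + 1) := pow_le_pow_of_le_one hθ0.le hθ1.le (by omega)
    have h3 : (θ ^ (j + 1))⁻¹ ≤ (θ ^ J)⁻¹ := inv_anti₀ hθJ h2
    have h4 : r / θ ^ J = (θ ^ J)⁻¹ * r := by rw [div_eq_mul_inv, mul_comm]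
    have h5 : (θ ^ (j + 1))⁻¹ * r ≤ (θ ^ J)⁻¹ * r := mul_le_mul_of_nonneg_right h3 hr.le
    linarith
  · have hpos : 0 < r / θ ^ j := by positivity
    have h2 := h1.restrict hpos (by rw [e1]; exact hj1)
    refine h2.mono hpos.le ?_
    rw [div_le_iff₀ hpos]
    have h3 : ρ' < (r / θ ^ j) / θ := by
      have : (θ ^ (j + 1))⁻¹ * r = (r / θ ^ j) / θ := by
        rw [pow_succ]; field_simp
      rw [← this]; exact hj2
    rw [lt_div_iff₀ hθ0] at h3
    calc 4 * (η₀ * θ / 4) * ρ' = η₀ * (ρ' * θ) := by ring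
      _ ≤ η₀ * (r / θ ^ j) := mul_le_mul_of_nonneg_left h3.le hη₀.le

/-- **decay**: flatness `T r` at every interface point and every scale `r ≥ r₁`. -/
theorem dgB7_decay {u : DgE n → ℝ} {T : ℝ → ℝ} {c : DgE n} (hab : a < b) (hT : DgB7Thr T) (hstart : DgB7Start b u c)
    (hstep : DgB7Step a b u T) :
    ∃ r₁ : ℝ, 0 < r₁ ∧ ∀ x₀ : DgE n, |u x₀| ≤ a → ∀ r : ℝ, r₁ ≤ r → ∃ e, DgB7Flat b u x₀ r (T r) e := by
  obtain ⟨θ, η₀, r₀, hθ0, hθ1, hη₀, hr₀, hst⟩ := hstep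
  obtain ⟨r₂, hr₂, hTr₂⟩ := hT.eventually_le hη₀
  refine ⟨max r₀ r₂, lt_max_of_lt_left hr₀, fun x₀ hx₀ r hr => ?_⟩
  have hr0 : 0 < r := lt_of_lt_of_le (lt_max_of_lt_left hr₀) hr
  have hTr : 0 < T r := hT.pos r hr0
  -- choose `J`
  have l1 : Tendsto (fun j : ℕ => η₀ * (1 / 2 : ℝ) ^ j) atTop (𝓝 (η₀ * 0)) :=
    (tendsto_pow_atTop_nhds_zero_of_lt_one (by norm_num) (by norm_num)).const_mul η₀
  rw [mul_zero] at l1
  obtain ⟨J, hJ⟩ := eventually_atTop.1 ((tendsto_order.1 l1).2 _ hTr)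
  obtain ⟨j, hj, hfl⟩ := dgB7_start_at hab hstart hθ0 hθ1 hη₀ hx₀ hr0 J
  have hθj : 0 < θ ^ j := by positivity
  have heq : r / θ ^ j * θ ^ j = r := by field_simp
  obtain ⟨e, he⟩ := dgB7_chain hT hθ0 hθ1 hη₀ hr₀ (le_max_left r₀ r₂)
    (fun s hs => hTr₂ s ((le_max_right _ _).trans hs)) (hst x₀ hx₀) hfl j (by rw [heq]; exact hr)
  rw [heq] at he
  refine ⟨e, he.mono hr0.le (max_le ?_ le_rfl)⟩
  have : η₀ / 2 ^ j = η₀ * (1 / 2 : ℝ) ^ j := by
    rw [one_div, inv_pow]; rfl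
  rw [this]
  exact (hJ j hj).le

/-! ### the limit direction at a fixed centre -/

/-- the flatness in the limit direction at the scale `r₁ 2^k`. -/
noncomputable def dgB7_b (T : ℝ → ℝ) (r₁ : ℝ) (k : ℕ) : ℝ := T (r₁ * 2 ^ k) + ∑' m : ℕ, 8 * T (r₁ * 2 ^ (k + m))

theorem dgB7_b_tendsto {T : ℝ → ℝ} (hT : DgB7Thr T) {r₁ : ℝ} (hr₁ : 0 < r₁) :
    Tendsto (dgB7_b T r₁) atTop (𝓝 0) := by
  have h1 := (hT.summ r₁ hr₁).tendsto_atTop_zero
  have h2 := tendsto_sum_nat_add (fun k : ℕ => 8 * T (r₁ * 2 ^ k))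
  have h3 : (fun i : ℕ => ∑' k : ℕ, 8 * T (r₁ * 2 ^ (k + i))) = fun i : ℕ => ∑' m : ℕ, 8 * T (r₁ * 2 ^ (i + m)) := by
    funext i
    exact tsum_congr fun m => by rw [add_comm]
  rw [h3] at h2
  have := h1.add h2
  rw [add_zero] at this
  exact this

theorem dgB7_limit_dir {u : DgE n → ℝ} {T : ℝ → ℝ} (hb : 0 < b) (hT : DgB7Thr T) {r₁ : ℝ} (hr₁ : 0 < r₁) {x₀ : DgE n}
    (hfl : ∀ k : ℕ, ∃ e, DgB7Flat b u x₀ (r₁ * 2 ^ k) (T (r₁ * 2 ^ k)) e) :
    ∃ e : DgE n, ‖e‖ = 1 ∧ ∀ k : ℕ, DgB7Flat b u x₀ (r₁ * 2 ^ k) (dgB7_b T r₁ k) e := by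
  choose e he using hfl
  have hρ : ∀ k : ℕ, 0 < r₁ * 2 ^ k := fun k => by positivity
  have hstep : ∀ k : ℕ, dist (e k) (e k.succ) ≤ 8 * T (r₁ * 2 ^ k) := by
    intro k
    have hle : r₁ * 2 ^ k ≤ r₁ * 2 ^ (k + 1) := by
      rw [pow_succ]; nlinarith [hρ k]
    have h1 := (he (k + 1)).restrict (hρ k) hle
    have h2 : T (r₁ * 2 ^ (k + 1)) * (r₁ * 2 ^ (k + 1)) / (r₁ * 2 ^ k) = 2 * T (r₁ * 2 ^ (k + 1)) := by
      rw [pow_succ]; field_simp
    rw [h2] at h1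
    have h3 := dgB7_dir_close hb (hρ k) (he k) h1
    have h4 : T (r₁ * 2 ^ (k + 1)) ≤ T (r₁ * 2 ^ k) := hT.anti _ _ (hρ k) hle
    have h5 : 0 < T (r₁ * 2 ^ k) := hT.pos _ (hρ k)
    rw [dist_eq_norm]
    refine h3.trans ?_
    have : max (T (r₁ * 2 ^ k)) (2 * T (r₁ * 2 ^ (k + 1))) ≤ 2 * T (r₁ * 2 ^ k) := max_le (by linarith) (by linarith)
    linarith
  have hsum : Summable fun k : ℕ => 8 * T (r₁ * 2 ^ k) := (hT.summ r₁ hr₁).mul_left 8
  have hc : CauchySeq e := cauchySeq_of_dist_le_of_summable _ hstep hsum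
  obtain ⟨ē, hē⟩ := cauchySeq_tendsto_of_complete hc
  have hnorm : ‖ē‖ = 1 := by
    have h1 : Tendsto (fun k => ‖e k‖) atTop (𝓝 ‖ē‖) := hē.norm
    have h2 : (fun k => ‖e k‖) = fun _ => (1 : ℝ) := funext fun k => (he k).unit
    rw [h2] at h1
    exact tendsto_nhds_unique h1 tendsto_const_nhds
  refine ⟨ē, hnorm, fun k => ?_⟩
  have h1 := dist_le_tsum_of_dist_le_of_tendsto _ hstep hsum hē k
  rw [dist_eq_norm] at h1
  exact (he k).tilt hnorm h1

/-- **ITER**: START + STEP => contract (F). -/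
theorem dgB7_iter {u : DgE n → ℝ} {T : ℝ → ℝ} {c : DgE n} (hb : 0 < b) (hab : a < b) (hT : DgB7Thr T)
    (hstart : DgB7Start b u c) (hstep : DgB7Step a b u T) (hne : ∃ x : DgE n, |u x| ≤ a) : DgB7F a b u := by
  obtain ⟨r₁, hr₁, hdec⟩ := dgB7_decay hab hT hstart hstep
  have hρ : ∀ k : ℕ, 0 < r₁ * 2 ^ k := fun k => by positivity
  have hρ1 : ∀ k : ℕ, r₁ ≤ r₁ * 2 ^ k := fun k => by
    have : (1 : ℝ) ≤ 2 ^ k := one_le_pow₀ (by norm_num)
    nlinarith
  have hdir : ∀ x₀ : DgE n, |u x₀| ≤ a →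
      ∃ e : DgE n, ‖e‖ = 1 ∧ ∀ k : ℕ, DgB7Flat b u x₀ (r₁ * 2 ^ k) (dgB7_b T r₁ k) e := fun x₀ hx₀ =>
    dgB7_limit_dir hb hT hr₁ fun k => hdec x₀ hx₀ _ (hρ1 k)
  have hbt := dgB7_b_tendsto hT hr₁
  obtain ⟨xs, hxs⟩ := hne
  obtain ⟨e, he1, he⟩ := hdir xs hxs
  -- the direction does not depend on the centre
  have hind : ∀ x₀ : DgE n, |u x₀| ≤ a → ∀ k : ℕ, DgB7Flat b u x₀ (r₁ * 2 ^ k) (dgB7_b T r₁ k) e := by
    intro x₀ hx₀
    obtain ⟨e', he'1, he'⟩ := hdir x₀ hx₀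
    suffices h : e' = e by rw [← h]; exact he'
    have hlim : Tendsto (fun k : ℕ => 4 * max (dgB7_b T r₁ k) (4 * dgB7_b T r₁ (k + 1))) atTop (𝓝 0) := by
      have h1 := hbt.max ((hbt.comp (tendsto_add_atTop_nat 1)).const_mul 4)
      have h2 := h1.const_mul 4
      simpa using h2
    have hbig : ∀ᶠ k : ℕ in atTop, dist x₀ xs < r₁ * 2 ^ k := by
      have : Tendsto (fun k : ℕ => r₁ * (2 : ℝ) ^ k) atTop atTop :=
        (tendsto_pow_atTop_atTop_of_one_lt (by norm_num)).const_mul_atTop hr₁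
      exact this.eventually_gt_atTop _
    have hle : ∀ᶠ k : ℕ in atTop, ‖e' - e‖ ≤ 4 * max (dgB7_b T r₁ k) (4 * dgB7_b T r₁ (k + 1)) := by
      filter_upwards [hbig] with k hk
      have h1 := he (k + 1)
      have h2 : r₁ * 2 ^ (k + 1) = 2 * (r₁ * 2 ^ k) := by rw [pow_succ]; ring
      rw [h2] at h1
      exact dgB7_dir_close hb (hρ k) (he' k) (h1.recentre hab (mem_ball.2 hk) hx₀)
    have h0 : ‖e' - e‖ ≤ 0 := ge_of_tendsto hlim hle
    exact sub_eq_zero.1 (norm_le_zero_iff.1 h0)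
  refine ⟨e, he1, fun ε hε => ?_⟩
  obtain ⟨k₀, hk₀⟩ := eventually_atTop.1 ((tendsto_order.1 hbt).2 (ε / 2) (by positivity))
  refine ⟨r₁ * 2 ^ k₀, fun x₀ x hx₀ => ?_⟩
  have hinner : |inner ℝ (x - x₀) e| ≤ ‖x - x₀‖ := by
    have := abs_real_inner_le_norm (x - x₀) e
    rwa [he1, mul_one] at this
  have hd0 : 0 ≤ ‖x - x₀‖ := norm_nonneg _
  -- the scale of `x`
  have hscale : r₁ * 2 ^ k₀ ≤ ‖x - x₀‖ → ∃ k : ℕ, k₀ ≤ k ∧ r₁ * 2 ^ k ≤ ‖x - x₀‖ ∧ ‖x - x₀‖ < r₁ * 2 ^ (k + 1) := by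
    intro hbig
    have h1 : (1 : ℝ) ≤ ‖x - x₀‖ / r₁ := by
      rw [le_div_iff₀ hr₁]
      have := hρ1 k₀
      linarith
    obtain ⟨k, hk1, hk2⟩ := exists_nat_pow_near h1 (by norm_num : (1 : ℝ) < 2)
    rw [le_div_iff₀ hr₁] at hk1
    rw [div_lt_iff₀ hr₁] at hk2
    refine ⟨k, ?_, by linarith, by linarith⟩
    have h2 : (2 : ℝ) ^ k₀ < 2 ^ (k + 1) := by
      have : r₁ * 2 ^ k₀ < r₁ * 2 ^ (k + 1) := by linarith
      exact lt_of_mul_lt_mul_left this hr₁.le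
    have h3 : k₀ < k + 1 := (pow_lt_pow_iff_right₀ (by norm_num : (1 : ℝ) < 2)).1 h2
    omega
  have hmain : r₁ * 2 ^ k₀ ≤ ‖x - x₀‖ → ∃ k : ℕ, x ∈ ball x₀ (r₁ * 2 ^ (k + 1)) ∧
      dgB7_b T r₁ (k + 1) * (r₁ * 2 ^ (k + 1)) ≤ ε * ‖x - x₀‖ := by
    intro hbig
    obtain ⟨k, hk, hk1, hk2⟩ := hscale hbig
    refine ⟨k, by rw [mem_ball, dist_eq_norm]; exact hk2, ?_⟩
    have h1 : dgB7_b T r₁ (k + 1) < ε / 2 := hk₀ (k + 1) (by omega)
    have h2 : r₁ * 2 ^ (k + 1) = 2 * (r₁ * 2 ^ k) := by rw [pow_succ]; ring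
    rw [h2]
    have h3 := hρ k
    calc dgB7_b T r₁ (k + 1) * (2 * (r₁ * 2 ^ k)) ≤ ε / 2 * (2 * (r₁ * 2 ^ k)) :=
          mul_le_mul_of_nonneg_right h1.le (by positivity)
      _ = ε * (r₁ * 2 ^ k) := by ring
      _ ≤ ε * ‖x - x₀‖ := mul_le_mul_of_nonneg_left hk1 hε.le
  have hεd : 0 ≤ ε * ‖x - x₀‖ := by positivity
  have hi := abs_le.1 hinner
  constructor
  · intro h
    have hbig : r₁ * 2 ^ k₀ ≤ ‖x - x₀‖ := by linarith [hi.2]
    obtain ⟨k, hk1, hk2⟩ := hmain hbig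
    exact (hind x₀ hx₀ (k + 1)).above x hk1 (by linarith [hρ k₀])
  · intro h
    have hbig : r₁ * 2 ^ k₀ ≤ ‖x - x₀‖ := by linarith [hi.1]
    obtain ⟨k, hk1, hk2⟩ := hmain hbig
    exact (hind x₀ hx₀ (k + 1)).below x hk1 (by linarith [hρ k₀])

/-- power thresholds are admissible. -/
theorem dgB7_thr_pow {C α : ℝ} (hC : 0 < C) (hα : 0 < α) : DgB7Thr fun r => C * r ^ (-α) := by
  refine ⟨fun r hr => by positivity, fun r s hr hrs => ?_, fun ρ hρ => ?_⟩
  · exact mul_le_mul_of_nonneg_left (Real.rpow_le_rpow_of_nonpos hr hrs (by linarith)) hC.le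
  · have h1 : (fun k : ℕ => C * (ρ * 2 ^ k) ^ (-α)) = fun k : ℕ => C * ρ ^ (-α) * ((2 : ℝ) ^ (-α)) ^ k := by
      funext k
      rw [Real.mul_rpow hρ.le (by positivity), ← Real.rpow_natCast, ← Real.rpow_natCast, ← Real.rpow_mul (by norm_num),
        ← Real.rpow_mul (by norm_num), mul_comm (k : ℝ) (-α)]
      ring
    rw [h1]
    refine (summable_geometric_of_lt_one (by positivity) ?_).mul_left _
    exact Real.rpow_lt_one_of_one_lt_of_neg (by norm_num) (by linarith)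

/-! ### a non constant solution has an interface point -/

open Claimed.Agent.Lib.Ell in
/-- a solution with `u ≥ t > 0` everywhere is `≡ 1` (approximate maximum of `1 - u`, `Δ(1-u) = u(1+u)(1-u) ≥ t (1-u)`). -/
theorem dgB7_eq_one_of_ge {u : DgE n → ℝ} (hu : DgSol n u) {t : ℝ} (ht : 0 < t) (h : ∀ x, t ≤ u x) (x₀ : DgE n) :
    u x₀ = 1 := by
  have hQc : ContDiff ℝ 2 (fun x => 1 - u x) := contDiff_const.sub hu.smooth
  have hQA : ∀ x, (fun x => 1 - u x) x ≤ 1 := fun x => by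
    have := h x
    simp only
    linarith
  have hlap : ∀ x, ellLap (fun x => 1 - u x) x = -(u x ^ 3 - u x) := fun x => by
    have h1 := dg258_lap_sub (f := fun _ : DgE n => (1 : ℝ)) contDiff_const hu.smooth x
    rw [h1, dg258_ellLap_eq u, hu.pde]
    have h2 : ellLap (fun _ : DgE n => (1 : ℝ)) x = 0 := by
      simp [ellLap, ellTr, ellD2]
    rw [h2]; ring
  have hmain : ∀ η : ℝ, 0 < η → t * (1 - u x₀) ≤ η * (2 * (Module.finrank ℝ (DgE n) : ℝ)) := by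
    intro η hη
    obtain ⟨x₁, ha, -, -, hd⟩ := dg258_approx_max hQc hQA x₀ hη
    have h1 : ellLap (fun x => 1 - u x) x₁ ≤ 2 * η * (Module.finrank ℝ (DgE n) : ℝ) := by
      rw [ell_lap_eq_sum_dd isOpen_univ hQc.contDiffOn (Set.mem_univ x₁)]
      calc _ ≤ ∑ _i : Fin (Module.finrank ℝ (DgE n)), 2 * η := by
            refine Finset.sum_le_sum fun i _ => ?_
            have := hd (stdOrthonormalBasis ℝ (DgE n) i)
            rw [(stdOrthonormalBasis ℝ (DgE n)).orthonormal.1 i] at this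
            linarith
        _ = 2 * η * (Module.finrank ℝ (DgE n) : ℝ) := by simp; ring
    rw [hlap] at h1
    have h2 := h x₁
    have h3 := (hu.range x₁).2
    have h4 : t * (1 - u x₁) ≤ -(u x₁ ^ 3 - u x₁) := by
      have h5 : 0 ≤ u x₁ * (1 + u x₁) - t := by nlinarith
      have h6 : -(u x₁ ^ 3 - u x₁) - t * (1 - u x₁) = (1 - u x₁) * (u x₁ * (1 + u x₁) - t) := by ring
      have h7 := mul_nonneg (sub_nonneg.2 h3) h5
      linarith
    have h8 : t * (1 - u x₀) ≤ t * (1 - u x₁) := mul_le_mul_of_nonneg_left ha ht.le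
    linarith
  have h1 := dg258_le_zero_of_forall hmain
  have h2 := (hu.range x₀).2
  nlinarith

theorem dgB7_neg_sol {u : DgE n → ℝ} (hu : DgSol n u) : DgSol n fun x => -u x := by
  refine ⟨hu.smooth.neg, fun x => ⟨by linarith [(hu.range x).2], by linarith [(hu.range x).1]⟩, fun x => ?_⟩
  have h1 : Laplacian.laplacian (fun x => -u x) x = -Laplacian.laplacian u x := by
    have := InnerProductSpace.laplacian_neg (f := u)
    exact congrFun this x
  rw [h1, hu.pde]; ring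

/-- a solution which is not a well has interface points at every level `a > 0`. -/
theorem dgB7_exists_interface {u : DgE n → ℝ} (hu : DgSol n u) (ha : 0 < a) (h1 : ¬ ∀ x, u x = 1)
    (h2 : ¬ ∀ x, u x = -1) : ∃ x, |u x| ≤ a := by
  by_contra hcon
  simp only [not_exists, not_le] at hcon
  have hc : Continuous u := hu.smooth.continuous
  by_cases hp : ∀ x, a ≤ u x
  · exact h1 (dgB7_eq_one_of_ge hu ha hp)
  · by_cases hm : ∀ x, u x ≤ -a
    · refine h2 fun x => ?_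
      have := dgB7_eq_one_of_ge (dgB7_neg_sol hu) ha (fun y => by linarith [hm y]) x
      linarith
    · simp only [not_forall, not_le] at hp hm
      obtain ⟨p, hp⟩ := hp
      obtain ⟨q, hq⟩ := hm
      have hpre : IsPreconnected (Set.univ : Set (DgE n)) := isPreconnected_univ
      have hp' : u p < -a := by
        rcases lt_abs.1 (hcon p) with h | h
        · linarith
        · linarith
      have hq' : a < u q := by
        rcases lt_abs.1 (hcon q) with h | h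
        · linarith
        · linarith
      obtain ⟨z, -, hz⟩ := hpre.intermediate_value (Set.mem_univ p) (Set.mem_univ q) hc.continuousOn
        (show (0 : ℝ) ∈ Set.Icc (u p) (u q) from ⟨by linarith, by linarith⟩)
      have := hcon z
      rw [hz, abs_zero] at this
      linarith

/-! ### changes of level, of threshold, of convention -/

/-- a larger threshold gives a weaker step. -/
theorem DgB7Step.mono {u : DgE n → ℝ} {T T' : ℝ → ℝ} (h : DgB7Step a b u T) {r₂ : ℝ} (hT : ∀ r : ℝ, r₂ ≤ r → T r ≤ T' r) :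
    DgB7Step a b u T' := by
  obtain ⟨θ, η₀, r₀, hθ0, hθ1, hη₀, hr₀, hst⟩ := h
  exact ⟨θ, η₀, max r₀ r₂, hθ0, hθ1, hη₀, lt_max_of_lt_left hr₀, fun x₀ hx₀ r hr η e hη hTη hfl =>
    hst x₀ hx₀ r ((le_max_left _ _).trans hr) η e hη ((hT r ((le_max_right _ _).trans hr)).trans hTη) hfl⟩

/-- (F) for the centres `|u| ≤ a` gives (F) for the centres `|u| ≤ a'` if these stay at bounded distance from the former. -/
theorem DgB7F.of_near {u : DgE n → ℝ} {a' : ℝ} (h : DgB7F a b u) {ρ₀ : ℝ}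
    (hnear : ∀ x : DgE n, |u x| ≤ a' → ∃ x', dist x' x ≤ ρ₀ ∧ |u x'| ≤ a) : DgB7F a' b u := by
  obtain ⟨e, he, hF⟩ := h
  refine ⟨e, he, fun ε hε => ?_⟩
  obtain ⟨K, hK⟩ := hF ε hε
  refine ⟨K + (1 + ε) * ρ₀, fun x₀ x hx₀ => ?_⟩
  obtain ⟨x', hx'1, hx'2⟩ := hnear x₀ hx₀
  obtain ⟨hA, hB⟩ := hK x' x hx'2
  have hsplit : inner ℝ (x - x') e = inner ℝ (x - x₀) e + inner ℝ (x₀ - x') e := by
    rw [← inner_add_left]; congr 1; abel
  have h1 : |inner ℝ (x₀ - x') e| ≤ ρ₀ := by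
    have := abs_real_inner_le_norm (x₀ - x') e
    rw [he, mul_one, ← dist_eq_norm, dist_comm] at this
    exact this.trans hx'1
  have h2 : ‖x - x'‖ ≤ ‖x - x₀‖ + ρ₀ := by
    have : ‖x - x'‖ ≤ ‖x - x₀‖ + ‖x₀ - x'‖ := by
      have := norm_add_le (x - x₀) (x₀ - x')
      rwa [sub_add_sub_cancel] at this
    rw [← dist_eq_norm x₀ x', dist_comm] at this
    linarith
  have h3 := abs_le.1 h1
  have h4 : ε * ‖x - x'‖ ≤ ε * ‖x - x₀‖ + ε * ρ₀ := by
    have := mul_le_mul_of_nonneg_left h2 hε.le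
    linarith
  constructor
  · intro h
    exact hA (by rw [hsplit]; linarith [h3.1])
  · intro h
    exact hB (by rw [hsplit]; linarith [h3.2])

/-- points with `|u| ≤ 7/8` are at bounded distance from points with `|u| ≤ 1/2` (exponential decay, `ExpDecay.lean`). -/
theorem dgB7_near {u : DgE n → ℝ} (hu : DgSol n u) :
    ∃ ρ₀ : ℝ, ∀ x : DgE n, |u x| ≤ 7 / 8 → ∃ x', dist x' x ≤ ρ₀ ∧ |u x'| ≤ 1 / 2 := by
  obtain ⟨C, hC, h⟩ := dgX_one_sub_abs_le n (θ := 1 / 2) (lam := 1 / 2) (by norm_num) (by norm_num) (by norm_num)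
  -- `C e^{-ρ/2} < 1/8`
  have l1 : Tendsto (fun ρ : ℝ => C * Real.exp (-(1 / 2 * ρ))) atTop (𝓝 (C * 0)) := by
    refine Tendsto.const_mul C ?_
    refine Real.tendsto_exp_atBot.comp ?_
    exact tendsto_neg_atTop_atBot.comp (Tendsto.const_mul_atTop (by norm_num) tendsto_id)
  rw [mul_zero] at l1
  obtain ⟨ρ₀, hρ1, hρ2⟩ := (((tendsto_order.1 l1).2 (1 / 8) (by norm_num)).and (eventually_gt_atTop 0)).exists
  refine ⟨ρ₀, fun x hx => ?_⟩
  by_contra hcon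
  simp only [not_exists, not_and, not_le] at hcon
  have h1 := h u hu x ρ₀ hρ2 fun y hy => (hcon y (mem_ball.1 hy).le).le
  linarith

/-- from the convention of the Fl-port (`u > 0` BELOW, strict inequalities) to `DgB7Flat`. -/
theorem dgB7_flat_of_port {u : DgE n → ℝ} {x e : DgE n} {r ε η : ℝ} (he : ‖e‖ = 1) (hr : 0 < r) (hη : ε < η)
    (h1 : ∀ y ∈ ball x r, inner ℝ (y - x) e < -(ε * r) → b ≤ u y)
    (h2 : ∀ y ∈ ball x r, ε * r < inner ℝ (y - x) e → u y ≤ -b) : DgB7Flat b u x r η (-e) := by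
  have h3 : ε * r < η * r := mul_lt_mul_of_pos_right hη hr
  refine ⟨by rw [norm_neg, he], fun y hy hy' => h1 y hy ?_, fun y hy hy' => h2 y hy ?_⟩
  · rw [inner_neg_right] at hy'; linarith
  · rw [inner_neg_right] at hy'; linarith

/-- from `DgB7Flat` to the convention of the Fl-port. -/
theorem DgB7Flat.to_port {u : DgE n → ℝ} {x e : DgE n} {r η : ℝ} (h : DgB7Flat b u x r η e) :
    ‖-e‖ = 1 ∧ (∀ y ∈ ball x r, inner ℝ (y - x) (-e) < -(η * r) → b ≤ u y) ∧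
      ∀ y ∈ ball x r, η * r < inner ℝ (y - x) (-e) → u y ≤ -b := by
  refine ⟨by rw [norm_neg, h.unit], fun y hy hy' => h.above y hy ?_, fun y hy hy' => h.below y hy ?_⟩
  · rw [inner_neg_right] at hy'; linarith
  · rw [inner_neg_right] at hy'; linarith

/-! ## EXITS -/

/-- **P10 (ITER), final form**: weak START at one centre + STEP at the points `|u| ≤ 1/2` above a summable threshold
=> contract (F) in the form of helper8 (centres `|u| ≤ 7/8`, levels `± 3/4`). -/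
theorem dgB7_F_of {u : DgE n → ℝ} (hu : DgSol n u) (h1 : ¬ ∀ x, u x = 1) (h2 : ¬ ∀ x, u x = -1) {c : DgE n}
    (hstart : DgB7Start (3 / 4) u c) {T : ℝ → ℝ} (hT : DgB7Thr T) (hstep : DgB7Step (1 / 2) (3 / 4) u T) :
    DgB7F (7 / 8) (3 / 4) u := by
  obtain ⟨ρ₀, hρ₀⟩ := dgB7_near hu
  exact (dgB7_iter (by norm_num) (by norm_num) hT hstart hstep
    (dgB7_exists_interface hu (by norm_num) h1 h2)).of_near hρ₀

/-- **K7 from its three contracts** (START, STEP, END = sliding theorem of helper8), for a monotone solution. -/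
theorem dgB7_K7_of {u : DgE n → ℝ} (hu : DgSol n u) (e₀ : DgE n) (hmono : ∀ x, 0 < fderiv ℝ u x e₀) {c : DgE n}
    (hstart : DgB7Start (3 / 4) u c) {T : ℝ → ℝ} (hT : DgB7Thr T) (hstep : DgB7Step (1 / 2) (3 / 4) u T)
    (hend : DgB7F (7 / 8) (3 / 4) u → DgOneD n u) : DgPlanar n u := by
  have hconst : ∀ t : ℝ, ¬ ∀ x, u x = t := by
    intro t ht
    have h1 : u = fun _ => t := funext ht
    have h2 := hmono 0
    rw [h1] at h2
    simp at h2
  obtain ⟨e, he, -, t, ht⟩ := dgC1_oneD_mono hu e₀ hmono (hend (dgB7_F_of hu (hconst 1) (hconst (-1)) hstart hT hstep))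
  exact ⟨e, he, t, ht⟩

end Claimed.Agent.R329
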