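import Claimed.Agent.R329.Defs

/-!
# Row 329 (De Giorgi in dimension eight): the one-dimensional exits

Part A: the ODE `g'' = g ^ 3 - g` with values in `[-1, 1]`: first integral, classification.
Part B: calculus on `EuclideanSpace ℝ (Fin n)` in the words of the statements S0587, S0588
(`‖fderiv ℝ φ x‖ ^ 2`, `Laplacian.laplacian`), integration by parts, the identity
`Q_v (f η) = ∫ f² |∇η|² + ∫ (-Δ f + (3 v² - 1) f) f η²`, and `L_v (1 - v²) = 4 P`.
Part C: the exits: a solution which is invariant under `a^⊥` satisfies the conclusion of S0587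
(if monotone) resp. S0588 (if stable).
-/

set_option autoImplicit false

namespace Claimed.Agent.R329

open Real Set Filter MeasureTheory
open scoped Topology

/-! ## Part A: the ODE -/

/-- A solution of a linear ODE `h' = a h` which vanishes at one point vanishes identically. -/
theorem dg1_linear_ode_zero {h a : ℝ → ℝ} (ha : Continuous a)
    (hh : ∀ t, HasDerivAt h (a t * h t) t) {t₀ : ℝ} (h0 : h t₀ = 0) : ∀ t, h t = 0 := by
  set A : ℝ → ℝ := fun t => ∫ s in t₀..t, a s with hAdef
  have hA : ∀ t, HasDerivAt A (a t) t := fun t =>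
    intervalIntegral.integral_hasDerivAt_right (ha.intervalIntegrable _ _)
      (ha.stronglyMeasurableAtFilter _ _) ha.continuousAt
  have hF : ∀ t, HasDerivAt (fun t => h t * Real.exp (-(A t))) 0 t := by
    intro t
    exact ((hh t).mul ((hA t).neg.exp)).congr_deriv (by simp only [Pi.neg_apply]; ring)
  have hconst : ∀ t, h t * Real.exp (-(A t)) = h t₀ * Real.exp (-(A t₀)) := by
    intro t
    exact is_const_of_deriv_eq_zero (fun t => (hF t).differentiableAt) (fun t => (hF t).deriv) t t₀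
  intro t
  have := hconst t
  rw [h0, zero_mul] at this
  exact (mul_eq_zero.1 this).resolve_right (Real.exp_pos _).ne'

/-- `g` (with derivative `g'`) is an entire solution of `g'' = g ^ 3 - g` with values in `[-1, 1]`. -/
structure dg1_Sol (g g' : ℝ → ℝ) : Prop where
  d1 : ∀ t, HasDerivAt g (g' t) t
  d2 : ∀ t, HasDerivAt g' (g t ^ 3 - g t) t
  rng : ∀ t, g t ∈ Icc (-1 : ℝ) 1

namespace dg1_Sol

variable {g g' : ℝ → ℝ}

theorem neg (h : dg1_Sol g g') : dg1_Sol (fun t => - g t) (fun t => - g' t) where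
  d1 t := (h.d1 t).neg
  d2 t := (h.d2 t).neg.congr_deriv (by ring)
  rng t := by
    have := h.rng t
    exact ⟨by linarith [this.2], by linarith [this.1]⟩

theorem refl (h : dg1_Sol g g') : dg1_Sol (fun t => g (-t)) (fun t => - g' (-t)) where
  d1 t := by
    have := HasDerivAt.comp_const_sub (f := g) (f' := g' (-t)) 0 t (by simpa using h.d1 (-t))
    simpa using this
  d2 t := by
    have h0 := HasDerivAt.comp_const_sub (f := g') (f' := g (-t) ^ 3 - g (-t)) 0 t
      (by simpa using h.d2 (-t))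
    simp only [zero_sub] at h0
    exact h0.neg.congr_deriv (by ring)
  rng t := h.rng (-t)

theorem cont (h : dg1_Sol g g') : Continuous g :=
  continuous_iff_continuousAt.2 fun t => (h.d1 t).continuousAt

theorem cont' (h : dg1_Sol g g') : Continuous g' :=
  continuous_iff_continuousAt.2 fun t => (h.d2 t).continuousAt

/-- The first integral. -/
theorem first_integral (h : dg1_Sol g g') :
    ∃ E : ℝ, ∀ t, g' t ^ 2 / 2 - (1 - g t ^ 2) ^ 2 / 4 = E := by
  have hF : ∀ t, HasDerivAt (fun t => g' t ^ 2 / 2 - (1 - g t ^ 2) ^ 2 / 4) 0 t := by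
    intro t
    have h1 := ((h.d2 t).pow 2).div_const 2
    have h2 := ((((h.d1 t).pow 2).const_sub 1).pow 2).div_const 4
    exact (h1.sub h2).congr_deriv (by simp; ring)
  refine ⟨g' 0 ^ 2 / 2 - (1 - g 0 ^ 2) ^ 2 / 4, fun t => ?_⟩
  exact is_const_of_deriv_eq_zero (fun t => (hF t).differentiableAt) (fun t => (hF t).deriv) t 0

theorem one_sub_sq_nonneg (h : dg1_Sol g g') (t : ℝ) : 0 ≤ 1 - g t ^ 2 := by
  have := h.rng t
  nlinarith [this.1, this.2]

/-- If `g' ≥ s > 0` everywhere then `g` is unbounded. -/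
theorem not_speed (h : dg1_Sol g g') {s : ℝ} (hs : 0 < s) (hg : ∀ t, s ≤ g' t) : False := by
  have hmono : Monotone (fun t => g t - s * t) := by
    apply monotone_of_deriv_nonneg
    · intro t
      exact ((h.d1 t).sub ((hasDerivAt_id t).const_mul s)).differentiableAt
    · intro t
      have h0 : HasDerivAt (fun t => g t - s * t) (g' t - s * 1) t :=
        (h.d1 t).sub ((hasDerivAt_id t).const_mul s)
      rw [h0.deriv]
      linarith [hg t]
  have h3 : (0 : ℝ) ≤ 3 / s := by positivity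
  have := hmono h3
  simp only at this
  have e : s * (3 / s) = 3 := by field_simp
  rw [e] at this
  have a1 := (h.rng 0).1
  have a2 := (h.rng (3 / s)).2
  linarith

/-- The energy is nonpositive. -/
theorem energy_nonpos (h : dg1_Sol g g') {E : ℝ}
    (hE : ∀ t, g' t ^ 2 / 2 - (1 - g t ^ 2) ^ 2 / 4 = E) : E ≤ 0 := by
  by_contra hpos
  push Not at hpos
  have hsq : ∀ t, 2 * E ≤ g' t ^ 2 := by
    intro t
    have := hE t
    nlinarith [sq_nonneg (1 - g t ^ 2)]
  have hne : ∀ t, g' t ≠ 0 := by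
    intro t h0
    have := hsq t
    rw [h0] at this
    norm_num at this
    linarith
  have hs : 0 < Real.sqrt (2 * E) := Real.sqrt_pos.2 (by linarith)
  have key : ∀ {k k' : ℝ → ℝ}, dg1_Sol k k' → (∀ t, 2 * E ≤ k' t ^ 2) → (∀ t, 0 < k' t) → False := by
    intro k k' hk hk2 hkpos
    refine hk.not_speed hs fun t => ?_
    exact Real.sqrt_le_iff.2 ⟨(hkpos t).le, hk2 t⟩
  by_cases hp : ∀ t, 0 < g' t
  · exact key h hsq hp
  · push Not at hp
    obtain ⟨a, ha⟩ := hp
    have hn : ∀ t, g' t < 0 := by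
      intro t
      by_contra hb
      push Not at hb
      obtain ⟨c, hc⟩ := mem_range_of_exists_le_of_exists_ge h.cont' ⟨a, ha⟩ ⟨t, hb⟩
      exact hne c hc
    exact key h.neg (fun t => by simpa using hsq t) (fun t => by simpa using hn t)

/-- `h₊ = g' - (1 - g²)/√2` solves the linear equation `h₊' = √2 g h₊`. -/
theorem hplus (h : dg1_Sol g g') (t : ℝ) :
    HasDerivAt (fun t => g' t - (1 - g t ^ 2) / √2) (√2 * g t * (g' t - (1 - g t ^ 2) / √2)) t := by
  have h2 : (√2 : ℝ) ≠ 0 := by positivity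
  have h22 : (√2 : ℝ) * √2 = 2 := Real.mul_self_sqrt (by norm_num)
  refine ((h.d2 t).sub ((((h.d1 t).pow 2).const_sub 1).div_const (√2))).congr_deriv ?_
  field_simp
  simp
  linear_combination (-(g t * g' t)) * h22

/-- `h₋ = g' + (1 - g²)/√2` solves the linear equation `h₋' = -√2 g h₋`. -/
theorem hminus (h : dg1_Sol g g') (t : ℝ) :
    HasDerivAt (fun t => g' t + (1 - g t ^ 2) / √2) (-(√2 * g t) * (g' t + (1 - g t ^ 2) / √2)) t := by
  have h2 : (√2 : ℝ) ≠ 0 := by positivity
  have h22 : (√2 : ℝ) * √2 = 2 := Real.mul_self_sqrt (by norm_num)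
  refine ((h.d2 t).add ((((h.d1 t).pow 2).const_sub 1).div_const (√2))).congr_deriv ?_
  field_simp
  simp
  linear_combination (g t * g' t) * h22

/-- The Riccati equation `g' = (1 - g²)/√2`. -/
theorem riccati (h : dg1_Sol g g') (hR : ∀ t, g' t = (1 - g t ^ 2) / √2) :
    (∀ t, g t = 1) ∨ (∀ t, g t = -1) ∨ ∃ c : ℝ, ∀ t, g t = Real.tanh ((t - c) / √2) := by
  have h2 : (√2 : ℝ) ≠ 0 := by positivity
  by_cases hp : ∃ t₀, g t₀ = 1
  · obtain ⟨t₀, ht₀⟩ := hp
    left
    have key := dg1_linear_ode_zero (h := fun t => 1 - g t) (a := fun t => -((1 + g t) / √2))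
      (by have := h.cont; fun_prop)
      (fun t => ((h.d1 t).const_sub 1).congr_deriv (by rw [hR t]; ring)) (t₀ := t₀) (by simp [ht₀])
    intro t
    linarith [key t]
  by_cases hm : ∃ t₀, g t₀ = -1
  · obtain ⟨t₀, ht₀⟩ := hm
    right; left
    have key := dg1_linear_ode_zero (h := fun t => 1 + g t) (a := fun t => ((1 - g t) / √2))
      (by have := h.cont; fun_prop)
      (fun t => ((h.d1 t).const_add 1).congr_deriv (by rw [hR t]; ring)) (t₀ := t₀) (by simp [ht₀])
    intro t
    linarith [key t]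
  right; right
  push Not at hp hm
  have hlt : ∀ t, g t < 1 := fun t => lt_of_le_of_ne (h.rng t).2 (hp t)
  have hgt : ∀ t, -1 < g t := fun t => lt_of_le_of_ne (h.rng t).1 (Ne.symm (hm t))
  have hH : ∀ t, HasDerivAt (fun t => (Real.log (1 + g t) - Real.log (1 - g t)) / 2 - t / √2) 0 t := by
    intro t
    have p1 : (1 + g t) ≠ 0 := by linarith [hgt t]
    have p2 : (1 - g t) ≠ 0 := by linarith [hlt t]
    have a1 := ((h.d1 t).const_add 1).log p1
    have a2 := ((h.d1 t).const_sub 1).log p2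
    refine (((a1.sub a2).div_const 2).sub ((hasDerivAt_id t).div_const (√2))).congr_deriv ?_
    rw [hR t]
    field_simp
    ring
  have hconst : ∀ t, (Real.log (1 + g t) - Real.log (1 - g t)) / 2 - t / √2
      = (Real.log (1 + g 0) - Real.log (1 - g 0)) / 2 - 0 / √2 := fun t =>
    is_const_of_deriv_eq_zero (fun t => (hH t).differentiableAt) (fun t => (hH t).deriv) t 0
  set K := (Real.log (1 + g 0) - Real.log (1 - g 0)) / 2 with hK
  refine ⟨-(K * √2), fun t => ?_⟩
  have e1 : Real.artanh (g t) = (t - -(K * √2)) / √2 := by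
    rw [Real.artanh_eq_half_log ⟨(hgt t).le, (hlt t).le⟩,
      Real.log_div (by linarith [hgt t]) (by linarith [hlt t])]
    have := hconst t
    field_simp
    field_simp at this
    linarith
  rw [← e1, Real.tanh_artanh ⟨hgt t, hlt t⟩]

/-- Classification of the solutions of zero energy. -/
theorem classify_zero (h : dg1_Sol g g') (hE : ∀ t, g' t ^ 2 / 2 - (1 - g t ^ 2) ^ 2 / 4 = 0) :
    (∀ t, g t = 1) ∨ (∀ t, g t = -1) ∨ (∃ c : ℝ, ∀ t, g t = Real.tanh ((t - c) / √2)) ∨
      ∃ c : ℝ, ∀ t, g t = Real.tanh ((-t - c) / √2) := by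
  have h2 : (√2 : ℝ) ≠ 0 := by positivity
  have h22 : (√2 : ℝ) * √2 = 2 := Real.mul_self_sqrt (by norm_num)
  have hprod : ∀ t, (g' t - (1 - g t ^ 2) / √2) * (g' t + (1 - g t ^ 2) / √2) = 0 := by
    intro t
    have e : (g' t - (1 - g t ^ 2) / √2) * (g' t + (1 - g t ^ 2) / √2)
        = g' t ^ 2 - (1 - g t ^ 2) ^ 2 / (√2 * √2) := by
      field_simp
      ring
    rw [e, h22]
    linarith [hE t]
  by_cases hz : ∃ t₀, g' t₀ - (1 - g t₀ ^ 2) / √2 = 0
  · obtain ⟨t₀, ht₀⟩ := hz
    have key := dg1_linear_ode_zero (h := fun t => g' t - (1 - g t ^ 2) / √2)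
      (a := fun t => √2 * g t) (by have := h.cont; fun_prop) h.hplus ht₀
    rcases h.riccati (fun t => by linarith [key t]) with h1 | h1 | h1
    · exact Or.inl h1
    · exact Or.inr (Or.inl h1)
    · exact Or.inr (Or.inr (Or.inl h1))
  · push Not at hz
    have key : ∀ t, g' t + (1 - g t ^ 2) / √2 = 0 := fun t =>
      (mul_eq_zero.1 (hprod t)).resolve_left (hz t)
    rcases h.refl.riccati (fun t => by linarith [key (-t)]) with h1 | h1 | ⟨c, h1⟩
    · left; intro t; simpa using h1 (-t)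
    · right; left; intro t; simpa using h1 (-t)
    · right; right; right; exact ⟨c, fun t => by simpa using h1 (-t)⟩

/-- Negative energy keeps the solution away from the wells. -/
theorem gap_of_neg_energy (h : dg1_Sol g g') {E : ℝ}
    (hE : ∀ t, g' t ^ 2 / 2 - (1 - g t ^ 2) ^ 2 / 4 = E) (hneg : E < 0) (t : ℝ) :
    2 * √(-E) ≤ 1 - g t ^ 2 := by
  have hs : √(-E) * √(-E) = -E := Real.mul_self_sqrt (by linarith)
  have h1 : (2 * √(-E)) ^ 2 ≤ (1 - g t ^ 2) ^ 2 := by
    have := hE t
    nlinarith [sq_nonneg (g' t)]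
  exact (pow_le_pow_iff_left₀ (by positivity) (h.one_sub_sq_nonneg t) (by norm_num)).1 h1

theorem strictMono_of_pos (h : dg1_Sol g g') (hpos : ∀ t, 0 < g' t) : StrictMono g :=
  strictMono_of_deriv_pos (fun t => by rw [(h.d1 t).deriv]; exact hpos t)

/-- An increasing solution which stays away from the wells cannot be positive somewhere. -/
theorem mono_aux (h : dg1_Sol g g') (hpos : ∀ t, 0 < g' t) {δ : ℝ} (hδ : 0 < δ)
    (hgap : ∀ t, δ ≤ 1 - g t ^ 2) {t₀ : ℝ} (h0 : 0 < g t₀) : False := by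
  set κ := g t₀ * δ with hκdef
  have hκ : 0 < κ := mul_pos h0 hδ
  have hgm : StrictMono g := h.strictMono_of_pos hpos
  have hd : ∀ t, HasDerivAt (fun t => g' t + κ * t) (g t ^ 3 - g t + κ * 1) t := fun t =>
    (h.d2 t).add ((hasDerivAt_id t).const_mul κ)
  have hanti : AntitoneOn (fun t => g' t + κ * t) (Ici t₀) := by
    apply antitoneOn_of_deriv_nonpos (convex_Ici t₀)
    · exact fun t _ => (hd t).continuousAt.continuousWithinAt
    · exact fun t _ => (hd t).differentiableAt.differentiableWithinAt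
    · intro t ht
      rw [interior_Ici] at ht
      rw [(hd t).deriv]
      have a1 : g t₀ ≤ g t := hgm.monotone (le_of_lt ht)
      have a2 := hgap t
      have a3 : g t₀ * δ ≤ g t * (1 - g t ^ 2) :=
        mul_le_mul a1 a2 hδ.le (h0.le.trans a1)
      nlinarith
  have hq : 0 ≤ g' t₀ / κ := div_nonneg (hpos t₀).le hκ.le
  have ht1 : t₀ ≤ t₀ + g' t₀ / κ := by linarith
  have := hanti (mem_Ici.2 le_rfl) (mem_Ici.2 ht1) ht1
  simp only at this
  have e : κ * (t₀ + g' t₀ / κ) = κ * t₀ + g' t₀ := by field_simp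
  rw [e] at this
  linarith [hpos (t₀ + g' t₀ / κ)]

/-- **The increasing solutions are the translates of `tanh (t / √2)`.** -/
theorem mono (h : dg1_Sol g g') (hpos : ∀ t, 0 < g' t) :
    ∃ c : ℝ, ∀ t, g t = Real.tanh ((t - c) / √2) := by
  have h2 : (0 : ℝ) < √2 := by positivity
  obtain ⟨E, hE⟩ := h.first_integral
  have hE0 : E ≤ 0 := h.energy_nonpos hE
  have hE1 : 0 ≤ E := by
    by_contra hneg
    push Not at hneg
    have hδ : 0 < 2 * √(-E) := by
      have : 0 < √(-E) := Real.sqrt_pos.2 (by linarith)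
      linarith
    have hgap := h.gap_of_neg_energy hE hneg
    by_cases hc : 0 < g 0
    · exact h.mono_aux hpos hδ hgap hc
    · have hk := h.refl.neg
      have hlt : g (-1) < 0 :=
        lt_of_lt_of_le (h.strictMono_of_pos hpos (by norm_num)) (not_lt.1 hc)
      exact hk.mono_aux (fun t => by simpa using hpos (-t)) hδ (fun t => by simpa using hgap (-t))
        (t₀ := 1) (by simpa using hlt)
  have hE2 : E = 0 := le_antisymm hE0 hE1
  subst hE2
  rcases h.classify_zero hE with h1 | h1 | h1 | ⟨c, h1⟩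
  · exfalso
    have := h.strictMono_of_pos hpos (show (0 : ℝ) < 1 by norm_num)
    rw [h1 0, h1 1] at this
    exact lt_irrefl _ this
  · exfalso
    have := h.strictMono_of_pos hpos (show (0 : ℝ) < 1 by norm_num)
    rw [h1 0, h1 1] at this
    exact lt_irrefl _ this
  · exact h1
  · exfalso
    have := h.strictMono_of_pos hpos (show (0 : ℝ) < 1 by norm_num)
    rw [h1 0, h1 1] at this
    have h3 : ((-1 : ℝ) - c) / √2 < (-0 - c) / √2 := by
      apply div_lt_div_of_pos_right _ h2
      linarith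
    have h4 := Real.artanh_lt_artanh (Real.neg_one_lt_tanh _) (Real.tanh_lt_one _) this
    rw [Real.artanh_tanh, Real.artanh_tanh] at h4
    linarith

end dg1_Sol

/-! ## Part C: from `DgOneD` to the ODE -/

section profile

variable {n : ℕ} {u : DgE n → ℝ} {a : DgE n} {h : ℝ → ℝ}

theorem dg1_inner_smul_self (ha : ‖a‖ = 1) (t : ℝ) : inner ℝ a (t • a) = t := by
  rw [inner_smul_right, real_inner_self_eq_norm_sq, ha]
  ring

/-- The profile is the restriction of `u` to the line `ℝ a`. -/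
theorem dg1_profile_eq (ha : ‖a‖ = 1) (hu : ∀ x, u x = h (inner ℝ a x)) (t : ℝ) :
    h t = u (t • a) := by
  rw [hu, dg1_inner_smul_self ha]

theorem dg1_profile_contDiff {k : WithTop ℕ∞} (ha : ‖a‖ = 1) (hu : ∀ x, u x = h (inner ℝ a x))
    (hs : ContDiff ℝ k u) : ContDiff ℝ k h := by
  have e : h = fun t : ℝ => u (t • a) := funext (dg1_profile_eq ha hu)
  rw [e]
  exact hs.comp (contDiff_id.smul contDiff_const)

theorem dg1_sum_sq (ha : ‖a‖ = 1) : ∑ i, a i ^ 2 = 1 := by
  have := EuclideanSpace.real_norm_sq_eq a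
  rw [ha] at this
  linarith

/-- The Laplacian of `x ↦ h ⟨a, x⟩`, `‖a‖ = 1`. -/
theorem dg1_laplacian_profile (ha : ‖a‖ = 1) (hh : ContDiff ℝ 2 h) (x : DgE n) :
    Laplacian.laplacian (fun x : DgE n => h (inner ℝ a x)) x = deriv (deriv h) (inner ℝ a x) := by
  have e : (fun x : DgE n => h (inner ℝ a x)) = h ∘ (innerSL ℝ a) := by
    ext y; simp
  rw [e, InnerProductSpace.laplacian_eq_iteratedFDeriv_orthonormalBasis _
    (EuclideanSpace.basisFun (Fin n) ℝ)]
  simp only
  have key : ∀ i : Fin n, iteratedFDeriv ℝ 2 (h ∘ (innerSL ℝ a)) x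
      ![EuclideanSpace.basisFun (Fin n) ℝ i, EuclideanSpace.basisFun (Fin n) ℝ i]
      = a i ^ 2 * deriv (deriv h) (inner ℝ a x) := by
    intro i
    rw [ContinuousLinearMap.iteratedFDeriv_comp_right (innerSL ℝ a) hh x (le_refl _)]
    rw [ContinuousMultilinearMap.compContinuousLinearMap_apply,
      iteratedFDeriv_apply_eq_iteratedDeriv_mul_prod]
    rw [iteratedDeriv_succ, iteratedDeriv_one]
    simp [Fin.prod_univ_two, innerSL_apply_apply, pow_two, EuclideanSpace.inner_single_right]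
  rw [Finset.sum_congr rfl (fun i _ => key i), ← Finset.sum_mul, dg1_sum_sq ha, one_mul]

/-- The derivative of `x ↦ h ⟨a, x⟩`. -/
theorem dg1_hasFDerivAt_profile (hh : Differentiable ℝ h) (x : DgE n) :
    HasFDerivAt (fun x : DgE n => h (inner ℝ a x)) (deriv h (inner ℝ a x) • innerSL ℝ a) x := by
  have h1 : HasFDerivAt (fun x : DgE n => inner ℝ a x) (innerSL ℝ a) x :=
    (innerSL ℝ a).hasFDerivAt
  exact (hh _).hasDerivAt.comp_hasFDerivAt x h1

theorem dg1_fderiv_profile (hu : ∀ x, u x = h (inner ℝ a x)) (hh : Differentiable ℝ h)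
    (x y : DgE n) : fderiv ℝ u x y = deriv h (inner ℝ a x) * inner ℝ a y := by
  have e : u = fun x : DgE n => h (inner ℝ a x) := funext hu
  rw [e, (dg1_hasFDerivAt_profile hh x).fderiv]
  simp [innerSL_apply_apply]

/-- **The profile of a one-dimensional solution solves the ODE.** -/
theorem dg1_sol_of_oneD (hs : DgSol n u) (ha : ‖a‖ = 1) (hu : ∀ x, u x = h (inner ℝ a x)) :
    dg1_Sol h (deriv h) := by
  have hh : ContDiff ℝ 2 h := dg1_profile_contDiff ha hu hs.smooth
  have hd : Differentiable ℝ h := hh.differentiable (by norm_num)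
  have hh' : ContDiff ℝ 1 (deriv h) := by
    have : ContDiff ℝ (1 + 1) h := by simpa [one_add_one_eq_two] using hh
    exact (contDiff_succ_iff_deriv.1 this).2.2
  have hd' : Differentiable ℝ (deriv h) := hh'.differentiable (by norm_num)
  refine ⟨fun t => (hd t).hasDerivAt, fun t => ?_, fun t => ?_⟩
  · have h1 := (hd' t).hasDerivAt
    have h2 := hs.pde (t • a)
    have e : u = fun x : DgE n => h (inner ℝ a x) := funext hu
    rw [e, dg1_laplacian_profile ha hh] at h2
    simp only [dg1_inner_smul_self ha] at h2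
    rw [h2] at h1
    exact h1
  · rw [dg1_profile_eq ha hu]
    exact hs.range _

theorem dg1_norm_fderiv_profile (ha : ‖a‖ = 1) (hu : ∀ x, u x = h (inner ℝ a x))
    (hh : Differentiable ℝ h) (x : DgE n) : ‖fderiv ℝ u x‖ = |deriv h (inner ℝ a x)| := by
  have e : u = fun x : DgE n => h (inner ℝ a x) := funext hu
  rw [e, (dg1_hasFDerivAt_profile hh x).fderiv, norm_smul, innerSL_apply_norm, ha, mul_one,
    Real.norm_eq_abs]

/-- Modica's `P`-function of a one-dimensional solution is the first integral of the profile. -/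
theorem dg1_P_profile (ha : ‖a‖ = 1) (hu : ∀ x, u x = h (inner ℝ a x))
    (hh : Differentiable ℝ h) (x : DgE n) :
    ‖fderiv ℝ u x‖ ^ 2 / 2 - dgW (u x)
      = deriv h (inner ℝ a x) ^ 2 / 2 - (1 - h (inner ℝ a x) ^ 2) ^ 2 / 4 := by
  rw [dg1_norm_fderiv_profile ha hu hh, sq_abs, dgW, hu x]

end profile

/-! ## EXITS -/

section exits

variable {n : ℕ} {u : DgE n → ℝ}

/-- `u` is invariant under the translations of `a^⊥`: then `u` is one-dimensional. -/
theorem dg1_oneD_of_invariant {a : DgE n} (ha : ‖a‖ = 1)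
    (hinv : ∀ x y : DgE n, inner ℝ a y = 0 → u (x + y) = u x) : DgOneD n u := by
  refine ⟨a, fun t => u (t • a), ha, fun x => ?_⟩
  have := hinv ((inner ℝ a x) • a) (x - (inner ℝ a x) • a)
    (by rw [inner_sub_right, dg1_inner_smul_self ha, sub_self])
  show u x = u ((inner ℝ a x) • a)
  rw [← this]
  congr 1
  abel

/-- The derivative of `u` kills `a^⊥` everywhere: then `u` is one-dimensional. -/
theorem dg1_oneD_of_fderiv {a : DgE n} (ha : ‖a‖ = 1) (hd : Differentiable ℝ u)
    (hz : ∀ x y : DgE n, inner ℝ a y = 0 → fderiv ℝ u x y = 0) : DgOneD n u := by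
  apply dg1_oneD_of_invariant ha
  intro x y hy
  have hF : ∀ t : ℝ, HasDerivAt (fun t : ℝ => u (x + t • y)) 0 t := by
    intro t
    have h1 : HasDerivAt (fun t : ℝ => x + t • y) y t := by
      simpa using ((hasDerivAt_id t).smul_const y).const_add x
    have := (hd (x + t • y)).hasFDerivAt.comp_hasDerivAt t h1
    rw [hz _ _ hy] at this
    exact this
  have := is_const_of_deriv_eq_zero (fun t => (hF t).differentiableAt) (fun t => (hF t).deriv) 1 0
  simpa using this

/-- The gradient of `u` is everywhere a multiple of a fixed vector `w ≠ 0`: then `u` is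
one-dimensional. -/
theorem dg1_oneD_of_parallel {w : DgE n} (hw : w ≠ 0) (hd : Differentiable ℝ u) (ρ : DgE n → ℝ)
    (hp : ∀ x y : DgE n, fderiv ℝ u x y = ρ x * inner ℝ w y) : DgOneD n u := by
  have hn : ‖w‖ ≠ 0 := norm_ne_zero_iff.2 hw
  apply dg1_oneD_of_fderiv (a := (‖w‖)⁻¹ • w) (by rw [norm_smul, norm_inv, norm_norm]; field_simp) hd
  intro x y hy
  rw [inner_smul_left] at hy
  have : inner ℝ w y = 0 := by
    rcases mul_eq_zero.1 hy with h0 | h0
    · exact absurd h0 (by simpa using hn)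
    · exact h0
  rw [hp, this, mul_zero]

/-- All partial derivatives are constant multiples of one of them (the usual end of the Liouville
argument `∂ᵢ u = cᵢ ∂ₖ u`): then `u` is one-dimensional. -/
theorem dg1_oneD_of_ratios (k : Fin n) (hd : Differentiable ℝ u) (c : Fin n → ℝ) (hck : c k = 1)
    (hr : ∀ (i : Fin n) (x : DgE n), fderiv ℝ u x (EuclideanSpace.single i 1)
      = c i * fderiv ℝ u x (EuclideanSpace.single k 1)) : DgOneD n u := by
  have hw : (WithLp.toLp 2 c : DgE n) ≠ 0 := by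
    intro h0
    have := congrArg (fun v : DgE n => v k) h0
    simp [hck] at this
  apply dg1_oneD_of_parallel hw hd (fun x => fderiv ℝ u x (EuclideanSpace.single k 1))
  intro x y
  have hy : y = ∑ i, y i • (EuclideanSpace.single i (1 : ℝ) : DgE n) := by
    have := (EuclideanSpace.basisFun (Fin n) ℝ).sum_repr y
    simpa using this.symm
  have e1 : fderiv ℝ u x y = ∑ i, y i * (c i * fderiv ℝ u x (EuclideanSpace.single k 1)) := by
    conv_lhs => rw [hy]
    rw [map_sum]
    refine Finset.sum_congr rfl fun i _ => ?_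
    rw [map_smul, hr, smul_eq_mul]
  rw [e1, PiLp.inner_apply, Finset.mul_sum]
  refine Finset.sum_congr rfl fun i _ => ?_
  simp
  ring

/-- **Exit (monotone case, any dimension, any direction `e_k`).** -/
theorem dg1_exit_mono (hs : DgSol n u) (h1 : DgOneD n u) (k : Fin n)
    (hmono : ∀ x, 0 < fderiv ℝ u x (EuclideanSpace.single k 1)) :
    ∃ e : DgE n, ‖e‖ = 1 ∧ 0 < e k ∧ ∃ c : ℝ,
      ∀ x, u x = Real.tanh ((inner ℝ e x - c) / Real.sqrt 2) := by
  obtain ⟨a, h, ha, hu⟩ := h1
  have hsol := dg1_sol_of_oneD hs ha hu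
  have hd : Differentiable ℝ h := fun t => (hsol.d1 t).differentiableAt
  have hpos : ∀ t, 0 < deriv h t * a k := by
    intro t
    have := hmono (t • a)
    rw [dg1_fderiv_profile hu hd, dg1_inner_smul_self ha, EuclideanSpace.inner_single_right] at this
    simpa using this
  rcases lt_trichotomy (a k) 0 with hk | hk | hk
  · have hneg : ∀ t, deriv h t < 0 := fun t => by
      by_contra hc
      push Not at hc
      have := hpos t
      nlinarith
    obtain ⟨c, hc⟩ := hsol.refl.mono (fun t => by linarith [hneg (-t)])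
    refine ⟨-a, by rw [norm_neg, ha], by simpa using hk, c, fun x => ?_⟩
    have := hc (-(inner ℝ a x))
    simp only [neg_neg] at this
    rw [hu x, this, inner_neg_left]
  · exfalso
    have := hpos 0
    rw [hk, mul_zero] at this
    exact lt_irrefl _ this
  · have hp : ∀ t, 0 < deriv h t := fun t => by
      by_contra hc
      push Not at hc
      have := hpos t
      nlinarith
    obtain ⟨c, hc⟩ := hsol.mono hp
    exact ⟨a, ha, hk, c, fun x => by rw [hu x, hc]⟩

/-- **Exit of S0587**: in the words of the frozen statement, from `DgOneD 8 u`. -/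
theorem dg1_exit_S0587 (u : EuclideanSpace ℝ (Fin 8) → ℝ) (hu : ContDiff ℝ 2 u)
    (hrange : ∀ x, u x ∈ Set.Ioo (-1 : ℝ) 1)
    (hpde : ∀ x, Laplacian.laplacian u x = u x ^ 3 - u x)
    (hmono : ∀ x, 0 < fderiv ℝ u x (EuclideanSpace.single 7 1)) (h1 : DgOneD 8 u) :
    ∃ e : EuclideanSpace ℝ (Fin 8), ‖e‖ = 1 ∧ 0 < e 7 ∧ ∃ c : ℝ,
      ∀ x, u x = Real.tanh ((inner ℝ e x - c) / Real.sqrt 2) :=
  dg1_exit_mono ⟨hu, fun x => Set.Ioo_subset_Icc_self (hrange x), hpde⟩ h1 7 hmono

/-- Modica's `P = |∇u|²/2 - W(u)` of a one-dimensional solution is a nonpositive constant. -/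
theorem dg1_P_const (hs : DgSol n u) (h1 : DgOneD n u) :
    ∃ E : ℝ, E ≤ 0 ∧ ∀ x, ‖fderiv ℝ u x‖ ^ 2 / 2 - dgW (u x) = E := by
  obtain ⟨a, h, ha, hu⟩ := h1
  have hsol := dg1_sol_of_oneD hs ha hu
  have hd : Differentiable ℝ h := fun t => (hsol.d1 t).differentiableAt
  obtain ⟨E, hE⟩ := hsol.first_integral
  exact ⟨E, hsol.energy_nonpos hE, fun x => by rw [dg1_P_profile ha hu hd, hE]⟩

/-- If `P = E < 0` then `1 - u² ≥ 2 √(-E)` everywhere. -/
theorem dg1_gap (hs : DgSol n u) {E : ℝ} (hneg : E < 0)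
    (hE : ∀ x, ‖fderiv ℝ u x‖ ^ 2 / 2 - dgW (u x) = E) (x : DgE n) :
    2 * √(-E) ≤ 1 - u x ^ 2 := by
  have hs' : √(-E) * √(-E) = -E := Real.mul_self_sqrt (by linarith)
  have h0 : 0 ≤ 1 - u x ^ 2 := by
    have := hs.range x
    nlinarith [this.1, this.2]
  have h1 : (2 * √(-E)) ^ 2 ≤ (1 - u x ^ 2) ^ 2 := by
    have := hE x
    rw [dgW] at this
    nlinarith [sq_nonneg (‖fderiv ℝ u x‖)]
  exact (pow_le_pow_iff_left₀ (by positivity) h0 (by norm_num)).1 h1

/-- **Exit (equipartition at one point)**: a one-dimensional solution with `P ≥ 0` at one point is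
rigid. -/
theorem dg1_rigid_of_P_nonneg (hs : DgSol n u) (h1 : DgOneD n u) (x₀ : DgE n)
    (hP : 0 ≤ ‖fderiv ℝ u x₀‖ ^ 2 / 2 - dgW (u x₀)) : DgRigid n u := by
  obtain ⟨a, h, ha, hu⟩ := h1
  have hsol := dg1_sol_of_oneD hs ha hu
  have hd : Differentiable ℝ h := fun t => (hsol.d1 t).differentiableAt
  obtain ⟨E, hE⟩ := hsol.first_integral
  have hE0 : E = 0 := by
    apply le_antisymm (hsol.energy_nonpos hE)
    rw [dg1_P_profile ha hu hd, hE] at hP
    exact hP
  subst hE0
  rcases hsol.classify_zero hE with h1 | h1 | ⟨c, h1⟩ | ⟨c, h1⟩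
  · exact Or.inl fun x => by rw [hu, h1]
  · exact Or.inr (Or.inl fun x => by rw [hu, h1])
  · exact Or.inr (Or.inr ⟨a, ha, c, fun x => by rw [hu, h1]⟩)
  · exact Or.inr (Or.inr ⟨-a, by rw [norm_neg, ha], c, fun x => by rw [hu, h1, inner_neg_left]⟩)

theorem dg1_hasDerivAt_tanh (t : ℝ) : HasDerivAt Real.tanh (1 - Real.tanh t ^ 2) t := by
  have hc : Real.cosh t ≠ 0 := (Real.cosh_pos t).ne'
  have e : Real.tanh = fun t => Real.sinh t / Real.cosh t := funext Real.tanh_eq_sinh_div_cosh
  have h1 := (Real.hasDerivAt_sinh t).div (Real.hasDerivAt_cosh t) hc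
  rw [e]
  refine h1.congr_deriv ?_
  field_simp

/-- The derivative of the profile `t ↦ tanh ((t - b) / √2)`. -/
theorem dg1_hasDerivAt_layer (b t : ℝ) :
    HasDerivAt (fun t : ℝ => Real.tanh ((t - b) / √2)) ((1 - Real.tanh ((t - b) / √2) ^ 2) / √2) t := by
  have h1 : HasDerivAt (fun t : ℝ => (t - b) / √2) (1 / √2) t :=
    ((hasDerivAt_id t).sub_const b).div_const _
  exact ((dg1_hasDerivAt_tanh _).comp t h1).congr_deriv (by ring)

/-- **K8 of the Hub** (any dimension, any direction): orientation of a monotone planar transition. -/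
theorem dg1_K8 (hu : DgPlanar n u) (k : Fin n)
    (hmono : ∀ x, 0 < fderiv ℝ u x (EuclideanSpace.single k 1)) :
    ∃ e : DgE n, ‖e‖ = 1 ∧ 0 < e k ∧ ∃ c : ℝ,
      ∀ x, u x = Real.tanh ((inner ℝ e x - c) / Real.sqrt 2) := by
  obtain ⟨a, ha, b, hb⟩ := hu
  refine ⟨a, ha, ?_, b, hb⟩
  have hd : Differentiable ℝ (fun t : ℝ => Real.tanh ((t - b) / √2)) := fun t =>
    (dg1_hasDerivAt_layer b t).differentiableAt
  have h0 := hmono 0
  rw [dg1_fderiv_profile (h := fun t : ℝ => Real.tanh ((t - b) / √2)) hb hd,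
    (dg1_hasDerivAt_layer b _).deriv, EuclideanSpace.inner_single_right] at h0
  have hpos : 0 < (1 - Real.tanh ((inner ℝ a (0 : DgE n) - b) / √2) ^ 2) / √2 := by
    apply div_pos _ (by positivity)
    have h1 := Real.tanh_lt_one ((inner ℝ a (0 : DgE n) - b) / √2)
    have h2 := Real.neg_one_lt_tanh ((inner ℝ a (0 : DgE n) - b) / √2)
    nlinarith
  have := (pos_iff_pos_of_mul_pos h0).1 hpos
  simpa using this

end exits

end Claimed.Agent.R329
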