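/-
Row 329 (S0587, S0588), post B7.E (helper8; prefix `dgSE_`): THE END OF K7 BY SLIDING.

`dgSE_oneD`: a solution `u : ℝⁿ → [-1,1]` of `Δ u = u³ - u` whose transition region is flat IN A FIXED DIRECTION `e` AT ALL LARGE SCALES
(`DgFlat n u e`) is a function of `⟨e, x⟩` alone.  No minimality, no energy, any dimension.

PROOF (sliding method).  Fix `ν` with `⟨ν, e⟩ > 0`, put `w_t = u(· + t ν) - u`.
(1) `t` large: `w_t ≥ 0` (where `w_t < 0` both values lie in the same well, and there the maximum principle holds: `dgSE_order`).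
(2) `t* = inf` of the good `t`; if `t* > 0`, then `inf w_{t*} > 0` on the transition regions (else a limit of translates is `t* ν`-periodic by the strong
    maximum principle, which contradicts flatness), and the Lipschitz bound gives `w_t ≥ 0` for `t` slightly below `t*`.
(3) So `∂_ν u ≥ 0` whenever `⟨ν, e⟩ > 0`, hence `∂_τ u = 0` for `τ ⊥ e`.
-/
import Claimed.Agent.R329.Reg
import Claimed.Agent.R329.LapApi
import Claimed.Agent.R329.Smp
import Claimed.Agent.R329.Cpt

set_option autoImplicit false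

namespace Claimed.Agent.R329

open MeasureTheory Metric Filter Set Claimed.Agent.Lib.Ell
open scoped ContDiff RealInnerProductSpace Gradient Topology

variable {n : ℕ}

/-- the contract of A3 in the form of A4. -/
theorem dgSE_reg (n : ℕ) : DgA4Reg n := by
  intro m
  obtain ⟨C, hC⟩ := dgA3_reg n m
  exact ⟨C, fun v hv => ⟨(hC v hv.smooth hv.range hv.pde).1, fun x => (hC v hv.smooth hv.range hv.pde).2 m le_rfl x⟩⟩

/-- the Laplacian of `‖x - x₁‖²`. -/
theorem dgSE_lap_normSq (x₁ x : DgE n) : Laplacian.laplacian (fun y : DgE n => ‖y - x₁‖ ^ 2) x = 2 * n := by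
  rw [dgL_lap_eq_sum (EuclideanSpace.basisFun (Fin n) ℝ)]
  have h1 : fderiv ℝ (fun y : DgE n => ‖y - x₁‖ ^ 2) = fun y => (2 : ℝ) • innerSL ℝ (y - x₁) := by
    funext y
    have := ((hasStrictFDerivAt_norm_sq (y - x₁)).hasFDerivAt).comp y ((hasFDerivAt_id y).sub_const x₁)
    have h := this.fderiv
    simp only [Function.comp_def, id] at h
    rw [h]
    ext z
    simp
  rw [h1]
  have h2 : fderiv ℝ (fun y : DgE n => (2 : ℝ) • innerSL ℝ (y - x₁)) x = (2 : ℝ) • innerSL ℝ := by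
    have : HasFDerivAt (fun y : DgE n => (2 : ℝ) • innerSL ℝ (y - x₁)) ((2 : ℝ) • (innerSL ℝ : DgE n →L[ℝ] DgE n →L[ℝ] ℝ)) x := by
      have h0 : HasFDerivAt (fun y : DgE n => (innerSL ℝ : DgE n →L[ℝ] DgE n →L[ℝ] ℝ) (y - x₁)) (innerSL ℝ) x := by
        have := ((innerSL ℝ : DgE n →L[ℝ] DgE n →L[ℝ] ℝ).hasFDerivAt (x := x - x₁)).comp x ((hasFDerivAt_id x).sub_const x₁)
        simpa [Function.comp_def] using this
      exact h0.const_smul (2 : ℝ)
    exact this.fderiv
  rw [h2]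
  have h3 : ∀ i : Fin n, ((2 : ℝ) • (innerSL ℝ : DgE n →L[ℝ] DgE n →L[ℝ] ℝ)) (EuclideanSpace.basisFun (Fin n) ℝ i)
      (EuclideanSpace.basisFun (Fin n) ℝ i) = 2 := by
    intro i
    have : ⟪EuclideanSpace.basisFun (Fin n) ℝ i, EuclideanSpace.basisFun (Fin n) ℝ i⟫ = (1 : ℝ) := by
      rw [real_inner_self_eq_norm_sq, (EuclideanSpace.basisFun (Fin n) ℝ).orthonormal.1 i]; norm_num
    show (2 : ℝ) * ⟪EuclideanSpace.basisFun (Fin n) ℝ i, EuclideanSpace.basisFun (Fin n) ℝ i⟫ = 2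
    rw [this, mul_one]
  rw [Finset.sum_congr rfl fun i _ => h3 i]
  simp [mul_comm]

/-- at a global maximum of a `C²` function the Laplacian is `≤ 0`. -/
theorem dgSE_lap_nonpos {P : DgE n → ℝ} {x : DgE n} (hP : ContDiffAt ℝ 2 P x) (hmax : ∀ y, P y ≤ P x) :
    Laplacian.laplacian P x ≤ 0 := by
  rw [dgL_lap_eq_ellLap, ellLap, ellTr]
  refine Finset.sum_nonpos fun i _ => ?_
  exact ell_d2_nonpos_of_isLocalMax hP (Filter.Eventually.of_forall hmax) _

/-- the cubic in one well. -/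
theorem dgSE_cubic {a b : ℝ} (hab : b ≤ a) (h : (3 / 4 ≤ a ∧ 3 / 4 ≤ b) ∨ (a ≤ -(3 / 4) ∧ b ≤ -(3 / 4))) :
    11 / 16 * (a - b) ≤ (a ^ 3 - a) - (b ^ 3 - b) := by
  have e : (a ^ 3 - a) - (b ^ 3 - b) = (a - b) * (a ^ 2 + a * b + b ^ 2 - 1) := by ring
  rw [e, mul_comm]
  refine mul_le_mul_of_nonneg_left ?_ (sub_nonneg.2 hab)
  rcases h with ⟨h1, h2⟩ | ⟨h1, h2⟩ <;> nlinarith

/-- **the maximum principle in the wells**: two entire solutions are ordered as soon as, wherever the order fails, both values lie in the same well. -/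
theorem dgSE_order {u₁ u₂ : DgE n → ℝ} (h₁ : DgSol n u₁) (h₂ : DgSol n u₂)
    (hw : ∀ x, u₂ x < u₁ x → (3 / 4 ≤ u₁ x ∧ 3 / 4 ≤ u₂ x) ∨ (u₁ x ≤ -(3 / 4) ∧ u₂ x ≤ -(3 / 4))) :
    ∀ x, u₁ x ≤ u₂ x := by
  by_contra hcon
  push Not at hcon
  obtain ⟨x₁, hx₁⟩ := hcon
  set δ : ℝ := u₁ x₁ - u₂ x₁ with hδ
  have hδ0 : 0 < δ := sub_pos.2 hx₁
  set η : ℝ := δ / (4 * (n + 1)) with hη
  have hn : (0 : ℝ) < 4 * ((n : ℝ) + 1) := by positivity
  have hη0 : 0 < η := div_pos hδ0 hn
  set ψ : DgE n → ℝ := fun y => u₂ y - u₁ y + η * ‖y - x₁‖ ^ 2 with hψ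
  have hψc : Continuous ψ := by
    have c1 := h₁.smooth.continuous
    have c2 := h₂.smooth.continuous
    fun_prop
  have hlim : Tendsto ψ (cocompact (DgE n)) atTop := by
    have t1 : Tendsto (fun y : DgE n => ‖y - x₁‖) (cocompact (DgE n)) atTop :=
      tendsto_norm_cocompact_atTop.comp (Homeomorph.subRight x₁).isClosedEmbedding.tendsto_cocompact
    have t2 : Tendsto (fun y : DgE n => -2 + η * ‖y - x₁‖ ^ 2) (cocompact (DgE n)) atTop :=
      tendsto_atTop_add_const_left _ _ (((tendsto_pow_atTop (two_ne_zero)).comp t1).const_mul_atTop hη0)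
    refine tendsto_atTop_mono (fun y => ?_) t2
    have a1 := (h₁.range y).2
    have a2 := (h₂.range y).1
    simp only [hψ]
    linarith
  obtain ⟨x', hx'⟩ := hψc.exists_forall_le hlim
  have hle : ψ x' ≤ -δ := by
    have := hx' x₁
    simp only [hψ, sub_self, norm_zero] at this ⊢
    rw [hδ]
    nlinarith
  have hab : δ ≤ u₁ x' - u₂ x' := by
    simp only [hψ] at hle
    have : 0 ≤ η * ‖x' - x₁‖ ^ 2 := by positivity
    linarith
  set P : DgE n → ℝ := fun y => (u₁ y - u₂ y) - η * ‖y - x₁‖ ^ 2 with hP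
  have c1 : ContDiffAt ℝ 2 u₁ x' := h₁.smooth.contDiffAt
  have c2 : ContDiffAt ℝ 2 u₂ x' := h₂.smooth.contDiffAt
  have c3 : ContDiffAt ℝ 2 (fun y : DgE n => ‖y - x₁‖ ^ 2) x' :=
    ((contDiff_id.sub contDiff_const).norm_sq ℝ).contDiffAt
  have c4 : ContDiffAt ℝ 2 (fun y : DgE n => η * ‖y - x₁‖ ^ 2) x' := contDiffAt_const.mul c3
  have hPl : Laplacian.laplacian P x' ≤ 0 := by
    refine dgSE_lap_nonpos ((c1.sub c2).sub c4) fun y => ?_
    have := hx' y
    simp only [hψ, hP] at this ⊢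
    linarith
  have hPe : Laplacian.laplacian P x' = (u₁ x' ^ 3 - u₁ x') - (u₂ x' ^ 3 - u₂ x') - η * (2 * n) := by
    rw [hP, dgL_lap_sub (c1.sub c2) c4, dgL_lap_sub c1 c2, dgL_lap_const_mul η c3, dgSE_lap_normSq, h₁.pde, h₂.pde]
  have hlt : u₂ x' < u₁ x' := by linarith
  have hc := dgSE_cubic hlt.le (hw x' hlt)
  have hη2 : η * (2 * n) ≤ δ / 2 := by
    rw [hη, div_mul_eq_mul_div, div_le_div_iff₀ hn two_pos]
    nlinarith
  rw [hPe] at hPl
  nlinarith

/-- **Fixed-direction flatness at all large scales**: above (below) every cone of small opening around the hyperplane `e^⊥` through a point of the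
transition region, shifted by `K`, the solution is in the phase `+` (`-`). -/
def DgFlat (n : ℕ) (u : DgE n → ℝ) (e : DgE n) : Prop :=
  ∀ ε : ℝ, 0 < ε → ∃ K : ℝ, ∀ x₀ x : DgE n, |u x₀| ≤ 7 / 8 →
    (ε * ‖x - x₀‖ + K ≤ ⟪x - x₀, e⟫ → 3 / 4 ≤ u x) ∧ (⟪x - x₀, e⟫ ≤ -(ε * ‖x - x₀‖ + K) → u x ≤ -(3 / 4))

/-- what the sliding argument uses: far along `ν` from the transition region the phase is `+`, far along `-ν` it is `-`. -/
def DgUpDown (n : ℕ) (u : DgE n → ℝ) (ν : DgE n) (T₀ : ℝ) : Prop :=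
  ∀ x₀ : DgE n, |u x₀| ≤ 7 / 8 → ∀ t : ℝ, T₀ ≤ t → 3 / 4 ≤ u (x₀ + t • ν) ∧ u (x₀ - t • ν) ≤ -(3 / 4)

theorem DgFlat.dgSE_upDown {u : DgE n → ℝ} {e : DgE n} (hF : DgFlat n u e) {ν : DgE n} (hν : 0 < ⟪ν, e⟫) :
    ∃ T₀ : ℝ, 0 ≤ T₀ ∧ DgUpDown n u ν T₀ := by
  set c : ℝ := ⟪ν, e⟫ with hc
  have hν0 : ν ≠ 0 := by
    rintro rfl
    simp [hc] at hν
  have hN : 0 < ‖ν‖ := norm_pos_iff.2 hν0
  obtain ⟨K, hK⟩ := hF (c / (2 * ‖ν‖)) (by positivity)
  refine ⟨max (2 * K / c) 0, le_max_right _ _, fun x₀ hx₀ t ht => ?_⟩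
  have ht0 : 0 ≤ t := (le_max_right _ _).trans ht
  have htK : K ≤ c * t / 2 := by
    have := (le_max_left _ _).trans ht
    rw [div_le_iff₀ hν] at this
    linarith
  have e1 : c / (2 * ‖ν‖) * ‖t • ν‖ = c * t / 2 := by
    rw [norm_smul, Real.norm_eq_abs, abs_of_nonneg ht0]
    field_simp
  constructor
  · refine (hK x₀ (x₀ + t • ν) hx₀).1 ?_
    rw [add_sub_cancel_left, e1, real_inner_smul_left, ← hc]
    linarith
  · refine (hK x₀ (x₀ - t • ν) hx₀).2 ?_
    have e2 : x₀ - t • ν - x₀ = -(t • ν) := by abel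
    rw [e2, norm_neg, e1, inner_neg_left, real_inner_smul_left, ← hc]
    linarith

/-- translates. -/
theorem dgSE_translate {u : DgE n → ℝ} (hu : DgSol n u) (a : DgE n) : DgSol n (fun x => u (x + a)) :=
  dgA4_exit_translate_sol hu a

/-- Step 1: far translates are ordered. -/
theorem dgSE_step1 {u : DgE n → ℝ} (hu : DgSol n u) {ν : DgE n} {T₀ : ℝ} (hUD : DgUpDown n u ν T₀) {t : ℝ}
    (ht : 2 * T₀ ≤ t) (hT₀ : 0 ≤ T₀) : ∀ x, u x ≤ u (x + t • ν) := by
  refine dgSE_order hu (dgSE_translate hu (t • ν)) fun x hx => ?_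
  have htT : T₀ ≤ t := by linarith
  by_cases ha : |u x| ≤ 7 / 8
  · have := (hUD x ha t htT).1
    exact Or.inl ⟨by linarith, this⟩
  by_cases hb : |u (x + t • ν)| ≤ 7 / 8
  · have := (hUD (x + t • ν) hb t htT).2
    rw [add_sub_cancel_right] at this
    exact Or.inr ⟨this, by linarith⟩
  push Not at ha hb
  rcases lt_abs.1 ha with ha | ha
  · rcases lt_abs.1 hb with hb | hb
    · exact Or.inl ⟨by linarith, by linarith⟩
    · -- the impossible combination
      exfalso
      have hcont : ContinuousOn (fun s : ℝ => u (x + s • ν)) (Icc 0 t) := by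
        have := hu.smooth.continuous
        fun_prop
      have ht0 : 0 ≤ t := by linarith
      have hmem : (0 : ℝ) ∈ Icc (u (x + t • ν)) (u (x + (0 : ℝ) • ν)) := by
        constructor
        · linarith
        · simp only [zero_smul, add_zero]; linarith
      obtain ⟨s, hs, hs0⟩ := intermediate_value_Icc' ht0 hcont hmem
      have hs0' : |u (x + s • ν)| ≤ 7 / 8 := by
        simp only at hs0
        rw [hs0]; norm_num
      rcases le_total T₀ s with h | h
      · have := (hUD _ hs0' s h).2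
        rw [add_sub_cancel_right] at this
        linarith
      · have h2 : T₀ ≤ t - s := by linarith
        have := (hUD _ hs0' (t - s) h2).1
        have e : x + s • ν + (t - s) • ν = x + t • ν := by
          rw [add_assoc, ← add_smul]; congr 2; ring
        rw [e] at this
        linarith
  · rcases lt_abs.1 hb with hb | hb
    · exfalso; linarith
    · exact Or.inr ⟨by linarith, by linarith⟩

/-- Step 2: at a positive ordered parameter the gap is positive on the two transition regions. -/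
theorem dgSE_step2 {u : DgE n → ℝ} (hu : DgSol n u) {ν : DgE n} {T₀ : ℝ} (hUD : DgUpDown n u ν T₀) {t : ℝ} (ht : 0 < t)
    (hgood : ∀ x, u x ≤ u (x + t • ν)) :
    ∃ δ : ℝ, 0 < δ ∧ ∀ x, (|u x| ≤ 7 / 8 ∨ |u (x + t • ν)| ≤ 7 / 8) → δ ≤ u (x + t • ν) - u x := by
  by_contra hcon
  push Not at hcon
  have hk : ∀ k : ℕ, ∃ x, (|u x| ≤ 7 / 8 ∨ |u (x + t • ν)| ≤ 7 / 8) ∧ u (x + t • ν) - u x < 1 / ((k : ℝ) + 1) :=
    fun k => hcon _ (by positivity)
  choose y hyB hy using hk
  obtain ⟨φ, w, hφ, hw, -, hconv, -⟩ := dgA4_exit_translates (dgSE_reg n) hu y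
  have hpt : ∀ x, Tendsto (fun k => u (x + y (φ k))) atTop (𝓝 (w x)) := fun x => hconv.tendsto x
  -- the limit is ordered
  have hwle : ∀ x, w x ≤ w (x + t • ν) := by
    intro x
    refine le_of_tendsto_of_tendsto' (hpt x) (hpt (x + t • ν)) fun k => ?_
    have := hgood (x + y (φ k))
    have e : x + y (φ k) + t • ν = x + t • ν + y (φ k) := by abel
    rwa [e] at this
  -- and touches at the origin
  have hw0 : w 0 = w (0 + t • ν) := by
    refine le_antisymm (hwle 0) ?_
    have h1 : Tendsto (fun k => u (0 + t • ν + y (φ k)) - u (0 + y (φ k))) atTop (𝓝 (w (0 + t • ν) - w 0)) :=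
      (hpt _).sub (hpt 0)
    have h2 : Tendsto (fun k : ℕ => 1 / (((φ k : ℕ) : ℝ) + 1)) atTop (𝓝 0) :=
      tendsto_one_div_add_atTop_nhds_zero_nat.comp hφ.tendsto_atTop
    have := le_of_tendsto_of_tendsto' h1 h2 fun k => by
      have := (hy (φ k)).le
      have e : 0 + t • ν + y (φ k) = y (φ k) + t • ν := by abel
      rw [e, zero_add]
      exact this
    linarith
  have hper : ∀ x, w x = w (x + t • ν) := by
    rcases hw.dgA2_lt_or_eq (dgSE_translate hw (t • ν)) hwle with h | h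
    · exact h
    · exact absurd hw0 (h 0).ne
  have hperN : ∀ k : ℕ, w (0 + (k : ℝ) • (t • ν)) = w 0 ∧ w (0 - (k : ℝ) • (t • ν)) = w 0 := by
    intro k
    induction k with
    | zero => simp
    | succ k ih =>
      constructor
      · have := hper (0 + (k : ℝ) • (t • ν))
        rw [ih.1] at this
        rw [this]
        congr 1
        push_cast
        rw [add_smul, one_smul]; abel
      · have := hper (0 - ((k + 1 : ℕ) : ℝ) • (t • ν))
        rw [this, ← ih.2]
        congr 1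
        push_cast
        rw [add_smul, one_smul]; abel
  -- far along `ν` the translates are in the phases
  obtain ⟨k, hk⟩ := exists_nat_ge ((T₀ + t) / t)
  have hkt : T₀ + t ≤ k * t := by rwa [div_le_iff₀ ht] at hk
  have hfar : ∀ j, 3 / 4 ≤ u (0 + (k : ℝ) • (t • ν) + y j) ∧ u (0 - (k : ℝ) • (t • ν) + y j) ≤ -(3 / 4) := by
    intro j
    rcases hyB j with h | h
    · have := hUD (y j) h (k * t) (by linarith)
      constructor
      · have e : 0 + (k : ℝ) • (t • ν) + y j = y j + (k * t) • ν := by rw [smul_smul]; abel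
        rw [e]; exact this.1
      · have e : 0 - (k : ℝ) • (t • ν) + y j = y j - (k * t) • ν := by rw [smul_smul]; abel
        rw [e]; exact this.2
    · constructor
      · have := (hUD _ h (k * t - t) (by linarith)).1
        have e : 0 + (k : ℝ) • (t • ν) + y j = y j + t • ν + (k * t - t) • ν := by
          rw [smul_smul, sub_smul]; abel
        rw [e]; exact this
      · have := (hUD _ h (k * t + t) (by linarith)).2
        have e : 0 - (k : ℝ) • (t • ν) + y j = y j + t • ν - (k * t + t) • ν := by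
          rw [smul_smul, add_smul]; abel
        rw [e]; exact this
  have h1 : 3 / 4 ≤ w (0 + (k : ℝ) • (t • ν)) := ge_of_tendsto' (hpt _) fun j => (hfar _).1
  have h2 : w (0 - (k : ℝ) • (t • ν)) ≤ -(3 / 4) := le_of_tendsto' (hpt _) fun j => (hfar _).2
  rw [(hperN k).1] at h1
  rw [(hperN k).2] at h2
  linarith

/-- Step 3: an ordered positive parameter can be decreased. -/
theorem dgSE_step3 {u : DgE n → ℝ} (hu : DgSol n u) {ν : DgE n} {T₀ : ℝ} (hUD : DgUpDown n u ν T₀) {t : ℝ} (ht : 0 < t)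
    (hgood : ∀ x, u x ≤ u (x + t • ν)) :
    ∃ τ : ℝ, 0 < τ ∧ τ < t ∧ ∀ s : ℝ, t - τ ≤ s → s ≤ t → ∀ x, u x ≤ u (x + s • ν) := by
  obtain ⟨δ, hδ, hgap⟩ := dgSE_step2 hu hUD ht hgood
  obtain ⟨C, hC0, hC⟩ := dgA3_lip (DgE n)
  have hlip := (hC u hu.smooth hu.range hu.pde).1
  set N : ℝ := ‖ν‖ + 1 with hN
  have hN0 : 0 < N := by positivity
  set τ : ℝ := min (t / 2) (min (δ / (2 * (C * N))) (1 / (8 * (C * N)))) with hτ
  have hτ0 : 0 < τ := by
    refine lt_min (by positivity) (lt_min (by positivity) (by positivity))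
  have hτ1 : τ ≤ t / 2 := min_le_left _ _
  have hτ2 : C * N * τ ≤ δ / 2 := by
    have : τ ≤ δ / (2 * (C * N)) := (min_le_right _ _).trans (min_le_left _ _)
    rw [le_div_iff₀ (by positivity)] at this
    linarith
  have hτ3 : C * N * τ ≤ 1 / 8 := by
    have : τ ≤ 1 / (8 * (C * N)) := (min_le_right _ _).trans (min_le_right _ _)
    rw [le_div_iff₀ (by positivity)] at this
    linarith
  refine ⟨τ, hτ0, by linarith, fun s hs1 hs2 => ?_⟩
  have hclose : ∀ x, |u (x + s • ν) - u (x + t • ν)| ≤ C * N * τ := by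
    intro x
    have h1 := hlip (x + s • ν) (x + t • ν)
    rw [Real.norm_eq_abs] at h1
    refine h1.trans ?_
    have e : x + s • ν - (x + t • ν) = (s - t) • ν := by rw [sub_smul]; abel
    rw [e, norm_smul, Real.norm_eq_abs, mul_assoc]
    refine mul_le_mul_of_nonneg_left ?_ hC0.le
    have h2 : |s - t| ≤ τ := by rw [abs_le]; constructor <;> linarith
    have h3 : ‖ν‖ ≤ N := by rw [hN]; linarith
    calc |s - t| * ‖ν‖ ≤ τ * N := mul_le_mul h2 h3 (norm_nonneg _) hτ0.le
      _ = N * τ := mul_comm _ _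
  refine dgSE_order hu (dgSE_translate hu (s • ν)) fun x hx => ?_
  have hc := abs_le.1 (hclose x)
  have hg := hgood x
  by_cases hB : |u x| ≤ 7 / 8 ∨ |u (x + t • ν)| ≤ 7 / 8
  · exfalso
    have := hgap x hB
    linarith [hc.1]
  · push Not at hB
    obtain ⟨ha, hb⟩ := hB
    rcases lt_abs.1 ha with ha | ha
    · exact Or.inl ⟨by linarith, by linarith [hc.1]⟩
    · exact Or.inr ⟨by linarith, by linarith⟩

/-- **the sliding theorem**: all translates along `ν` are ordered. -/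
theorem dgSE_slide {u : DgE n → ℝ} (hu : DgSol n u) {ν : DgE n} {T₀ : ℝ} (hT₀ : 0 ≤ T₀) (hUD : DgUpDown n u ν T₀) :
    ∀ s : ℝ, 0 < s → ∀ x, u x ≤ u (x + s • ν) := by
  set S : Set ℝ := {t | 0 ≤ t ∧ ∀ s, t ≤ s → ∀ x, u x ≤ u (x + s • ν)} with hS
  have hSne : S.Nonempty := ⟨2 * T₀, by positivity, fun s hs => dgSE_step1 hu hUD hs hT₀⟩
  have hSbd : BddBelow S := ⟨0, fun t ht => ht.1⟩
  set t₀ : ℝ := sInf S with ht₀
  have ht₀0 : 0 ≤ t₀ := le_csInf hSne fun t ht => ht.1
  have habove : ∀ s, t₀ < s → ∀ x, u x ≤ u (x + s • ν) := by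
    intro s hs
    obtain ⟨t, htS, hts⟩ := exists_lt_of_csInf_lt hSne hs
    exact htS.2 s hts.le
  rcases ht₀0.eq_or_lt with h0 | hpos
  · intro s hs
    exact habove s (by rw [← h0]; exact hs)
  · exfalso
    have hgood : ∀ x, u x ≤ u (x + t₀ • ν) := by
      intro x
      have hcont : Continuous fun s : ℝ => u (x + s • ν) := by
        have := hu.smooth.continuous
        fun_prop
      have hT : Tendsto (fun s : ℝ => u (x + s • ν)) (𝓝[>] t₀) (𝓝 (u (x + t₀ • ν))) :=
        (hcont.tendsto t₀).mono_left nhdsWithin_le_nhds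
      refine ge_of_tendsto hT ?_
      filter_upwards [self_mem_nhdsWithin] with s hs
      exact habove s hs x
    obtain ⟨τ, hτ0, hτt, hτ⟩ := dgSE_step3 hu hUD hpos hgood
    have hmem : t₀ - τ ∈ S := by
      refine ⟨by linarith, fun s hs x => ?_⟩
      rcases le_or_gt s t₀ with h | h
      · exact hτ s hs h x
      · exact habove s h x
    have := csInf_le hSbd hmem
    linarith

/-- the directional derivative along `ν` is nonnegative. -/
theorem dgSE_deriv_nonneg {u : DgE n → ℝ} (hu : DgSol n u) {ν : DgE n}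
    (h : ∀ s : ℝ, 0 < s → ∀ x, u x ≤ u (x + s • ν)) (x : DgE n) : 0 ≤ fderiv ℝ u x ν := by
  have hd : HasFDerivAt u (fderiv ℝ u x) x := (hu.smooth.differentiable (by norm_num) x).hasFDerivAt
  have hl : HasDerivAt (fun s : ℝ => u (x + s • ν)) (fderiv ℝ u x ν) 0 := by
    have := hd.hasLineDerivAt ν
    exact this
  have ht := hl.tendsto_slope_zero_right
  refine ge_of_tendsto ht ?_
  filter_upwards [self_mem_nhdsWithin] with s hs
  have hs0 : (0 : ℝ) < s := hs
  have := h s hs0 x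
  simp only [zero_add, zero_smul, add_zero, smul_eq_mul]
  exact mul_nonneg (inv_nonneg.2 hs0.le) (sub_nonneg.2 this)

/-- **K7-end.**  Fixed-direction flatness at all large scales forces one-dimensional symmetry. -/
theorem dgSE_oneD {u : DgE n → ℝ} (hu : DgSol n u) {e : DgE n} (he : ‖e‖ = 1) (hF : DgFlat n u e) :
    (∀ x, u x = u (⟪e, x⟫ • e)) ∧ (∀ x, 0 ≤ fderiv ℝ u x e) := by
  have hpos : ∀ ν : DgE n, 0 < ⟪ν, e⟫ → ∀ x, 0 ≤ fderiv ℝ u x ν := by
    intro ν hν x
    obtain ⟨T₀, hT₀, hUD⟩ := hF.dgSE_upDown hν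
    exact dgSE_deriv_nonneg hu (dgSE_slide hu hT₀ hUD) x
  have hee : ⟪e, e⟫ = (1 : ℝ) := by rw [real_inner_self_eq_norm_sq, he]; norm_num
  have hE : ∀ x, 0 ≤ fderiv ℝ u x e := hpos e (by rw [hee]; norm_num)
  have hperp0 : ∀ τ : DgE n, ⟪τ, e⟫ = 0 → ∀ x, 0 ≤ fderiv ℝ u x τ := by
    intro τ hτ x
    by_contra hneg
    push Not at hneg
    set A := fderiv ℝ u x τ with hA
    set B := fderiv ℝ u x e with hB
    have hB0 : 0 ≤ B := hE x
    set s : ℝ := -A / (2 * (B + 1)) with hs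
    have hs0 : 0 < s := div_pos (by linarith) (by positivity)
    have := hpos (τ + s • e) (by rw [inner_add_left, hτ, real_inner_smul_left, hee]; simpa using hs0) x
    rw [map_add, map_smul, smul_eq_mul, ← hA, ← hB] at this
    have h2 : s * B ≤ -A / 2 := by
      rw [hs, div_mul_eq_mul_div, div_le_div_iff₀ (by positivity) two_pos]
      nlinarith
    linarith
  have hperp : ∀ τ : DgE n, ⟪τ, e⟫ = 0 → ∀ x, fderiv ℝ u x τ = 0 := by
    intro τ hτ x
    have h1 := hperp0 τ hτ x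
    have h2 := hperp0 (-τ) (by rw [inner_neg_left, hτ, neg_zero]) x
    rw [map_neg] at h2
    linarith
  refine ⟨fun x => ?_, hE⟩
  set p : DgE n := ⟪e, x⟫ • e with hp
  set τ : DgE n := x - p with hτ
  have hτe : ⟪τ, e⟫ = 0 := by
    rw [hτ, hp, inner_sub_left, real_inner_smul_left, hee, mul_one, real_inner_comm]
    ring
  have hder : ∀ s : ℝ, HasDerivAt (fun s : ℝ => u (p + s • τ)) 0 s := by
    intro s
    have hd : HasFDerivAt u (fderiv ℝ u (p + s • τ)) (p + s • τ) :=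
      (hu.smooth.differentiable (by norm_num) _).hasFDerivAt
    have hγ : HasDerivAt (fun s : ℝ => p + s • τ) τ s := by
      simpa using ((hasDerivAt_id s).smul_const τ).const_add p
    have := hd.comp_hasDerivAt s hγ
    rw [hperp τ hτe] at this
    exact this
  have hconst := is_const_of_deriv_eq_zero (f := fun s : ℝ => u (p + s • τ)) (fun s => (hder s).differentiableAt)
    (fun s => (hder s).deriv) 1 0
  simp only [one_smul, zero_smul, add_zero] at hconst
  rw [← hconst, hτ]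
  congr 1
  abel

/-! ## EXITS -/

/-- K7-end in the words of `Defs.lean`. -/
theorem dgSE_exit {u : DgE n → ℝ} (hu : DgSol n u) {e : DgE n} (he : ‖e‖ = 1) (hF : DgFlat n u e) : DgOneD n u :=
  ⟨e, fun s => u (s • e), he, (dgSE_oneD hu he hF).1⟩

end Claimed.Agent.R329
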