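/-
Row 329 (S0587, S0588), post P12 END (helper8; prefix `dgFE_`): (F) ⇒ `DgOneD` ⇒ `DgPlanar`.

INPUT = the output of P10 in the convention of ORDER C6-4 (`u > 0` BELOW, interface point := `|u x| ≤ 3/4`):
  `DgFEFlatU n u x₀ r ε e` : for `x ∈ ball x₀ r`: `⟪x - x₀, e⟫ < -(ε r) → 3/4 ≤ u x` and `ε r < ⟪x - x₀, e⟫ → u x ≤ -3/4`;
  `DgFEF n u e`            : for every `ε > 0` there is `r₀` such that `DgFEFlatU n u x₀ r ε e` for ALL interface points `x₀` and ALL `r ≥ r₀`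
                             (ONE direction `e`, uniform in the centre).
OUTPUT: `dgFE_exit : DgSol n u → ‖e‖ = 1 → DgFEF n u e → (∃ x, |u x| < 1) → DgPlanar n u`.   No minimality, no stability, no monotonicity, any `n`.

Steps: (1) quadratic barrier in a well (`dgFE_well`); (2) every point with `|u| ≤ 7/8` is at bounded distance from an interface point (`dgFE_near`);
(3) `DgFEF n u e → DgFlat n u (-e)`; (4) sliding (`dgSE_exit`); (5) the first integral of the profile vanishes because `u → 1` (`dgFE_well` again).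
-/
import Claimed.Agent.R329.SlideEnd
import Claimed.Agent.R329.OneD
import Claimed.Agent.R329.DfDefs

set_option autoImplicit false

namespace Claimed.Agent.R329

open MeasureTheory Metric Filter Set Claimed.Agent.Lib.Ell
open scoped ContDiff RealInnerProductSpace Gradient Topology

variable {n : ℕ}

/-- at a local maximum of a `C²` function the Laplacian is `≤ 0`. -/
theorem dgFE_lap_nonpos {P : DgE n → ℝ} {x : DgE n} (hP : ContDiffAt ℝ 2 P x) (hmax : IsLocalMax P x) :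
    Laplacian.laplacian P x ≤ 0 := by
  rw [dgL_lap_eq_ellLap, ellLap, ellTr]
  refine Finset.sum_nonpos fun i _ => ?_
  exact ell_d2_nonpos_of_isLocalMax hP hmax _

/-- **quadratic barrier in the well `+1`**. -/
theorem dgFE_well_aux {u : DgE n → ℝ} (hu : DgSol n u) {δ R : ℝ} (hδ : 0 < δ) (hR : 0 < R)
    (hRδ : (n + 1 : ℝ) ≤ δ * R ^ 2) {x₀ : DgE n} (h : ∀ y ∈ closedBall x₀ R, 3 / 4 ≤ u y) : 1 - δ ≤ u x₀ := by
  by_contra hcon
  push Not at hcon
  set B : ℝ := δ / (2 * (n + 1)) with hB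
  have hn : (0 : ℝ) < 2 * ((n : ℝ) + 1) := by positivity
  have hB0 : 0 < B := div_pos hδ hn
  set P : DgE n → ℝ := fun y => (1 - u y) - B * ‖y - x₀‖ ^ 2 with hP
  have hPc : Continuous P := by
    have c1 := hu.smooth.continuous
    fun_prop
  obtain ⟨x', hx'm, hx'⟩ := (isCompact_closedBall x₀ R).exists_isMaxOn ⟨x₀, mem_closedBall_self hR.le⟩ hPc.continuousOn
  have hge : δ < P x' := by
    have h0 : P x₀ ≤ P x' := hx' (mem_closedBall_self hR.le)
    have h1 : P x₀ = 1 - u x₀ := by simp [hP]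
    linarith
  have hw : δ + B * ‖x' - x₀‖ ^ 2 < 1 - u x' := by
    simp only [hP] at hge
    linarith
  have hint : x' ∈ ball x₀ R := by
    rw [mem_ball, dist_eq_norm]
    by_contra hnot
    push Not at hnot
    have h1 := h x' hx'm
    have h2 : B * R ^ 2 ≤ B * ‖x' - x₀‖ ^ 2 := by
      refine mul_le_mul_of_nonneg_left ?_ hB0.le
      exact pow_le_pow_left₀ hR.le hnot 2
    have h3 : 1 / 2 ≤ B * R ^ 2 := by
      rw [hB, div_mul_eq_mul_div, le_div_iff₀ hn]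
      linarith
    linarith
  have hloc : IsLocalMax P x' := by
    filter_upwards [isOpen_ball.mem_nhds hint] with y hy
    exact hx' (ball_subset_closedBall hy)
  have c1 : ContDiffAt ℝ 2 u x' := hu.smooth.contDiffAt
  have c0 : ContDiffAt ℝ 2 (fun _ : DgE n => (1 : ℝ)) x' := contDiffAt_const
  have c3 : ContDiffAt ℝ 2 (fun y : DgE n => ‖y - x₀‖ ^ 2) x' :=
    ((contDiff_id.sub contDiff_const).norm_sq ℝ).contDiffAt
  have c4 : ContDiffAt ℝ 2 (fun y : DgE n => B * ‖y - x₀‖ ^ 2) x' := contDiffAt_const.mul c3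
  have hPl : Laplacian.laplacian P x' ≤ 0 := dgFE_lap_nonpos ((c0.sub c1).sub c4) hloc
  have hPe : Laplacian.laplacian P x' = -(u x' ^ 3 - u x') - B * (2 * n) := by
    rw [hP, dgL_lap_sub (c0.sub c1) c4, dgL_lap_sub c0 c1, dgL_lap_const, dgL_lap_const_mul B c3, dgSE_lap_normSq, hu.pde]
    ring
  have hB2 : B * (2 * n) ≤ δ := by
    rw [hB, div_mul_eq_mul_div, div_le_iff₀ hn]
    nlinarith
  have h34 := h x' hx'm
  have h1 := (hu.range x').2
  have hBn : 0 ≤ B * ‖x' - x₀‖ ^ 2 := by positivity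
  have hcub : (1 - u x') ≤ -(u x' ^ 3 - u x') := by
    have e : -(u x' ^ 3 - u x') = (1 - u x') * (u x' * (1 + u x')) := by ring
    rw [e]
    have : 1 ≤ u x' * (1 + u x') := by nlinarith
    nlinarith
  rw [hPe] at hPl
  linarith

/-- the radius of the barrier. -/
theorem dgFE_well (n : ℕ) {δ : ℝ} (hδ : 0 < δ) : ∃ R : ℝ, 0 < R ∧ ∀ u : DgE n → ℝ, DgSol n u → ∀ x₀ : DgE n,
    ((∀ y ∈ closedBall x₀ R, 3 / 4 ≤ u y) → 1 - δ ≤ u x₀) ∧ ((∀ y ∈ closedBall x₀ R, u y ≤ -(3 / 4)) → u x₀ ≤ -(1 - δ)) := by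
  have hn : (0 : ℝ) < (n : ℝ) + 1 := by positivity
  refine ⟨((n : ℝ) + 1) / δ + 1, by positivity, fun u hu x₀ => ?_⟩
  have hR : (0 : ℝ) < ((n : ℝ) + 1) / δ + 1 := by positivity
  have hRδ : (n + 1 : ℝ) ≤ δ * (((n : ℝ) + 1) / δ + 1) ^ 2 := by
    have h1 : 1 ≤ ((n : ℝ) + 1) / δ + 1 := by
      have : 0 ≤ ((n : ℝ) + 1) / δ := by positivity
      linarith
    have h2 : ((n : ℝ) + 1) / δ + 1 ≤ (((n : ℝ) + 1) / δ + 1) ^ 2 := by nlinarith
    have h3 : δ * (((n : ℝ) + 1) / δ + 1) = (n : ℝ) + 1 + δ := by field_simp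
    have h4 := mul_le_mul_of_nonneg_left h2 hδ.le
    linarith
  refine ⟨fun h => dgFE_well_aux hu hδ hR hRδ h, fun h => ?_⟩
  have := dgFE_well_aux hu.dgL_neg hδ hR hRδ (x₀ := x₀) fun y hy => by
    have := h y hy
    linarith
  linarith

/-- on a closed ball without interface point the sign of the phase is constant. -/
theorem dgFE_phase {u : DgE n → ℝ} (hu : DgSol n u) {x₀ : DgE n} {R : ℝ} (h : ∀ y ∈ closedBall x₀ R, 3 / 4 < |u y|)
    (h0 : 0 < u x₀) : ∀ y ∈ closedBall x₀ R, 3 / 4 ≤ u y := by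
  intro y hy
  rcases lt_abs.1 (h y hy) with h1 | h1
  · exact h1.le
  exfalso
  have hR : 0 ≤ R := dist_nonneg.trans (mem_closedBall.1 hy)
  have hpre : IsPreconnected (closedBall x₀ R) := (convex_closedBall x₀ R).isPreconnected
  have hmem : (0 : ℝ) ∈ Icc (u y) (u x₀) := ⟨by linarith, h0.le⟩
  obtain ⟨z, hz, hz0⟩ := hpre.intermediate_value hy (mem_closedBall_self hR) hu.smooth.continuous.continuousOn hmem
  have := h z hz
  rw [hz0, abs_zero] at this
  linarith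

/-- **every point of the transition region `|u| ≤ 7/8` is at bounded distance from an interface point `|u| ≤ 3/4`.** -/
theorem dgFE_near (n : ℕ) : ∃ R₀ : ℝ, 0 < R₀ ∧ ∀ u : DgE n → ℝ, DgSol n u → ∀ x₀ : DgE n, |u x₀| ≤ 7 / 8 →
    ∃ x₁ ∈ closedBall x₀ R₀, |u x₁| ≤ 3 / 4 := by
  obtain ⟨R, hR, hW⟩ := dgFE_well n (δ := 1 / 16) (by norm_num)
  refine ⟨R, hR, fun u hu x₀ hx₀ => ?_⟩
  by_contra hcon
  push Not at hcon
  have hx := abs_le.1 hx₀
  have h00 := hcon x₀ (mem_closedBall_self hR.le)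
  rcases lt_abs.1 h00 with h1 | h1
  · have := (hW u hu x₀).1 (dgFE_phase hu hcon (by linarith))
    linarith
  · have hneg : ∀ y ∈ closedBall x₀ R, 3 / 4 < |(fun x => - u x) y| := fun y hy => by
      simpa using hcon y hy
    have h2 := dgFE_phase hu.dgL_neg hneg (by linarith)
    have := (hW u hu x₀).2 fun y hy => by
      have := h2 y hy
      linarith
    linarith

/-- flatness at one centre and one scale, convention of ORDER C6-4 (`u > 0` below). -/
def DgFEFlatU (n : ℕ) (u : DgE n → ℝ) (x₀ : DgE n) (r ε : ℝ) (e : DgE n) : Prop :=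
  ∀ x ∈ ball x₀ r, (⟪x - x₀, e⟫ < -(ε * r) → 3 / 4 ≤ u x) ∧ (ε * r < ⟪x - x₀, e⟫ → u x ≤ -(3 / 4))

/-- **CONTRACT (F)**: one direction, all interface points, all large scales. -/
def DgFEF (n : ℕ) (u : DgE n → ℝ) (e : DgE n) : Prop :=
  ∀ ε : ℝ, 0 < ε → ∃ r₀ : ℝ, ∀ x₀ : DgE n, |u x₀| ≤ 3 / 4 → ∀ r : ℝ, r₀ ≤ r → DgFEFlatU n u x₀ r ε e

/-- smaller ball, larger height. -/
theorem DgFEFlatU.dgFE_mono {u : DgE n → ℝ} {x₀ e : DgE n} {r ε r' ε' : ℝ} (h : DgFEFlatU n u x₀ r ε e) (hr : r' ≤ r)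
    (hε : ε * r ≤ ε' * r') : DgFEFlatU n u x₀ r' ε' e := fun x hx =>
  ⟨fun h1 => (h x (ball_subset_ball hr hx)).1 (by linarith), fun h1 => (h x (ball_subset_ball hr hx)).2 (by linarith)⟩

/-- (F) from a power law of the height: `{|u| < 3/4} ∩ B_r(x₀) ⊆ {|⟪x - x₀, e⟫| ≤ C r^α}`, `α < 1`. -/
theorem dgFE_F_of_pow {u : DgE n → ℝ} {e : DgE n} {C α r₁ : ℝ} (hα : α < 1)
    (h : ∀ x₀ : DgE n, |u x₀| ≤ 3 / 4 → ∀ r : ℝ, r₁ ≤ r → ∀ x ∈ ball x₀ r,
      (⟪x - x₀, e⟫ < -(C * r ^ α) → 3 / 4 ≤ u x) ∧ (C * r ^ α < ⟪x - x₀, e⟫ → u x ≤ -(3 / 4))) : DgFEF n u e := by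
  intro ε hε
  have ht : Tendsto (fun r : ℝ => C * r ^ (α - 1)) atTop (𝓝 (C * 0)) := by
    have : Tendsto (fun r : ℝ => r ^ (-(1 - α))) atTop (𝓝 0) := tendsto_rpow_neg_atTop (by linarith)
    have h2 : (fun r : ℝ => r ^ (α - 1)) = fun r : ℝ => r ^ (-(1 - α)) := by
      funext r
      congr 1
      ring
    rw [← h2] at this
    exact this.const_mul C
  rw [mul_zero] at ht
  have hev : ∀ᶠ r : ℝ in atTop, C * r ^ (α - 1) < ε := ht.eventually (gt_mem_nhds hε)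
  obtain ⟨r₂, hr₂⟩ := (hev.and (eventually_gt_atTop 0)).exists_forall_of_atTop
  refine ⟨max r₁ r₂, fun x₀ hx₀ r hr x hx => ?_⟩
  obtain ⟨h1, h2⟩ := hr₂ r ((le_max_right _ _).trans hr)
  have hle : C * r ^ α ≤ ε * r := by
    have e1 : r ^ α = r ^ (α - 1) * r := by
      rw [Real.rpow_sub_one h2.ne']
      field_simp
    rw [e1, ← mul_assoc]
    exact mul_le_mul_of_nonneg_right h1.le h2.le
  have := h x₀ hx₀ r ((le_max_left _ _).trans hr) x hx
  exact ⟨fun h3 => this.1 (by linarith), fun h3 => this.2 (by linarith)⟩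

/-- (F) ⇒ the flatness used by the sliding theorem. -/
theorem DgFEF.dgFE_flat {u : DgE n → ℝ} (hu : DgSol n u) {e : DgE n} (he : ‖e‖ = 1) (hF : DgFEF n u e) :
    DgFlat n u (-e) := by
  obtain ⟨R₀, hR₀, hnear⟩ := dgFE_near n
  intro ε hε
  obtain ⟨r₀, hr₀⟩ := hF (ε / 2) (by positivity)
  set r₁ : ℝ := max r₀ 1 with hr₁
  have hr₁1 : 1 ≤ r₁ := le_max_right _ _
  refine ⟨ε * r₁ / 2 + (1 + ε) * R₀ + 1, fun x₀ x hx₀ => ?_⟩
  obtain ⟨x₁, hx₁m, hx₁⟩ := hnear u hu x₀ hx₀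
  have hd : ‖x₁ - x₀‖ ≤ R₀ := by
    rw [← dist_eq_norm]
    exact mem_closedBall.1 hx₁m
  set r : ℝ := 2 * ‖x - x₁‖ + r₁ with hr
  have hnn : 0 ≤ ‖x - x₁‖ := norm_nonneg _
  have hfl := hr₀ x₁ hx₁ r (by
    have : r₀ ≤ r₁ := le_max_left _ _
    linarith) x (by
    rw [mem_ball, dist_eq_norm]
    linarith)
  have hsplit : x - x₁ = (x - x₀) - (x₁ - x₀) := by abel
  have hn1 : ‖x - x₁‖ ≤ ‖x - x₀‖ + R₀ := by
    rw [hsplit]
    exact (norm_sub_le _ _).trans (by linarith)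
  have hin : |⟪x₁ - x₀, e⟫| ≤ R₀ := by
    have := abs_real_inner_le_norm (x₁ - x₀) e
    rw [he, mul_one] at this
    linarith
  have hin' := abs_le.1 hin
  have hie : ⟪x - x₁, e⟫ = ⟪x - x₀, e⟫ - ⟪x₁ - x₀, e⟫ := by rw [hsplit, inner_sub_left]
  have hεr : ε / 2 * r ≤ ε * ‖x - x₀‖ + ε * R₀ + ε * r₁ / 2 := by
    rw [hr]
    nlinarith
  constructor
  · intro h1
    rw [inner_neg_right] at h1
    refine hfl.1 ?_
    rw [hie]
    nlinarith
  · intro h1
    rw [inner_neg_right] at h1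
    refine hfl.2 ?_
    rw [hie]
    nlinarith

/-- a solution without interface point is a well. -/
theorem dgFE_const_of_no_interface {u : DgE n → ℝ} (hu : DgSol n u) (h : ∀ x, 3 / 4 < |u x|) :
    (∀ x, u x = 1) ∨ (∀ x, u x = -1) := by
  have key : ∀ v : DgE n → ℝ, DgSol n v → (∀ x, 3 / 4 < |v x|) → 0 < v 0 → ∀ x, v x = 1 := by
    intro v hv hv34 hv0 x
    have hall : ∀ y, 3 / 4 ≤ v y := fun y =>
      dgFE_phase hv (x₀ := 0) (R := ‖y‖) (fun z _ => hv34 z) hv0 y (by simp)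
    refine le_antisymm (hv.range x).2 ?_
    refine le_of_forall_pos_lt_add fun δ hδ => ?_
    obtain ⟨R, -, hW⟩ := dgFE_well n (δ := δ / 2) (by positivity)
    have := (hW v hv x).1 fun y _ => hall y
    linarith
  rcases lt_abs.1 (h 0) with h0 | h0
  · exact Or.inl (key u hu h (by linarith))
  · refine Or.inr fun x => ?_
    have := key (fun x => - u x) hu.dgL_neg (fun x => by simpa using h x) (by linarith) x
    linarith

/-! ## EXITS -/

/-- **EXIT 1**: flatness in the form of `SlideEnd` + one point off the wells ⇒ planar. -/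
theorem dgFE_planar_of_flat {u : DgE n → ℝ} (hu : DgSol n u) {e : DgE n} (he : ‖e‖ = 1) (hF : DgFlat n u e)
    (hne : ∃ x, |u x| < 1) : DgPlanar n u := by
  have h1D : DgOneD n u := dgSE_exit hu he hF
  obtain ⟨y, hy⟩ := hne
  -- an interface point
  have hint : ∃ x₀, |u x₀| ≤ 3 / 4 := by
    by_contra hcon
    push Not at hcon
    rcases dgFE_const_of_no_interface hu hcon with h | h
    · rw [h y] at hy
      simp at hy
    · rw [h y] at hy
      simp at hy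
  obtain ⟨x₀, hx₀⟩ := hint
  obtain ⟨E, hE0, hE⟩ := dg1_P_const hu h1D
  have hEz : E = 0 := by
    by_contra hEne
    have hneg : E < 0 := lt_of_le_of_ne hE0 hEne
    have hgap := dg1_gap hu hneg hE
    set δ : ℝ := √(-E) / 2 with hδ
    have hsq : 0 < √(-E) := Real.sqrt_pos.2 (by linarith)
    have hδ0 : 0 < δ := by positivity
    obtain ⟨R, hR, hW⟩ := dgFE_well n hδ0
    obtain ⟨K, hK⟩ := hF (1 / 2) (by norm_num)
    -- a point far above `x₀`
    set t : ℝ := 2 * (|K| + 2 * R) with ht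
    have ht0 : 0 ≤ t := by positivity
    have hball : ∀ z ∈ closedBall (x₀ + t • e) R, 3 / 4 ≤ u z := by
      intro z hz
      refine (hK x₀ z (by linarith)).1 ?_
      have hzd : ‖z - (x₀ + t • e)‖ ≤ R := by
        rw [← dist_eq_norm]
        exact mem_closedBall.1 hz
      have hs : z - x₀ = (z - (x₀ + t • e)) + t • e := by abel
      have hn1 : ‖z - x₀‖ ≤ R + t := by
        rw [hs]
        refine (norm_add_le _ _).trans ?_
        rw [norm_smul, he, mul_one, Real.norm_eq_abs, abs_of_nonneg ht0]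
        linarith
      have hi : |⟪z - (x₀ + t • e), e⟫| ≤ R := by
        have := abs_real_inner_le_norm (z - (x₀ + t • e)) e
        rw [he, mul_one] at this
        linarith
      have hi' := abs_le.1 hi
      have hee : ⟪t • e, e⟫ = t := by
        rw [real_inner_smul_left, real_inner_self_eq_norm_sq, he]
        ring
      rw [hs, inner_add_left, hee, ← hs]
      have := le_abs_self K
      linarith
    have h1 := (hW u hu (x₀ + t • e)).1 hball
    have h2 := hgap (x₀ + t • e)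
    have h3 := (hu.range (x₀ + t • e)).2
    have h4 : 1 - u (x₀ + t • e) ^ 2 ≤ 2 * δ := by nlinarith
    rw [hδ] at h4
    linarith
  have hrig : DgRigid n u := dg1_rigid_of_P_nonneg hu h1D x₀ (by rw [hE, hEz])
  rcases hrig with h | h | h
  · rw [h y] at hy
    simp at hy
  · rw [h y] at hy
    simp at hy
  · exact h

/-- **EXIT 2 = P12**: CONTRACT (F) + one point off the wells ⇒ planar. -/
theorem dgFE_exit {u : DgE n → ℝ} (hu : DgSol n u) {e : DgE n} (he : ‖e‖ = 1) (hF : DgFEF n u e)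
    (hne : ∃ x, |u x| < 1) : DgPlanar n u :=
  dgFE_planar_of_flat hu (by rw [norm_neg, he]) (hF.dgFE_flat hu he) hne

/-- **EXIT 3**: the same from the power law of the height. -/
theorem dgFE_exit_pow {u : DgE n → ℝ} (hu : DgSol n u) {e : DgE n} (he : ‖e‖ = 1) {C α r₁ : ℝ} (hα : α < 1)
    (h : ∀ x₀ : DgE n, |u x₀| ≤ 3 / 4 → ∀ r : ℝ, r₁ ≤ r → ∀ x ∈ ball x₀ r,
      (⟪x - x₀, e⟫ < -(C * r ^ α) → 3 / 4 ≤ u x) ∧ (C * r ^ α < ⟪x - x₀, e⟫ → u x ≤ -(3 / 4)))
    (hne : ∃ x, |u x| < 1) : DgPlanar n u :=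
  dgFE_exit hu he (dgFE_F_of_pow hα h) hne

/-- **EXIT 4**: (F) ⇒ one-dimensional (no further hypothesis). -/
theorem dgFE_oneD {u : DgE n → ℝ} (hu : DgSol n u) {e : DgE n} (he : ‖e‖ = 1) (hF : DgFEF n u e) : DgOneD n u :=
  dgSE_exit hu (by rw [norm_neg, he]) (hF.dgFE_flat hu he)

/-- **EXIT 5** (ORDER C6-5): contract (F) in the words of `DfDefs.lean` ⇒ planar. -/
theorem dgFE_exit_DfF {u : DgE n → ℝ} (hu : DgSol n u) (hF : DfF u) (hne : ∃ x, |u x| < 1) : DgPlanar n u := by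
  obtain ⟨e, he, h⟩ := hF
  refine dgFE_planar_of_flat hu he (fun ε hε => ?_) hne
  obtain ⟨K, hK⟩ := h ε hε
  exact ⟨K, fun x₀ x hx₀ => ⟨(hK x₀ x hx₀).1, fun h1 => (hK x₀ x hx₀).2 (by linarith)⟩⟩

/-- **EXIT 6** (ORDER C6-5): one direction, all centres `|u x₀| ≤ 7/8` (a fortiori all `|u x₀| ≤ 3/4`), all large scales, in the words `DfFlatU` ⇒ planar. -/
theorem dgFE_exit_DfFlatU {u : DgE n → ℝ} (hu : DgSol n u) {e : DgE n}
    (hF : ∀ ε : ℝ, 0 < ε → ∃ r₀ : ℝ, ∀ x₀ : DgE n, |u x₀| ≤ 3 / 4 → ∀ r : ℝ, r₀ ≤ r → DfFlatU u x₀ r ε e)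
    (hne : ∃ x, |u x| < 1) : DgPlanar n u := by
  by_cases hint : ∃ x₀, |u x₀| ≤ 3 / 4
  · obtain ⟨x₀, hx₀⟩ := hint
    obtain ⟨r₀, hr₀⟩ := hF 1 one_pos
    have he : ‖e‖ = 1 := (hr₀ x₀ hx₀ r₀ le_rfl).unit
    refine dgFE_exit hu he (fun ε hε => ?_) hne
    obtain ⟨r₁, hr₁⟩ := hF ε hε
    refine ⟨r₁, fun x₁ hx₁ r hr x hx => ?_⟩
    have := hr₁ x₁ hx₁ r hr
    exact ⟨fun h1 => by linarith [this.below x hx h1], fun h1 => by linarith [this.above x hx h1]⟩
  · exfalso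
    push Not at hint
    obtain ⟨y, hy⟩ := hne
    rcases dgFE_const_of_no_interface hu hint with h | h
    · rw [h y] at hy
      simp at hy
    · rw [h y] at hy
      simp at hy

end Claimed.Agent.R329
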