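import Claimed.Agent.R329.Defs
import Claimed.Agent.R329.Field
import Claimed.Agent.Lib.Gmt.Defs

/-!
# Row 329, post B9a (helper168, prefix `dgFF_`): THE FIELDS OF THE FOLIATION CALIBRATION (first half of Lemma F of helper166).

For a `C²` solution `u` of `Δ u = u³ - u` on `DgE n`, a direction `e` and `a b : ℝ`

  `Z(x) = ∫ s in a..b, (∂_e u ∇u)(x + s e)`        (`dgFF_Z u e a b`)

* `dgFF_Z_contDiff`   : `Z` is `C¹`;
* `dgFF_Z_div`        : `Gmt.gmtDiv Z x = dgDens n u (x + b e) - dgDens n u (x + a e)`      (PDE only);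
* `dgFF_Z_norm_le`    : `a ≤ b`, Modica, `∂_e u ≥ 0`, `|u| ≤ 1`:  `‖Z x‖ ≤ Φ(u(x + b e)) - Φ(u(x + a e))`,  `Φ(z) = (z - z³/3)/√2`.
`Z^T = dgFF_Z u e (-T) 0`, `Z₊^T = dgFF_Z u e 0 T`.
-/

set_option autoImplicit false
set_option linter.unusedSectionVars false

open MeasureTheory Metric Set Filter
open scoped Topology ContDiff

namespace Claimed.Agent.R329

/-! ## Integrals along a line of a `C¹` map -/

section General

variable {E F : Type*} [NormedAddCommGroup E] [NormedSpace ℝ E] [FiniteDimensional ℝ E]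
  [NormedAddCommGroup F] [NormedSpace ℝ F] [CompleteSpace F]

theorem dgFF_continuous_uncurry {G : Type*} [TopologicalSpace G] {V : E → G} (hV : Continuous V) (e : E) :
    Continuous (Function.uncurry fun (x : E) (s : ℝ) => V (x + s • e)) := by
  unfold Function.uncurry
  exact hV.comp (by fun_prop)

/-- differentiation under the integral along a segment. -/
theorem dgFF_hasFDerivAt_lineInt {V : E → F} (hV : ContDiff ℝ 1 V) (e : E) (a b : ℝ) (x₀ : E) :
    HasFDerivAt (fun x => ∫ s in a..b, V (x + s • e)) (∫ s in a..b, fderiv ℝ V (x₀ + s • e)) x₀ := by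
  have hc : Continuous V := hV.continuous
  have hc' : Continuous (fderiv ℝ V) := hV.continuous_fderiv (by norm_num)
  have hK : IsCompact (closedBall x₀ 1 ×ˢ uIcc a b) := (isCompact_closedBall x₀ 1).prod isCompact_uIcc
  obtain ⟨M, hM⟩ := hK.exists_bound_of_continuousOn (dgFF_continuous_uncurry hc' e).continuousOn
  refine intervalIntegral.hasFDerivAt_integral_of_dominated_of_fderiv_le (s := ball x₀ 1)
    (F := fun x s => V (x + s • e)) (F' := fun x s => fderiv ℝ V (x + s • e)) (bound := fun _ => M)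
    (ball_mem_nhds x₀ one_pos) ?_ ?_ ?_ ?_ ?_ ?_
  · exact Eventually.of_forall fun x => (hc.comp (by fun_prop)).aestronglyMeasurable
  · exact (hc.comp (by fun_prop)).intervalIntegrable _ _
  · exact (hc'.comp (by fun_prop)).aestronglyMeasurable
  · refine Eventually.of_forall fun s hs x hx => ?_
    exact hM (x, s) ⟨ball_subset_closedBall hx, uIoc_subset_uIcc hs⟩
  · exact intervalIntegrable_const
  · refine Eventually.of_forall fun s _ x _ => ?_
    have h1 : HasFDerivAt V (fderiv ℝ V (x + s • e)) (x + s • e) :=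
      (hV.differentiable (by norm_num) _).hasFDerivAt
    have h2 : HasFDerivAt (fun y : E => y + s • e) (ContinuousLinearMap.id ℝ E) x :=
      (hasFDerivAt_id x).add_const _
    have h3 := h1.comp x h2
    rw [ContinuousLinearMap.comp_id] at h3
    exact h3

theorem dgFF_contDiff_lineInt {V : E → F} (hV : ContDiff ℝ 1 V) (e : E) (a b : ℝ) :
    ContDiff ℝ 1 (fun x => ∫ s in a..b, V (x + s • e)) := by
  rw [contDiff_one_iff_fderiv]
  refine ⟨fun x => (dgFF_hasFDerivAt_lineInt hV e a b x).differentiableAt, ?_⟩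
  have h : fderiv ℝ (fun x => ∫ s in a..b, V (x + s • e)) = fun x => ∫ s in a..b, fderiv ℝ V (x + s • e) :=
    funext fun x => (dgFF_hasFDerivAt_lineInt hV e a b x).fderiv
  rw [h]
  exact intervalIntegral.continuous_parametric_intervalIntegral_of_continuous'
    (dgFF_continuous_uncurry (hV.continuous_fderiv (by norm_num)) e) a b

end General

/-! ## The field `∂_e u ∇u` -/

variable {n : ℕ}

/-- the field `V = ∂_e u ∇u`. -/
noncomputable def dgFF_V (u : DgE n → ℝ) (e : DgE n) (z : DgE n) : DgE n :=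
  WithLp.toLp 2 fun i : Fin n => fderiv ℝ u z e * fderiv ℝ u z (EuclideanSpace.single i 1)

theorem dgFF_V_apply (u : DgE n → ℝ) (e z : DgE n) (i : Fin n) :
    dgFF_V u e z i = fderiv ℝ u z e * fderiv ℝ u z (EuclideanSpace.single i 1) := rfl

theorem dgFF_V_contDiff {u : DgE n → ℝ} (hu : ContDiff ℝ 2 u) (e : DgE n) : ContDiff ℝ 1 (dgFF_V u e) := by
  rw [contDiff_euclidean]
  intro i
  exact (dg98_contDiff_fderiv_apply hu e).mul (dg98_contDiff_fderiv_apply hu _)

theorem dgFF_V_norm (u : DgE n → ℝ) (e z : DgE n) : ‖dgFF_V u e z‖ = |fderiv ℝ u z e| * ‖fderiv ℝ u z‖ := by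
  have h1 : ‖dgFF_V u e z‖ ^ 2 = (|fderiv ℝ u z e| * ‖fderiv ℝ u z‖) ^ 2 := by
    rw [EuclideanSpace.norm_sq_eq, mul_pow, sq_abs, dg98_norm_sq_clm (EuclideanSpace.basisFun (Fin n) ℝ), Finset.mul_sum]
    refine Finset.sum_congr rfl fun i _ => ?_
    rw [dgFF_V_apply, Real.norm_eq_abs, sq_abs, mul_pow]
    simp
  exact (pow_left_inj₀ (norm_nonneg _) (by positivity) (by norm_num)).1 h1

/-- coordinates commute with the derivative. -/
theorem dgFF_fderiv_coord {T : DgE n → DgE n} {x : DgE n} (hT : DifferentiableAt ℝ T x) (h : DgE n) (i : Fin n) :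
    fderiv ℝ T x h i = fderiv ℝ (fun z => T z i) x h := by
  have h1 : HasFDerivAt (fun z => T z i) ((EuclideanSpace.proj i : DgE n →L[ℝ] ℝ).comp (fderiv ℝ T x)) x :=
    (EuclideanSpace.proj i : DgE n →L[ℝ] ℝ).hasFDerivAt.comp x hT.hasFDerivAt
  rw [h1.fderiv]
  rfl

/-- `div (∂_e u ∇u) = ∂_e (|∇u|²/2 + W(u))` for a solution, in the words of `Gmt.gmtDiv`. -/
theorem dgFF_V_div {u : DgE n → ℝ} (hu : ContDiff ℝ 2 u) (hpde : ∀ x, Laplacian.laplacian u x = u x ^ 3 - u x)
    (e y : DgE n) : Gmt.gmtDiv (dgFF_V u e) y = fderiv ℝ (dgDens n u) y e := by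
  have h := dgF_div (EuclideanSpace.basisFun (Fin n) ℝ) hu hpde e y
  have hd : DifferentiableAt ℝ (dgFF_V u e) y := (dgFF_V_contDiff hu e).differentiable (by norm_num) y
  unfold Gmt.gmtDiv
  have h2 : (dgF_e u : DgE n → ℝ) = dgDens n u := rfl
  rw [← h2, ← h]
  refine Finset.sum_congr rfl fun i _ => ?_
  rw [dgFF_fderiv_coord hd]
  simp only [EuclideanSpace.basisFun_apply]
  rfl

/-! ## The fields `Z` -/

/-- `Z(x) = ∫ s in a..b, (∂_e u ∇u)(x + s e)`. -/
noncomputable def dgFF_Z (u : DgE n → ℝ) (e : DgE n) (a b : ℝ) (x : DgE n) : DgE n :=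
  ∫ s in a..b, dgFF_V u e (x + s • e)

theorem dgFF_Z_contDiff {u : DgE n → ℝ} (hu : ContDiff ℝ 2 u) (e : DgE n) (a b : ℝ) :
    ContDiff ℝ 1 (dgFF_Z u e a b) :=
  dgFF_contDiff_lineInt (dgFF_V_contDiff hu e) e a b

/-- the divergence of `Z` is the integral of the divergence of `V`. -/
theorem dgFF_Z_div_eq_integral {u : DgE n → ℝ} (hu : ContDiff ℝ 2 u) (e : DgE n) (a b : ℝ) (x : DgE n) :
    Gmt.gmtDiv (dgFF_Z u e a b) x = ∫ s in a..b, Gmt.gmtDiv (dgFF_V u e) (x + s • e) := by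
  have hV := dgFF_V_contDiff hu e
  have hf : fderiv ℝ (dgFF_Z u e a b) x = ∫ s in a..b, fderiv ℝ (dgFF_V u e) (x + s • e) :=
    (dgFF_hasFDerivAt_lineInt hV e a b x).fderiv
  have hcont : Continuous fun s : ℝ => fderiv ℝ (dgFF_V u e) (x + s • e) :=
    (hV.continuous_fderiv (by norm_num)).comp (by fun_prop)
  have hint : IntervalIntegrable (fun s : ℝ => fderiv ℝ (dgFF_V u e) (x + s • e)) volume a b :=
    hcont.intervalIntegrable _ _
  unfold Gmt.gmtDiv
  rw [hf, intervalIntegral.integral_finsetSum]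
  · refine Finset.sum_congr rfl fun i _ => ?_
    set L : (DgE n →L[ℝ] DgE n) →L[ℝ] ℝ :=
      (EuclideanSpace.proj i : DgE n →L[ℝ] ℝ).comp
        (ContinuousLinearMap.apply ℝ (DgE n) (EuclideanSpace.single i (1 : ℝ) : DgE n)) with hL
    have := L.intervalIntegral_comp_comm hint
    exact this.symm
  · intro i _
    set L : (DgE n →L[ℝ] DgE n) →L[ℝ] ℝ :=
      (EuclideanSpace.proj i : DgE n →L[ℝ] ℝ).comp
        (ContinuousLinearMap.apply ℝ (DgE n) (EuclideanSpace.single i (1 : ℝ) : DgE n)) with hL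
    exact (L.continuous.comp hcont).intervalIntegrable _ _

/-- **the divergence of `Z`** (uses the PDE only). -/
theorem dgFF_Z_div {u : DgE n → ℝ} (hu : ContDiff ℝ 2 u) (hpde : ∀ x, Laplacian.laplacian u x = u x ^ 3 - u x)
    (e : DgE n) (a b : ℝ) (x : DgE n) :
    Gmt.gmtDiv (dgFF_Z u e a b) x = dgDens n u (x + b • e) - dgDens n u (x + a • e) := by
  rw [dgFF_Z_div_eq_integral hu]
  simp only [dgFF_V_div hu hpde]
  have hD : ContDiff ℝ 1 (dgDens n u) := dgF_contDiff_e hu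
  refine intervalIntegral.integral_eq_sub_of_hasDerivAt (f := fun s => dgDens n u (x + s • e)) (fun s _ => ?_) ?_
  · exact dgF_hasDerivAt_line (hD.differentiable (by norm_num)) x e s
  · refine Continuous.intervalIntegrable ?_ _ _
    have h1 : Continuous fun y => fderiv ℝ (dgDens n u) y e :=
      (hD.continuous_fderiv (by norm_num)).clm_apply continuous_const
    exact h1.comp (by fun_prop)

/-! ## The bound of `Z` by Modica's estimate -/

/-- `Φ(z) = (z - z³/3)/√2`, `Φ' = √(2W)` on `[-1,1]`. -/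
noncomputable def dgFF_Phi (z : ℝ) : ℝ := (z - z ^ 3 / 3) / Real.sqrt 2

theorem dgFF_Phi_hasDerivAt (z : ℝ) : HasDerivAt dgFF_Phi ((1 - z ^ 2) / Real.sqrt 2) z := by
  unfold dgFF_Phi
  have h1 : HasDerivAt (fun t : ℝ => t - t ^ 3 / 3) (1 - z ^ 2) z := by
    have := (hasDerivAt_id z).sub (((hasDerivAt_id z).pow 3).div_const 3)
    refine this.congr_deriv ?_
    simp
  exact h1.div_const _

/-- Modica's bound in the form `|∇u| ≤ (1 - u²)/√2`. -/
theorem dgFF_grad_le {u : DgE n → ℝ} (hrange : ∀ x, u x ∈ Set.Icc (-1 : ℝ) 1)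
    (hmod : ∀ x, ‖fderiv ℝ u x‖ ^ 2 / 2 ≤ dgW (u x)) (x : DgE n) :
    ‖fderiv ℝ u x‖ ≤ (1 - u x ^ 2) / Real.sqrt 2 := by
  obtain ⟨h1, h2⟩ := hrange x
  have h3 : 0 ≤ 1 - u x ^ 2 := by nlinarith
  have hs : 0 < Real.sqrt 2 := by positivity
  have h4 : ‖fderiv ℝ u x‖ ^ 2 ≤ ((1 - u x ^ 2) / Real.sqrt 2) ^ 2 := by
    rw [div_pow, Real.sq_sqrt (by norm_num)]
    have := hmod x
    unfold dgW at this
    linarith
  exact (pow_le_pow_iff_left₀ (norm_nonneg _) (by positivity) (by norm_num)).1 h4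

/-- **the bound of `Z`**. -/
theorem dgFF_Z_norm_le {u : DgE n → ℝ} (hu : ContDiff ℝ 2 u) (hrange : ∀ x, u x ∈ Set.Icc (-1 : ℝ) 1)
    (hmod : ∀ x, ‖fderiv ℝ u x‖ ^ 2 / 2 ≤ dgW (u x)) {e : DgE n} (hmono : ∀ x, 0 ≤ fderiv ℝ u x e)
    {a b : ℝ} (hab : a ≤ b) (x : DgE n) :
    ‖dgFF_Z u e a b x‖ ≤ dgFF_Phi (u (x + b • e)) - dgFF_Phi (u (x + a • e)) := by
  have hu1 : Differentiable ℝ u := hu.differentiable (by norm_num)
  have hcu : Continuous u := hu.continuous
  have hcd : Continuous fun y => fderiv ℝ u y e :=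
    (hu.continuous_fderiv (by norm_num)).clm_apply continuous_const
  have hline : Continuous fun s : ℝ => x + s • e := by fun_prop
  have hder : ∀ s : ℝ, HasDerivAt (fun s => dgFF_Phi (u (x + s • e)))
      ((1 - u (x + s • e) ^ 2) / Real.sqrt 2 * fderiv ℝ u (x + s • e) e) s := fun s =>
    (dgFF_Phi_hasDerivAt _).comp s (dgF_hasDerivAt_line hu1 x e s)
  have hcont : Continuous fun s : ℝ => (1 - u (x + s • e) ^ 2) / Real.sqrt 2 * fderiv ℝ u (x + s • e) e :=
    (((continuous_const.sub ((hcu.comp hline).pow 2)).div_const _)).mul (hcd.comp hline)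
  have hftc : ∫ s in a..b, (1 - u (x + s • e) ^ 2) / Real.sqrt 2 * fderiv ℝ u (x + s • e) e =
      dgFF_Phi (u (x + b • e)) - dgFF_Phi (u (x + a • e)) :=
    intervalIntegral.integral_eq_sub_of_hasDerivAt (fun s _ => hder s) (hcont.intervalIntegrable _ _)
  rw [← hftc]
  unfold dgFF_Z
  refine (intervalIntegral.norm_integral_le_integral_norm hab).trans ?_
  refine intervalIntegral.integral_mono_on hab ?_ (hcont.intervalIntegrable _ _) fun s _ => ?_
  · exact (((dgFF_V_contDiff hu e).continuous.comp hline).norm).intervalIntegrable _ _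
  · rw [dgFF_V_norm, abs_of_nonneg (hmono _), mul_comm]
    exact mul_le_mul_of_nonneg_right (dgFF_grad_le hrange hmod _) (hmono _)

end Claimed.Agent.R329
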