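import Claimed.Agent.R329.Defs
import Claimed.Agent.R329.Reg

/-!
# Row 329, post B8 (helper168, prefix `dgB8_`): ENERGY GROWTH OF MINIMISERS = contract K5 of the Hub.

`DgSol n u`, `DgMin n u` ⟹ `DgFinDens n u`:   `E(u; B_R) ≤ C R^{n-1}` for `R ≥ 1`  (the sup bound of `|Du|` is `dgA3_c3` of post A3).

Competitor (paper, (3.6)): `w = u + η (1 - u)`, `η(x) = ψ(R - |x|)`, `ψ` a fixed smooth step (`0` on `t ≤ 1/4`, `1` on `t ≥ 3/4`).  Then
`w = 1` on `B_{R-3/4}` (zero energy density), `w = u` outside `B_{R-1/4}`, density `≤ C₁ = (2G+2L)²/2 + 1/4` everywhere, and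
`|B_R ∖ B_{R-3/4}| = ω_n (R^n - (R-3/4)^n) ≤ ω_n n R^{n-1}`.
-/

set_option autoImplicit false

open MeasureTheory Metric Set Filter
open scoped Topology ContDiff NNReal

namespace Claimed.Agent.R329

/-! ## The one dimensional step -/

/-- the step `ψ`: `0` for `t ≤ 1/4`, `1` for `t ≥ 3/4`. -/
noncomputable def dgB8_psi (t : ℝ) : ℝ := Real.smoothTransition (2 * t - 1 / 2)

theorem dgB8_psi_contDiff : ContDiff ℝ ∞ dgB8_psi :=
  Real.smoothTransition.contDiff.comp (by fun_prop)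

theorem dgB8_psi_zero {t : ℝ} (h : t ≤ 1 / 4) : dgB8_psi t = 0 :=
  Real.smoothTransition.zero_of_nonpos (by linarith)

theorem dgB8_psi_one {t : ℝ} (h : 3 / 4 ≤ t) : dgB8_psi t = 1 :=
  Real.smoothTransition.one_of_one_le (by linarith)

theorem dgB8_psi_nonneg (t : ℝ) : 0 ≤ dgB8_psi t := Real.smoothTransition.nonneg _

theorem dgB8_psi_le_one (t : ℝ) : dgB8_psi t ≤ 1 := Real.smoothTransition.le_one _

/-- the derivative of the step has compact support. -/
theorem dgB8_psi_deriv_support : HasCompactSupport (deriv dgB8_psi) := by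
  refine HasCompactSupport.intro (K := Icc (1 / 4 : ℝ) (3 / 4)) isCompact_Icc fun t ht => ?_
  rw [mem_Icc, not_and_or, not_le, not_le] at ht
  rcases ht with ht | ht
  · have h : dgB8_psi =ᶠ[𝓝 t] fun _ => (0 : ℝ) := by
      filter_upwards [Iio_mem_nhds ht] with s hs
      exact dgB8_psi_zero (le_of_lt hs)
    rw [h.deriv_eq, deriv_const]
  · have h : dgB8_psi =ᶠ[𝓝 t] fun _ => (1 : ℝ) := by
      filter_upwards [Ioi_mem_nhds ht] with s hs
      exact dgB8_psi_one (le_of_lt hs)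
    rw [h.deriv_eq, deriv_const]

/-- the step is Lipschitz. -/
theorem dgB8_psi_lip : ∃ L : ℝ≥0, LipschitzWith L dgB8_psi := by
  obtain ⟨C, hC⟩ := (dgB8_psi_contDiff.continuous_deriv (by simp)).bounded_above_of_compact_support
    dgB8_psi_deriv_support
  have hC0 : 0 ≤ C := (norm_nonneg _).trans (hC 0)
  refine ⟨C.toNNReal, lipschitzWith_of_nnnorm_deriv_le (dgB8_psi_contDiff.differentiable (by simp)) fun x => ?_⟩
  rw [← NNReal.coe_le_coe, Real.coe_toNNReal C hC0, coe_nnnorm]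
  exact hC x

/-! ## The radial cut-off -/

variable {n : ℕ}

/-- the radial cut-off `η_R(x) = ψ(R - |x|)`. -/
noncomputable def dgB8_eta (n : ℕ) (R : ℝ) (x : DgE n) : ℝ := dgB8_psi (R - ‖x‖)

theorem dgB8_eta_nonneg (R : ℝ) (x : DgE n) : 0 ≤ dgB8_eta n R x := dgB8_psi_nonneg _

theorem dgB8_eta_le_one (R : ℝ) (x : DgE n) : dgB8_eta n R x ≤ 1 := dgB8_psi_le_one _

theorem dgB8_eta_one {R : ℝ} {x : DgE n} (h : ‖x‖ ≤ R - 3 / 4) : dgB8_eta n R x = 1 :=
  dgB8_psi_one (by linarith)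

theorem dgB8_eta_zero {R : ℝ} {x : DgE n} (h : R - 1 / 4 ≤ ‖x‖) : dgB8_eta n R x = 0 :=
  dgB8_psi_zero (by linarith)

theorem dgB8_eta_contDiff {R : ℝ} (hR : 1 ≤ R) : ContDiff ℝ ∞ (dgB8_eta n R) := by
  rw [contDiff_iff_contDiffAt]
  intro x
  by_cases hx : x = 0
  · have h : dgB8_eta n R =ᶠ[𝓝 x] fun _ => (1 : ℝ) := by
      have : ball (0 : DgE n) (1 / 4) ∈ 𝓝 x := by
        rw [hx]; exact ball_mem_nhds _ (by norm_num)
      filter_upwards [this] with y hy
      rw [mem_ball_zero_iff] at hy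
      exact dgB8_eta_one (by linarith)
    exact contDiffAt_const.congr_of_eventuallyEq h
  · exact dgB8_psi_contDiff.contDiffAt.comp x (contDiffAt_const.sub (contDiffAt_norm ℝ hx))

theorem dgB8_eta_lip {L : ℝ≥0} (hL : LipschitzWith L dgB8_psi) (R : ℝ) : LipschitzWith L (dgB8_eta n R) := by
  refine LipschitzWith.of_dist_le_mul fun x y => ?_
  refine (hL.dist_le_mul _ _).trans ?_
  refine mul_le_mul_of_nonneg_left ?_ L.2
  rw [Real.dist_eq, dist_eq_norm]
  have : R - ‖x‖ - (R - ‖y‖) = ‖y‖ - ‖x‖ := by ring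
  rw [this, norm_sub_rev x y]
  exact abs_norm_sub_norm_le y x

/-! ## An elementary inequality and the volume of an annulus -/

theorem dgB8_pow_sub_pow_le {r R : ℝ} (hr : 0 ≤ r) (hrR : r ≤ R) (k : ℕ) :
    R ^ (k + 1) - r ^ (k + 1) ≤ (k + 1) * R ^ k * (R - r) := by
  induction k with
  | zero => simp
  | succ k ih =>
    have hR : 0 ≤ R := hr.trans hrR
    have h1 : r ^ (k + 1) ≤ R ^ (k + 1) := pow_le_pow_left₀ hr hrR _
    have h2 : R ^ (k + 1 + 1) - r ^ (k + 1 + 1) = R * (R ^ (k + 1) - r ^ (k + 1)) + r ^ (k + 1) * (R - r) := by ring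
    have h3 : R * (R ^ (k + 1) - r ^ (k + 1)) ≤ R * ((k + 1) * R ^ k * (R - r)) := mul_le_mul_of_nonneg_left ih hR
    have h4 : r ^ (k + 1) * (R - r) ≤ R ^ (k + 1) * (R - r) := mul_le_mul_of_nonneg_right h1 (by linarith)
    rw [h2]
    push_cast
    calc R * (R ^ (k + 1) - r ^ (k + 1)) + r ^ (k + 1) * (R - r)
        ≤ R * ((k + 1) * R ^ k * (R - r)) + R ^ (k + 1) * (R - r) := add_le_add h3 h4
      _ = ((k : ℝ) + 1 + 1) * R ^ (k + 1) * (R - r) := by ring

theorem dgB8_pow_sub_pow_le' {r R : ℝ} (hr : 0 ≤ r) (hrR : r ≤ R) (n : ℕ) :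
    R ^ n - r ^ n ≤ n * R ^ (n - 1) * (R - r) := by
  cases n with
  | zero => simp
  | succ k =>
    have := dgB8_pow_sub_pow_le hr hrR k
    simpa using this

/-- volume of a ball of `DgE n`. -/
theorem dgB8_volume_ball {r : ℝ} (hr : 0 < r) :
    volume.real (ball (0 : DgE n) r) = r ^ n * volume.real (ball (0 : DgE n) 1) := by
  rw [measureReal_def, Measure.addHaar_ball_of_pos volume (0 : DgE n) hr, ENNReal.toReal_mul,
    ENNReal.toReal_ofReal (by positivity), finrank_euclideanSpace_fin, measureReal_def]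

/-- volume of the annulus. -/
theorem dgB8_volume_annulus {r R : ℝ} (hr : 0 < r) (hrR : r ≤ R) :
    volume.real (ball (0 : DgE n) R \ ball (0 : DgE n) r) ≤
      volume.real (ball (0 : DgE n) 1) * (n * R ^ (n - 1) * (R - r)) := by
  rw [measureReal_sdiff (ball_subset_ball hrR) measurableSet_ball measure_ball_lt_top.ne,
    dgB8_volume_ball hr, dgB8_volume_ball (hr.trans_le hrR), ← sub_mul, mul_comm]
  exact mul_le_mul_of_nonneg_left (dgB8_pow_sub_pow_le' hr.le hrR n) measureReal_nonneg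

/-! ## The competitor -/

theorem dgB8_W_le {s : ℝ} (h1 : -1 ≤ s) (h2 : s ≤ 1) : dgW s ≤ 1 / 4 := by
  unfold dgW
  have h3 : 0 ≤ 1 - s ^ 2 := by nlinarith
  have h4 : 1 - s ^ 2 ≤ 1 := by nlinarith [sq_nonneg s]
  nlinarith

theorem dgB8_W_nonneg (s : ℝ) : 0 ≤ dgW s := by
  unfold dgW; positivity

theorem dgB8_dens_nonneg (u : DgE n → ℝ) (x : DgE n) : 0 ≤ dgDens n u x := by
  unfold dgDens
  have := dgB8_W_nonneg (u x)
  positivity

/-- the perturbation `φ = η (1 - u)`. -/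
noncomputable def dgB8_phi (n : ℕ) (R : ℝ) (u : DgE n → ℝ) (x : DgE n) : ℝ := dgB8_eta n R x * (1 - u x)

theorem dgB8_phi_contDiff {R : ℝ} (hR : 1 ≤ R) {u : DgE n → ℝ} (hu : ContDiff ℝ 1 u) :
    ContDiff ℝ 1 (dgB8_phi n R u) :=
  ((dgB8_eta_contDiff hR).of_le (by simp)).mul (contDiff_const.sub hu)

theorem dgB8_phi_zero {R : ℝ} (u : DgE n → ℝ) {x : DgE n} (h : x ∉ closedBall (0 : DgE n) (R - 1 / 4)) :
    dgB8_phi n R u x = 0 := by
  rw [mem_closedBall_zero_iff, not_le] at h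
  simp [dgB8_phi, dgB8_eta_zero h.le]

theorem dgB8_phi_compact (R : ℝ) (u : DgE n → ℝ) : HasCompactSupport (dgB8_phi n R u) :=
  HasCompactSupport.intro (isCompact_closedBall 0 (R - 1 / 4)) fun _ hx => dgB8_phi_zero u hx

theorem dgB8_phi_tsupport (R : ℝ) (u : DgE n → ℝ) : tsupport (dgB8_phi n R u) ⊆ ball (0 : DgE n) R := by
  have h1 : tsupport (dgB8_phi n R u) ⊆ closedBall (0 : DgE n) (R - 1 / 4) := by
    refine closure_minimal (fun x hx => ?_) isClosed_closedBall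
    by_contra h
    exact hx (dgB8_phi_zero u h)
  exact h1.trans (closedBall_subset_ball (by linarith))

/-- the competitor has zero density in the inner ball. -/
theorem dgB8_dens_inner {R : ℝ} (u : DgE n → ℝ) {x : DgE n} (hx : x ∈ ball (0 : DgE n) (R - 3 / 4)) :
    dgDens n (fun y => u y + dgB8_phi n R u y) x = 0 := by
  have h : (fun y => u y + dgB8_phi n R u y) =ᶠ[𝓝 x] fun _ => (1 : ℝ) := by
    filter_upwards [isOpen_ball.mem_nhds hx] with y hy
    rw [mem_ball_zero_iff] at hy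
    simp [dgB8_phi, dgB8_eta_one hy.le]
  have h2 : u x + dgB8_phi n R u x = 1 := h.eq_of_nhds
  unfold dgDens
  rw [h.fderiv_eq]
  simp only [h2]
  simp [dgW]

/-- the competitor has bounded density. -/
theorem dgB8_dens_le {R G : ℝ} {L : ℝ≥0} (hL : LipschitzWith L dgB8_psi) (hR : 1 ≤ R) {u : DgE n → ℝ}
    (hu : ContDiff ℝ 1 u) (hrange : ∀ x, u x ∈ Set.Icc (-1 : ℝ) 1) (hG : ∀ x, ‖fderiv ℝ u x‖ ≤ G) (x : DgE n) :
    dgDens n (fun y => u y + dgB8_phi n R u y) x ≤ (2 * G + 2 * L) ^ 2 / 2 + 1 / 4 := by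
  have hη : DifferentiableAt ℝ (dgB8_eta n R) x := (dgB8_eta_contDiff hR).differentiable (by simp) x
  have hux : DifferentiableAt ℝ u x := hu.differentiable (by simp) x
  have h1u : DifferentiableAt ℝ (fun y => 1 - u y) x := (differentiableAt_const _).sub hux
  have hG0 : 0 ≤ G := (norm_nonneg _).trans (hG x)
  have e1 : fderiv ℝ (fun y => u y + dgB8_phi n R u y) x =
      fderiv ℝ u x + (dgB8_eta n R x • fderiv ℝ (fun y => 1 - u y) x + (1 - u x) • fderiv ℝ (dgB8_eta n R) x) := by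
    have h2 : DifferentiableAt ℝ (dgB8_phi n R u) x := hη.mul h1u
    rw [fderiv_fun_add hux h2]
    congr 1
    exact fderiv_fun_mul hη h1u
  have e2 : fderiv ℝ (fun y => 1 - u y) x = - fderiv ℝ u x := by
    rw [fderiv_const_sub]
  have b1 : ‖fderiv ℝ (dgB8_eta n R) x‖ ≤ L := norm_fderiv_le_of_lipschitz ℝ (dgB8_eta_lip hL R)
  have hη0 := dgB8_eta_nonneg (n := n) R x
  have hη1 := dgB8_eta_le_one (n := n) R x
  obtain ⟨hu1, hu2⟩ := hrange x
  have b2 : ‖fderiv ℝ (fun y => u y + dgB8_phi n R u y) x‖ ≤ 2 * G + 2 * L := by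
    rw [e1, e2]
    calc ‖fderiv ℝ u x + (dgB8_eta n R x • -fderiv ℝ u x + (1 - u x) • fderiv ℝ (dgB8_eta n R) x)‖
        ≤ ‖fderiv ℝ u x‖ + (‖dgB8_eta n R x • -fderiv ℝ u x‖ + ‖(1 - u x) • fderiv ℝ (dgB8_eta n R) x‖) :=
          (norm_add_le _ _).trans (add_le_add le_rfl (norm_add_le _ _))
      _ = ‖fderiv ℝ u x‖ + (|dgB8_eta n R x| * ‖fderiv ℝ u x‖ + |1 - u x| * ‖fderiv ℝ (dgB8_eta n R) x‖) := by
          rw [norm_smul, norm_smul, norm_neg, Real.norm_eq_abs, Real.norm_eq_abs]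
      _ ≤ G + (1 * G + 2 * L) := by
          have a1 : |dgB8_eta n R x| ≤ 1 := by rw [abs_of_nonneg hη0]; exact hη1
          have a2 : |1 - u x| ≤ 2 := by rw [abs_le]; constructor <;> linarith
          have := hG x
          gcongr
      _ = 2 * G + 2 * L := by ring
  have b3 : dgW (u x + dgB8_phi n R u x) ≤ 1 / 4 := by
    apply dgB8_W_le
    · unfold dgB8_phi; nlinarith
    · unfold dgB8_phi; nlinarith
  unfold dgDens
  have b4 : ‖fderiv ℝ (fun y => u y + dgB8_phi n R u y) x‖ ^ 2 ≤ (2 * G + 2 * L) ^ 2 :=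
    pow_le_pow_left₀ (norm_nonneg _) b2 2
  linarith

/-- the energy of the competitor. -/
theorem dgB8_energy_competitor {R G : ℝ} {L : ℝ≥0} (hL : LipschitzWith L dgB8_psi) (hR : 1 ≤ R) {u : DgE n → ℝ}
    (hu : ContDiff ℝ 1 u) (hrange : ∀ x, u x ∈ Set.Icc (-1 : ℝ) 1) (hG : ∀ x, ‖fderiv ℝ u x‖ ≤ G) :
    dgEn n (fun y => u y + dgB8_phi n R u y) 0 R ≤
      ((2 * G + 2 * L) ^ 2 / 2 + 1 / 4) * (volume.real (ball (0 : DgE n) 1) * n) * R ^ (n - 1) := by
  set C₁ : ℝ := (2 * G + 2 * L) ^ 2 / 2 + 1 / 4 with hC₁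
  have hC₁0 : 0 ≤ C₁ := by positivity
  set S : Set (DgE n) := (ball (0 : DgE n) (R - 3 / 4))ᶜ with hS
  have hSm : MeasurableSet S := measurableSet_ball.compl
  have step1 : dgEn n (fun y => u y + dgB8_phi n R u y) 0 R ≤
      ∫ x in ball (0 : DgE n) R, S.indicator (fun _ => C₁) x := by
    unfold dgEn
    refine integral_mono_of_nonneg (Eventually.of_forall fun x => dgB8_dens_nonneg _ x) ?_
      (Eventually.of_forall fun x => ?_)
    · exact (integrableOn_const (by exact measure_ball_lt_top.ne)).indicator hSm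
    · by_cases hx : x ∈ S
      · simp only [indicator_of_mem hx]
        exact dgB8_dens_le hL hR hu hrange hG x
      · simp only [indicator_of_notMem hx]
        rw [hS, mem_compl_iff, not_not] at hx
        exact (dgB8_dens_inner u hx).le
  have step2 : ∫ x in ball (0 : DgE n) R, S.indicator (fun _ => C₁) x =
      volume.real (ball (0 : DgE n) R \ ball (0 : DgE n) (R - 3 / 4)) * C₁ := by
    rw [setIntegral_indicator hSm, setIntegral_const, smul_eq_mul, hS, sdiff_eq]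
  have step3 := dgB8_volume_annulus (n := n) (r := R - 3 / 4) (R := R) (by linarith) (by linarith)
  have hω : 0 ≤ volume.real (ball (0 : DgE n) 1) := measureReal_nonneg
  have hRn : 0 ≤ R ^ (n - 1) := by positivity
  calc dgEn n (fun y => u y + dgB8_phi n R u y) 0 R
      ≤ volume.real (ball (0 : DgE n) R \ ball (0 : DgE n) (R - 3 / 4)) * C₁ := step1.trans step2.le
    _ ≤ (volume.real (ball (0 : DgE n) 1) * (n * R ^ (n - 1) * (R - (R - 3 / 4)))) * C₁ :=
        mul_le_mul_of_nonneg_right step3 hC₁0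
    _ = (3 / 4) * (C₁ * (volume.real (ball (0 : DgE n) 1) * n) * R ^ (n - 1)) := by ring
    _ ≤ C₁ * (volume.real (ball (0 : DgE n) 1) * n) * R ^ (n - 1) := by
        have : 0 ≤ C₁ * (volume.real (ball (0 : DgE n) 1) * n) * R ^ (n - 1) := by positivity
        linarith

/-! ## EXITS -/

/-- **K5 with the gradient bound as a hypothesis** (needs only `C¹`, range and minimality). -/
theorem dgB8_growth_of_grad {u : DgE n → ℝ} (hu : ContDiff ℝ 1 u) (hrange : ∀ x, u x ∈ Set.Icc (-1 : ℝ) 1)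
    (hmin : DgMin n u) {G : ℝ} (hG : ∀ x, ‖fderiv ℝ u x‖ ≤ G) : DgFinDens n u := by
  obtain ⟨L, hL⟩ := dgB8_psi_lip
  refine ⟨((2 * G + 2 * L) ^ 2 / 2 + 1 / 4) * (volume.real (ball (0 : DgE n) 1) * n), fun R hR => ?_⟩
  exact (hmin R (dgB8_phi n R u) (dgB8_phi_contDiff hR hu) (dgB8_phi_compact R u) (dgB8_phi_tsupport R u)).trans
    (dgB8_energy_competitor hL hR hu hrange hG)

/-- K5 from a gradient bound. -/
theorem dgB8_K5 {u : DgE n → ℝ} (hu : DgSol n u) (hmin : DgMin n u) (hgrad : ∃ G : ℝ, ∀ x, ‖fderiv ℝ u x‖ ≤ G) :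
    DgFinDens n u := by
  obtain ⟨G, hG⟩ := hgrad
  exact dgB8_growth_of_grad (hu.smooth.of_le (by norm_num)) hu.range hmin hG

/-- **K5 of the Hub, closed** (verbatim `dgHub_K5`): a minimising solution has surface-order energy growth. -/
theorem dgB8_K5_closed {u : DgE n → ℝ} (hu : DgSol n u) (hmin : DgMin n u) : DgFinDens n u := by
  obtain ⟨C, -, hC⟩ := dgA3_c3 (DgE n)
  exact dgB8_K5 hu hmin ⟨C, (hC u hu.smooth hu.range hu.pde).1⟩

/-- uniform version: the constant of K5 depends only on the dimension. -/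
theorem dgB8_K5_uniform (n : ℕ) : ∃ C : ℝ, ∀ u : DgE n → ℝ, DgSol n u → DgMin n u →
    ∀ R : ℝ, 1 ≤ R → dgEn n u 0 R ≤ C * R ^ (n - 1) := by
  obtain ⟨G, -, hG⟩ := dgA3_c3 (DgE n)
  obtain ⟨L, hL⟩ := dgB8_psi_lip
  refine ⟨((2 * G + 2 * L) ^ 2 / 2 + 1 / 4) * (volume.real (ball (0 : DgE n) 1) * n), fun u hu hmin R hR => ?_⟩
  have hu1 : ContDiff ℝ 1 u := hu.smooth.of_le (by norm_num)
  exact (hmin R (dgB8_phi n R u) (dgB8_phi_contDiff hR hu1) (dgB8_phi_compact R u) (dgB8_phi_tsupport R u)).trans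
    (dgB8_energy_competitor hL hR hu1 hu.range (hG u hu.smooth hu.range hu.pde).1)

end Claimed.Agent.R329
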