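import Claimed.Agent.R329.Defs
import Claimed.Agent.Lib.Gmt.Defs

/-!
# Row 329, post B4 (chief: helper108): recovery sequence, patched comparison, minimality of the blow-down set.  SKELETON.

Source: Proposition 3.3 (`prop:monotone-exact-limit`), second half.   Prefix `dgB4_`.

## END STATE (15 Oct 22:30Z; line of the head of the cell, helper35; comment only)
The six theorems of the section "The leaves" below end in `sorry`: they are the TYPED CONTRACTS of the posts B4.1 ... B4.5, kept in the words in which they were dealt.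
Each of them is PROVED, same statement, under the name of its post:   `dgB4_recovery` = `dgB41_recovery` (`MMrecT.lean`);   `dgB4_patch` = `dgB42_patch` (`MMrecP.lean`);
`dgB4_scale_en`, `dgB4_scale_min` = `dgB43_scale_en`, `dgB43_scale_min` (`MMrecS.lean`);   `dgB4_upper` = `dgB4F_upper` (`MMrecFin.lean`);   `dgB4_min_of_balls` = `dgB45_min_of_balls` (`MMrecM.lean`);
the exit `dgB4_exit_min` = `dgB4F_exit_min` (`MMrecFin.lean`).   `MMtop.lean` and `Hub.lean` cite only the closed names: no contract of this file lies under `dgHub_K1` ... `dgHub_K8`.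

## Definitions
* `dgB4_En n ε w S = ∫_S (ε/2 |∇w|² + W(w)/ε)`: the rescaled energy;  `dgB4_ph F = 2·1_F - 1`: the phase function of a set;
* `dgB4_Min n ε v U`: `v` minimises `dgB4_En n ε · U` among `C¹` perturbations with compact support in `U`;
* `dgB4_rs u ε = u(·/ε)`: the rescaled solution;   `DgBlow n u ε E`: `ε_j ↓ 0`, `u(·/ε_j) → 2·1_E - 1` in `L¹_loc`.

## Leaves (one leaf = one file; table `c6_post`, posts B4.1 ... B4.5)
* B4.1 `dgB4_recovery` (108 himself, `MMrecR.lean`): recovery sequence of SMOOTH functions for ANY set of finite perimeter.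
  OWN PROOF, no coarea formula, no Sard, no smooth hypersurfaces, no tubes:
  `f = ρ_σ * 1_F` (`gmtMol`), `∫_{B_ρ} |∇f| ≤ P(F; B_ρ')`.  For a level `t` let `d_t` = signed distance to `{f = t}` (1-Lipschitz), `d̃_t` its mollification at scale `ε²`
  (smooth, 1-Lipschitz, `|d̃_t - d_t| ≤ ε²`), `w_t = g(d̃_t/ε)`.  Then `dens_ε(w_t) ≤ k_ε(d̃_t)`, `k_ε(s) = g'(s/ε)²/ε` even, decreasing in `|s|`, `∫ k_ε = s₀`.
  POINTWISE: `|d_t(x)| ≥ min(κ, |t - f(x)|/(|∇f(x)| + η))` (mean value inequality + uniform continuity of `∇f`).  So by Tonelli (explicit continuous majorant, no measurability of `d_t` in `t`)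
  `∫_θ^{1-θ} E_ε(w_t; B_ρ) dt ≤ (1+o(1)) ∫_{B_ρ} ( k_ε(κ) + (|∇f| + η) s₀ ) dx`: some level `t ∈ [θ, 1-θ]` is good.  Same majorant for `∫|w_t - sgn(f - t)|`; Chebyshev: `|{f>t} △ F| ≤ θ⁻¹ ∫|f - 1_F|`.
* B4.2 `dgB4_patch` (`MMrecP.lean`): the thin layer interpolation, deterministic, explicit constant 16.
* B4.3 `dgB4_scale_en`, `dgB4_scale_min` (`MMrecS.lean`): scaling.
* B4.4 `dgB4_upper` (`MMrecU.lean`): assembly of the upper bound from B4.1, B4.2, B4.3.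
* B4.5 `dgB4_min_of_balls` (`MMrecM.lean`): from the ball inequalities to `GmtMin univ E` (perimeter measure, continuity radii).
-/

set_option autoImplicit false
open MeasureTheory Metric Set Filter Topology
open Claimed.Agent.Gmt

namespace Claimed.Agent.R329

/-- the surface tension `s₀ = 2√2/3` (`= dgS0` of the hub, by `rfl`). -/
noncomputable def dgB4_s0 : ℝ := 2 * Real.sqrt 2 / 3

/-- the rescaled energy `∫_S (ε/2 |∇w|² + W(w)/ε)`. -/
noncomputable def dgB4_En (n : ℕ) (ε : ℝ) (w : DgE n → ℝ) (S : Set (DgE n)) : ℝ :=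
  ∫ x in S, (ε / 2 * ‖fderiv ℝ w x‖ ^ 2 + dgW (w x) / ε)

/-- the phase function `2·1_F - 1` of a set. -/
noncomputable def dgB4_ph {n : ℕ} (F : Set (DgE n)) (x : DgE n) : ℝ := F.indicator (fun _ => (2 : ℝ)) x - 1

/-- `v` minimises the `ε`-energy in `U` among `C¹` perturbations with compact support in `U`. -/
def dgB4_Min (n : ℕ) (ε : ℝ) (v : DgE n → ℝ) (U : Set (DgE n)) : Prop :=
  ∀ φ : DgE n → ℝ, ContDiff ℝ 1 φ → HasCompactSupport φ → tsupport φ ⊆ U →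
    dgB4_En n ε v U ≤ dgB4_En n ε (fun x => v x + φ x) U

/-- the rescaled function `u(·/ε)`. -/
noncomputable def dgB4_rs {n : ℕ} (u : DgE n → ℝ) (ε : ℝ) (x : DgE n) : ℝ := u (ε⁻¹ • x)

/-- blow-down data: `ε_j ↓ 0` and `u(·/ε_j) → 2·1_E - 1` in `L¹_loc`. -/
structure DgBlow (n : ℕ) (u : DgE n → ℝ) (ε : ℕ → ℝ) (E : Set (DgE n)) : Prop where
  pos : ∀ j, 0 < ε j
  lim : Tendsto ε atTop (𝓝 0)
  meas : MeasurableSet E
  conv : ∀ r : ℝ, Tendsto (fun j => ∫ x in ball (0 : DgE n) r, |dgB4_rs u (ε j) x - dgB4_ph E x|) atTop (𝓝 0)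

/-! ## The leaves   (TYPED CONTRACTS: see END STATE in the header; each is closed under the name of its post) -/

/-- **B4.1 (recovery sequence).** -/
theorem dgB4_recovery {n : ℕ} (hn : 1 ≤ n) {F : Set (DgE n)} (hF : MeasurableSet F) (y : DgE n) {ρ ρ' : ℝ} (hρ : 0 < ρ)
    (hρ' : ρ < ρ') (hfin : gmtP F (ball y ρ') ≠ ⊤) {η : ℝ} (hη : 0 < η) :
    ∃ ε₀ > 0, ∀ ε ∈ Ioo (0 : ℝ) ε₀, ∃ w : DgE n → ℝ, ContDiff ℝ 1 w ∧ (∀ x, w x ∈ Icc (-1 : ℝ) 1) ∧
      ∫ x in ball y ρ, |w x - dgB4_ph F x| ≤ η ∧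
      dgB4_En n ε w (ball y ρ) ≤ dgB4_s0 * (gmtP F (ball y ρ')).toReal + η := by
  sorry

/-- **B4.2 (patched comparison in a thin layer).**  Layers `S_i = {r + iε ≤ |x-y| < r + (i+1)ε}`, `0 ≤ i < L = ⌊δ/ε⌋ - 1`, `L ≥ δ/(2ε)`; `χ_i = ramp((|x-y| - r - iε)/ε)`, `|ramp'| ≤ 2`;
`z = v + (1-χ_i)(w-v)`; `dens(z) ≤ 3(dens w + dens v) + 8|v-w|²/ε` (`√W = (1-s²)/2` is 1-Lipschitz on `[-1,1]`); pigeonhole over `i`. -/
theorem dgB4_patch {n : ℕ} {ε δ r : ℝ} (y : DgE n) {v w : DgE n → ℝ} (hε : 0 < ε) (hr : 0 < r) (hδ : 4 * ε < δ)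
    (hv : ContDiff ℝ 1 v) (hw : ContDiff ℝ 1 w) (hv1 : ∀ x, v x ∈ Icc (-1 : ℝ) 1) (hw1 : ∀ x, w x ∈ Icc (-1 : ℝ) 1)
    (hmin : dgB4_Min n ε v (ball y (r + δ))) :
    dgB4_En n ε v (ball y r) ≤ dgB4_En n ε w (ball y (r + δ)) +
      16 * (ε / δ) * (dgB4_En n ε v (ball y (r + δ) \ ball y r) + dgB4_En n ε w (ball y (r + δ) \ ball y r)) +
      16 / δ * ∫ x in ball y (r + δ) \ ball y r, (v x - w x) ^ 2 := by
  sorry

/-- **B4.3a (scaling of the energy).** -/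
theorem dgB4_scale_en {n : ℕ} (hn : 1 ≤ n) (u : DgE n → ℝ) {ε : ℝ} (hε : 0 < ε) (y : DgE n) (r : ℝ) :
    dgB4_En n ε (dgB4_rs u ε) (ball y r) = ε ^ (n - 1) * dgEn n u (ε⁻¹ • y) (ε⁻¹ * r) := by
  sorry

/-- **B4.3b (scaling of minimality).** -/
theorem dgB4_scale_min {n : ℕ} (hn : 1 ≤ n) {u : DgE n → ℝ} (hu : ContDiff ℝ 1 u) (hmin : DgMin n u) {ε : ℝ} (hε : 0 < ε)
    (y : DgE n) (r : ℝ) : dgB4_Min n ε (dgB4_rs u ε) (ball y r) := by
  sorry

/-- **B4.4 = EXIT 1 (the upper bound (3.13) of the paper).**  `F = E` is allowed. -/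
theorem dgB4_upper {n : ℕ} (hn : 1 ≤ n) {u : DgE n → ℝ} (hu : DgSol n u) (hmin : DgMin n u) (hfd : DgFinDens n u)
    {ε : ℕ → ℝ} {E : Set (DgE n)} (hB : DgBlow n u ε E) (y : DgE n) {r δ : ℝ} (hr : 0 < r) (hδ : 0 < δ)
    {F : Set (DgE n)} (hF : MeasurableSet F) (hFE : ∀ x ∈ ball y (r + δ) \ ball y r, (x ∈ F ↔ x ∈ E))
    (hfin : gmtP F (ball y (r + δ)) ≠ ⊤) {η : ℝ} (hη : 0 < η) :
    ∀ᶠ j in atTop, dgB4_En n (ε j) (dgB4_rs u (ε j)) (ball y r) ≤
      dgB4_s0 * (gmtP F (ball y (r + δ))).toReal + η := by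
  sorry

/-- **B4.5 (from balls to `GmtMin`).**  Pure geometric measure theory (no Allen-Cahn): a set of locally finite perimeter with `P(E; B_r) ≤ P(F; B_{r+δ})` for all centred balls and all
`F` which agree with `E` off `B_r` is a perimeter minimiser. -/
theorem dgB4_min_of_balls {n : ℕ} {E : Set (DgE n)} (hE : MeasurableSet E)
    (hfin : ∀ r : ℝ, gmtP E (ball (0 : DgE n) r) ≠ ⊤)
    (h : ∀ (r δ : ℝ) (F : Set (DgE n)), 0 < r → 0 < δ → MeasurableSet F → (∀ x ∉ ball (0 : DgE n) r, (x ∈ F ↔ x ∈ E)) →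
      gmtP F (ball (0 : DgE n) (r + δ)) ≠ ⊤ → gmtP E (ball (0 : DgE n) r) ≤ gmtP F (ball (0 : DgE n) (r + δ))) :
    GmtMin univ E := by
  sorry

/-! ## EXITS -/

/-- **EXIT 2: the blow-down set is a perimeter minimiser.**  `hlow` = the exit of post B3 (liminf inequality on balls). -/
theorem dgB4_exit_min {n : ℕ} (hn : 1 ≤ n) {u : DgE n → ℝ} (hu : DgSol n u) (hmin : DgMin n u) (hfd : DgFinDens n u)
    {ε : ℕ → ℝ} {E : Set (DgE n)} (hB : DgBlow n u ε E)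
    (hfin : ∀ r : ℝ, gmtP E (ball (0 : DgE n) r) ≠ ⊤)
    (hlow : ∀ r : ℝ, 0 < r → ∀ η : ℝ, 0 < η → ∀ᶠ j in atTop,
      dgB4_s0 * (gmtP E (ball (0 : DgE n) r)).toReal - η ≤ dgB4_En n (ε j) (dgB4_rs u (ε j)) (ball 0 r)) :
    GmtMin univ E := by
  have hs0 : 0 < dgB4_s0 := by unfold dgB4_s0; positivity
  refine dgB4_min_of_balls hB.meas hfin fun r δ F hr hδ hF hFE hFfin => ?_
  rw [← ENNReal.toReal_le_toReal (hfin r) hFfin]
  refine le_of_forall_pos_le_add fun η hη => ?_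
  have hη' : 0 < dgB4_s0 * η / 2 := by positivity
  have h1 := hlow r hr _ hη'
  have h2 := dgB4_upper hn hu hmin hfd hB 0 hr hδ hF (fun x hx => hFE x hx.2) hFfin hη'
  obtain ⟨j, hj1, hj2⟩ := (h1.and h2).exists
  have h3 : dgB4_s0 * (gmtP E (ball (0 : DgE n) r)).toReal ≤
      dgB4_s0 * ((gmtP F (ball (0 : DgE n) (r + δ))).toReal + η) := by linarith
  exact le_of_mul_le_mul_left h3 hs0

end Claimed.Agent.R329
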