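import Claimed.Agent.R329.MMlow
import Claimed.Agent.R329.MMrec
import Claimed.Agent.Lib.Gmt.GgConvA

/-!
# Row 329, post B3.G: the glue between B3 (`MMlow.lean`), B4 (`MMrec.lean`) and B5 (`Cone.lean`).   (pen: helper78)

* `dgB3g_limsup_compact`: portmanteau from centred balls (pure measure theory);
* `dgB3g_blow`: the blow-down data of B4 (`DgBlow`), finiteness of the perimeter and the lower bound `hlow` in the words of
  `dgB4_exit_min`;
* `dgB3g_exact`: `DgSol → DgMin → DgFinDens →` the interface `DgB5Exact` of B5, unfolded; the two exits of B4 (`dgB4_upper`,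
  `dgB4_exit_min`) enter as hypotheses in their exact words.
-/

set_option autoImplicit false
open scoped ENNReal Topology
open MeasureTheory Metric Set Filter
open Claimed.Agent.Gmt

namespace Claimed.Agent.R329

/-- **Portmanteau from centred balls.**  Lower bound on open sets and upper bound on centred balls (with room `δ`) give the upper
bound on compact sets. -/
theorem dgB3g_limsup_compact {m : ℕ} {μ : ℕ → Measure (DgE m)} {μ' : Measure (DgE m)}
    (hfin : ∀ r : ℝ, μ' (ball 0 r) ≠ ⊤)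
    (hl : ∀ W : Set (DgE m), IsOpen W → μ' W ≤ liminf (fun i => μ i W) atTop)
    (hb : ∀ r δ : ℝ, 0 < r → 0 < δ → limsup (fun i => μ i (ball 0 r)) atTop ≤ μ' (ball 0 (r + δ)))
    {K : Set (DgE m)} (hK : IsCompact K) : limsup (fun i => μ i K) atTop ≤ μ' K := by
  obtain ⟨r₀, hr₀pos, hr₀⟩ : ∃ r₀ > 0, K ⊆ ball (0 : DgE m) r₀ := by
    obtain ⟨r, hr⟩ := hK.isBounded.subset_ball (0 : DgE m)
    exact ⟨max r 1, by positivity, hr.trans (ball_subset_ball (le_max_left _ _))⟩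
  let f : ℝ → ℝ≥0∞ := fun ρ => μ' (ball 0 ρ)
  have hf : Monotone f := fun a b hab => measure_mono (ball_subset_ball hab)
  obtain ⟨ρ, hρc, hρ⟩ : ∃ ρ, ContinuousAt f ρ ∧ ρ ∈ Ioo r₀ (r₀ + 1) := by
    obtain ⟨ρ, h1, h2⟩ := (hf.countable_not_continuousAt.dense_compl ℝ).exists_mem_open
      (isOpen_Ioo (a := r₀) (b := r₀ + 1)) ⟨r₀ + 1 / 2, by constructor <;> linarith⟩
    exact ⟨ρ, not_not.1 h1, h2⟩
  have hρpos : 0 < ρ := hr₀pos.trans hρ.1
  have hKρ : K ⊆ ball (0 : DgE m) ρ := hr₀.trans (ball_subset_ball hρ.1.le)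
  refine ENNReal.le_of_forall_pos_le_add fun ε hε _ => ?_
  set e : ℝ≥0∞ := (ε : ℝ≥0∞) / 3 with he
  have he0 : e ≠ 0 := by
    rw [he]
    exact (ENNReal.div_pos (by exact_mod_cast hε.ne') (by norm_num)).ne'
  have hetop : e ≠ ⊤ := ENNReal.div_ne_top ENNReal.coe_ne_top (by norm_num)
  have he3 : e + e + e = ε := by
    rw [he, ← ENNReal.add_div, ← ENNReal.add_div]
    rw [show (ε : ℝ≥0∞) + ε + ε = ε * 3 by ring]
    exact ENNReal.mul_div_cancel_right (by norm_num) (by norm_num)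
  obtain ⟨δ, hδ, hfδ⟩ : ∃ δ > 0, f (ρ + δ) < f ρ + e := by
    have h1 : ∀ᶠ t in 𝓝 ρ, f t < f ρ + e :=
      Tendsto.eventually_lt_const (ENNReal.lt_add_right (hfin ρ) he0) hρc
    obtain ⟨d, hd, hd'⟩ := Metric.eventually_nhds_iff.1 h1
    refine ⟨d / 2, by positivity, hd' ?_⟩
    rw [Real.dist_eq, add_sub_cancel_left, abs_of_pos (by positivity)]
    linarith
  set W : Set (DgE m) := ball 0 ρ \ K with hW
  have hWo : IsOpen W := isOpen_ball.sdiff hK.isClosed
  have hW' : μ' W ≠ ⊤ := ne_top_of_le_ne_top (hfin ρ) (measure_mono sdiff_subset)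
  have e1 : ∀ᶠ i in atTop, μ i (ball 0 ρ) < f (ρ + δ) + e :=
    eventually_lt_of_limsup_lt (lt_of_le_of_lt (hb ρ δ hρpos hδ)
      (ENNReal.lt_add_right (hfin _) he0))
  have e2 : ∀ᶠ i in atTop, μ' W ≤ μ i W + e := by
    by_cases h0 : μ' W = 0
    · exact Eventually.of_forall fun i => by rw [h0]; exact zero_le
    · have h1 : μ' W - e < liminf (fun i => μ i W) atTop :=
        lt_of_lt_of_le (ENNReal.sub_lt_self hW' h0 he0) (hl W hWo)
      filter_upwards [eventually_lt_of_lt_liminf h1] with i hi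
      calc μ' W ≤ μ' W - e + e := le_tsub_add
        _ ≤ μ i W + e := by gcongr
  refine limsup_le_of_le (h := ?_)
  filter_upwards [e1, e2] with i h1 h2
  have hsplit : ∀ ν : Measure (DgE m), ν K + ν W = ν (ball 0 ρ) := fun ν => by
    rw [hW, measure_add_sdiff hK.measurableSet.nullMeasurableSet, union_eq_self_of_subset_left hKρ]
  have hWfin : μ i W ≠ ⊤ :=
    ne_top_of_le_ne_top (ne_top_of_lt h1) (measure_mono sdiff_subset)
  have h3 : μ i K + μ i W ≤ μ' K + ε + μ i W := by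
    calc μ i K + μ i W = μ i (ball 0 ρ) := hsplit _
      _ ≤ f (ρ + δ) + e := h1.le
      _ ≤ f ρ + e + e := by gcongr
      _ = μ' K + μ' W + e + e := by rw [hsplit μ']
      _ ≤ μ' K + (μ i W + e) + e + e := by gcongr
      _ = μ' K + (e + e + e) + μ i W := by ring
      _ = μ' K + ε + μ i W := by rw [he3]
  exact (ENNReal.add_le_add_iff_right hWfin).1 h3


/-! ## the dictionary between the notations of B3, B4 and B5 -/

theorem dgB3g_rs_inv {n : ℕ} (u : DgE n → ℝ) (R : ℝ) : dgB4_rs u R⁻¹ = fun x => u (R • x) := by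
  funext x
  unfold dgB4_rs
  rw [inv_inv]

theorem dgB3g_ph {n : ℕ} (S : Set (DgE n)) (x : DgE n) : dgB4_ph S x = 2 * gmtChi S x - 1 := by
  unfold dgB4_ph gmtChi
  by_cases h : x ∈ S <;> simp [h]

theorem dgB3g_En {n : ℕ} (u : DgE n → ℝ) {R : ℝ} (hR : 0 < R) (B : Set (DgE n)) :
    dgB4_En n R⁻¹ (dgB4_rs u R⁻¹) B = ∫ x in B, R * dgDens n u (R • x) := by
  unfold dgB4_En
  rw [dgB3g_rs_inv]
  refine integral_congr_ae (Eventually.of_forall fun x => ?_)
  show R⁻¹ / 2 * ‖fderiv ℝ (fun x => u (R • x)) x‖ ^ 2 + dgW (u (R • x)) / R⁻¹ = R * dgDens n u (R • x)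
  rw [← dgB3_dens_scale hR u x]
  unfold dgB3_dens
  ring

theorem dgB3g_integrableOn {n : ℕ} {u : DgE n → ℝ} (hu : ContDiff ℝ 1 u) (R : ℝ) (y : DgE n) (r : ℝ) :
    IntegrableOn (fun x : DgE n => R * dgDens n u (R • x)) (ball y r) := by
  have hc : Continuous fun x : DgE n => R * dgDens n u (R • x) := by
    have := dgB3_continuous_dgDens hu
    fun_prop
  exact (hc.continuousOn.integrableOn_compact (isCompact_closedBall y r)).mono_set ball_subset_closedBall

theorem dgB3g_lintegral {n : ℕ} {u : DgE n → ℝ} (hu : ContDiff ℝ 1 u) {R : ℝ} (hR : 0 < R) (y : DgE n) (r : ℝ) :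
    ∫⁻ x in ball y r, ENNReal.ofReal (R * dgDens n u (R • x))
      = ENNReal.ofReal (dgB4_En n R⁻¹ (dgB4_rs u R⁻¹) (ball y r)) := by
  rw [dgB3g_En u hR, ofReal_integral_eq_lintegral_ofReal (dgB3g_integrableOn hu R y r)
    (Eventually.of_forall fun x => mul_nonneg hR.le (dgB3_dgDens_nonneg u _))]

theorem dgB3g_En_nonneg {n : ℕ} (u : DgE n → ℝ) {R : ℝ} (hR : 0 < R) (B : Set (DgE n)) :
    0 ≤ dgB4_En n R⁻¹ (dgB4_rs u R⁻¹) B := by
  rw [dgB3g_En u hR]
  exact integral_nonneg fun x => mul_nonneg hR.le (dgB3_dgDens_nonneg u _)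

/-- from `L¹_loc` convergence in the sense of `Lib/Gmt` to convergence of the Bochner integrals on bounded measurable sets. -/
theorem dgB3g_conv_integral {n : ℕ} {w : ℕ → DgE n → ℝ} {w' : DgE n → ℝ}
    (hw : ∀ i, Measurable (w i)) (hw' : Measurable w') (h : GmtConvF univ w w')
    {A K : Set (DgE n)} (hK : IsCompact K) (hAK : A ⊆ K) :
    Tendsto (fun j => ∫ x in A, |w j x - w' x|) atTop (𝓝 0) := by
  have h1 := h K hK (subset_univ _)
  have h2 : Tendsto (fun j => (∫⁻ x in K, ‖w j x - w' x‖ₑ).toReal) atTop (𝓝 0) := by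
    have := (ENNReal.tendsto_toReal ENNReal.zero_ne_top).comp h1
    simpa [Function.comp_def] using this
  have hev : ∀ᶠ j in atTop, ∫⁻ x in K, ‖w j x - w' x‖ₑ < 1 := h1.eventually_lt_const one_pos
  refine tendsto_of_tendsto_of_tendsto_of_le_of_le' tendsto_const_nhds h2
    (Eventually.of_forall fun j => integral_nonneg fun x => abs_nonneg _) ?_
  filter_upwards [hev] with j hj
  have e : ∫ x in A, |w j x - w' x| = (∫⁻ x in A, ‖w j x - w' x‖ₑ).toReal := by
    have := integral_norm_eq_lintegral_enorm (μ := volume.restrict A)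
      (f := fun x => w j x - w' x) ((hw j).sub hw').aestronglyMeasurable
    simpa only [Real.norm_eq_abs] using this
  rw [e]
  exact ENNReal.toReal_mono (ne_top_of_lt hj) (lintegral_mono_set hAK)


/-! ## EXITS -/

/-- **EXIT (a), (b), (c) for B4**: blow-down data in the words of `MMrec.lean`. -/
theorem dgB3g_blow {n : ℕ} (hn : 1 ≤ n) {u : DgE n → ℝ} (hu : DgSol n u) (hd : DgFinDens n u)
    {R : ℕ → ℝ} (hR : Tendsto R atTop atTop) :
    ∃ (φ : ℕ → ℕ) (S : Set (DgE n)), StrictMono φ ∧ (∀ j, 0 < R (φ j)) ∧ GmtLF S univ ∧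
      DgBlow n u (fun j => (R (φ j))⁻¹) S ∧
      (∀ r : ℝ, gmtP S (ball (0 : DgE n) r) ≠ ⊤) ∧
      (∀ r : ℝ, 0 < r → ∀ η : ℝ, 0 < η → ∀ᶠ j in atTop,
        dgB4_s0 * (gmtP S (ball (0 : DgE n) r)).toReal - η ≤
          dgB4_En n (R (φ j))⁻¹ (dgB4_rs u (R (φ j))⁻¹) (ball 0 r)) ∧
      (∀ K : Set (DgE n), IsCompact K → Tendsto (fun j => ∫ x in K,
        |u (R (φ j) • x) - (2 * S.indicator (fun _ => (1 : ℝ)) x - 1)|) atTop (𝓝 0)) ∧
      (∀ᵐ x, Tendsto (fun j => u (R (φ j) • x)) atTop (𝓝 (2 * S.indicator (fun _ => (1 : ℝ)) x - 1))) ∧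
      (∀ U : Set (DgE n), IsOpen U → ENNReal.ofReal (2 * Real.sqrt 2 / 3) * gmtP S U ≤
        liminf (fun j => ∫⁻ x in U, ENNReal.ofReal (R (φ j) * dgDens n u (R (φ j) • x))) atTop) := by
  have hu1 : ContDiff ℝ 1 u := hu.smooth.of_le (by norm_num)
  obtain ⟨N, hN⟩ := eventually_atTop.1 (hR.eventually_gt_atTop 0)
  obtain ⟨φ, S, hφ, hS, hLF, hconv, hae, hlow, -⟩ := dgB3_blowdown hn hu hd
    (R := fun i => R (i + N)) (fun i => hN _ (Nat.le_add_left _ _))
    (hR.comp (tendsto_add_atTop_nat N))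
  have hpos : ∀ j, 0 < R (φ j + N) := fun j => hN _ (Nat.le_add_left _ _)
  have hfin : ∀ r : ℝ, gmtP S (ball (0 : DgE n) r) ≠ ⊤ := fun r =>
    hLF.2 _ ⟨isOpen_ball, (isCompact_closedBall (0 : DgE n) r).of_isClosed_subset isClosed_closure
      closure_ball_subset_closedBall, subset_univ _⟩
  have hwm : ∀ j, Measurable fun x : DgE n => u (R (φ j + N) • x) := fun j =>
    (hu1.continuous.comp (continuous_const_smul _)).measurable
  have hchim : Measurable fun x : DgE n => 2 * gmtChi S x - 1 :=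
    ((measurable_const.indicator hS).const_mul 2).sub_const 1
  refine ⟨fun j => φ j + N, S, fun a b hab => Nat.add_lt_add_right (hφ hab) N, hpos, hLF,
    ⟨fun j => inv_pos.2 (hpos j), ?_, hS, fun r => ?_⟩, hfin, fun r hr η hη => ?_, fun K hK => ?_,
    hae, hlow⟩
  · exact tendsto_inv_atTop_zero.comp (hR.comp
      (tendsto_atTop_mono (fun j => Nat.le_add_right _ _) hφ.tendsto_atTop))
  · simp_rw [dgB3g_rs_inv, dgB3g_ph]
    exact dgB3g_conv_integral hwm hchim hconv (isCompact_closedBall (0 : DgE n) r)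
      ball_subset_closedBall
  · have h1 := hlow (ball 0 r) isOpen_ball
    simp_rw [dgB3g_lintegral hu1 (hpos _)] at h1
    set P := (gmtP S (ball (0 : DgE n) r)).toReal with hP
    have hs0 : 0 < dgB4_s0 := by unfold dgB4_s0; positivity
    have e : ENNReal.ofReal (2 * Real.sqrt 2 / 3) * gmtP S (ball (0 : DgE n) r)
        = ENNReal.ofReal (dgB4_s0 * P) := by
      rw [ENNReal.ofReal_mul hs0.le, hP, ENNReal.ofReal_toReal (hfin r)]
      rfl
    rw [e] at h1
    by_cases hneg : dgB4_s0 * P - η < 0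
    · exact Eventually.of_forall fun j => hneg.le.trans (dgB3g_En_nonneg u (hpos j) _)
    · have hpos' : 0 < dgB4_s0 * P := by linarith [not_lt.1 hneg]
      have h2 : ENNReal.ofReal (dgB4_s0 * P - η) < ENNReal.ofReal (dgB4_s0 * P) :=
        (ENNReal.ofReal_lt_ofReal_iff hpos').2 (by linarith)
      filter_upwards [eventually_lt_of_lt_liminf (lt_of_lt_of_le h2 h1)] with j hj
      exact (ENNReal.ofReal_lt_ofReal_iff'.1 hj).1.le
  · exact dgB3g_conv_integral hwm hchim hconv hK subset_rfl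


/-- **EXIT for B5: Proposition 3.3 in the form `DgB5Exact n u` of `Cone.lean`, unfolded.**  `hupper`, `hminE` are the two exits of B4
(`dgB4_upper hn hu hmin hfd`, `dgB4_exit_min hn hu hmin hfd`) in their exact words. -/
theorem dgB3g_exact {n : ℕ} (hn : 1 ≤ n) {u : DgE n → ℝ} (hu : DgSol n u) (hd : DgFinDens n u)
    (hupper : ∀ (ε : ℕ → ℝ) (E : Set (DgE n)), DgBlow n u ε E → ∀ (y : DgE n) (r δ : ℝ), 0 < r → 0 < δ →
      ∀ F : Set (DgE n), MeasurableSet F → (∀ x ∈ ball y (r + δ) \ ball y r, (x ∈ F ↔ x ∈ E)) →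
      gmtP F (ball y (r + δ)) ≠ ⊤ → ∀ η : ℝ, 0 < η →
      ∀ᶠ j in atTop, dgB4_En n (ε j) (dgB4_rs u (ε j)) (ball y r) ≤
        dgB4_s0 * (gmtP F (ball y (r + δ))).toReal + η)
    (hminE : ∀ (ε : ℕ → ℝ) (E : Set (DgE n)), DgBlow n u ε E →
      (∀ r : ℝ, gmtP E (ball (0 : DgE n) r) ≠ ⊤) →
      (∀ r : ℝ, 0 < r → ∀ η : ℝ, 0 < η → ∀ᶠ j in atTop,
        dgB4_s0 * (gmtP E (ball (0 : DgE n) r)).toReal - η ≤
          dgB4_En n (ε j) (dgB4_rs u (ε j)) (ball 0 r)) → GmtMin univ E) :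
    ∀ R : ℕ → ℝ, Tendsto R atTop atTop → ∃ (φ : ℕ → ℕ) (S : Set (DgE n)), StrictMono φ ∧ GmtMin univ S ∧
      (∀ K : Set (DgE n), IsCompact K → Tendsto (fun j => ∫ x in K,
        |u (R (φ j) • x) - (2 * S.indicator (fun _ => (1 : ℝ)) x - 1)|) atTop (𝓝 0)) ∧
      GmtWk univ (fun j => (volume : Measure (DgE n)).withDensity
          fun x => ENNReal.ofReal (R (φ j) * dgDens n u (R (φ j) • x)))
        (ENNReal.ofReal (2 * Real.sqrt 2 / 3) • gmtMu S) := by
  intro R hR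
  have hu1 : ContDiff ℝ 1 u := hu.smooth.of_le (by norm_num)
  obtain ⟨φ, S, hφ, hpos, hLF, hB, hfin, hlow, hL1, -, hliminf⟩ := dgB3g_blow hn hu hd hR
  refine ⟨φ, S, hφ, hminE _ S hB hfin hlow, hL1, ?_⟩
  have hs0 : 0 < dgB4_s0 := by unfold dgB4_s0; positivity
  have hμ' : ∀ W : Set (DgE n), IsOpen W →
      (ENNReal.ofReal (2 * Real.sqrt 2 / 3) • gmtMu S) W = ENNReal.ofReal (2 * Real.sqrt 2 / 3) * gmtP S W :=
    fun W hW => by rw [Measure.smul_apply, gmtMu_open S hW, smul_eq_mul]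
  have hfin' : ∀ r : ℝ, (ENNReal.ofReal (2 * Real.sqrt 2 / 3) • gmtMu S) (ball (0 : DgE n) r) ≠ ⊤ := fun r => by
    rw [hμ' _ isOpen_ball]
    exact ENNReal.mul_ne_top ENNReal.ofReal_ne_top (hfin r)
  have hl : ∀ W : Set (DgE n), IsOpen W → (ENNReal.ofReal (2 * Real.sqrt 2 / 3) • gmtMu S) W ≤
      liminf (fun j => ((volume : Measure (DgE n)).withDensity
          fun x => ENNReal.ofReal (R (φ j) * dgDens n u (R (φ j) • x))) W) atTop := by
    intro W hW
    rw [hμ' W hW]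
    simp_rw [withDensity_apply _ hW.measurableSet]
    exact hliminf W hW
  have hb : ∀ r δ : ℝ, 0 < r → 0 < δ → limsup (fun j => ((volume : Measure (DgE n)).withDensity
        fun x => ENNReal.ofReal (R (φ j) * dgDens n u (R (φ j) • x))) (ball 0 r)) atTop ≤
      (ENNReal.ofReal (2 * Real.sqrt 2 / 3) • gmtMu S) (ball 0 (r + δ)) := by
    intro r δ hr hδ
    rw [hμ' _ isOpen_ball]
    simp_rw [withDensity_apply _ (isOpen_ball (x := (0 : DgE n)) (ε := r)).measurableSet,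
      dgB3g_lintegral hu1 (hpos _)]
    refine ENNReal.le_of_forall_pos_le_add fun η hη _ => ?_
    refine limsup_le_of_le (h := ?_)
    filter_upwards [hupper _ S hB 0 r δ hr hδ S hB.meas (fun x _ => Iff.rfl) (hfin _) η
      (by exact_mod_cast hη)] with j hj
    calc ENNReal.ofReal (dgB4_En n (R (φ j))⁻¹ (dgB4_rs u (R (φ j))⁻¹) (ball 0 r))
        ≤ ENNReal.ofReal (dgB4_s0 * (gmtP S (ball (0 : DgE n) (r + δ))).toReal + η) :=
          ENNReal.ofReal_le_ofReal hj
      _ = ENNReal.ofReal (2 * Real.sqrt 2 / 3) * gmtP S (ball (0 : DgE n) (r + δ)) + η := by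
          rw [ENNReal.ofReal_add (by positivity) (by positivity), ENNReal.ofReal_mul hs0.le,
            ENNReal.ofReal_toReal (hfin _), ENNReal.ofReal_coe_nnreal]
          rfl
  refine gmt_portmanteau isOpen_univ (fun K hK _ => ?_) (fun W hW _ => hl W hW)
    (fun K hK _ => dgB3g_limsup_compact hfin' hl hb hK)
  rw [Measure.smul_apply, smul_eq_mul]
  exact ENNReal.mul_ne_top ENNReal.ofReal_ne_top (gmtMu_compact_ne_top isOpen_univ hLF hK (subset_univ _))

end Claimed.Agent.R329
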