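/-
Row 329 (S0587, S0588), cell C6, post B2 (pen: helper138).   Lemma 3.2 of the paper (`lem:monotone-minimizer`) = contract K4 of the Hub:
a solution which is strictly monotone in a direction `e` and whose two limits `a₋ < u < a₊` along `e` are global minimisers is a
global minimiser.

ROAD (no direct method, no Sobolev or Lipschitz class, no mollification, no sliding: EVERY competitor stays `C¹`).
 1. FIELD (Field.lean of helper268: `dgF_…`).  A `C¹` competitor `u + φ` which lies pointwise strictly between two translates of `u`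
    has at least the energy of `u` (extremal field identity + implicit function theorem).   Here: `dgB2_min_between`.
 2. SOFT CLIPPING (this file).   `T_δ(z) = δ θ(z/δ)`, `θ(z) = z - ((z+2)₊)²/4 + (z₊)²/4`, is a `C¹` version of `min(z,0)`:
    `T_δ' ∈ [0,1]`, `T_δ(z) = z` for `z ≤ -2δ`, `T_δ = -δ` for `z ≥ 0`, `min(z,0) - δ ≤ T_δ ≤ min(z,0)`.
    With `z = w - a`, `m = a + T_δ(z)`, `M = w - T_δ(z)` (inside the ball; `M - a` has compact support because `w ≤ a - 2δ` near the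
    boundary):  `|∇m|² + |∇M|² ≤ |∇w|² + |∇a|²` (convexity of the square of the norm), `W(m) + W(M) ≤ W(w) + W(a) + C δ`.
    `a` minimises, so `E(m) ≤ E(w) + C δ`, and `m ≤ a - δ`.   `dgB2_clip`.
 3. The same from below (`W` is even), then 1., then `δ → 0`.
-/
import Claimed.Agent.R329.Defs
import Claimed.Agent.R329.Field

set_option autoImplicit false

open MeasureTheory Metric Set Filter Topology

namespace Claimed.Agent.R329

noncomputable section

/-! ## 1. The soft minimum -/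

/-- `(s₊)²` is differentiable with derivative `2 s₊`. -/
theorem dgB2_hasDerivAt_sqpos (s : ℝ) : HasDerivAt (fun t : ℝ => (max t 0) ^ 2) (2 * max s 0) s := by
  rcases lt_trichotomy s 0 with hs | hs | hs
  · have h1 : (fun t : ℝ => (max t 0) ^ 2) =ᶠ[𝓝 s] fun _ => (0 : ℝ) := by
      filter_upwards [Iio_mem_nhds hs] with t ht
      have ht' : t < 0 := ht
      rw [max_eq_right ht'.le]; norm_num
    have h2 : HasDerivAt (fun _ : ℝ => (0 : ℝ)) (2 * max s 0) s := by
      rw [max_eq_right hs.le]; simpa using hasDerivAt_const s (0 : ℝ)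
    exact h2.congr_of_eventuallyEq h1
  · subst hs
    rw [hasDerivAt_iff_isLittleO_nhds_zero, Asymptotics.isLittleO_iff]
    intro c hc
    have : ∀ᶠ h : ℝ in 𝓝 0, |h| < c := by
      have := (continuous_abs.tendsto (0 : ℝ)).eventually (Iio_mem_nhds (by simpa using hc))
      simpa using this
    filter_upwards [this] with h hh
    simp only [zero_add, max_self, smul_eq_mul, mul_zero, sub_zero, Real.norm_eq_abs]
    have h1 : |max h 0| ≤ |h| := by
      rcases le_total h 0 with h0 | h0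
      · rw [max_eq_right h0]; simp
      · rw [max_eq_left h0]
    have h0 : (0:ℝ) ^ 2 = 0 := by norm_num
    rw [h0, sub_zero, abs_pow, sq]
    exact mul_le_mul (h1.trans hh.le) h1 (abs_nonneg _) hc.le
  · have h1 : (fun t : ℝ => (max t 0) ^ 2) =ᶠ[𝓝 s] fun t => t ^ 2 := by
      filter_upwards [Ioi_mem_nhds hs] with t ht
      have ht' : 0 < t := ht
      rw [max_eq_left ht'.le]
    have h2 : HasDerivAt (fun t : ℝ => t ^ 2) (2 * max s 0) s := by
      rw [max_eq_left hs.le]; simpa using hasDerivAt_pow 2 s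
    exact h2.congr_of_eventuallyEq h1

/-- the soft minimum at scale one: a `C¹` version of `min z 0 - 1 ≤ · ≤ min z (-1)`. -/
def dgB2_th (z : ℝ) : ℝ := z - (max (z + 2) 0) ^ 2 / 4 + (max z 0) ^ 2 / 4

/-- its derivative -/
def dgB2_thd (z : ℝ) : ℝ := 1 - max (z + 2) 0 / 2 + max z 0 / 2

theorem dgB2_th_hasDerivAt (z : ℝ) : HasDerivAt dgB2_th (dgB2_thd z) z := by
  have h1 : HasDerivAt (fun t : ℝ => (max (t + 2) 0) ^ 2) (2 * max (z + 2) 0) z := by
    have := (dgB2_hasDerivAt_sqpos (z + 2)).comp z ((hasDerivAt_id z).add_const 2)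
    simpa [Function.comp_def] using this
  have h2 := dgB2_hasDerivAt_sqpos z
  have h3 := ((hasDerivAt_id z).sub (h1.div_const 4)).add (h2.div_const 4)
  refine (h3.congr_deriv ?_)
  unfold dgB2_thd; ring

theorem dgB2_thd_continuous : Continuous dgB2_thd := by
  unfold dgB2_thd; fun_prop

theorem dgB2_thd_nonneg (z : ℝ) : 0 ≤ dgB2_thd z := by
  unfold dgB2_thd
  rcases le_total (z + 2) 0 with h1 | h1 <;> rcases le_total z 0 with h2 | h2 <;>
    simp only [max_eq_left, max_eq_right, h1, h2] <;> linarith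

theorem dgB2_thd_le_one (z : ℝ) : dgB2_thd z ≤ 1 := by
  unfold dgB2_thd
  rcases le_total (z + 2) 0 with h1 | h1 <;> rcases le_total z 0 with h2 | h2 <;>
    simp only [max_eq_left, max_eq_right, h1, h2] <;> linarith

theorem dgB2_th_of_le {z : ℝ} (hz : z ≤ -2) : dgB2_th z = z := by
  unfold dgB2_th
  rw [max_eq_right (by linarith : z + 2 ≤ 0), max_eq_right (by linarith : z ≤ 0)]; ring

theorem dgB2_th_le_neg_one (z : ℝ) : dgB2_th z ≤ -1 := by
  unfold dgB2_th
  rcases le_total (z + 2) 0 with h1 | h1 <;> rcases le_total z 0 with h2 | h2 <;>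
    simp only [max_eq_left, max_eq_right, h1, h2] <;> nlinarith

theorem dgB2_th_le (z : ℝ) : dgB2_th z ≤ z := by
  unfold dgB2_th
  rcases le_total (z + 2) 0 with h1 | h1 <;> rcases le_total z 0 with h2 | h2 <;>
    simp only [max_eq_left, max_eq_right, h1, h2] <;> nlinarith

/-- `z - 1 ≤ θ(z)` for `z ≤ 0` -/
theorem dgB2_th_ge_of_nonpos {z : ℝ} (hz : z ≤ 0) : z - 1 ≤ dgB2_th z := by
  unfold dgB2_th
  rcases le_total (z + 2) 0 with h1 | h1 <;>
    simp only [max_eq_left, max_eq_right, h1, hz] <;> nlinarith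

/-- `θ(z) = -1` for `z ≥ 0` -/
theorem dgB2_th_of_nonneg {z : ℝ} (hz : 0 ≤ z) : dgB2_th z = -1 := by
  unfold dgB2_th
  rw [max_eq_left (by linarith : 0 ≤ z + 2), max_eq_left hz]; ring

/-- `-2 ≤ θ(z)` for `z ≥ -2` -/
theorem dgB2_th_ge_neg_two {z : ℝ} (hz : -2 ≤ z) : -2 ≤ dgB2_th z := by
  unfold dgB2_th
  rcases le_total z 0 with h2 | h2 <;>
    simp only [max_eq_left, max_eq_right, h2, (by linarith : 0 ≤ z + 2)] <;> nlinarith

/-- the soft minimum at scale `δ` -/
def dgB2_T (δ z : ℝ) : ℝ := δ * dgB2_th (z / δ)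

theorem dgB2_T_hasDerivAt {δ : ℝ} (hδ : 0 < δ) (z : ℝ) : HasDerivAt (dgB2_T δ) (dgB2_thd (z / δ)) z := by
  have h1 : HasDerivAt (fun t : ℝ => t / δ) (1 / δ) z := (hasDerivAt_id z).div_const δ
  have h2 := ((dgB2_th_hasDerivAt (z / δ)).comp z h1).const_mul δ
  refine h2.congr_deriv ?_
  field_simp

theorem dgB2_T_contDiff {δ : ℝ} (hδ : 0 < δ) : ContDiff ℝ 1 (dgB2_T δ) := by
  rw [contDiff_one_iff_deriv]
  refine ⟨fun z => (dgB2_T_hasDerivAt hδ z).differentiableAt, ?_⟩
  have : deriv (dgB2_T δ) = fun z => dgB2_thd (z / δ) := funext fun z => (dgB2_T_hasDerivAt hδ z).deriv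
  rw [this]
  exact dgB2_thd_continuous.comp (continuous_id.div_const δ)

theorem dgB2_T_of_le {δ z : ℝ} (hδ : 0 < δ) (hz : z ≤ -(2 * δ)) : dgB2_T δ z = z := by
  unfold dgB2_T
  rw [dgB2_th_of_le (by rw [div_le_iff₀ hδ]; linarith)]
  field_simp

theorem dgB2_T_le_neg {δ : ℝ} (hδ : 0 < δ) (z : ℝ) : dgB2_T δ z ≤ -δ := by
  unfold dgB2_T
  nlinarith [dgB2_th_le_neg_one (z / δ)]

theorem dgB2_T_le {δ : ℝ} (hδ : 0 < δ) (z : ℝ) : dgB2_T δ z ≤ z := by
  unfold dgB2_T
  have h := mul_le_mul_of_nonneg_left (dgB2_th_le (z / δ)) hδ.le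
  have h2 : δ * (z / δ) = z := by field_simp
  linarith

theorem dgB2_T_ge_of_nonpos {δ z : ℝ} (hδ : 0 < δ) (hz : z ≤ 0) : z - δ ≤ dgB2_T δ z := by
  unfold dgB2_T
  have h := mul_le_mul_of_nonneg_left (dgB2_th_ge_of_nonpos (div_nonpos_of_nonpos_of_nonneg hz hδ.le)) hδ.le
  have h2 : δ * (z / δ - 1) = z - δ := by field_simp
  linarith

theorem dgB2_T_of_nonneg {δ z : ℝ} (hδ : 0 < δ) (hz : 0 ≤ z) : dgB2_T δ z = -δ := by
  unfold dgB2_T
  rw [dgB2_th_of_nonneg (div_nonneg hz hδ.le)]; ring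

theorem dgB2_T_ge_neg_two {δ z : ℝ} (hδ : 0 < δ) (hz : -(2 * δ) ≤ z) : -(2 * δ) ≤ dgB2_T δ z := by
  unfold dgB2_T
  have h := mul_le_mul_of_nonneg_left (dgB2_th_ge_neg_two (z := z / δ) (by rw [le_div_iff₀ hδ]; linarith)) hδ.le
  linarith

/-! ## 2. Energy: continuity, integrability, the two pointwise inequalities -/

theorem dgB2_dens_continuous {N : ℕ} {f : DgE N → ℝ} (hf : ContDiff ℝ 1 f) : Continuous (dgDens N f) := by
  unfold dgDens dgW
  have h1 : Continuous (fderiv ℝ f) := hf.continuous_fderiv (by norm_num)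
  have h2 : Continuous f := hf.continuous
  fun_prop

theorem dgB2_dens_integrableOn {N : ℕ} {f : DgE N → ℝ} (hf : ContDiff ℝ 1 f) (R : ℝ) :
    IntegrableOn (dgDens N f) (ball (0 : DgE N) R) :=
  ((dgB2_dens_continuous hf).continuousOn.integrableOn_compact (isCompact_closedBall 0 R)).mono_set
    ball_subset_closedBall

/-- `W` is Lipschitz on bounded sets -/
theorem dgB2_W_le {s t b : ℝ} (hs : |s| ≤ b) (ht : |t| ≤ b) : dgW s ≤ dgW t + b * (b ^ 2 + 1) * |s - t| := by
  have hb : 0 ≤ b := (abs_nonneg s).trans hs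
  have h1 : dgW s - dgW t = (s - t) * ((s + t) * (s ^ 2 + t ^ 2 - 2) / 4) := by unfold dgW; ring
  have h2 : |(s + t) * (s ^ 2 + t ^ 2 - 2) / 4| ≤ b * (b ^ 2 + 1) := by
    rw [abs_div, abs_mul]
    have h3 : |s + t| ≤ 2 * b := (abs_add_le s t).trans (by linarith)
    have hs2 : s ^ 2 ≤ b ^ 2 := sq_le_sq' (by linarith [(abs_le.1 hs).1]) (abs_le.1 hs).2
    have ht2 : t ^ 2 ≤ b ^ 2 := sq_le_sq' (by linarith [(abs_le.1 ht).1]) (abs_le.1 ht).2
    have h4 : |s ^ 2 + t ^ 2 - 2| ≤ 2 * b ^ 2 + 2 := by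
      rw [abs_le]; constructor <;> nlinarith [sq_nonneg s, sq_nonneg t]
    have h5 : |s + t| * |s ^ 2 + t ^ 2 - 2| ≤ (2 * b) * (2 * b ^ 2 + 2) :=
      mul_le_mul h3 h4 (abs_nonneg _) (by linarith)
    rw [abs_of_pos (by norm_num : (0:ℝ) < 4), div_le_iff₀ (by norm_num)]
    nlinarith
  have h6 : dgW s - dgW t ≤ |s - t| * (b * (b ^ 2 + 1)) := by
    rw [h1]
    calc (s - t) * ((s + t) * (s ^ 2 + t ^ 2 - 2) / 4) ≤ |(s - t) * ((s + t) * (s ^ 2 + t ^ 2 - 2) / 4)| := le_abs_self _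
      _ = |s - t| * |(s + t) * (s ^ 2 + t ^ 2 - 2) / 4| := abs_mul _ _
      _ ≤ |s - t| * (b * (b ^ 2 + 1)) := mul_le_mul_of_nonneg_left h2 (abs_nonneg _)
  linarith

/-- complementary convex combinations do not increase the sum of the squares of the norms -/
theorem dgB2_convex_sq {E : Type*} [NormedAddCommGroup E] [NormedSpace ℝ E] (A B : E) {l : ℝ} (h0 : 0 ≤ l) (h1 : l ≤ 1) :
    ‖A + l • (B - A)‖ ^ 2 + ‖B - l • (B - A)‖ ^ 2 ≤ ‖A‖ ^ 2 + ‖B‖ ^ 2 := by
  have e1 : A + l • (B - A) = (1 - l) • A + l • B := by module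
  have e2 : B - l • (B - A) = l • A + (1 - l) • B := by module
  have n1 : ‖A + l • (B - A)‖ ≤ (1 - l) * ‖A‖ + l * ‖B‖ := by
    rw [e1]
    refine (norm_add_le _ _).trans ?_
    rw [norm_smul, norm_smul, Real.norm_of_nonneg h0, Real.norm_of_nonneg (by linarith : 0 ≤ 1 - l)]
  have n2 : ‖B - l • (B - A)‖ ≤ l * ‖A‖ + (1 - l) * ‖B‖ := by
    rw [e2]
    refine (norm_add_le _ _).trans ?_
    rw [norm_smul, norm_smul, Real.norm_of_nonneg h0, Real.norm_of_nonneg (by linarith : 0 ≤ 1 - l)]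
  have s1 : ‖A + l • (B - A)‖ ^ 2 ≤ ((1 - l) * ‖A‖ + l * ‖B‖) ^ 2 := pow_le_pow_left₀ (norm_nonneg _) n1 2
  have s2 : ‖B - l • (B - A)‖ ^ 2 ≤ (l * ‖A‖ + (1 - l) * ‖B‖) ^ 2 := pow_le_pow_left₀ (norm_nonneg _) n2 2
  have key : ((1 - l) * ‖A‖ + l * ‖B‖) ^ 2 + (l * ‖A‖ + (1 - l) * ‖B‖) ^ 2 ≤ ‖A‖ ^ 2 + ‖B‖ ^ 2 := by
    have : ‖A‖ ^ 2 + ‖B‖ ^ 2 - (((1 - l) * ‖A‖ + l * ‖B‖) ^ 2 + (l * ‖A‖ + (1 - l) * ‖B‖) ^ 2)
        = 2 * (l * (1 - l)) * (‖A‖ - ‖B‖) ^ 2 := by ring
    have h3 : 0 ≤ 2 * (l * (1 - l)) * (‖A‖ - ‖B‖) ^ 2 := by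
      have : 0 ≤ l * (1 - l) := mul_nonneg h0 (by linarith)
      positivity
    linarith
  linarith

/-- the potential part of the soft lattice inequality -/
theorem dgB2_W_lattice {p q t δ B : ℝ} (hδ : 0 < δ) (hδ1 : δ ≤ 1) (hp : |p| ≤ B) (hq : |q| ≤ B)
    (ht : t = dgB2_T δ (p - q)) :
    dgW (q + t) + dgW (p - t) ≤ dgW p + dgW q + 2 * ((B + 1) * ((B + 1) ^ 2 + 1)) * δ := by
  have hB : 0 ≤ B := (abs_nonneg p).trans hp
  have hL : 0 ≤ (B + 1) * ((B + 1) ^ 2 + 1) := by positivity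
  have hp' : |p| ≤ B + 1 := by linarith
  have hq' : |q| ≤ B + 1 := by linarith
  rcases le_total (p - q) 0 with hz | hz
  · -- `q + t` is close to `p`, `p - t` is close to `q`
    have h1 : p - q - δ ≤ t := ht ▸ dgB2_T_ge_of_nonpos hδ hz
    have h2 : t ≤ p - q := ht ▸ dgB2_T_le hδ (p - q)
    have a1 : |q + t - p| ≤ δ := by rw [abs_le]; constructor <;> linarith
    have a2 : |p - t - q| ≤ δ := by rw [abs_le]; constructor <;> linarith
    have b1 : |q + t| ≤ B + 1 := by
      have := abs_le.1 hp; rw [abs_le]; constructor <;> linarith [(abs_le.1 a1).1, (abs_le.1 a1).2]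
    have b2 : |p - t| ≤ B + 1 := by
      have := abs_le.1 hq; rw [abs_le]; constructor <;> linarith [(abs_le.1 a2).1, (abs_le.1 a2).2]
    have c1 := dgB2_W_le b1 hp'
    have c2 := dgB2_W_le b2 hq'
    have d1 := mul_le_mul_of_nonneg_left a1 hL
    have d2 := mul_le_mul_of_nonneg_left a2 hL
    linarith
  · have h1 : t = -δ := ht ▸ dgB2_T_of_nonneg hδ hz
    have a1 : |q + t - q| ≤ δ := by rw [h1, abs_le]; constructor <;> linarith
    have a2 : |p - t - p| ≤ δ := by rw [h1, abs_le]; constructor <;> linarith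
    have b1 : |q + t| ≤ B + 1 := by
      have := abs_le.1 hq; rw [abs_le]; constructor <;> linarith [(abs_le.1 a1).1, (abs_le.1 a1).2]
    have b2 : |p - t| ≤ B + 1 := by
      have := abs_le.1 hp; rw [abs_le]; constructor <;> linarith [(abs_le.1 a2).1, (abs_le.1 a2).2]
    have c1 := dgB2_W_le b1 hq'
    have c2 := dgB2_W_le b2 hp'
    have d1 := mul_le_mul_of_nonneg_left a1 hL
    have d2 := mul_le_mul_of_nonneg_left a2 hL
    linarith

/-! ## 3. Soft clipping from above -/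

/-- the constant of the clipping error -/
def dgB2_C (N : ℕ) (B R : ℝ) : ℝ :=
  2 * ((B + 1) * ((B + 1) ^ 2 + 1)) * (volume (ball (0 : DgE N) R)).toReal

/-- soft clipping of a `C¹` function `w` by a `C¹` minimiser `a` from above. -/
theorem dgB2_clip {N : ℕ} {a w : DgE N → ℝ} (ha : ContDiff ℝ 1 a) (hmin : DgMin N a) (hw : ContDiff ℝ 1 w)
    {R δ B : ℝ} (hδ : 0 < δ) (hδ1 : δ ≤ 1) {K : Set (DgE N)} (hK : IsCompact K) (hKR : K ⊆ ball 0 R)
    (hoff : ∀ x ∈ ball (0 : DgE N) R, x ∉ K → w x ≤ a x - 2 * δ)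
    (hBw : ∀ x ∈ ball (0 : DgE N) R, |w x| ≤ B) (hBa : ∀ x ∈ ball (0 : DgE N) R, |a x| ≤ B) :
    ∃ ψ : DgE N → ℝ, ContDiff ℝ 1 ψ ∧ (∀ x, x ∉ K → ψ x = 0) ∧ (∀ x, 0 ≤ ψ x) ∧
      (∀ x ∈ ball (0 : DgE N) R, w x - ψ x ≤ a x - δ) ∧
      (∀ x, ψ x = 0 ∨ a x - 2 * δ ≤ w x - ψ x) ∧
      dgEn N (fun x => w x - ψ x) 0 R ≤ dgEn N w 0 R + δ * dgB2_C N B R := by
  classical
  let ψ : DgE N → ℝ := (ball (0 : DgE N) R).indicator (fun x => (w x - a x) - dgB2_T δ (w x - a x))
  have hψin : ∀ x ∈ ball (0 : DgE N) R, ψ x = (w x - a x) - dgB2_T δ (w x - a x) := fun x hx => by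
    simp only [ψ, indicator_of_mem hx]
  have hψout : ∀ x, x ∉ ball (0 : DgE N) R → ψ x = 0 := fun x hx => by
    simp only [ψ, indicator_of_notMem hx]
  have hψK : ∀ x, x ∉ K → ψ x = 0 := by
    intro x hx
    by_cases hxb : x ∈ ball (0 : DgE N) R
    · rw [hψin x hxb, dgB2_T_of_le hδ (by have := hoff x hxb hx; linarith)]; ring
    · exact hψout x hxb
  have hfull : ContDiff ℝ 1 (fun x => (w x - a x) - dgB2_T δ (w x - a x)) :=
    (hw.sub ha).sub ((dgB2_T_contDiff hδ).comp (hw.sub ha))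
  have hψeq : ∀ x ∈ ball (0 : DgE N) R, ψ =ᶠ[𝓝 x] fun x => (w x - a x) - dgB2_T δ (w x - a x) := by
    intro x hx
    filter_upwards [isOpen_ball.mem_nhds hx] with y hy
    exact hψin y hy
  have hψ : ContDiff ℝ 1 ψ := by
    rw [contDiff_iff_contDiffAt]
    intro x
    by_cases hxb : x ∈ ball (0 : DgE N) R
    · exact hfull.contDiffAt.congr_of_eventuallyEq (hψeq x hxb)
    · have hxK : x ∉ K := fun h => hxb (hKR h)
      have : ψ =ᶠ[𝓝 x] fun _ => (0 : ℝ) := by
        filter_upwards [hK.isClosed.isOpen_compl.mem_nhds hxK] with y hy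
        exact hψK y hy
      exact contDiffAt_const.congr_of_eventuallyEq this
  have hψc : HasCompactSupport ψ := HasCompactSupport.intro hK hψK
  have hψs : tsupport ψ ⊆ ball (0 : DgE N) R := by
    refine (closure_minimal ?_ hK.isClosed).trans hKR
    intro x hx
    by_contra hxK
    exact hx (hψK x hxK)
  have hψ0 : ∀ x, 0 ≤ ψ x := by
    intro x
    by_cases hxb : x ∈ ball (0 : DgE N) R
    · rw [hψin x hxb]; linarith [dgB2_T_le hδ (w x - a x)]
    · rw [hψout x hxb]
  refine ⟨ψ, hψ, hψK, hψ0, ?_, ?_, ?_⟩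
  · intro x hx
    rw [hψin x hx]; linarith [dgB2_T_le_neg hδ (w x - a x)]
  · intro x
    by_cases hxb : x ∈ ball (0 : DgE N) R
    · rcases le_total (w x - a x) (-(2 * δ)) with h | h
      · left; rw [hψin x hxb, dgB2_T_of_le hδ h]; ring
      · right; rw [hψin x hxb]; linarith [dgB2_T_ge_neg_two hδ h]
    · left; exact hψout x hxb
  · -- the energy inequality
    have hm : ContDiff ℝ 1 (fun x => w x - ψ x) := hw.sub hψ
    have hM : ContDiff ℝ 1 (fun x => a x + ψ x) := ha.add hψ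
    have hpt : ∀ x ∈ ball (0 : DgE N) R,
        dgDens N (fun x => w x - ψ x) x + dgDens N (fun x => a x + ψ x) x
          ≤ dgDens N w x + dgDens N a x + 2 * ((B + 1) * ((B + 1) ^ 2 + 1)) * δ := by
      intro x hx
      have hwd : HasFDerivAt w (fderiv ℝ w x) x := (hw.differentiable (by norm_num) x).hasFDerivAt
      have had : HasFDerivAt a (fderiv ℝ a x) x := (ha.differentiable (by norm_num) x).hasFDerivAt
      have hTd : HasFDerivAt (fun y => dgB2_T δ (w y - a y))
          (dgB2_thd ((w x - a x) / δ) • (fderiv ℝ w x - fderiv ℝ a x)) x :=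
        (dgB2_T_hasDerivAt hδ (w x - a x)).comp_hasFDerivAt (f := fun y => w y - a y) x (hwd.sub had)
      have e1 : (fun y => w y - ψ y) =ᶠ[𝓝 x] fun y => a y + dgB2_T δ (w y - a y) := by
        filter_upwards [hψeq x hx] with y hy
        rw [hy]; ring
      have e2 : (fun y => a y + ψ y) =ᶠ[𝓝 x] fun y => w y - dgB2_T δ (w y - a y) := by
        filter_upwards [hψeq x hx] with y hy
        rw [hy]; ring
      have f1 : fderiv ℝ (fun y => w y - ψ y) x
          = fderiv ℝ a x + dgB2_thd ((w x - a x) / δ) • (fderiv ℝ w x - fderiv ℝ a x) := by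
        rw [e1.fderiv_eq]; exact (had.add hTd).fderiv
      have f2 : fderiv ℝ (fun y => a y + ψ y) x
          = fderiv ℝ w x - dgB2_thd ((w x - a x) / δ) • (fderiv ℝ w x - fderiv ℝ a x) := by
        rw [e2.fderiv_eq]; exact (hwd.sub hTd).fderiv
      have g := dgB2_convex_sq (fderiv ℝ a x) (fderiv ℝ w x) (dgB2_thd_nonneg ((w x - a x) / δ))
        (dgB2_thd_le_one ((w x - a x) / δ))
      have p := dgB2_W_lattice (p := w x) (q := a x) hδ hδ1 (hBw x hx) (hBa x hx) rfl
      have v1 : w x - ψ x = a x + dgB2_T δ (w x - a x) := by rw [hψin x hx]; ring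
      have v2 : a x + ψ x = w x - dgB2_T δ (w x - a x) := by rw [hψin x hx]; ring
      simp only [dgDens]
      rw [f1, f2, v1, v2]
      linarith
    have i1 := dgB2_dens_integrableOn hm R
    have i2 := dgB2_dens_integrableOn hM R
    have i3 := dgB2_dens_integrableOn hw R
    have i4 := dgB2_dens_integrableOn ha R
    have i5 : IntegrableOn (fun _ : DgE N => 2 * ((B + 1) * ((B + 1) ^ 2 + 1)) * δ) (ball (0 : DgE N) R) :=
      integrableOn_const (by exact measure_ball_lt_top.ne)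
    have hint : ∫ x in ball (0 : DgE N) R,
        (dgDens N (fun x => w x - ψ x) x + dgDens N (fun x => a x + ψ x) x)
          ≤ ∫ x in ball (0 : DgE N) R, (dgDens N w x + dgDens N a x + 2 * ((B + 1) * ((B + 1) ^ 2 + 1)) * δ) :=
      setIntegral_mono_on (i1.add i2) ((i3.add i4).add i5) measurableSet_ball hpt
    have r1 : ∫ x in ball (0 : DgE N) R, (dgDens N w x + dgDens N a x + 2 * ((B + 1) * ((B + 1) ^ 2 + 1)) * δ)
        = (∫ x in ball (0 : DgE N) R, dgDens N w x) + (∫ x in ball (0 : DgE N) R, dgDens N a x)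
          + (volume (ball (0 : DgE N) R)).toReal * (2 * ((B + 1) * ((B + 1) ^ 2 + 1)) * δ) := by
      rw [integral_add (f := fun x => dgDens N w x + dgDens N a x) (i3.add i4) i5, integral_add i3 i4,
        setIntegral_const, smul_eq_mul, measureReal_def]
    rw [integral_add i1 i2, r1] at hint
    have hmin' := hmin R ψ hψ hψc hψs
    simp only [dgEn] at hmin' ⊢
    simp only [dgB2_C]
    linarith

/-! ## 4. Soft clipping from below (`W` is even) -/

theorem dgB2_dens_neg {N : ℕ} (f : DgE N → ℝ) (x : DgE N) : dgDens N (fun y => -f y) x = dgDens N f x := by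
  unfold dgDens dgW
  rw [fderiv_fun_neg, norm_neg]
  ring

theorem dgB2_en_neg {N : ℕ} (f : DgE N → ℝ) (R : ℝ) : dgEn N (fun y => -f y) 0 R = dgEn N f 0 R := by
  unfold dgEn
  simp only [dgB2_dens_neg]

theorem dgB2_min_neg {N : ℕ} {a : DgE N → ℝ} (h : DgMin N a) : DgMin N (fun x => -a x) := by
  intro R φ hφ hc hs
  have h1 := h R (fun x => -φ x) hφ.neg hc.neg (by
    have : tsupport (fun x => -φ x) = tsupport φ := by
      unfold tsupport
      congr 1
      ext x
      simp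
    rw [this]; exact hs)
  rw [dgB2_en_neg]
  have h2 : (fun x => -a x + φ x) = fun x => -(a x + -φ x) := by funext x; ring
  rw [h2, dgB2_en_neg]
  exact h1

/-- soft clipping of a `C¹` function `w` by a `C¹` minimiser `a` from below. -/
theorem dgB2_clip_below {N : ℕ} {a w : DgE N → ℝ} (ha : ContDiff ℝ 1 a) (hmin : DgMin N a) (hw : ContDiff ℝ 1 w)
    {R δ B : ℝ} (hδ : 0 < δ) (hδ1 : δ ≤ 1) {K : Set (DgE N)} (hK : IsCompact K) (hKR : K ⊆ ball 0 R)
    (hoff : ∀ x ∈ ball (0 : DgE N) R, x ∉ K → a x + 2 * δ ≤ w x)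
    (hBw : ∀ x ∈ ball (0 : DgE N) R, |w x| ≤ B) (hBa : ∀ x ∈ ball (0 : DgE N) R, |a x| ≤ B) :
    ∃ ψ : DgE N → ℝ, ContDiff ℝ 1 ψ ∧ (∀ x, x ∉ K → ψ x = 0) ∧ (∀ x, 0 ≤ ψ x) ∧
      (∀ x ∈ ball (0 : DgE N) R, a x + δ ≤ w x + ψ x) ∧
      (∀ x, ψ x = 0 ∨ w x + ψ x ≤ a x + 2 * δ) ∧
      dgEn N (fun x => w x + ψ x) 0 R ≤ dgEn N w 0 R + δ * dgB2_C N B R := by
  obtain ⟨ψ, h1, h2, h3, h4, h5, h6⟩ := dgB2_clip (a := fun x => -a x) (w := fun x => -w x) ha.neg (dgB2_min_neg hmin)
    hw.neg hδ hδ1 hK hKR (fun x hx hxK => by have := hoff x hx hxK; linarith)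
    (fun x hx => by rw [abs_neg]; exact hBw x hx) (fun x hx => by rw [abs_neg]; exact hBa x hx)
  refine ⟨ψ, h1, h2, h3, fun x hx => by have := h4 x hx; linarith, fun x => ?_, ?_⟩
  · rcases h5 x with h | h
    · exact Or.inl h
    · right; linarith
  · have e : (fun x => -w x - ψ x) = fun x => -(w x + ψ x) := by funext x; ring
    rw [e, dgB2_en_neg, dgB2_en_neg] at h6
    exact h6

theorem dgB2_C_nonneg (N : ℕ) {B : ℝ} (hB : 0 ≤ B) (R : ℝ) : 0 ≤ dgB2_C N B R := by
  unfold dgB2_C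
  positivity

/-! ## 5. The field leaf -/

/-- (Field.lean of 268) calibration by the foliation of the translates of `u` in the direction `e`. -/
theorem dgB2_min_between {N : ℕ} {u : DgE N → ℝ} (hu : DgSol N u) (e : DgE N)
    (hmono : ∀ x, 0 < fderiv ℝ u x e)
    (R : ℝ) (φ : DgE N → ℝ) (hφ : ContDiff ℝ 1 φ) (hc : HasCompactSupport φ)
    (hs : tsupport φ ⊆ ball 0 R)
    (hbetween : ∀ x, ∃ t₁ t₂ : ℝ, u (x + t₁ • e) < u x + φ x ∧ u x + φ x < u (x + t₂ • e)) :
    dgEn N u 0 R ≤ dgEn N (fun x => u x + φ x) 0 R :=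
  dgF_min_between_translates hu e hmono R φ hφ hc hs hbetween

/-! ## EXITS -/

/-- EXIT = Lemma 3.2: minimising barriers make `u` a global minimiser.   (K4 of the Hub: `e = dgE8`, `am = vm ∘ dgInit`,
`ap = vp ∘ dgInit`.) -/
theorem dgB2_min {N : ℕ} {u am ap : DgE N → ℝ} (hu : DgSol N u) (e : DgE N)
    (hmono : ∀ x, 0 < fderiv ℝ u x e)
    (ham : ContDiff ℝ 1 am) (hap : ContDiff ℝ 1 ap) (hminm : DgMin N am) (hminp : DgMin N ap)
    (hlimm : ∀ x, Tendsto (fun t : ℝ => u (x + t • e)) atBot (𝓝 (am x)))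
    (hlimp : ∀ x, Tendsto (fun t : ℝ => u (x + t • e)) atTop (𝓝 (ap x))) :
    DgMin N u := by
  intro R φ hφ hc hs
  rcases le_or_gt R 0 with hR | hR
  · simp [dgEn, ball_eq_empty.2 hR]
  have huc : ContDiff ℝ 1 u := hu.smooth.of_le (by norm_num)
  have hsm : ∀ x, StrictMono (fun t : ℝ => u (x + t • e)) := by
    intro x
    apply strictMono_of_deriv_pos
    intro t
    have h1 : HasDerivAt (fun t : ℝ => x + t • e) e t := by
      simpa using ((hasDerivAt_id t).smul_const e).const_add x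
    have h2 : HasDerivAt (fun t : ℝ => u (x + t • e)) (fderiv ℝ u (x + t • e) e) t :=
      (huc.differentiable (by norm_num) (x + t • e)).hasFDerivAt.comp_hasDerivAt t h1
    rw [h2.deriv]
    exact hmono _
  have hltp : ∀ x, u x < ap x := by
    intro x
    have h1 : u (x + (0 : ℝ) • e) < u (x + (1 : ℝ) • e) := hsm x one_pos
    have h2 : u (x + (1 : ℝ) • e) ≤ ap x := (hsm x).monotone.ge_of_tendsto (hlimp x) 1
    simp only [zero_smul, add_zero] at h1
    linarith
  have hltm : ∀ x, am x < u x := by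
    intro x
    have h1 : u (x + (-1 : ℝ) • e) < u (x + (0 : ℝ) • e) := hsm x (by norm_num)
    have h2 : am x ≤ u (x + (-1 : ℝ) • e) := (hsm x).monotone.le_of_tendsto (hlimm x) (-1)
    simp only [zero_smul, add_zero] at h1
    linarith
  have hw : ContDiff ℝ 1 (fun x => u x + φ x) := huc.add hφ
  -- the gap on the closed ball
  obtain ⟨c, hc0, hcp, hcm⟩ : ∃ c : ℝ, 0 < c ∧ (∀ x ∈ closedBall (0 : DgE N) R, u x + c ≤ ap x) ∧
      (∀ x ∈ closedBall (0 : DgE N) R, am x + c ≤ u x) := by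
    have hcont : ContinuousOn (fun x => min (ap x - u x) (u x - am x)) (closedBall (0 : DgE N) R) :=
      ((hap.continuous.sub huc.continuous).min (huc.continuous.sub ham.continuous)).continuousOn
    obtain ⟨x₀, -, hx₀⟩ := (isCompact_closedBall (0 : DgE N) R).exists_isMinOn ⟨0, by simp [hR.le]⟩ hcont
    refine ⟨min (ap x₀ - u x₀) (u x₀ - am x₀), lt_min (by linarith [hltp x₀]) (by linarith [hltm x₀]), ?_, ?_⟩
    · intro x hx
      have h1 : min (ap x₀ - u x₀) (u x₀ - am x₀) ≤ min (ap x - u x) (u x - am x) := hx₀ hx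
      have h2 := min_le_left (ap x - u x) (u x - am x)
      linarith
    · intro x hx
      have h1 : min (ap x₀ - u x₀) (u x₀ - am x₀) ≤ min (ap x - u x) (u x - am x) := hx₀ hx
      have h2 := min_le_right (ap x - u x) (u x - am x)
      linarith
  -- the bound on the closed ball
  obtain ⟨B, hB⟩ : ∃ B : ℝ, ∀ x ∈ closedBall (0 : DgE N) R, |u x + φ x| + |ap x| + |am x| ≤ B := by
    have hcont : ContinuousOn (fun x => |u x + φ x| + |ap x| + |am x|) (closedBall (0 : DgE N) R) :=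
      ((hw.continuous.abs.add hap.continuous.abs).add ham.continuous.abs).continuousOn
    obtain ⟨B, hB⟩ := (isCompact_closedBall (0 : DgE N) R).exists_bound_of_continuousOn hcont
    exact ⟨B, fun x hx => (le_abs_self _).trans (hB x hx)⟩
  have hB0 : 0 ≤ B := by
    have := hB 0 (by simp [hR.le])
    have h1 := abs_nonneg (u 0 + φ 0)
    have h2 := abs_nonneg (ap 0)
    have h3 := abs_nonneg (am 0)
    linarith
  have hK : IsCompact (tsupport φ) := hc
  have hφ0 : ∀ x, x ∉ tsupport φ → φ x = 0 := fun x hx => image_eq_zero_of_notMem_tsupport hx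
  have key : ∀ δ : ℝ, 0 < δ → δ ≤ 1 → 2 * δ ≤ c →
      dgEn N u 0 R ≤ dgEn N (fun x => u x + φ x) 0 R + δ * (dgB2_C N B R + dgB2_C N (B + 2) R) := by
    intro δ hδ hδ1 hδc
    obtain ⟨ψ₁, a1, a2, a3, a4, a5, a6⟩ := dgB2_clip hap hminp hw hδ hδ1 hK hs
      (fun x hx hxK => by
        have := hcp x (ball_subset_closedBall hx)
        simp only [hφ0 x hxK, add_zero]; linarith)
      (B := B)
      (fun x hx => by
        have := hB x (ball_subset_closedBall hx)
        have h2 := abs_nonneg (ap x)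
        have h3 := abs_nonneg (am x)
        linarith)
      (fun x hx => by
        have := hB x (ball_subset_closedBall hx)
        have h2 := abs_nonneg (u x + φ x)
        have h3 := abs_nonneg (am x)
        linarith)
    have hm₁ : ContDiff ℝ 1 (fun x => u x + φ x - ψ₁ x) := hw.sub a1
    obtain ⟨ψ₂, b1, b2, b3, b4, b5, b6⟩ := dgB2_clip_below ham hminm hm₁ hδ hδ1 hK hs
      (fun x hx hxK => by
        have := hcm x (ball_subset_closedBall hx)
        simp only [hφ0 x hxK, a2 x hxK, add_zero, sub_zero]; linarith)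
      (B := B + 2)
      (fun x hx => by
        have h0 := hB x (ball_subset_closedBall hx)
        have h1 := abs_nonneg (u x + φ x)
        have h2 := abs_nonneg (ap x)
        have h3 := abs_nonneg (am x)
        have h4 := abs_le.1 (by linarith : |u x + φ x| ≤ B)
        have h5 := abs_le.1 (by linarith : |ap x| ≤ B)
        rw [abs_le]
        constructor
        · rcases a5 x with h | h
          · rw [h]; linarith [h4.1]
          · linarith [h5.1]
        · linarith [a3 x, h4.2])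
      (fun x hx => by
        have := hB x (ball_subset_closedBall hx)
        have h2 := abs_nonneg (u x + φ x)
        have h3 := abs_nonneg (ap x)
        linarith)
    -- the clipped perturbation
    have hφ₂ : ContDiff ℝ 1 (fun x => φ x - ψ₁ x + ψ₂ x) := (hφ.sub a1).add b1
    have hφ₂0 : ∀ x, x ∉ tsupport φ → φ x - ψ₁ x + ψ₂ x = 0 := fun x hx => by
      rw [hφ0 x hx, a2 x hx, b2 x hx]; ring
    have hφ₂c : HasCompactSupport (fun x => φ x - ψ₁ x + ψ₂ x) := HasCompactSupport.intro hK hφ₂0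
    have hφ₂s : tsupport (fun x => φ x - ψ₁ x + ψ₂ x) ⊆ ball (0 : DgE N) R := by
      refine (closure_minimal ?_ hK.isClosed).trans hs
      intro x hx
      by_contra hxK
      exact hx (hφ₂0 x hxK)
    have hbet : ∀ x, am x < u x + (φ x - ψ₁ x + ψ₂ x) ∧ u x + (φ x - ψ₁ x + ψ₂ x) < ap x := by
      intro x
      by_cases hxK : x ∈ tsupport φ
      · have hxb := hs hxK
        constructor
        · have := b4 x hxb; linarith
        · rcases b5 x with h | h
          · have := a4 x hxb; rw [h]; linarith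
          · have h1 := hcp x (ball_subset_closedBall hxb)
            have h2 := hltm x
            linarith
      · rw [hφ₂0 x hxK, add_zero]; exact ⟨hltm x, hltp x⟩
    have hfield := dgB2_min_between hu e hmono R _ hφ₂ hφ₂c hφ₂s (fun x => by
      obtain ⟨t₁, ht₁⟩ := ((hlimm x).eventually (Iio_mem_nhds (hbet x).1)).exists
      obtain ⟨t₂, ht₂⟩ := ((hlimp x).eventually (Ioi_mem_nhds (hbet x).2)).exists
      exact ⟨t₁, t₂, ht₁, ht₂⟩)
    have e1 : (fun x => u x + (φ x - ψ₁ x + ψ₂ x)) = fun x => u x + φ x - ψ₁ x + ψ₂ x := by funext x; ring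
    rw [e1] at hfield
    linarith
  -- `δ → 0`
  set Ct : ℝ := dgB2_C N B R + dgB2_C N (B + 2) R with hCt
  have hCt0 : 0 ≤ Ct := add_nonneg (dgB2_C_nonneg N hB0 R) (dgB2_C_nonneg N (by linarith) R)
  apply le_of_forall_pos_le_add
  intro ε hε
  have hd : 0 < min (min 1 (c / 2)) (ε / (Ct + 1)) := lt_min (lt_min one_pos (by linarith)) (by positivity)
  have h1 := key _ hd ((min_le_left _ _).trans (min_le_left _ _))
    (by have := (min_le_left (min 1 (c / 2)) (ε / (Ct + 1))).trans (min_le_right 1 (c / 2)); linarith)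
  have h2 : min (min 1 (c / 2)) (ε / (Ct + 1)) * Ct ≤ ε := by
    calc min (min 1 (c / 2)) (ε / (Ct + 1)) * Ct ≤ ε / (Ct + 1) * Ct :=
          mul_le_mul_of_nonneg_right (min_le_right _ _) hCt0
      _ ≤ ε / (Ct + 1) * (Ct + 1) := mul_le_mul_of_nonneg_left (by linarith) (by positivity)
      _ = ε := by field_simp
  linarith

/-- forgetting the last coordinate is smooth -/
theorem dgB2_contDiff_init {n : ℕ} : ContDiff ℝ 1 (fun x : DgE (n + 1) => (WithLp.toLp 2 fun i : Fin n => x i.castSucc : DgE n)) := by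
  rw [contDiff_euclidean]
  intro i
  exact contDiff_euclidean.1 contDiff_id i.castSucc

/-- EXIT = contract K4 of the Hub, verbatim (`dgInit`, `dgE8` unfolded): `dgHub_K4 := dgB2_K4 hu hmono hvm hvp hord hp hm hminm hminp`. -/
theorem dgB2_K4 {u : DgE 8 → ℝ} (hu : DgSol 8 u) (hmono : ∀ x, 0 < fderiv ℝ u x (EuclideanSpace.single 7 1 : DgE 8))
    {vm vp : DgE 7 → ℝ} (hvm : DgSol 7 vm) (hvp : DgSol 7 vp)
    (_hord : ∀ x : DgE 8, vm (WithLp.toLp 2 fun i : Fin 7 => x i.castSucc) < u x ∧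
      u x < vp (WithLp.toLp 2 fun i : Fin 7 => x i.castSucc))
    (hp : ∀ K : Set (DgE 8), IsCompact K →
      TendstoUniformlyOn (fun (s : ℝ) x => u (x + s • (EuclideanSpace.single 7 1 : DgE 8)))
        (fun x => vp (WithLp.toLp 2 fun i : Fin 7 => x i.castSucc)) atTop K)
    (hm : ∀ K : Set (DgE 8), IsCompact K →
      TendstoUniformlyOn (fun (s : ℝ) x => u (x + s • (EuclideanSpace.single 7 1 : DgE 8)))
        (fun x => vm (WithLp.toLp 2 fun i : Fin 7 => x i.castSucc)) atBot K)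
    (hminm : DgMin 8 fun x : DgE 8 => vm (WithLp.toLp 2 fun i : Fin 7 => x i.castSucc))
    (hminp : DgMin 8 fun x : DgE 8 => vp (WithLp.toLp 2 fun i : Fin 7 => x i.castSucc)) :
    DgMin 8 u :=
  dgB2_min hu (EuclideanSpace.single 7 1) hmono
    ((hvm.smooth.of_le (by norm_num)).comp dgB2_contDiff_init) ((hvp.smooth.of_le (by norm_num)).comp dgB2_contDiff_init)
    hminm hminp
    (fun x => (hm {x} isCompact_singleton).tendsto_at (mem_singleton x))
    (fun x => (hp {x} isCompact_singleton).tendsto_at (mem_singleton x))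

end

end Claimed.Agent.R329
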