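import Claimed.Agent.R329.Defs
import Claimed.Agent.R329.StabMono
import Claimed.Agent.R329.OneD
import Claimed.Agent.R329.EndProfiles
import Claimed.Agent.R329.Calib
import Claimed.Agent.R329.MonoLim
import Claimed.Agent.R329.Growth
import Claimed.Agent.R329.Slide
import Claimed.Agent.R329.Base258
import Claimed.Agent.R329.Mono
import Claimed.Agent.R329.Cone
import Claimed.Agent.R329.DirCone
import Claimed.Agent.R329.MMglue
import Claimed.Agent.R329.MMrecFin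
import Claimed.Agent.R329.Kappa
import Claimed.Agent.R329.DfStart
import Claimed.Agent.R329.DfIter
import Claimed.Agent.R329.FlatEnd
import Claimed.Agent.R329.DfGeo
import Claimed.Agent.R329.DfScale
import Claimed.Agent.R329.DfStep
import Claimed.Agent.R329.DfClassOf
import Claimed.Agent.Lib.Gmt.IF

/-!
# Row 329 (S0587, S0588): HUB of the cell C6 = the top contracts      (pen: helper20)

Paper: "A positive resolution of De Giorgi's conjecture in dimension eight".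

## END STATE (15 October, 22:30Z): THE ROW IS NOT PROVED

**Two contracts are OPEN**: `dgHub_contract_K9` (Theorem 1.3 of the paper for `n = 7`: a stable solution of `ℝ⁷` with finite density is
rigid; Part II) and `dgHub_contract_K10` (a stable solution of `ℝ⁷` has finite density; Parts III, IV).  Together they are
Theorem 1.2 = S0588.  We have no complete text for them: Parts II to IV of the paper rest on cited work that is not in the box
(Florit-Simon and Serra 2025, Wang and Wei 2019) and on estimates which we could not reconstruct.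
These are the only `sorry`s below the theorems of this file.  (The skeleton file `MMrec.lean` of post B4 still shows its typed leaves
`dgB4_recovery`, `dgB4_patch`, `dgB4_scale_en`, `dgB4_scale_min`, `dgB4_upper`, `dgB4_min_of_balls` with `sorry`; its own exits and
`dgB44_upper` of `MMrecU.lean` rest on them.  They are superseded: each leaf is proved verbatim under another name in `MMrecT`, `MMrecP`,
`MMrecS`, `MMrecM`, the closed assembly is `dgB4F_upper`, `dgB4F_exit_min` of `MMrecFin.lean`, and this file uses only that.)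

**Everything that rests on an open contract says so**: `dgHub_stable_rigidity`, `dgHub_monotone_rigidity`, `dgHub_S0588`, `dgHub_S0587`
(the last two have the frozen types of the statements; they are NOT proofs: `sorryAx` is below them; no file `S0587.lean`, `S0588.lean` exists).

**Proved, with no open contract below** (`#print axioms` = `propext`, `Classical.choice`, `Quot.sound`):
* K1 to K8 = Part I of the paper (K7, Savin's improvement of flatness, with a proof of our own: files `Df*.lean`);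
* `dgHub_reduction`    : Theorem 1.2 (S0588) implies Theorem 1.1 (S0587);
* `dgHub_monotone_core`: the same, asking rigidity of the two end profiles of `u` only;
* `dgHub_savin8`       : De Giorgi's conjecture in `ℝ⁸` under the limit assumption `u(x', t) → ±1` (Savin 2009);
* `dgHub_savin_le7`, `dgHub_savin_min` : the same in `ℝⁿ`, `2 ≤ n ≤ 7`; minimizers of `ℝⁿ`, `2 ≤ n ≤ 7`, are planar (Savin 2009);
* `dgHub_G_planar`     : stable + unit density at infinity + flat at large scales implies planar, every dimension `≥ 2`;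
* in `LowDim.lean` (helper218): De Giorgi's conjecture in `ℝ²`, `ℝ³`, stable solutions of `ℝ²`, Gibbons' conjecture in every dimension.

## The cut

* `dgHub_stable_rigidity`   = Theorem 1.2 (S0588), from K9 (finite density rigidity, Part II) and K10 (density bound, Parts III, IV).
* `dgHub_monotone_rigidity` = Theorem 1.1 (S0587), from Theorem 1.2 and K1 to K8 (Part I).

A contract is a theorem whose proof is missing here.
-/

set_option autoImplicit false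

open MeasureTheory Metric Set Filter Topology

namespace Claimed.Agent.R329

/-- Forget the last coordinate. -/
noncomputable def dgInit {n : ℕ} (x : DgE (n + 1)) : DgE n := WithLp.toLp 2 fun i : Fin n => x i.castSucc

/-- The last basis vector of `ℝ⁸`, in the words of S0587. -/
noncomputable abbrev dgE8 : DgE 8 := EuclideanSpace.single 7 1

/-- The surface tension `s₀ = 2√2/3`. -/
noncomputable def dgS0 : ℝ := 2 * Real.sqrt 2 / 3

/-- The normalized energy `M_R(0) = E(v; B_R) / (s₀ ω_{n-1} R^{n-1})`. -/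
noncomputable def dgM (n : ℕ) (v : DgE n → ℝ) (R : ℝ) : ℝ :=
  dgEn n v 0 R / (dgS0 * (volume (ball (0 : DgE (n - 1)) 1)).toReal * R ^ (n - 1))

/-! ## Part I: contracts K1 to K8 -/

/-- K1 (post A7; Lemma 3.1, ground state identity): a positive directional derivative gives stability. -/
theorem dgHub_K1 {u : DgE 8 → ℝ} (hu : DgSol 8 u) (hmono : ∀ x, 0 < fderiv ℝ u x dgE8) : DgStable 8 u :=
  dgA7_stable hu dgE8 hmono

/-- K2 (post A8; Lemma 3.1): the end profiles. -/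
theorem dgHub_K2 {u : DgE 8 → ℝ} (hu : DgSol 8 u) (hmono : ∀ x, 0 < fderiv ℝ u x dgE8) :
    ∃ vm vp : DgE 7 → ℝ, DgSol 7 vm ∧ DgSol 7 vp ∧ DgStable 7 vm ∧ DgStable 7 vp ∧
      (∀ x, vm (dgInit x) < u x ∧ u x < vp (dgInit x)) ∧
      (∀ K : Set (DgE 8), IsCompact K →
        TendstoUniformlyOn (fun (s : ℝ) x => u (x + s • dgE8)) (fun x => vp (dgInit x)) atTop K) ∧
      (∀ K : Set (DgE 8), IsCompact K →
        TendstoUniformlyOn (fun (s : ℝ) x => u (x + s • dgE8)) (fun x => vm (dgInit x)) atBot K) :=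
  dg88e_K2 hu hmono

/-- K3 (post B1; calibration): wells and planar profiles of `ℝ⁷`, extended to `ℝ⁸`, are global minimizers. -/
theorem dgHub_K3 {v : DgE 7 → ℝ} (hv : DgRigid 7 v) : DgMin 8 fun x : DgE 8 => v (dgInit x) :=
  dgB1_K3 hv

/-- K4 (post B2; Lemma 3.2): minimizing barriers and sliding (or the foliation calibration of Alberti, Ambrosio, Cabré). -/
theorem dgHub_K4 {u : DgE 8 → ℝ} (hu : DgSol 8 u) (hmono : ∀ x, 0 < fderiv ℝ u x dgE8) {vm vp : DgE 7 → ℝ}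
    (hvm : DgSol 7 vm) (hvp : DgSol 7 vp)
    (hord : ∀ x, vm (dgInit x) < u x ∧ u x < vp (dgInit x))
    (hp : ∀ K : Set (DgE 8), IsCompact K →
      TendstoUniformlyOn (fun (s : ℝ) x => u (x + s • dgE8)) (fun x => vp (dgInit x)) atTop K)
    (hm : ∀ K : Set (DgE 8), IsCompact K →
      TendstoUniformlyOn (fun (s : ℝ) x => u (x + s • dgE8)) (fun x => vm (dgInit x)) atBot K)
    (hminm : DgMin 8 fun x : DgE 8 => vm (dgInit x)) (hminp : DgMin 8 fun x : DgE 8 => vp (dgInit x)) :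
    DgMin 8 u :=
  dgB2_K4 hu hmono hvm hvp hord hp hm hminm hminp

/-- K5 (post B2; (3.6)): a minimizing solution has surface-order energy growth. -/
theorem dgHub_K5 {n : ℕ} {u : DgE n → ℝ} (hu : DgSol n u) (hmin : DgMin n u) : DgFinDens n u :=
  dgB8_K5_closed hu hmin

/-- K6a (post A5; (2.1)): Modica's gradient bound. -/
theorem dgHub_K6a {n : ℕ} {v : DgE n → ℝ} (hv : DgSol n v) : ∀ x, ‖fderiv ℝ v x‖ ^ 2 / 2 ≤ dgW (v x) :=
  dg258_exit_modica hv

/-- K6b (post A6; (2.3)): the normalized energy is nondecreasing. -/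
theorem dgHub_K6b {n : ℕ} {v : DgE n → ℝ} (hv : DgSol n v) (hmod : ∀ x, ‖fderiv ℝ v x‖ ^ 2 / 2 ≤ dgW (v x)) :
    MonotoneOn (dgM n v) (Ioi 0) :=
  dgA6_K6b hv hmod (c := dgS0 * (volume (ball (0 : DgE (n - 1)) 1)).toReal) (by unfold dgS0; positivity)

/-- K6g (post A6): monotone + bounded + nonconstant: the density at infinity exists and is positive. -/
theorem dgHub_K6g {u : DgE 8 → ℝ} (hu : DgSol 8 u) (hmono : ∀ x, 0 < fderiv ℝ u x dgE8) (hgrowth : DgFinDens 8 u)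
    (hmon : MonotoneOn (dgM 8 u) (Ioi 0)) : ∃ L : ℝ, 0 < L ∧ Tendsto (fun R : ℝ => dgM 8 u R) atTop (𝓝 L) :=
  dg17_K6g hu hmono hgrowth (c := dgS0 * (volume (ball (0 : DgE (8 - 1)) 1)).toReal)
    (by
      have : 0 < dgS0 := by unfold dgS0; positivity
      exact mul_pos this (ENNReal.toReal_pos (measure_ball_pos _ _ one_pos).ne' measure_ball_lt_top.ne)) hmon

/-- K6x (posts B3 B4 + glue; Prop. 3.3): the EXACT Modica-Mortola limit of the blow-downs of a minimizing solution: along a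
subsequence `u(R ·) → 2·1_S - 1` in `L¹_loc`, `S` minimizes perimeter, and the rescaled energy measures converge weakly to
`s₀ |D 1_S|` (no loss of energy). -/
theorem dgHub_K6x {n : ℕ} (hn : 1 ≤ n) {u : DgE n → ℝ} (hu : DgSol n u) (hmin : DgMin n u) (hgrowth : DgFinDens n u) :
    DgB5Exact n dgS0 u :=
  dgB3g_exact hn hu hgrowth
    (fun _ _ hB y _ _ hr hδ _ hF hFE hfin _ hη => dgB4F_upper hn hu hmin hgrowth hB y hr hδ hF hFE hfin hη)
    (fun _ _ hB hfin hlow => dgB4F_exit_min hn hu hmin hgrowth hB hfin hlow)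

/-- K6c (post B5; (3.17), (3.18)): a blow-down limit `S` of `{u > 0}`: it minimizes perimeter, the whole limiting
energy is `s₀` times its perimeter (so the area ratio of `S` is the constant `L`), and `S` is monotone in the direction `e₈`. -/
theorem dgHub_K6c {u : DgE 8 → ℝ} (hu : DgSol 8 u) (hmin : DgMin 8 u) (hmono : ∀ x, 0 < fderiv ℝ u x dgE8)
    {L : ℝ} (hL : Tendsto (fun R : ℝ => dgM 8 u R) atTop (𝓝 L)) :
    ∃ S : Set (DgE 8), Gmt.GmtMin univ S ∧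
      (∀ r : ℝ, 0 < r → Gmt.gmtP S (ball 0 r) = ENNReal.ofReal (L * (Gmt.gmtOm 7 * r ^ 7))) ∧
      ∀ t : ℝ, 0 ≤ t → ∀ᵐ x : DgE 8, x ∈ S → x + t • dgE8 ∈ S :=
  dgB5_K6c_hub hu hmono (s := dgS0) (by unfold dgS0; positivity) (dgHub_K6x (by norm_num) hu hmin (dgHub_K5 hu hmin)) hL

/-- K6d (post B5; `Gmt.gmt_cone_of_const`): a minimizer with constant area ratio is a cone. -/
theorem dgHub_K6d {S : Set (DgE 8)} (hS : Gmt.GmtMin univ S) {c : ℝ}
    (h : ∀ r : ℝ, 0 < r → Gmt.gmtP S (ball 0 r) = ENNReal.ofReal (c * r ^ 7)) : Gmt.GmtCone S :=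
  dgB5_K6d hS h

/-- K6e (post B6; Lemma 3.4): a nontrivial directed minimizing cone of `ℝ⁸` is a half-space. -/
theorem dgHub_K6e {S : Set (DgE 8)} (hS : Gmt.GmtMin univ S) (hc : Gmt.GmtCone S)
    (hdir : ∀ t : ℝ, 0 ≤ t → ∀ᵐ x : DgE 8, x ∈ S → x + t • dgE8 ∈ S) (hne : Gmt.gmtP S (ball 0 1) ≠ 0) :
    ∃ e : DgE 8, ‖e‖ = 1 ∧ S =ᵐ[volume] Gmt.gmtHalf 0 e :=
  dgB5_K6e_of (e := dgE8) (fun _ h1 h2 h3 h4 => dgB6_directed_cone h1 h2 h3 7 h4) hS hc hdir hne

/-- K6 (Prop. 3.3 to (3.22)): the blow-down of a monotone minimizer of `ℝ⁸` is a half-space with multiplicity one, so the density at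
infinity is one. -/
theorem dgHub_K6 {u : DgE 8 → ℝ} (hu : DgSol 8 u) (hmin : DgMin 8 u) (hmono : ∀ x, 0 < fderiv ℝ u x dgE8)
    (hgrowth : DgFinDens 8 u) : Tendsto (fun R : ℝ => dgM 8 u R) atTop (𝓝 1) := by
  obtain ⟨L, hL0, hL⟩ := dgHub_K6g hu hmono hgrowth (dgHub_K6b hu (dgHub_K6a hu))
  obtain ⟨S, hS, hP, hdir⟩ := dgHub_K6c hu hmin hmono hL
  have hom : 0 < Gmt.gmtOm 7 := by
    unfold Gmt.gmtOm
    exact ENNReal.toReal_pos (measure_ball_pos _ _ one_pos).ne' measure_ball_lt_top.ne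
  have hcone : Gmt.GmtCone S := dgHub_K6d hS (c := L * Gmt.gmtOm 7) fun r hr => by rw [hP r hr, mul_assoc]
  have h1 := hP 1 one_pos
  have hne : Gmt.gmtP S (ball 0 1) ≠ 0 := by
    rw [h1]
    simp only [one_pow, mul_one, ne_eq, ENNReal.ofReal_eq_zero, not_le]
    positivity
  obtain ⟨e, he, hSe⟩ := dgHub_K6e hS hcone hdir hne
  have hmeas : MeasurableSet (Gmt.gmtHalf (0 : DgE 8) e) := by
    unfold Gmt.gmtHalf
    exact measurableSet_lt (by fun_prop) measurable_const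
  have h2 : Gmt.gmtP S (ball 0 1) = Gmt.gmtP (Gmt.gmtHalf (0 : DgE 8) e) (ball 0 1) :=
    Gmt.gmtP_congr hS.meas hmeas (hSe.inter (ae_eq_refl _))
  rw [h1, Gmt.gmtP_half_ball (by norm_num) (0 : DgE 8) he one_pos] at h2
  simp only [one_pow, mul_one, Nat.add_one_sub_one] at h2
  have h3 : L * Gmt.gmtOm 7 = Gmt.gmtOm 7 := by
    have := (ENNReal.ofReal_eq_ofReal_iff (by positivity) hom.le).1 h2
    exact this
  have h4 : L = 1 := by
    have : (L - 1) * Gmt.gmtOm 7 = 0 := by linarith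
    rcases mul_eq_zero.1 this with h | h
    · linarith
    · exact absurd h hom.ne'
  rw [← h4]
  exact hL

/-- K7c (post P16): the global facts used by the flatness iteration (unit density at all centres and scales, Morrey bound of the
discrepancy, lower density at interface points). -/
theorem dgHub_K7c {u : DgE 8 → ℝ} (hu : DgSol 8 u) (hr : ∀ x, u x ∈ Ioo (-1 : ℝ) 1) (hst : DgStable 8 u)
    (hd : Tendsto (fun R : ℝ => dgM 8 u R) atTop (𝓝 1)) : ∃ K c₀ : ℝ, DfClass 7 K c₀ u := by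
  have hmod := dgHub_K6a hu
  have hom : 0 < Gmt.gmtOm 7 := by
    unfold Gmt.gmtOm
    exact ENNReal.toReal_pos (measure_ball_pos _ _ one_pos).ne' measure_ball_lt_top.ne
  have hs0 : 0 < dfS0 := by unfold dfS0; positivity
  have hmass : ∀ (y : DgE 8) (r : ℝ), 0 < r → dgEn 8 u y r ≤ dfS0 * Gmt.gmtOm 7 * r ^ 7 := fun y r hr =>
    dgA6_P13 hu hmod (by norm_num) (c := dfS0 * Gmt.gmtOm 7) (by positivity) hd y hr
  obtain ⟨K, hK0, hK⟩ := dgKa_exit_P1 8 (by norm_num) (dfS0 * Gmt.gmtOm 7)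
  obtain ⟨c₀, hc₀, hlow⟩ := dgA6_P14 8 (by norm_num) (lam := 7 / 8) (by norm_num) (by norm_num)
  exact ⟨K, c₀, hK0, hc₀, dgA3_smooth hu.smooth hu.range hu.pde, hr, hu.pde, hmod, hmass,
    fun y r hr => hK u hu hst hmass y r hr,
    fun y hy r hr => hlow u hu hmod y hy r (by linarith)⟩

/-- K7s (posts P2 to P9; the diffuse port of `Lib/Gmt/Fl*`): IMPROVEMENT OF FLATNESS at every interface point and every scale above
the stopping rule `4/r ≤ c₁ ε²`. -/
theorem dgHub_K7s {K c₀ : ℝ} : ∃ θ ε₀ c₁ : ℝ, 0 < θ ∧ θ < 1 ∧ 0 < ε₀ ∧ 0 < c₁ ∧ ∀ u : DgE 8 → ℝ, DfClass 7 K c₀ u →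
    ∀ x₀ : DgE 8, |u x₀| < 7 / 8 → ∀ (r ε : ℝ) (e : DgE 8), 0 < r → 0 < ε → ε ≤ ε₀ → 4 / r ≤ c₁ * ε ^ 2 →
      DfFlatU u x₀ r ε e → ∃ e' : DgE 8, DfFlatU u x₀ (θ * r) (ε / 2) e' :=
  dfg_K7s_of (fun _ _ _ _ _ L H hfl hLe hr hε _ hw => dfp9_unit (by norm_num) H L hLe hr hε (by linarith) hw hfl)
    fun hK hc => df_unit_step 7 (by norm_num) _ _ 1 (div_nonneg hK dfp9_S0_pos.le) (div_pos hc dfp9_S0_pos) one_pos

/-- K7 (our own text; the paper cites Wang 2017, Theorem 11.1): unit density at infinity forces a planar transition.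
START (post P11) + STEP (K7s) + ITERATION from infinity downwards (post P10) + SLIDING (post P12). -/
theorem dgHub_K7 {u : DgE 8 → ℝ} (hu : DgSol 8 u) (hr : ∀ x, u x ∈ Ioo (-1 : ℝ) 1) (hmin : DgMin 8 u)
    (hmono : ∀ x, 0 < fderiv ℝ u x dgE8) (hd : Tendsto (fun R : ℝ => dgM 8 u R) atTop (𝓝 1)) : DgPlanar 8 u := by
  obtain ⟨K, c₀, hcl⟩ := dgHub_K7c hu hr (dgHub_K1 hu hmono) hd
  obtain ⟨θ, ε₀, c₁, hθ0, hθ1, hε₀, hc₁, hstep⟩ := dgHub_K7s (K := K) (c₀ := c₀)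
  have hs0 : 0 < dgS0 := by unfold dgS0; positivity
  obtain ⟨e₁, hstart⟩ := dfs_start_fixed (n := 8) (by norm_num) (hu.smooth.of_le (by norm_num)) hmono hs0
    (dgHub_K6x (by norm_num) hu hmin (dgHub_K5 hu hmin)) one_pos hd
    (fun S h1 h2 h3 h4 => dgHub_K6e h1 h2 h3 h4) hcl.hc (fun y hy r hr => hcl.low y hy r hr)
  obtain ⟨e, he, hF⟩ := dgIt_exit_FEF (n := 8) (u := u) (by norm_num) hθ0 hθ1 hε₀ hc₁
    (fun x₀ hx₀ r ε e h1 h2 h3 h4 h5 => by
      obtain ⟨e', he'⟩ := hstep u hcl x₀ hx₀ r ε e h1 h2 h3 h4 ⟨h5.1, fun x hx => (h5.2 x hx).1, fun x hx => (h5.2 x hx).2⟩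
      exact ⟨e', he'.unit, fun x hx => ⟨he'.below x hx, he'.above x hx⟩⟩)
    (fun R₀ => by
      obtain ⟨R, hR, hfl⟩ := hstart (ε₀ / 4) (by positivity) R₀
      exact ⟨R, hR, e₁, hfl.unit, fun x hx => ⟨hfl.below x hx, hfl.above x hx⟩⟩)
  exact dgFE_exit hu he hF ⟨0, abs_lt.2 ⟨(hr 0).1, (hr 0).2⟩⟩

/-- K8 (post A1): orientation of a monotone planar transition. -/
theorem dgHub_K8 {u : DgE 8 → ℝ} (hu : DgPlanar 8 u) (hmono : ∀ x, 0 < fderiv ℝ u x dgE8) :
    ∃ e : DgE 8, ‖e‖ = 1 ∧ 0 < e 7 ∧ ∃ c : ℝ, ∀ x, u x = Real.tanh ((inner ℝ e x - c) / Real.sqrt 2) :=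
  dg1_K8 hu 7 hmono

/-! ## Parts II to IV: the OPEN contracts K9, K10 -/

/-- **OPEN CONTRACT K9** (Theorem 1.3 for `n = 7`; Part II): NOT PROVED. -/
theorem dgHub_contract_K9 {v : DgE 7 → ℝ} (hv : DgSol 7 v) (hs : DgStable 7 v) (hd : DgFinDens 7 v) : DgRigid 7 v := by
  sorry

/-- **OPEN CONTRACT K10** (Parts III, IV): a stable solution of `ℝ⁷` has finite density.  NOT PROVED. -/
theorem dgHub_contract_K10 {v : DgE 7 → ℝ} (hv : DgSol 7 v) (hs : DgStable 7 v) : DgFinDens 7 v := by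
  sorry

/-! ## The two theorems -/

/-- Theorem 1.2 = S0588.  RESTS ON THE OPEN CONTRACTS K9, K10. -/
theorem dgHub_stable_rigidity {v : DgE 7 → ℝ} (hv : DgSol 7 v) (hs : DgStable 7 v) : DgRigid 7 v :=
  dgHub_contract_K9 hv hs (dgHub_contract_K10 hv hs)

/-- **PART I, with no open contract below it**: a strictly monotone solution of `ℝ⁸` whose two end profiles (which are stable solutions
of `ℝ⁷`) are rigid is a planar transition. -/
theorem dgHub_monotone_core {u : DgE 8 → ℝ} (hu : DgSol 8 u) (hr : ∀ x, u x ∈ Ioo (-1 : ℝ) 1)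
    (hmono : ∀ x, 0 < fderiv ℝ u x dgE8)
    (hrig : ∀ v : DgE 7 → ℝ, DgSol 7 v → DgStable 7 v →
      ((∀ x : DgE 8, Tendsto (fun s : ℝ => u (x + s • dgE8)) atTop (𝓝 (v (dgInit x)))) ∨
        (∀ x : DgE 8, Tendsto (fun s : ℝ => u (x + s • dgE8)) atBot (𝓝 (v (dgInit x))))) → DgRigid 7 v) :
    ∃ e : DgE 8, ‖e‖ = 1 ∧ 0 < e 7 ∧ ∃ c : ℝ, ∀ x, u x = Real.tanh ((inner ℝ e x - c) / Real.sqrt 2) := by
  obtain ⟨vm, vp, hvm, hvp, hsm, hsp, hord, hp, hm⟩ := dgHub_K2 hu hmono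
  have hrm : DgRigid 7 vm := hrig vm hvm hsm
    (Or.inr fun x => (hm {x} isCompact_singleton).tendsto_at (mem_singleton x))
  have hrp : DgRigid 7 vp := hrig vp hvp hsp
    (Or.inl fun x => (hp {x} isCompact_singleton).tendsto_at (mem_singleton x))
  have hmin : DgMin 8 u := dgHub_K4 hu hmono hvm hvp hord hp hm (dgHub_K3 hrm) (dgHub_K3 hrp)
  exact dgHub_K8 (dgHub_K7 hu hr hmin hmono (dgHub_K6 hu hmin hmono (dgHub_K5 hu hmin))) hmono

/-- **THE REDUCTION (Part I of the paper), kernel-checked with no open contract: Theorem 1.2 (S0588) implies Theorem 1.1 (S0587).** -/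
theorem dgHub_reduction (h88 : ∀ v : DgE 7 → ℝ, DgSol 7 v → DgStable 7 v → DgRigid 7 v)
    {u : DgE 8 → ℝ} (hu : DgSol 8 u) (hr : ∀ x, u x ∈ Ioo (-1 : ℝ) 1) (hmono : ∀ x, 0 < fderiv ℝ u x dgE8) :
    ∃ e : DgE 8, ‖e‖ = 1 ∧ 0 < e 7 ∧ ∃ c : ℝ, ∀ x, u x = Real.tanh ((inner ℝ e x - c) / Real.sqrt 2) :=
  dgHub_monotone_core hu hr hmono fun v hv hs _ => h88 v hv hs

theorem dgHub_init_snoc (y : DgE 7) (t : ℝ) : dgInit (dgSnoc y t) = y := by
  ext i
  simp [dgInit, dgSnoc]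

/-- **BY-PRODUCT, unconditional (Savin 2009, Theorem 2.4, in the critical dimension): De Giorgi's conjecture in `ℝ⁸` under the pointwise
limit assumption `u(x', t) → ±1` as `t → ±∞`.** -/
theorem dgHub_savin8 (u : EuclideanSpace ℝ (Fin 8) → ℝ) (hu : ContDiff ℝ 2 u)
    (hrange : ∀ x, u x ∈ Set.Ioo (-1 : ℝ) 1)
    (hpde : ∀ x, Laplacian.laplacian u x = u x ^ 3 - u x)
    (hmono : ∀ x, 0 < fderiv ℝ u x (EuclideanSpace.single 7 1))
    (hplus : ∀ x, Tendsto (fun s : ℝ => u (x + s • EuclideanSpace.single 7 1)) atTop (𝓝 1))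
    (hminus : ∀ x, Tendsto (fun s : ℝ => u (x + s • EuclideanSpace.single 7 1)) atBot (𝓝 (-1))) :
    ∃ e : EuclideanSpace ℝ (Fin 8), ‖e‖ = 1 ∧ 0 < e 7 ∧ ∃ c : ℝ,
      ∀ x, u x = Real.tanh ((inner ℝ e x - c) / Real.sqrt 2) := by
  refine dgHub_monotone_core ⟨hu, fun x => Set.Ioo_subset_Icc_self (hrange x), hpde⟩ hrange hmono fun v _ _ h => ?_
  rcases h with h | h
  · refine Or.inl fun y => ?_
    have := tendsto_nhds_unique (h (dgSnoc y 0)) (hplus (dgSnoc y 0))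
    rwa [dgHub_init_snoc] at this
  · refine Or.inr (Or.inl fun y => ?_)
    have := tendsto_nhds_unique (h (dgSnoc y 0)) (hminus (dgSnoc y 0))
    rwa [dgHub_init_snoc] at this

/-- Theorem 1.1 = S0587.  RESTS ON THE OPEN CONTRACTS K9, K10. -/
theorem dgHub_monotone_rigidity {u : DgE 8 → ℝ} (hu : DgSol 8 u) (hr : ∀ x, u x ∈ Ioo (-1 : ℝ) 1)
    (hmono : ∀ x, 0 < fderiv ℝ u x dgE8) :
    ∃ e : DgE 8, ‖e‖ = 1 ∧ 0 < e 7 ∧ ∃ c : ℝ, ∀ x, u x = Real.tanh ((inner ℝ e x - c) / Real.sqrt 2) :=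
  dgHub_reduction (fun _ hv hs => dgHub_stable_rigidity hv hs) hu hr hmono

/-- The frozen form of S0588.  RESTS ON THE OPEN CONTRACTS K9, K10: not a proof. -/
theorem dgHub_S0588 (v : EuclideanSpace ℝ (Fin 7) → ℝ) (hv : ContDiff ℝ 2 v)
    (hrange : ∀ x, v x ∈ Set.Icc (-1 : ℝ) 1)
    (hpde : ∀ x, Laplacian.laplacian v x = v x ^ 3 - v x)
    (hstable : ∀ φ : EuclideanSpace ℝ (Fin 7) → ℝ, ContDiff ℝ 1 φ → HasCompactSupport φ →
      0 ≤ ∫ x, (‖fderiv ℝ φ x‖ ^ 2 + (3 * v x ^ 2 - 1) * φ x ^ 2)) :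
    (∀ x, v x = 1) ∨ (∀ x, v x = -1) ∨
      ∃ a : EuclideanSpace ℝ (Fin 7), ‖a‖ = 1 ∧ ∃ b : ℝ,
        ∀ x, v x = Real.tanh ((inner ℝ a x - b) / Real.sqrt 2) :=
  dgHub_stable_rigidity ⟨hv, hrange, hpde⟩ hstable

/-- The frozen form of S0587.  RESTS ON THE OPEN CONTRACTS K9, K10: not a proof. -/
theorem dgHub_S0587 (u : EuclideanSpace ℝ (Fin 8) → ℝ) (hu : ContDiff ℝ 2 u)
    (hrange : ∀ x, u x ∈ Set.Ioo (-1 : ℝ) 1)
    (hpde : ∀ x, Laplacian.laplacian u x = u x ^ 3 - u x)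
    (hmono : ∀ x, 0 < fderiv ℝ u x (EuclideanSpace.single 7 1)) :
    ∃ e : EuclideanSpace ℝ (Fin 8), ‖e‖ = 1 ∧ 0 < e 7 ∧ ∃ c : ℝ,
      ∀ x, u x = Real.tanh ((inner ℝ e x - c) / Real.sqrt 2) :=
  dgHub_monotone_rigidity ⟨hu, fun x => Set.Ioo_subset_Icc_self (hrange x), hpde⟩ hrange hmono

/-! ## By-products in every dimension (no open contract below them): Savin's theorems -/

/-- THE STEP (improvement of flatness) in every dimension `m + 1 ≥ 2`. -/
theorem dgHub_G_step (m : ℕ) (hm : 1 ≤ m) {K c₀ : ℝ} : ∃ θ ε₀ c₁ : ℝ, 0 < θ ∧ θ < 1 ∧ 0 < ε₀ ∧ 0 < c₁ ∧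
    ∀ u : DgE (m + 1) → ℝ, DfClass m K c₀ u →
    ∀ x₀ : DgE (m + 1), |u x₀| < 7 / 8 → ∀ (r ε : ℝ) (e : DgE (m + 1)), 0 < r → 0 < ε → ε ≤ ε₀ → 4 / r ≤ c₁ * ε ^ 2 →
      DfFlatU u x₀ r ε e → ∃ e' : DgE (m + 1), DfFlatU u x₀ (θ * r) (ε / 2) e' :=
  dfg_K7s_of (fun _ _ _ _ _ L H hfl hLe hr hε _ hw => dfp9_unit hm H L hLe hr hε (by linarith) hw hfl)
    fun hK hc => df_unit_step m hm _ _ 1 (div_nonneg hK dfp9_S0_pos.le) (div_pos hc dfp9_S0_pos) one_pos

/-- **An Allard type theorem for the Allen-Cahn equation** (compare Wang 2017, Theorem 11.1), every dimension `m + 1 ≥ 2`: a stable solution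
with unit density at infinity which is flat at arbitrarily large scales about one point is a planar transition. -/
theorem dgHub_G_planar {m : ℕ} (hm : 1 ≤ m) {u : DgE (m + 1) → ℝ} (hu : DgSol (m + 1) u) (hst : DgStable (m + 1) u)
    (hd : Tendsto (fun R : ℝ => dgEn (m + 1) u 0 R / (dfS0 * Gmt.gmtOm m * R ^ m)) atTop (𝓝 1))
    (hstart : ∃ e : DgE (m + 1), ∀ ε : ℝ, 0 < ε → ∀ R₀ : ℝ, ∃ R : ℝ, R₀ ≤ R ∧ DfFlatU u 0 R ε e) :
    DgPlanar (m + 1) u := by
  obtain ⟨K, c₀, hK⟩ := dfcl_class m hm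
  have hcl : DfClass m K c₀ u := hK u hu hst hd
  obtain ⟨θ, ε₀, c₁, hθ0, hθ1, hε₀, hc₁, hstep⟩ := dgHub_G_step m hm (K := K) (c₀ := c₀)
  obtain ⟨e₁, hstart⟩ := hstart
  obtain ⟨e, he, hF⟩ := dgIt_exit_FEF (n := m + 1) (u := u) (by omega) hθ0 hθ1 hε₀ hc₁
    (fun x₀ hx₀ r ε e h1 h2 h3 h4 h5 => by
      obtain ⟨e', he'⟩ := hstep u hcl x₀ hx₀ r ε e h1 h2 h3 h4 ⟨h5.1, fun x hx => (h5.2 x hx).1, fun x hx => (h5.2 x hx).2⟩
      exact ⟨e', he'.unit, fun x hx => ⟨he'.below x hx, he'.above x hx⟩⟩)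
    (fun R₀ => by
      obtain ⟨R, hR, hfl⟩ := hstart (ε₀ / 4) (by positivity) R₀
      exact ⟨R, hR, e₁, hfl.unit, fun x hx => ⟨hfl.below x hx, hfl.above x hx⟩⟩)
  exact dgFE_exit hu he hF ⟨0, abs_lt.2 ⟨(hcl.range 0).1, (hcl.range 0).2⟩⟩

/-- a nontrivial perimeter minimizing cone of `ℝⁿ`, `2 ≤ n ≤ 7`, is a half-space (regularity + Simons' theorem, `Lib/Gmt`). -/
theorem dgHub_G_simons {n : ℕ} (h2 : 2 ≤ n) (h7 : n ≤ 7) {S : Set (DgE n)} (hS : Gmt.GmtMin univ S) (hc : Gmt.GmtCone S)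
    (hne : Gmt.gmtP S (ball 0 1) ≠ 0) : ∃ e : DgE n, ‖e‖ = 1 ∧ S =ᵐ[volume] Gmt.gmtHalf 0 e := by
  have hsing : Gmt.gmtSing S univ = ∅ := Gmt.gmt_sing_empty h2 h7 Gmt.gmtData_eu hS
  refine Gmt.gmt_simons h2 h7 hS hc (fun x hx _ => ?_) (dgB5_zero_mem_bd hS.meas hc hne)
  by_contra hreg
  have hx' : x ∈ Gmt.gmtSing S univ := ⟨mem_univ _, hx, hreg⟩
  rw [hsing] at hx'
  exact hx'

/-- a nonconstant minimizing solution all of whose blow-down cones are half-spaces is a planar transition (every dimension `≥ 2`). -/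
theorem dgHub_G_min_core {m : ℕ} (hm : 1 ≤ m) {u : DgE (m + 1) → ℝ} (hu : DgSol (m + 1) u) (hne : ∃ x, |u x| < 1)
    (hmin : DgMin (m + 1) u)
    (hhalf : ∀ S : Set (DgE (m + 1)), Gmt.GmtMin univ S → Gmt.GmtCone S → Gmt.gmtP S (ball 0 1) ≠ 0 →
      ∃ e : DgE (m + 1), ‖e‖ = 1 ∧ S =ᵐ[volume] Gmt.gmtHalf 0 e) : DgPlanar (m + 1) u := by
  have hu1 : ContDiff ℝ 1 u := hu.smooth.of_le (by norm_num)
  have hs0 : 0 < dgS0 := by unfold dgS0; positivity
  have hom : 0 < Gmt.gmtOm m := by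
    unfold Gmt.gmtOm
    exact ENNReal.toReal_pos (measure_ball_pos _ _ one_pos).ne' measure_ball_lt_top.ne
  have hgrowth := dgHub_K5 hu hmin
  have hmod := dgHub_K6a hu
  obtain ⟨x₁, hx₁⟩ := hne
  have hpos : 0 < dgDens (m + 1) u x₁ := by
    have h1 : 0 < 1 - u x₁ ^ 2 := by
      have := abs_lt.1 hx₁
      nlinarith [this.1, this.2]
    unfold dgDens dgW
    positivity
  obtain ⟨L, hL0, hL⟩ := dg17_lim hu1 hpos hgrowth (c := dgS0 * Gmt.gmtOm m) (by positivity) (dgHub_K6b hu hmod)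
  have hL' : Tendsto (fun T : ℝ => dgEn (m + 1) u 0 T / (dgS0 * Gmt.gmtOm (m + 1 - 1) * T ^ (m + 1 - 1))) atTop (𝓝 L) := hL
  obtain ⟨φ, S, hφ, hS, hl, hw⟩ :=
    dgHub_K6x (by omega) hu hmin hgrowth (fun j => (j : ℝ)) tendsto_natCast_atTop_atTop
  have hR' : Tendsto (fun j => ((φ j : ℕ) : ℝ)) atTop atTop := tendsto_natCast_atTop_atTop.comp hφ.tendsto_atTop
  have hLF : Gmt.GmtLF S univ := Gmt.GmtLAM.lf isOpen_univ (Gmt.gmtInt_eu _) hS
  have hP : ∀ r : ℝ, 0 < r → Gmt.gmtP S (ball 0 r) = ENNReal.ofReal (L * (Gmt.gmtOm m * r ^ m)) := fun r hr => by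
    rw [← Gmt.gmtMu_open S isOpen_ball]
    exact dgB5_mass (n := m + 1) (by omega) hu1 hs0 hLF hR' hw hL' hr
  have hcone : Gmt.GmtCone S := dgB5_cone_of_ratio (m := m + 1) (by omega) hS (c := L * Gmt.gmtOm m) fun r hr => by
    rw [hP r hr, mul_assoc]
    rfl
  have h1 := hP 1 one_pos
  have hne' : Gmt.gmtP S (ball 0 1) ≠ 0 := by
    rw [h1]
    simp only [one_pow, mul_one, ne_eq, ENNReal.ofReal_eq_zero, not_le]
    positivity
  obtain ⟨ν, hν, hSν⟩ := hhalf S hS hcone hne'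
  -- the density at infinity is one
  have hmeas : MeasurableSet (Gmt.gmtHalf (0 : DgE (m + 1)) ν) := by
    unfold Gmt.gmtHalf
    exact measurableSet_lt (by fun_prop) measurable_const
  have h2 : Gmt.gmtP S (ball 0 1) = Gmt.gmtP (Gmt.gmtHalf (0 : DgE (m + 1)) ν) (ball 0 1) :=
    Gmt.gmtP_congr hS.meas hmeas (hSν.inter (ae_eq_refl _))
  rw [h1, Gmt.gmtP_half_ball (by omega) (0 : DgE (m + 1)) hν one_pos] at h2
  simp only [one_pow, mul_one, Nat.add_one_sub_one] at h2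
  have h3 : L * Gmt.gmtOm m = Gmt.gmtOm m := (ENNReal.ofReal_eq_ofReal_iff (by positivity) hom.le).1 h2
  have h4 : L = 1 := by
    have : (L - 1) * Gmt.gmtOm m = 0 := by linarith
    rcases mul_eq_zero.1 this with h | h
    · linarith
    · exact absurd h hom.ne'
  rw [h4] at hL
  -- flatness at arbitrarily large scales
  have hc₀ : 0 < 1 / 300 * (volume (ball (0 : DgE (m + 1)) (1 / 16))).toReal :=
    mul_pos (by norm_num) (ENNReal.toReal_pos (measure_ball_pos _ _ (by norm_num)).ne' measure_ball_lt_top.ne)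
  refine dgHub_G_planar hm hu (dfcl_stable_of_min hu1 hmin) hL ⟨ν, fun ε hε R₀ => ?_⟩
  have hε' : 0 < min ε (1 / 2) := lt_min hε (by norm_num)
  have hfl := dfs_flat_of_limit (n := m + 1) (by omega) hu1 hc₀ (dfs_low hu hmod) hLF hν hSν hR'
    (hl _ (isCompact_closedBall 0 1)) hw hε' (lt_of_le_of_lt (min_le_right _ _) (by norm_num))
  obtain ⟨j, ⟨hj, hj0⟩, hj1⟩ := ((hfl.and (hR'.eventually_gt_atTop 0)).and (hR'.eventually_ge_atTop R₀)).exists
  exact ⟨_, hj1, dfs_flat_mono hj hj0.le (min_le_left _ _)⟩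

/-- **BY-PRODUCT, unconditional (Savin 2009): a global minimizer of the Allen-Cahn energy in `ℝⁿ`, `2 ≤ n ≤ 7`, with values in `(-1, 1)`,
is a planar transition.** -/
theorem dgHub_savin_min {n : ℕ} (h2 : 2 ≤ n) (h7 : n ≤ 7) (u : EuclideanSpace ℝ (Fin n) → ℝ) (hu : ContDiff ℝ 2 u)
    (hrange : ∀ x, u x ∈ Set.Ioo (-1 : ℝ) 1)
    (hpde : ∀ x, Laplacian.laplacian u x = u x ^ 3 - u x) (hmin : DgMin n u) :
    ∃ a : EuclideanSpace ℝ (Fin n), ‖a‖ = 1 ∧ ∃ b : ℝ, ∀ x, u x = Real.tanh ((inner ℝ a x - b) / Real.sqrt 2) := by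
  obtain ⟨m, rfl⟩ : ∃ m, n = m + 1 := ⟨n - 1, by omega⟩
  exact dgHub_G_min_core (by omega) ⟨hu, fun x => Set.Ioo_subset_Icc_self (hrange x), hpde⟩
    ⟨0, abs_lt.2 ⟨(hrange 0).1, (hrange 0).2⟩⟩ hmin fun S hS hc hne => dgHub_G_simons h2 h7 hS hc hne

theorem dgHub_min_const {n : ℕ} {c : ℝ} (hc : c ^ 2 = 1) : DgMin n fun _ => c := by
  intro R φ _ _ _
  have h0 : dgEn n (fun _ => c) 0 R = 0 := by
    simp [dgEn, dgDens, dgW, hc]
  rw [h0]
  exact dg17_En_nonneg _ _ _ _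

/-- **BY-PRODUCT, unconditional (Savin 2009, Theorem 2.4): De Giorgi's conjecture in `ℝⁿ`, `2 ≤ n ≤ 7`, under the pointwise limit assumption**
(any direction `e` of strict monotonicity); the critical dimension `n = 8` is `dgHub_savin8`. -/
theorem dgHub_savin_le7 {n : ℕ} (h2 : 2 ≤ n) (h7 : n ≤ 7) (u : EuclideanSpace ℝ (Fin n) → ℝ) (hu : ContDiff ℝ 2 u)
    (hrange : ∀ x, u x ∈ Set.Ioo (-1 : ℝ) 1)
    (hpde : ∀ x, Laplacian.laplacian u x = u x ^ 3 - u x)
    (e : EuclideanSpace ℝ (Fin n)) (hmono : ∀ x, 0 < fderiv ℝ u x e)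
    (hplus : ∀ x, Tendsto (fun s : ℝ => u (x + s • e)) atTop (𝓝 1))
    (hminus : ∀ x, Tendsto (fun s : ℝ => u (x + s • e)) atBot (𝓝 (-1))) :
    ∃ a : EuclideanSpace ℝ (Fin n), ‖a‖ = 1 ∧ ∃ b : ℝ, ∀ x, u x = Real.tanh ((inner ℝ a x - b) / Real.sqrt 2) :=
  dgHub_savin_min h2 h7 u hu hrange hpde
    (dgB2_min ⟨hu, fun x => Set.Ioo_subset_Icc_self (hrange x), hpde⟩ e hmono contDiff_const contDiff_const
      (dgHub_min_const (by norm_num)) (dgHub_min_const (by norm_num)) hminus hplus)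

end Claimed.Agent.R329
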