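import Claimed.Agent.R329.Defs
import Claimed.Agent.R329.WeakForm
import Claimed.Agent.R329.Cpt
import Claimed.Agent.Lib.Sob.Api
import Claimed.Agent.Lib.AASmooth

/-!
# Row 329, post A14 (helper188, prefix `dgj`): stability and positive Jacobi fields

`DgStable n v  ↔  ∃ φ > 0, Δ φ = (3 v² - 1) φ`   (for a solution `v`, `n ≥ 1`; for `n = 0` the implication `→` is false: `v = 1`).

General form (`E` a finite dimensional real inner product space, `V` smooth and bounded):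
* `dgj_mv_super`, `dgj_mv_sub` : weighted mean value inequalities for `w ≥ 0` with `Δ w ≤ Λ w`, resp. `Δ w ≥ - Λ w`, on a ball:
  `G(r) = ∫ w (z + r y) (1 - |y|²)₊ dy` satisfies `G'(r) = r ∫ Δw (z + r y) ψ(y) dy`, `ψ = (1 - |y|²)₊² / 4 ≤ μ / 4`, then Gronwall;
* `dgj_harnack` : `w z₁ ≤ (64/39) 2^dim exp (5 Λ r² / 8) w z₂` if `|z₁ - z₂| ≤ r / 4` (no chains of balls, no Moser iteration);
* `dgj_smp` : strong minimum principle for `w ≥ 0`, `Δ w ≤ Λ w`;
* `dgj_resolvent` : if `∫ |∇ξ|² + V ξ² ≥ 0` on `C¹_c`, `ε > 0`, `0 ≤ f ∈ C^∞_c`, `f ≠ 0`, there is a smooth `u ≥ 0`, `u ≠ 0`, with `Δ u = (V + ε) u - f`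
  (direct method on test functions: minimising sequences are Cauchy in `H¹`, smooth absolute values keep them minimising; `Lib/Sob` regularity);
* `dgj_deriv_bound`, `dgj_compact` : interior `C^m` bounds (`Lib/Sob`) and `C^∞_loc` compactness (`Lib/AASmooth`) for `Δ φ = (V + ε) φ`;
* `dgj_exists_pos` : the theorem of Fischer-Colbrie and Schoen, Moss and Piepenbrink: a positive smooth solution of `Δ φ = V φ`.
-/

set_option autoImplicit false
set_option maxSynthPendingDepth 6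
set_option linter.unusedSectionVars false
set_option linter.unusedVariables false
set_option linter.unusedSimpArgs false

open MeasureTheory InnerProductSpace Filter Topology Metric Set
open scoped ContDiff

namespace Claimed.Agent.R329

/-! ## the weights `μ = (1 - |y|²)₊`, `ψ = μ²/4` -/

section H1


variable {E : Type*} [NormedAddCommGroup E] [InnerProductSpace ℝ E] [FiniteDimensional ℝ E]

/-- the weight `(1 - |y|²)₊` of the mean value inequalities -/
noncomputable def dgjMu (y : E) : ℝ := max 0 (1 - ‖y‖ ^ 2)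

/-- `ψ = μ² / 4`, so that `∇ψ = - μ y` -/
noncomputable def dgjPsi (y : E) : ℝ := (max 0 (1 - ‖y‖ ^ 2)) ^ 2 / 4

theorem dgj_hasDerivAt_sqpos (t : ℝ) : HasDerivAt (fun s : ℝ => (max 0 s) ^ 2) (2 * max 0 t) t := by
  rcases lt_trichotomy t 0 with h | h | h
  · have e : (fun s : ℝ => (max 0 s) ^ 2) =ᶠ[𝓝 t] fun _ => (0 : ℝ) := by
      filter_upwards [Iio_mem_nhds h] with s hs
      rw [max_eq_left (le_of_lt hs)]; norm_num
    rw [max_eq_left h.le, mul_zero]
    exact (hasDerivAt_const t (0 : ℝ)).congr_of_eventuallyEq e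
  · subst h
    rw [max_self, mul_zero, hasDerivAt_iff_isLittleO_nhds_zero]
    have h1 : (fun h : ℝ => (max 0 (0 + h)) ^ 2 - (max 0 (0 : ℝ)) ^ 2 - h • (0 : ℝ)) =O[𝓝 0]
        fun h : ℝ => h ^ 2 := by
      refine Asymptotics.IsBigO.of_bound 1 (Eventually.of_forall fun h => ?_)
      simp only [zero_add, max_self, smul_zero, sub_zero, one_mul]
      rcases le_total 0 h with hh | hh
      · rw [max_eq_right hh]; norm_num
      · rw [max_eq_left hh]; norm_num; positivity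
    exact h1.trans_isLittleO (Asymptotics.isLittleO_pow_id one_lt_two)
  · have e : (fun s : ℝ => (max 0 s) ^ 2) =ᶠ[𝓝 t] fun s => s ^ 2 := by
      filter_upwards [Ioi_mem_nhds h] with s hs
      rw [max_eq_right (le_of_lt hs)]
    rw [max_eq_right h.le]
    have := (hasDerivAt_pow 2 t).congr_of_eventuallyEq e
    simpa using this

theorem dgjMu_nonneg (y : E) : 0 ≤ dgjMu y := le_max_left _ _

theorem dgjMu_le_one (y : E) : dgjMu y ≤ 1 := by
  unfold dgjMu
  exact max_le zero_le_one (by nlinarith [sq_nonneg ‖y‖])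

theorem dgjMu_continuous : Continuous (dgjMu : E → ℝ) := by
  unfold dgjMu
  fun_prop

theorem dgjMu_eq_zero {y : E} (hy : 1 ≤ ‖y‖) : dgjMu y = 0 := by
  unfold dgjMu
  exact max_eq_left (by nlinarith)

theorem dgjMu_hcs : HasCompactSupport (dgjMu : E → ℝ) := by
  refine HasCompactSupport.intro (isCompact_closedBall (0 : E) 1) fun y hy => ?_
  refine dgjMu_eq_zero ?_
  rw [mem_closedBall, dist_zero_right, not_le] at hy
  exact hy.le

theorem dgjPsi_eq (y : E) : dgjPsi y = dgjMu y ^ 2 / 4 := rfl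

theorem dgjPsi_nonneg (y : E) : 0 ≤ dgjPsi y := by rw [dgjPsi_eq]; positivity

theorem dgjPsi_le (y : E) : dgjPsi y ≤ dgjMu y / 4 := by
  rw [dgjPsi_eq]
  nlinarith [dgjMu_nonneg y, dgjMu_le_one y]

theorem dgjPsi_hasFDerivAt (y : E) : HasFDerivAt (dgjPsi : E → ℝ) (-(dgjMu y) • innerSL ℝ y) y := by
  have h1 : HasFDerivAt (fun x : E => 1 - ‖x‖ ^ 2) (-(2 • innerSL ℝ y)) y :=
    ((hasStrictFDerivAt_norm_sq y).hasFDerivAt).const_sub 1
  have h2 := (dgj_hasDerivAt_sqpos (1 - ‖y‖ ^ 2)).comp_hasFDerivAt y h1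
  have h3 := h2.mul_const (1 / 4 : ℝ)
  have e : (fun x : E => ((fun s : ℝ => (max 0 s) ^ 2) ∘ fun x : E => 1 - ‖x‖ ^ 2) x * (1 / 4)) = dgjPsi := by
    funext x
    simp [dgjPsi]
    ring
  rw [e] at h3
  have e2 : -(dgjMu y) • innerSL ℝ y
      = (1 / 4 : ℝ) • (2 * max 0 (1 - ‖y‖ ^ 2)) • -(2 • (innerSL ℝ) y) := by
    ext v
    simp only [dgjMu, _root_.smul_apply, _root_.neg_apply, smul_eq_mul, nsmul_eq_mul]
    push_cast
    ring
  rw [e2]
  exact h3

theorem dgjPsi_fderiv (y : E) : fderiv ℝ (dgjPsi : E → ℝ) y = -(dgjMu y) • innerSL ℝ y :=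
  (dgjPsi_hasFDerivAt y).fderiv

theorem dgjPsi_contDiff : ContDiff ℝ 1 (dgjPsi : E → ℝ) := by
  rw [contDiff_one_iff_fderiv]
  refine ⟨fun y => (dgjPsi_hasFDerivAt y).differentiableAt, ?_⟩
  have : fderiv ℝ (dgjPsi : E → ℝ) = fun y => -(dgjMu y) • innerSL ℝ y := funext dgjPsi_fderiv
  rw [this]
  exact (dgjMu_continuous.neg).smul (innerSL ℝ).continuous

theorem dgjPsi_hcs : HasCompactSupport (dgjPsi : E → ℝ) := by
  refine HasCompactSupport.intro (isCompact_closedBall (0 : E) 1) fun y hy => ?_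
  rw [mem_closedBall, dist_zero_right, not_le] at hy
  rw [dgjPsi_eq, dgjMu_eq_zero hy.le]
  norm_num

end H1

/-! ## dilations, the weighted mean and its derivative -/

section H2


variable {E : Type*} [NormedAddCommGroup E] [InnerProductSpace ℝ E] [FiniteDimensional ℝ E]

theorem dgj_hasFDerivAt_aff (z : E) (r : ℝ) (y : E) :
    HasFDerivAt (fun y : E => z + r • y) (r • ContinuousLinearMap.id ℝ E) y :=
  ((hasFDerivAt_id y).const_smul r).const_add z

theorem dgj_fderiv_dil {w : E → ℝ} (hw : Differentiable ℝ w) (z : E) (r : ℝ) (y : E) :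
    fderiv ℝ (fun y => w (z + r • y)) y = r • fderiv ℝ w (z + r • y) := by
  have h := ((hw (z + r • y)).hasFDerivAt.comp y (dgj_hasFDerivAt_aff z r y)).fderiv
  have e : (w ∘ fun y : E => z + r • y) = fun y => w (z + r • y) := rfl
  rw [e] at h
  rw [h]
  ext v
  simp

theorem dgj_contDiff_dil {w : E → ℝ} {k : WithTop ℕ∞} (hw : ContDiff ℝ k w) (z : E) (r : ℝ) :
    ContDiff ℝ k (fun y => w (z + r • y)) :=
  hw.comp (contDiff_const.add (contDiff_const.smul contDiff_id))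

theorem dgj_laplacian_dil {w : E → ℝ} (hw : ContDiff ℝ 2 w) (z : E) (r : ℝ) (y : E) :
    Laplacian.laplacian (fun y => w (z + r • y)) y = r ^ 2 * Laplacian.laplacian w (z + r • y) := by
  have hwd : Differentiable ℝ w := hw.differentiable (by norm_num)
  rw [dg98_laplacian_eq (stdOrthonormalBasis ℝ E) (dgj_contDiff_dil hw z r),
    dg98_laplacian_eq (stdOrthonormalBasis ℝ E) hw, Finset.mul_sum]
  refine Finset.sum_congr rfl fun i _ => ?_
  set b := stdOrthonormalBasis ℝ E i with hb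
  have h1 : (fun y' => fderiv ℝ (fun y => w (z + r • y)) y' b)
      = fun y' => r * (fun x => fderiv ℝ w x b) (z + r • y') := by
    funext y'
    rw [dgj_fderiv_dil hwd]
    simp
  have hg : Differentiable ℝ (fun x => fderiv ℝ w x b) :=
    (dg98_contDiff_fderiv_apply hw b).differentiable (by norm_num)
  rw [h1]
  have h2 : fderiv ℝ (fun y' => r * (fun x => fderiv ℝ w x b) (z + r • y')) y
      = r • fderiv ℝ (fun y' => (fun x => fderiv ℝ w x b) (z + r • y')) y := by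
    apply fderiv_const_mul
    exact (hg _).comp y (dgj_hasFDerivAt_aff z r y).differentiableAt
  rw [h2, dgj_fderiv_dil hg]
  simp
  ring

variable [MeasurableSpace E] [BorelSpace E]

/-- the weighted mean -/
noncomputable def dgjG (w : E → ℝ) (z : E) (r : ℝ) : ℝ := ∫ y, w (z + r • y) * dgjMu y

theorem dgj_integrable_mu {g : E → ℝ} (hg : Continuous g) : Integrable (fun y => g y * dgjMu y) :=
  (hg.mul dgjMu_continuous).integrable_of_hasCompactSupport dgjMu_hcs.mul_left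

theorem dgj_integrable_psi {g : E → ℝ} (hg : Continuous g) : Integrable (fun y => g y * dgjPsi y) :=
  (hg.mul dgjPsi_contDiff.continuous).integrable_of_hasCompactSupport dgjPsi_hcs.mul_left

theorem dgj_continuous_aff (z : E) (r : ℝ) : Continuous (fun y : E => z + r • y) := by fun_prop

theorem dgjG_hasDerivAt {w : E → ℝ} (hw : ContDiff ℝ 1 w) (z : E) (r : ℝ) :
    HasDerivAt (dgjG w z) (∫ y, fderiv ℝ w (z + r • y) y * dgjMu y) r := by
  have hwd : Differentiable ℝ w := hw.differentiable (by norm_num)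
  have hcf : Continuous (fderiv ℝ w) := hw.continuous_fderiv (by norm_num)
  obtain ⟨M, hM⟩ := (isCompact_closedBall z (|r| + 1)).exists_bound_of_continuousOn hcf.continuousOn
  have key := hasDerivAt_integral_of_dominated_loc_of_deriv_le (μ := (volume : Measure E))
    (F := fun (s : ℝ) (y : E) => w (z + s • y) * dgjMu y)
    (F' := fun (s : ℝ) (y : E) => fderiv ℝ w (z + s • y) y * dgjMu y)
    (x₀ := r) (s := ball r 1) (bound := fun y => M * dgjMu y) (ball_mem_nhds r one_pos)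
    (Eventually.of_forall fun s =>
      (dgj_integrable_mu (hw.continuous.comp (dgj_continuous_aff z s))).aestronglyMeasurable)
    (dgj_integrable_mu (hw.continuous.comp (dgj_continuous_aff z r)))
    (dgj_integrable_mu ((hcf.comp (dgj_continuous_aff z r)).clm_apply continuous_id)).aestronglyMeasurable
    (Eventually.of_forall fun y s hs => ?_)
    (dgj_integrable_mu continuous_const)
    (Eventually.of_forall fun y s _ => ?_)
  · exact key.2
  · rcases le_or_gt 1 ‖y‖ with hy | hy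
    · rw [dgjMu_eq_zero hy]; simp
    · rw [norm_mul, Real.norm_eq_abs (dgjMu y), abs_of_nonneg (dgjMu_nonneg y)]
      refine mul_le_mul_of_nonneg_right ?_ (dgjMu_nonneg y)
      have hmem : z + s • y ∈ closedBall z (|r| + 1) := by
        rw [mem_closedBall, dist_eq_norm, add_sub_cancel_left, norm_smul, Real.norm_eq_abs]
        have h1 : |s| ≤ |r| + 1 := by
          rw [mem_ball, Real.dist_eq] at hs
          have := abs_sub_abs_le_abs_sub s r
          linarith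
        calc |s| * ‖y‖ ≤ |s| * 1 := mul_le_mul_of_nonneg_left hy.le (abs_nonneg _)
          _ ≤ |r| + 1 := by linarith
      calc ‖fderiv ℝ w (z + s • y) y‖ ≤ ‖fderiv ℝ w (z + s • y)‖ * ‖y‖ := ContinuousLinearMap.le_opNorm _ _
        _ ≤ M * 1 := mul_le_mul (hM _ hmem) hy.le (norm_nonneg _) ((norm_nonneg _).trans (hM _ hmem))
        _ = M := mul_one _
  · have h1 : HasDerivAt (fun s : ℝ => z + s • y) y s := by
      simpa using ((hasDerivAt_id s).smul_const y).const_add z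
    have h2 := (hwd (z + s • y)).hasFDerivAt.comp_hasDerivAt s h1
    exact h2.mul_const _

/-- `r G'(r) = r² ∫ Δw(z + r y) ψ(y) dy` -/
theorem dgj_green_dil {w : E → ℝ} (hw : ContDiff ℝ 2 w) (z : E) (r : ℝ) :
    r * ∫ y, fderiv ℝ w (z + r • y) y * dgjMu y
      = r ^ 2 * ∫ y, Laplacian.laplacian w (z + r • y) * dgjPsi y := by
  have hwd : Differentiable ℝ w := hw.differentiable (by norm_num)
  have h := dg98_green (stdOrthonormalBasis ℝ E) (dgj_contDiff_dil hw z r) dgjPsi_contDiff dgjPsi_hcs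
  have e1 : ∀ y : E, ∑ i, fderiv ℝ (fun y => w (z + r • y)) y (stdOrthonormalBasis ℝ E i) *
      fderiv ℝ dgjPsi y (stdOrthonormalBasis ℝ E i) = -(r * (fderiv ℝ w (z + r • y) y * dgjMu y)) := by
    intro y
    rw [dgj_fderiv_dil hwd, dgjPsi_fderiv]
    have h2 : ∑ i, inner ℝ (stdOrthonormalBasis ℝ E i) y • stdOrthonormalBasis ℝ E i = y :=
      (stdOrthonormalBasis ℝ E).sum_repr' y
    have h3 : ∀ L : E →L[ℝ] ℝ, L y = ∑ i, inner ℝ (stdOrthonormalBasis ℝ E i) y *
        L (stdOrthonormalBasis ℝ E i) := by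
      intro L
      conv_lhs => rw [← h2]
      rw [map_sum]
      refine Finset.sum_congr rfl fun i _ => ?_
      rw [map_smul, smul_eq_mul]
    rw [h3 (fderiv ℝ w (z + r • y)), Finset.sum_mul, Finset.mul_sum, ← Finset.sum_neg_distrib]
    refine Finset.sum_congr rfl fun i _ => ?_
    simp only [_root_.smul_apply, smul_eq_mul, innerSL_apply_apply]
    rw [real_inner_comm]
    ring
  simp only [e1, dgj_laplacian_dil hw] at h
  rw [integral_neg, integral_const_mul, neg_inj] at h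
  rw [h, ← integral_const_mul]
  refine integral_congr_ae (Eventually.of_forall fun y => ?_)
  simp only
  ring

end H2

/-! ## mean value inequalities and the Harnack inequality -/

section H3


variable {E : Type*} [NormedAddCommGroup E] [InnerProductSpace ℝ E] [FiniteDimensional ℝ E]

theorem dgj_continuous_laplacian {w : E → ℝ} (hw : ContDiff ℝ 2 w) :
    Continuous (fun x => Laplacian.laplacian w x) := by
  have : (fun x => Laplacian.laplacian w x) = fun x => ∑ i, fderiv ℝ (fun y => fderiv ℝ w y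
      (stdOrthonormalBasis ℝ E i)) x (stdOrthonormalBasis ℝ E i) :=
    funext fun x => dg98_laplacian_eq (stdOrthonormalBasis ℝ E) hw x
  rw [this]
  exact continuous_finsetSum _ fun i _ =>
    dg98_continuous_fderiv_apply (dg98_contDiff_fderiv_apply hw _) _

theorem dgj_gronwall {G G' : ℝ → ℝ} {c r : ℝ} (hr : 0 ≤ r) (hG : ∀ s, HasDerivAt G (G' s) s)
    (h : ∀ s ∈ Ioo 0 r, G' s ≤ c * s * G s) : G r ≤ Real.exp (c * r ^ 2 / 2) * G 0 := by
  have hK : ∀ s, HasDerivAt (fun s => G s * Real.exp (-(c * s ^ 2 / 2)))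
      (G' s * Real.exp (-(c * s ^ 2 / 2)) + G s * (Real.exp (-(c * s ^ 2 / 2)) * (-(c * s)))) s := by
    intro s
    have h1 : HasDerivAt (fun s : ℝ => -(c * s ^ 2 / 2)) (-(c * s)) s := by
      have h0 := (((hasDerivAt_pow 2 s).const_mul c).div_const 2).neg
      have e : -(c * ((2 : ℕ) * s ^ (2 - 1)) / 2) = -(c * s) := by
        push_cast
        ring
      rw [e] at h0
      exact h0
    exact (hG s).mul h1.exp
  have hanti : AntitoneOn (fun s => G s * Real.exp (-(c * s ^ 2 / 2))) (Icc 0 r) := by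
    refine antitoneOn_of_deriv_nonpos (convex_Icc 0 r)
      (fun s _ => (hK s).continuousAt.continuousWithinAt)
      (fun s _ => (hK s).differentiableAt.differentiableWithinAt) fun s hs => ?_
    rw [interior_Icc] at hs
    rw [(hK s).deriv]
    have := h s hs
    have he := Real.exp_pos (-(c * s ^ 2 / 2))
    nlinarith
  have h2 := hanti (left_mem_Icc.2 hr) (right_mem_Icc.2 hr) hr
  simp only at h2
  norm_num at h2
  have he : Real.exp (c * r ^ 2 / 2) * Real.exp (-(c * r ^ 2 / 2)) = 1 := by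
    rw [← Real.exp_add]; simp
  calc G r = Real.exp (c * r ^ 2 / 2) * (G r * Real.exp (-(c * r ^ 2 / 2))) := by
        rw [mul_comm (G r), ← mul_assoc, he, one_mul]
    _ ≤ Real.exp (c * r ^ 2 / 2) * G 0 := mul_le_mul_of_nonneg_left h2 (Real.exp_pos _).le

variable [MeasurableSpace E] [BorelSpace E]

theorem dgjG_hasDerivAt' {w : E → ℝ} (hw : ContDiff ℝ 2 w) (z : E) {r : ℝ} (hr : r ≠ 0) :
    (∫ y, fderiv ℝ w (z + r • y) y * dgjMu y) = r * ∫ y, Laplacian.laplacian w (z + r • y) * dgjPsi y := by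
  have h := dgj_green_dil hw z r
  have : r * (∫ y, fderiv ℝ w (z + r • y) y * dgjMu y)
      = r * (r * ∫ y, Laplacian.laplacian w (z + r • y) * dgjPsi y) := by rw [h]; ring
  exact mul_left_cancel₀ hr this

theorem dgjG_zero (w : E → ℝ) (z : E) : dgjG w z 0 = w z * ∫ y : E, dgjMu y := by
  unfold dgjG
  simp only [zero_smul, add_zero]
  rw [integral_const_mul]

/-- (H1) mean value inequality for non-negative supersolutions -/
theorem dgj_mv_super {w : E → ℝ} (hw : ContDiff ℝ 2 w) (h0 : ∀ x, 0 ≤ w x) {Λ : ℝ} (hΛ : 0 ≤ Λ) (z : E)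
    {r : ℝ} (hr : 0 ≤ r) (hsup : ∀ x ∈ ball z r, Laplacian.laplacian w x ≤ Λ * w x) :
    ∫ y, w (z + r • y) * dgjMu y ≤ Real.exp (Λ * r ^ 2 / 8) * (w z * ∫ y : E, dgjMu y) := by
  have hw1 : ContDiff ℝ 1 w := hw.of_le (by norm_num)
  have h := dgj_gronwall (c := Λ / 4) hr (fun s => dgjG_hasDerivAt hw1 z s) fun s hs => ?_
  · rw [dgjG_zero] at h
    have e : Λ / 4 * r ^ 2 / 2 = Λ * r ^ 2 / 8 := by ring
    rw [e] at h
    exact h
  · rw [dgjG_hasDerivAt' hw z hs.1.ne']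
    have h1 : ∫ y, Laplacian.laplacian w (z + s • y) * dgjPsi y ≤ ∫ y, Λ / 4 * (w (z + s • y) * dgjMu y) := by
      refine integral_mono (dgj_integrable_psi ((dgj_continuous_laplacian hw).comp (dgj_continuous_aff z s)))
        ((dgj_integrable_mu (hw.continuous.comp (dgj_continuous_aff z s))).const_mul _) fun y => ?_
      simp only
      rcases le_or_gt 1 ‖y‖ with hy | hy
      · rw [dgjPsi_eq, dgjMu_eq_zero hy]; simp
      · have hmem : z + s • y ∈ ball z r := by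
          rw [mem_ball, dist_eq_norm, add_sub_cancel_left, norm_smul, Real.norm_eq_abs, abs_of_pos hs.1]
          nlinarith [hs.1, hs.2, norm_nonneg y]
        have a1 := hsup _ hmem
        have a2 := dgjPsi_nonneg y
        have a3 := dgjPsi_le y
        have a4 := h0 (z + s • y)
        have a5 : 0 ≤ Λ * w (z + s • y) := mul_nonneg hΛ a4
        nlinarith
    rw [integral_const_mul] at h1
    have := mul_le_mul_of_nonneg_left h1 hs.1.le
    unfold dgjG
    nlinarith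

/-- (H2) mean value inequality for non-negative subsolutions -/
theorem dgj_mv_sub {w : E → ℝ} (hw : ContDiff ℝ 2 w) (h0 : ∀ x, 0 ≤ w x) {Λ : ℝ} (hΛ : 0 ≤ Λ) (z : E)
    {r : ℝ} (hr : 0 ≤ r) (hsub : ∀ x ∈ ball z r, -(Λ * w x) ≤ Laplacian.laplacian w x) :
    w z * ∫ y : E, dgjMu y ≤ Real.exp (Λ * r ^ 2 / 8) * ∫ y, w (z + r • y) * dgjMu y := by
  have hw1 : ContDiff ℝ 1 w := hw.of_le (by norm_num)
  have h := dgj_gronwall (G := fun s => -dgjG w z s) (c := -(Λ / 4)) hr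
    (fun s => (dgjG_hasDerivAt hw1 z s).neg) fun s hs => ?_
  · rw [dgjG_zero] at h
    have e : -(Λ / 4) * r ^ 2 / 2 = -(Λ * r ^ 2 / 8) := by ring
    rw [e] at h
    have he : Real.exp (Λ * r ^ 2 / 8) * Real.exp (-(Λ * r ^ 2 / 8)) = 1 := by
      rw [← Real.exp_add]; simp
    have h2 : Real.exp (-(Λ * r ^ 2 / 8)) * (w z * ∫ y : E, dgjMu y) ≤ dgjG w z r := by linarith
    calc w z * ∫ y : E, dgjMu y
        = Real.exp (Λ * r ^ 2 / 8) * (Real.exp (-(Λ * r ^ 2 / 8)) * (w z * ∫ y : E, dgjMu y)) := by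
          rw [← mul_assoc, he, one_mul]
      _ ≤ Real.exp (Λ * r ^ 2 / 8) * dgjG w z r := mul_le_mul_of_nonneg_left h2 (Real.exp_pos _).le
  · rw [dgjG_hasDerivAt' hw z hs.1.ne']
    have h1 : ∫ y, -(Λ / 4) * (w (z + s • y) * dgjMu y) ≤ ∫ y, Laplacian.laplacian w (z + s • y) * dgjPsi y := by
      refine integral_mono ((dgj_integrable_mu (hw.continuous.comp (dgj_continuous_aff z s))).const_mul _)
        (dgj_integrable_psi ((dgj_continuous_laplacian hw).comp (dgj_continuous_aff z s))) fun y => ?_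
      simp only
      rcases le_or_gt 1 ‖y‖ with hy | hy
      · rw [dgjPsi_eq, dgjMu_eq_zero hy]; simp
      · have hmem : z + s • y ∈ ball z r := by
          rw [mem_ball, dist_eq_norm, add_sub_cancel_left, norm_smul, Real.norm_eq_abs, abs_of_pos hs.1]
          nlinarith [hs.1, hs.2, norm_nonneg y]
        have a1 := hsub _ hmem
        have a2 := dgjPsi_nonneg y
        have a3 := dgjPsi_le y
        have a4 := h0 (z + s • y)
        have a5 : 0 ≤ Λ * w (z + s • y) := mul_nonneg hΛ a4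
        nlinarith
    rw [integral_const_mul] at h1
    have := mul_le_mul_of_nonneg_left h1 hs.1.le
    unfold dgjG
    nlinarith

theorem dgjMu_integral_pos : 0 < ∫ y : E, dgjMu y := by
  rw [integral_pos_iff_support_of_nonneg (fun y => dgjMu_nonneg y)
    (dgjMu_continuous.integrable_of_hasCompactSupport dgjMu_hcs)]
  have hsub : ball (0 : E) 1 ⊆ Function.support (dgjMu : E → ℝ) := by
    intro y hy
    rw [mem_ball, dist_zero_right] at hy
    rw [Function.mem_support]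
    have : 0 < 1 - ‖y‖ ^ 2 := by nlinarith [norm_nonneg y]
    unfold dgjMu
    rw [max_eq_right this.le]
    exact this.ne'
  exact lt_of_lt_of_le (measure_ball_pos _ _ one_pos) (measure_mono hsub)

/-- (H3) Harnack inequality -/
theorem dgj_harnack {w : E → ℝ} (hw : ContDiff ℝ 2 w) (h0 : ∀ x, 0 ≤ w x) {Λ : ℝ} (hΛ : 0 ≤ Λ) (z₁ z₂ : E)
    {r : ℝ} (hr : 0 < r) (hz : ‖z₁ - z₂‖ ≤ r / 4)
    (hsub : ∀ x ∈ ball z₁ r, -(Λ * w x) ≤ Laplacian.laplacian w x)
    (hsup : ∀ x ∈ ball z₂ (2 * r), Laplacian.laplacian w x ≤ Λ * w x) :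
    w z₁ ≤ 64 / 39 * 2 ^ Module.finrank ℝ E * Real.exp (5 * Λ * r ^ 2 / 8) * w z₂ := by
  have hI := dgjMu_integral_pos (E := E)
  have h1 := dgj_mv_sub hw h0 hΛ z₁ hr.le hsub
  have h2 := dgj_mv_super hw h0 hΛ z₂ (by positivity : (0 : ℝ) ≤ 2 * r) hsup
  -- comparison of the two means
  set a : E := r⁻¹ • (z₂ - z₁) with ha
  have hcv : ∫ y, w (z₁ + r • y) * dgjMu y
      = 2 ^ Module.finrank ℝ E * ∫ y, w (z₂ + (2 * r) • y) * dgjMu (a + (2 : ℝ) • y) := by
    have e1 := Measure.integral_comp_smul (volume : Measure E)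
      (fun x => w (z₁ + r • (a + x)) * dgjMu (a + x)) (2 : ℝ)
    have e2 : ∫ x, w (z₁ + r • (a + x)) * dgjMu (a + x) = ∫ y, w (z₁ + r • y) * dgjMu y :=
      integral_add_left_eq_self (fun y => w (z₁ + r • y) * dgjMu y) a
    rw [e2] at e1
    have e3 : ∀ y : E, z₁ + r • (a + (2 : ℝ) • y) = z₂ + (2 * r) • y := by
      intro y
      rw [ha, smul_add, smul_smul, mul_inv_cancel₀ hr.ne', one_smul, smul_smul, mul_comm r 2]
      abel
    simp only [e3] at e1
    rw [e1, smul_eq_mul, abs_of_pos (by positivity), ← mul_assoc, mul_inv_cancel₀ (by positivity), one_mul]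
  have hcmp : ∫ y, w (z₂ + (2 * r) • y) * dgjMu (a + (2 : ℝ) • y)
      ≤ ∫ y, 64 / 39 * (w (z₂ + (2 * r) • y) * dgjMu y) := by
    have hc1 : Continuous fun y : E => w (z₂ + (2 * r) • y) := hw.continuous.comp (dgj_continuous_aff z₂ (2 * r))
    have hc2 : Continuous fun y : E => dgjMu (a + (2 : ℝ) • y) := dgjMu_continuous.comp (dgj_continuous_aff a 2)
    have hpt : ∀ y : E, dgjMu (a + (2 : ℝ) • y) ≤ 64 / 39 * dgjMu y := by
      intro y
      rcases le_or_gt 1 ‖a + (2 : ℝ) • y‖ with hy | hy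
      · rw [dgjMu_eq_zero hy]
        have := dgjMu_nonneg y
        positivity
      · have hna : ‖a‖ ≤ 1 / 4 := by
          rw [ha, norm_smul, norm_inv, Real.norm_eq_abs, abs_of_pos hr, norm_sub_rev, inv_mul_le_iff₀ hr]
          linarith
        have h3 : ‖(2 : ℝ) • y‖ ≤ ‖a + (2 : ℝ) • y‖ + ‖a‖ := by
          have := norm_sub_le (a + (2 : ℝ) • y) a
          rwa [add_sub_cancel_left] at this
        rw [norm_smul, Real.norm_eq_abs, abs_of_pos (by norm_num : (0 : ℝ) < 2)] at h3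
        have h4 : ‖y‖ ≤ 5 / 8 := by linarith
        have h5 : 39 / 64 ≤ dgjMu y := by
          unfold dgjMu
          refine le_max_of_le_right ?_
          nlinarith [norm_nonneg y]
        have := dgjMu_le_one (a + (2 : ℝ) • y)
        linarith
    have hcs : HasCompactSupport fun y : E => w (z₂ + (2 * r) • y) * dgjMu (a + (2 : ℝ) • y) := by
      refine (dgjMu_hcs (E := E)).mono fun y hy => ?_
      rw [Function.mem_support] at hy ⊢
      intro h0'
      apply hy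
      have h6 := hpt y
      rw [h0', mul_zero] at h6
      rw [le_antisymm h6 (dgjMu_nonneg _), mul_zero]
    refine integral_mono ((hc1.mul hc2).integrable_of_hasCompactSupport hcs)
      ((dgj_integrable_mu hc1).const_mul _) fun y => ?_
    simp only
    have := mul_le_mul_of_nonneg_left (hpt y) (h0 (z₂ + (2 * r) • y))
    linarith
  rw [integral_const_mul] at hcmp
  have e5 : Real.exp (5 * Λ * r ^ 2 / 8) = Real.exp (Λ * r ^ 2 / 8) * Real.exp (Λ * (2 * r) ^ 2 / 8) := by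
    rw [← Real.exp_add]
    congr 1
    ring
  have hp : (0 : ℝ) < 2 ^ Module.finrank ℝ E := by positivity
  have hchain : w z₁ * ∫ y : E, dgjMu y ≤
      (64 / 39 * 2 ^ Module.finrank ℝ E * Real.exp (5 * Λ * r ^ 2 / 8) * w z₂) * ∫ y : E, dgjMu y := by
    calc w z₁ * ∫ y : E, dgjMu y ≤ Real.exp (Λ * r ^ 2 / 8) * ∫ y, w (z₁ + r • y) * dgjMu y := h1
      _ = Real.exp (Λ * r ^ 2 / 8) * (2 ^ Module.finrank ℝ E *
            ∫ y, w (z₂ + (2 * r) • y) * dgjMu (a + (2 : ℝ) • y)) := by rw [hcv]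
      _ ≤ Real.exp (Λ * r ^ 2 / 8) * (2 ^ Module.finrank ℝ E *
            (64 / 39 * ∫ y, w (z₂ + (2 * r) • y) * dgjMu y)) := by gcongr
      _ ≤ Real.exp (Λ * r ^ 2 / 8) * (2 ^ Module.finrank ℝ E *
            (64 / 39 * (Real.exp (Λ * (2 * r) ^ 2 / 8) * (w z₂ * ∫ y : E, dgjMu y)))) := by gcongr
      _ = _ := by rw [e5]; ring
  exact le_of_mul_le_mul_right hchain hI

end H3

/-! ## the quadratic form on test functions -/

section X1


variable {E : Type*} [NormedAddCommGroup E] [InnerProductSpace ℝ E] [FiniteDimensional ℝ E]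
  [MeasurableSpace E] [BorelSpace E]

/-- the Riesz vector of a covector, as a continuous linear map -/
noncomputable def dgjA : (E →L[ℝ] ℝ) →L[ℝ] E :=
  (InnerProductSpace.toDual ℝ E).symm.toContinuousLinearEquiv.toContinuousLinearMap

theorem dgjA_apply (L M : E →L[ℝ] ℝ) : L (dgjA M) = inner ℝ (dgjA L) (dgjA M) := by
  unfold dgjA
  exact (InnerProductSpace.toDual_symm_apply (x := _) (y := L)).symm

theorem dgjA_norm (L : E →L[ℝ] ℝ) : ‖dgjA L‖ = ‖L‖ := by
  unfold dgjA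
  exact LinearIsometryEquiv.norm_map _ _

theorem dgjA_self (L : E →L[ℝ] ℝ) : L (dgjA L) = ‖L‖ ^ 2 := by
  rw [dgjA_apply, real_inner_self_eq_norm_sq, dgjA_norm]

theorem dgjA_comm (L M : E →L[ℝ] ℝ) : L (dgjA M) = M (dgjA L) := by
  rw [dgjA_apply, dgjA_apply, real_inner_comm]

/-- the class of test functions -/
def DgjT (ξ : E → ℝ) : Prop := ContDiff ℝ ∞ ξ ∧ HasCompactSupport ξ

/-- the bilinear form -/
noncomputable def dgjB (c ξ η : E → ℝ) : ℝ :=
  ∫ x, (fderiv ℝ ξ x (dgjA (fderiv ℝ η x)) + c x * (ξ x * η x))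

theorem DgjT.c1 {ξ : E → ℝ} (h : DgjT ξ) : ContDiff ℝ 1 ξ := h.1.of_le (by exact_mod_cast le_top)

theorem DgjT.diff {ξ : E → ℝ} (h : DgjT ξ) : Differentiable ℝ ξ := h.c1.differentiable (by norm_num)

theorem DgjT.cont_fderiv {ξ : E → ℝ} (h : DgjT ξ) : Continuous (fderiv ℝ ξ) :=
  h.c1.continuous_fderiv (by norm_num)

theorem DgjT.lin {ξ η : E → ℝ} (hξ : DgjT ξ) (hη : DgjT η) (s t : ℝ) :
    DgjT (fun x => s * ξ x + t * η x) :=
  ⟨(contDiff_const.mul hξ.1).add (contDiff_const.mul hη.1), hξ.2.mul_left.add hη.2.mul_left⟩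

theorem DgjT.fderiv_lin {ξ η : E → ℝ} (hξ : DgjT ξ) (hη : DgjT η) (s t : ℝ) (x : E) :
    fderiv ℝ (fun x => s * ξ x + t * η x) x = s • fderiv ℝ ξ x + t • fderiv ℝ η x := by
  rw [fderiv_fun_add ((hξ.diff x).const_mul s) ((hη.diff x).const_mul t),
    fderiv_const_mul (hξ.diff x), fderiv_const_mul (hη.diff x)]

theorem dgjB_integrable {c ξ η : E → ℝ} (hc : Continuous c) (hξ : DgjT ξ) (hη : DgjT η) :
    Integrable (fun x => fderiv ℝ ξ x (dgjA (fderiv ℝ η x)) + c x * (ξ x * η x)) := by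
  refine Integrable.add ?_ ?_
  · refine (hξ.cont_fderiv.clm_apply (dgjA.continuous.comp hη.cont_fderiv)).integrable_of_hasCompactSupport ?_
    refine (hξ.2.fderiv (𝕜 := ℝ)).mono fun x hx => ?_
    rw [Function.mem_support] at hx ⊢
    intro h0
    apply hx
    rw [h0]
    simp
  · exact (hc.mul (hξ.1.continuous.mul hη.1.continuous)).integrable_of_hasCompactSupport
      (hξ.2.mul_right).mul_left

theorem dgjB_expand {c ξ η : E → ℝ} (hc : Continuous c) (hξ : DgjT ξ) (hη : DgjT η) (s t : ℝ) :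
    dgjB c (fun x => s * ξ x + t * η x) (fun x => s * ξ x + t * η x)
      = s ^ 2 * dgjB c ξ ξ + 2 * s * t * dgjB c ξ η + t ^ 2 * dgjB c η η := by
  unfold dgjB
  have i1 := (dgjB_integrable hc hξ hξ).const_mul (s ^ 2)
  have i2 := (dgjB_integrable hc hξ hη).const_mul (2 * s * t)
  have i3 := (dgjB_integrable hc hη hη).const_mul (t ^ 2)
  have i12 := i1.add i2
  rw [← integral_const_mul, ← integral_const_mul, ← integral_const_mul, ← integral_add i1 i2]
  erw [← integral_add i12 i3]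
  refine integral_congr_ae (Eventually.of_forall fun x => ?_)
  simp only [hξ.fderiv_lin hη, map_add, map_smul, _root_.add_apply, _root_.smul_apply, smul_eq_mul,
    Pi.add_apply]
  rw [dgjA_comm (fderiv ℝ η x) (fderiv ℝ ξ x)]
  ring

theorem dgjB_self {c ξ : E → ℝ} : dgjB c ξ ξ = ∫ x, (‖fderiv ℝ ξ x‖ ^ 2 + c x * ξ x ^ 2) := by
  unfold dgjB
  refine integral_congr_ae (Eventually.of_forall fun x => ?_)
  simp only [dgjA_self]
  ring

/-- the linear form -/
noncomputable def dgjL (f ξ : E → ℝ) : ℝ := ∫ x, f x * ξ x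

theorem dgjL_integrable {f ξ : E → ℝ} (hf : Continuous f) (hξ : DgjT ξ) : Integrable (fun x => f x * ξ x) :=
  (hf.mul hξ.1.continuous).integrable_of_hasCompactSupport hξ.2.mul_left

theorem dgjL_lin {f ξ η : E → ℝ} (hf : Continuous f) (hξ : DgjT ξ) (hη : DgjT η) (s t : ℝ) :
    dgjL f (fun x => s * ξ x + t * η x) = s * dgjL f ξ + t * dgjL f η := by
  unfold dgjL
  rw [← integral_const_mul, ← integral_const_mul,
    ← integral_add ((dgjL_integrable hf hξ).const_mul _) ((dgjL_integrable hf hη).const_mul _)]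
  refine integral_congr_ae (Eventually.of_forall fun x => ?_)
  simp only
  ring

/-- the functional -/
noncomputable def dgjJ (c f ξ : E → ℝ) : ℝ := dgjB c ξ ξ / 2 - dgjL f ξ

/-- minimising sequences are Cauchy -/
theorem dgj_cauchy {c f ξ η : E → ℝ} (hc : Continuous c) (hf : Continuous f) (hξ : DgjT ξ) (hη : DgjT η) {m : ℝ}
    (hm : ∀ ζ : E → ℝ, DgjT ζ → m ≤ dgjJ c f ζ) :
    dgjB c (fun x => 1 * ξ x + (-1) * η x) (fun x => 1 * ξ x + (-1) * η x)
      ≤ 4 * dgjJ c f ξ + 4 * dgjJ c f η - 8 * m := by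
  have h1 := hm _ (hξ.lin hη (1 / 2) (1 / 2))
  unfold dgjJ at h1 ⊢
  rw [dgjB_expand hc hξ hη, dgjL_lin hf hξ hη] at h1
  rw [dgjB_expand hc hξ hη]
  nlinarith

/-- approximate Euler-Lagrange equation -/
theorem dgj_el {c f ξ φ : E → ℝ} (hc : Continuous c) (hf : Continuous f) (hξ : DgjT ξ) (hφ : DgjT φ) {m : ℝ}
    (hm : ∀ ζ : E → ℝ, DgjT ζ → m ≤ dgjJ c f ζ) :
    (dgjB c ξ φ - dgjL f φ) ^ 2 ≤ 2 * (dgjJ c f ξ - m) * dgjB c φ φ := by
  have h : ∀ t : ℝ, 0 ≤ (dgjB c φ φ / 2) * (t * t) + (dgjB c ξ φ - dgjL f φ) * t + (dgjJ c f ξ - m) := by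
    intro t
    have h1 := hm _ (hξ.lin hφ 1 t)
    unfold dgjJ at h1 ⊢
    rw [dgjB_expand hc hξ hφ, dgjL_lin hf hξ hφ] at h1
    nlinarith
  have := discrim_le_zero h
  unfold discrim at this
  nlinarith

end X1

/-! ## coercivity, lower bound, smooth absolute value -/

section X2


variable {E : Type*} [NormedAddCommGroup E] [InnerProductSpace ℝ E] [FiniteDimensional ℝ E]
  [MeasurableSpace E] [BorelSpace E]

theorem DgjT.int_grad {ξ : E → ℝ} (hξ : DgjT ξ) : Integrable (fun x => ‖fderiv ℝ ξ x‖ ^ 2) := by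
  refine (hξ.cont_fderiv.norm.pow 2).integrable_of_hasCompactSupport ?_
  refine (hξ.2.fderiv (𝕜 := ℝ)).mono fun x hx => ?_
  rw [Function.mem_support] at hx ⊢
  intro h0
  apply hx
  simp [h0]

theorem DgjT.int_sq {ξ c : E → ℝ} (hξ : DgjT ξ) (hc : Continuous c) : Integrable (fun x => c x * ξ x ^ 2) := by
  refine (hc.mul (hξ.1.continuous.pow 2)).integrable_of_hasCompactSupport ?_
  refine hξ.2.mono fun x hx => ?_
  rw [Function.mem_support] at hx ⊢
  intro h0
  apply hx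
  simp [h0]

theorem dgjB_split {V ξ : E → ℝ} (hV : Continuous V) (ε : ℝ) (hξ : DgjT ξ) :
    dgjB (fun x => V x + ε) ξ ξ = (∫ x, ‖fderiv ℝ ξ x‖ ^ 2) + (∫ x, V x * ξ x ^ 2) + ε * ∫ x, ξ x ^ 2 := by
  have i3 : Integrable (fun x => ξ x ^ 2) := by simpa using hξ.int_sq (continuous_const (y := (1 : ℝ)))
  rw [dgjB_self, ← integral_const_mul, ← integral_add hξ.int_grad (hξ.int_sq hV)]
  erw [← integral_add (hξ.int_grad.add (hξ.int_sq hV)) (i3.const_mul ε)]
  refine integral_congr_ae (Eventually.of_forall fun x => ?_)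
  simp only [Pi.add_apply]
  ring

section coer

variable {V : E → ℝ} (hV : Continuous V) {Λ : ℝ} (hVb : ∀ x, |V x| ≤ Λ)
  (hst : ∀ φ : E → ℝ, ContDiff ℝ 1 φ → HasCompactSupport φ →
      0 ≤ ∫ x, (‖fderiv ℝ φ x‖ ^ 2 + V x * φ x ^ 2))
  {ε : ℝ} (hε : 0 < ε)

include hV hst in
theorem dgj_coer_l2 {ξ : E → ℝ} (hξ : DgjT ξ) : ε * ∫ x, ξ x ^ 2 ≤ dgjB (fun x => V x + ε) ξ ξ := by
  have h := hst ξ hξ.c1 hξ.2
  rw [integral_add hξ.int_grad (hξ.int_sq hV)] at h
  rw [dgjB_split hV ε hξ]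
  linarith

include hV hVb hst hε in
theorem dgj_coer_grad {ξ : E → ℝ} (hξ : DgjT ξ) :
    ε * ∫ x, ‖fderiv ℝ ξ x‖ ^ 2 ≤ (Λ + ε) * dgjB (fun x => V x + ε) ξ ξ := by
  have h := hst ξ hξ.c1 hξ.2
  rw [integral_add hξ.int_grad (hξ.int_sq hV)] at h
  rw [dgjB_split hV ε hξ]
  have i3 : Integrable (fun x => ξ x ^ 2) := by simpa using hξ.int_sq (continuous_const (y := (1 : ℝ)))
  have hq : -(Λ * ∫ x, ξ x ^ 2) ≤ ∫ x, V x * ξ x ^ 2 := by
    rw [← integral_const_mul, ← integral_neg]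
    refine integral_mono (i3.const_mul Λ).neg (hξ.int_sq hV) fun x => ?_
    simp only
    have := (abs_le.1 (hVb x)).1
    nlinarith [sq_nonneg (ξ x)]
  have hs : 0 ≤ ∫ x, ξ x ^ 2 := integral_nonneg fun x => sq_nonneg _
  have hΛ : 0 ≤ Λ := (abs_nonneg _).trans (hVb 0)
  nlinarith [mul_nonneg hΛ h, mul_nonneg hε.le hs]

include hV hst hε in
theorem dgj_J_lower {f : E → ℝ} (hf : Continuous f) (hfc : HasCompactSupport f) {ξ : E → ℝ} (hξ : DgjT ξ) :
    -((1 / (2 * ε)) * ∫ x, f x ^ 2) ≤ dgjJ (fun x => V x + ε) f ξ := by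
  have h1 := dgj_coer_l2 hV hst (ε := ε) hξ
  have i3 : Integrable (fun x => ξ x ^ 2) := by simpa using hξ.int_sq (continuous_const (y := (1 : ℝ)))
  have i4 : Integrable (fun x => f x ^ 2) := by
    refine (hf.pow 2).integrable_of_hasCompactSupport (hfc.mono fun x hx => ?_)
    rw [Function.mem_support] at hx ⊢
    intro h0
    apply hx
    simp [h0]
  have h2 : dgjL f ξ ≤ (1 / (2 * ε)) * (∫ x, f x ^ 2) + (ε / 2) * ∫ x, ξ x ^ 2 := by
    unfold dgjL
    rw [← integral_const_mul, ← integral_const_mul, ← integral_add (i4.const_mul _) (i3.const_mul _)]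
    refine integral_mono (dgjL_integrable hf hξ) ((i4.const_mul _).add (i3.const_mul _)) fun x => ?_
    simp only [Pi.add_apply]
    have h3 : 0 ≤ (f x / ε - ξ x) ^ 2 * (ε / 2) := by positivity
    have e : (f x / ε - ξ x) ^ 2 * (ε / 2) = 1 / (2 * ε) * f x ^ 2 + ε / 2 * ξ x ^ 2 - f x * ξ x := by
      field_simp
      ring
    linarith
  unfold dgjJ
  linarith

end coer

/-- smooth absolute value -/
noncomputable def dgjAbs (δ t : ℝ) : ℝ := Real.sqrt (t ^ 2 + δ ^ 2) - δ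

theorem dgjAbs_nonneg {δ : ℝ} (hδ : 0 < δ) (t : ℝ) : 0 ≤ dgjAbs δ t := by
  unfold dgjAbs
  have : δ ≤ Real.sqrt (t ^ 2 + δ ^ 2) := Real.le_sqrt_of_sq_le (by nlinarith [sq_nonneg t])
  linarith

theorem dgjAbs_le {δ : ℝ} (hδ : 0 < δ) (t : ℝ) : dgjAbs δ t ≤ |t| := by
  unfold dgjAbs
  have : Real.sqrt (t ^ 2 + δ ^ 2) ≤ |t| + δ := by
    rw [Real.sqrt_le_left (by positivity)]
    nlinarith [abs_nonneg t, sq_abs t]
  linarith

theorem dgjAbs_ge {δ : ℝ} (hδ : 0 < δ) (t : ℝ) : |t| - δ ≤ dgjAbs δ t := by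
  unfold dgjAbs
  have : |t| ≤ Real.sqrt (t ^ 2 + δ ^ 2) := Real.le_sqrt_of_sq_le (by nlinarith [sq_abs t, sq_nonneg δ])
  linarith

theorem dgjAbs_zero {δ : ℝ} (hδ : 0 < δ) : dgjAbs δ 0 = 0 := by
  unfold dgjAbs
  simp [Real.sqrt_sq hδ.le]

theorem dgjAbs_contDiff {δ : ℝ} (hδ : 0 < δ) : ContDiff ℝ ∞ (dgjAbs δ) := by
  unfold dgjAbs
  refine ContDiff.sub (ContDiff.sqrt (by fun_prop) fun t => ?_) contDiff_const
  positivity

theorem dgjAbs_hasDerivAt {δ : ℝ} (hδ : 0 < δ) (t : ℝ) :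
    HasDerivAt (dgjAbs δ) (t / Real.sqrt (t ^ 2 + δ ^ 2)) t := by
  unfold dgjAbs
  have h1 : HasDerivAt (fun t : ℝ => t ^ 2 + δ ^ 2) (2 * t) t := by
    simpa using (hasDerivAt_pow 2 t).add_const (δ ^ 2)
  have h2 := (h1.sqrt (by positivity)).sub_const δ
  have e : 2 * t / (2 * Real.sqrt (t ^ 2 + δ ^ 2)) = t / Real.sqrt (t ^ 2 + δ ^ 2) := by
    rw [mul_div_mul_left _ _ two_ne_zero]
  rw [e] at h2
  exact h2

theorem dgjAbs_deriv_le {δ : ℝ} (hδ : 0 < δ) (t : ℝ) : |t / Real.sqrt (t ^ 2 + δ ^ 2)| ≤ 1 := by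
  have hpos : 0 < Real.sqrt (t ^ 2 + δ ^ 2) := Real.sqrt_pos.2 (by positivity)
  rw [abs_div, abs_of_pos hpos, div_le_one hpos]
  exact Real.le_sqrt_of_sq_le (by nlinarith [sq_abs t, sq_nonneg δ])

theorem DgjT.abs {ξ : E → ℝ} (hξ : DgjT ξ) {δ : ℝ} (hδ : 0 < δ) : DgjT (fun x => dgjAbs δ (ξ x)) :=
  ⟨(dgjAbs_contDiff hδ).comp hξ.1, hξ.2.comp_left (dgjAbs_zero hδ)⟩

theorem DgjT.norm_fderiv_abs_le {ξ : E → ℝ} (hξ : DgjT ξ) {δ : ℝ} (hδ : 0 < δ) (x : E) :
    ‖fderiv ℝ (fun x => dgjAbs δ (ξ x)) x‖ ≤ ‖fderiv ℝ ξ x‖ := by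
  have h := ((dgjAbs_hasDerivAt hδ (ξ x)).comp_hasFDerivAt x (hξ.diff x).hasFDerivAt).fderiv
  have e : (dgjAbs δ ∘ ξ) = fun x => dgjAbs δ (ξ x) := rfl
  rw [e] at h
  rw [h, norm_smul, Real.norm_eq_abs]
  calc _ ≤ 1 * ‖fderiv ℝ ξ x‖ := mul_le_mul_of_nonneg_right (dgjAbs_deriv_le hδ _) (norm_nonneg _)
    _ = _ := one_mul _

/-- replacing `ξ` by its smooth absolute value costs little -/
theorem dgj_abs_J {c f : E → ℝ} (hc : Continuous c) (hf : Continuous f) (hfc : HasCompactSupport f)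
    (hf0 : ∀ x, 0 ≤ f x) {ξ : E → ℝ} (hξ : DgjT ξ) {η : ℝ} (hη : 0 < η) :
    ∃ ζ : E → ℝ, DgjT ζ ∧ (∀ x, 0 ≤ ζ x) ∧ dgjJ c f ζ ≤ dgjJ c f ξ + η := by
  have i1 : Integrable (fun x => |c x| * |ξ x| + f x) := by
    refine Integrable.add ?_ (hf.integrable_of_hasCompactSupport hfc)
    exact (hc.abs.mul hξ.1.continuous.abs).integrable_of_hasCompactSupport (hξ.2.abs).mul_left
  set C : ℝ := ∫ x, (|c x| * |ξ x| + f x) with hC
  have hC0 : 0 ≤ C := integral_nonneg fun x => by have := hf0 x; positivity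
  set δ : ℝ := η / (C + 1) with hδdef
  have hδ : 0 < δ := by positivity
  refine ⟨fun x => dgjAbs δ (ξ x), hξ.abs hδ, fun x => dgjAbs_nonneg hδ _, ?_⟩
  have hζ := hξ.abs hδ
  have eJ : ∀ ζ : E → ℝ, DgjT ζ → dgjJ c f ζ = ∫ x, ((‖fderiv ℝ ζ x‖ ^ 2 + c x * ζ x ^ 2) / 2 - f x * ζ x) := by
    intro ζ hζ
    unfold dgjJ dgjL
    have i0 : Integrable fun x => (‖fderiv ℝ ζ x‖ ^ 2 + c x * ζ x ^ 2) / 2 :=
      (hζ.int_grad.add (hζ.int_sq hc)).div_const 2
    rw [dgjB_self, integral_sub i0 (dgjL_integrable hf hζ), integral_div]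
  have iJ : ∀ ζ : E → ℝ, DgjT ζ → Integrable fun x => ((‖fderiv ℝ ζ x‖ ^ 2 + c x * ζ x ^ 2) / 2 - f x * ζ x) :=
    fun ζ hζ => ((hζ.int_grad.add (hζ.int_sq hc)).div_const 2).sub (dgjL_integrable hf hζ)
  have hle : dgjJ c f (fun x => dgjAbs δ (ξ x)) ≤ dgjJ c f ξ + δ * C := by
    rw [eJ _ hζ, eJ _ hξ, hC, ← integral_const_mul, ← integral_add (iJ _ hξ) (i1.const_mul δ)]
    refine integral_mono (iJ _ hζ) ((iJ _ hξ).add (i1.const_mul δ)) fun x => ?_
    simp only [Pi.add_apply]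
    have a1 := hξ.norm_fderiv_abs_le hδ x
    have a2 := dgjAbs_nonneg hδ (ξ x)
    have a3 := dgjAbs_le hδ (ξ x)
    have a4 := dgjAbs_ge hδ (ξ x)
    have a5 : ‖fderiv ℝ (fun x => dgjAbs δ (ξ x)) x‖ ^ 2 ≤ ‖fderiv ℝ ξ x‖ ^ 2 :=
      pow_le_pow_left₀ (norm_nonneg _) a1 2
    set z := dgjAbs δ (ξ x) with hz
    have a6 : |ξ x ^ 2 - z ^ 2| ≤ 2 * δ * |ξ x| := by
      have e1 : ξ x ^ 2 - z ^ 2 = (|ξ x| - z) * (|ξ x| + z) := by rw [← sq_abs (ξ x)]; ring
      rw [e1, abs_of_nonneg (mul_nonneg (by linarith) (by positivity))]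
      nlinarith [abs_nonneg (ξ x)]
    have a7 : c x * z ^ 2 ≤ c x * ξ x ^ 2 + |c x| * (2 * δ * |ξ x|) := by
      have e2 : c x * z ^ 2 - c x * ξ x ^ 2 = -(c x * (ξ x ^ 2 - z ^ 2)) := by ring
      have e3 : |c x * (ξ x ^ 2 - z ^ 2)| ≤ |c x| * (2 * δ * |ξ x|) := by
        rw [abs_mul]
        exact mul_le_mul_of_nonneg_left a6 (abs_nonneg _)
      have := (abs_le.1 e3).1
      linarith
    have a8 : f x * ξ x ≤ f x * z + δ * f x := by
      have : ξ x ≤ z + δ := by linarith [le_abs_self (ξ x)]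
      nlinarith [hf0 x]
    nlinarith
  have : δ * C ≤ η := by
    rw [hδdef, div_mul_eq_mul_div, div_le_iff₀ (by positivity)]
    nlinarith
  linarith

end X2

/-! ## minimising sequence and weak solution -/

section X3
open Claimed.Agent.Lib.Sob


variable {E : Type*} [NormedAddCommGroup E] [InnerProductSpace ℝ E] [FiniteDimensional ℝ E]
  [MeasurableSpace E] [BorelSpace E]

theorem dgj_l2_sq {F : Type*} [NormedAddCommGroup F] [NormedSpace ℝ F] {h : E → F} (hh : MemLp h 2 (volume : Measure E)) :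
    (eLpNorm h 2 (volume : Measure E)).toReal ^ 2 = ∫ x, ‖h x‖ ^ 2 := by
  have := l2n_sq (μ := (volume : Measure E)) (U := univ) (u := h) (by rwa [Measure.restrict_univ])
  unfold l2n at this
  rwa [Measure.restrict_univ] at this

theorem dgj_l2_complete {F : Type*} [NormedAddCommGroup F] [NormedSpace ℝ F] [CompleteSpace F] {g : ℕ → E → F}
    (hg : ∀ n, MemLp (g n) 2 (volume : Measure E)) {b : ℕ → ℝ} (hb : Tendsto b atTop (𝓝 0))
    (hc : ∀ N n m, N ≤ n → N ≤ m → ∫ x, ‖g n x - g m x‖ ^ 2 ≤ b N) :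
    ∃ u : E → F, MemLp u 2 (volume : Measure E) ∧
      Tendsto (fun n => eLpNorm (fun x => g n x - u x) 2 (volume : Measure E)) atTop (𝓝 0) := by
  have : Fact ((1 : ENNReal) ≤ 2) := ⟨by norm_num⟩
  have hcs : CauchySeq (fun n => (hg n).toLp (g n)) := by
    refine cauchySeq_of_le_tendsto_0 (fun N => Real.sqrt (b N)) (fun n m N hn hm => ?_) ?_
    · rw [dist_eq_norm, ← MemLp.toLp_sub, Lp.norm_toLp]
      refine Real.le_sqrt_of_sq_le ?_
      rw [dgj_l2_sq ((hg n).sub (hg m))]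
      exact hc N n m hn hm
    · have := (Real.continuous_sqrt.tendsto 0).comp hb
      rwa [Real.sqrt_zero] at this
  obtain ⟨T, hT⟩ := cauchySeq_tendsto_of_complete hcs
  refine ⟨T, Lp.memLp T, ?_⟩
  have h2 := (Lp.tendsto_Lp_iff_tendsto_eLpNorm'' g hg T (Lp.memLp T)).1 (by rwa [Lp.toLp_coeFn])
  exact h2

theorem DgjT.memLp {ξ : E → ℝ} (hξ : DgjT ξ) : MemLp ξ 2 (volume : Measure E) :=
  hξ.1.continuous.memLp_of_hasCompactSupport hξ.2

theorem DgjT.memLp_fderiv {ξ : E → ℝ} (hξ : DgjT ξ) : MemLp (fderiv ℝ ξ) 2 (volume : Measure E) :=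
  hξ.cont_fderiv.memLp_of_hasCompactSupport (hξ.2.fderiv (𝕜 := ℝ))

theorem dgjT_zero : DgjT (fun _ : E => (0 : ℝ)) := ⟨contDiff_const, HasCompactSupport.zero⟩

section exist

variable {V : E → ℝ} (hV : Continuous V) {Λ : ℝ} (hVb : ∀ x, |V x| ≤ Λ)
  (hst : ∀ φ : E → ℝ, ContDiff ℝ 1 φ → HasCompactSupport φ →
      0 ≤ ∫ x, (‖fderiv ℝ φ x‖ ^ 2 + V x * φ x ^ 2))
  {ε : ℝ} (hε : 0 < ε) {f : E → ℝ} (hf : Continuous f) (hfc : HasCompactSupport f) (hf0 : ∀ x, 0 ≤ f x)

include hV hst hε hf hfc hf0 in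
/-- a non-negative minimising sequence -/
theorem dgj_min_seq : ∃ (m : ℝ) (ζ : ℕ → E → ℝ), (∀ ξ : E → ℝ, DgjT ξ → m ≤ dgjJ (fun x => V x + ε) f ξ) ∧
    (∀ j, DgjT (ζ j)) ∧ (∀ j x, 0 ≤ ζ j x) ∧ ∀ j : ℕ, dgjJ (fun x => V x + ε) f (ζ j) ≤ m + 1 / ((j : ℝ) + 1) := by
  have hc : Continuous fun x => V x + ε := hV.add continuous_const
  set S : Set ℝ := {a | ∃ ξ : E → ℝ, DgjT ξ ∧ a = dgjJ (fun x => V x + ε) f ξ} with hS
  have hne : S.Nonempty := ⟨_, _, dgjT_zero, rfl⟩
  have hbd : BddBelow S := ⟨_, by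
    rintro a ⟨ξ, hξ, rfl⟩
    exact dgj_J_lower hV hst hε hf hfc hξ⟩
  have hm : ∀ ξ : E → ℝ, DgjT ξ → sInf S ≤ dgjJ (fun x => V x + ε) f ξ := fun ξ hξ => csInf_le hbd ⟨ξ, hξ, rfl⟩
  have hex : ∀ j : ℕ, ∃ ζ : E → ℝ, DgjT ζ ∧ (∀ x, 0 ≤ ζ x) ∧
      dgjJ (fun x => V x + ε) f ζ ≤ sInf S + 1 / ((j : ℝ) + 1) := by
    intro j
    have hpos : (0 : ℝ) < 1 / ((j : ℝ) + 1) / 2 := by positivity
    obtain ⟨a, ⟨ξ, hξ, rfl⟩, ha⟩ := exists_lt_of_csInf_lt hne (lt_add_of_pos_right (sInf S) hpos)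
    obtain ⟨ζ, hζ, hζ0, hζJ⟩ := dgj_abs_J hc hf hfc hf0 hξ hpos
    exact ⟨ζ, hζ, hζ0, by linarith⟩
  choose ζ h1 h2 h3 using hex
  exact ⟨sInf S, ζ, hm, h1, h2, h3⟩

include hV hVb hst hε hf hfc hf0 in
/-- the weak solution of the resolvent problem -/
theorem dgj_weak_exists : ∃ (u : E → ℝ) (G : E → E →L[ℝ] ℝ), MemLp u 2 (volume : Measure E) ∧
    MemLp G 2 (volume : Measure E) ∧ (∀ᵐ x : E, 0 ≤ u x) ∧ HasWeakFDeriv (volume : Measure E) univ u G ∧
    ∀ φ : E → ℝ, DgjT φ →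
      (∫ x, G x (dgjA (fderiv ℝ φ x))) + (∫ x, u x • ((V x + ε) * φ x)) = ∫ x, f x * φ x := by
  have hc : Continuous fun x => V x + ε := hV.add continuous_const
  obtain ⟨m, ζ, hm, hζ, hζ0, hζJ⟩ := dgj_min_seq hV hst hε hf hfc hf0
  have hΛ : 0 ≤ Λ := (abs_nonneg _).trans (hVb 0)
  -- Cauchy
  have hb0 : Tendsto (fun N : ℕ => 1 / ((N : ℝ) + 1)) atTop (𝓝 0) := tendsto_one_div_add_atTop_nhds_zero_nat
  have hcau : ∀ N n k : ℕ, N ≤ n → N ≤ k →
      dgjB (fun x => V x + ε) (fun x => 1 * ζ n x + (-1) * ζ k x) (fun x => 1 * ζ n x + (-1) * ζ k x)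
        ≤ 8 * (1 / ((N : ℝ) + 1)) := by
    intro N n k hn hk
    have h1 := dgj_cauchy hc hf (hζ n) (hζ k) hm
    have h2 : 1 / ((n : ℝ) + 1) ≤ 1 / ((N : ℝ) + 1) :=
      one_div_le_one_div_of_le (by positivity) (by exact_mod_cast Nat.add_le_add_right hn 1)
    have h3 : 1 / ((k : ℝ) + 1) ≤ 1 / ((N : ℝ) + 1) :=
      one_div_le_one_div_of_le (by positivity) (by exact_mod_cast Nat.add_le_add_right hk 1)
    have := hζJ n
    have := hζJ k
    linarith
  obtain ⟨u, hu, hu_lim⟩ := dgj_l2_complete (g := ζ) (fun n => (hζ n).memLp)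
    (b := fun N : ℕ => (8 / ε) * (1 / ((N : ℝ) + 1))) (by simpa using hb0.const_mul (8 / ε)) (by
      intro N n k hn hk
      have h1 := dgj_coer_l2 hV hst (ε := ε) ((hζ n).lin (hζ k) 1 (-1))
      have h2 := hcau N n k hn hk
      have e : ∫ x, ‖ζ n x - ζ k x‖ ^ 2 = ∫ x, (1 * ζ n x + (-1) * ζ k x) ^ 2 := by
        refine integral_congr_ae (Eventually.of_forall fun x => ?_)
        simp only [Real.norm_eq_abs, sq_abs]
        ring
      rw [e, div_mul_eq_mul_div, le_div_iff₀ hε]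
      linarith)
  obtain ⟨G, hG, hG_lim⟩ := dgj_l2_complete (g := fun n => fderiv ℝ (ζ n)) (fun n => (hζ n).memLp_fderiv)
    (b := fun N : ℕ => (8 * (Λ + ε) / ε) * (1 / ((N : ℝ) + 1)))
    (by simpa using hb0.const_mul (8 * (Λ + ε) / ε)) (by
      intro N n k hn hk
      have h1 := dgj_coer_grad hV hVb hst hε ((hζ n).lin (hζ k) 1 (-1))
      have h2 := hcau N n k hn hk
      have e : ∫ x, ‖fderiv ℝ (ζ n) x - fderiv ℝ (ζ k) x‖ ^ 2
          = ∫ x, ‖fderiv ℝ (fun x => 1 * ζ n x + (-1) * ζ k x) x‖ ^ 2 := by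
        refine integral_congr_ae (Eventually.of_forall fun x => ?_)
        simp only [(hζ n).fderiv_lin (hζ k)]
        congr 2
        simp [sub_eq_add_neg]
      rw [e, div_mul_eq_mul_div, le_div_iff₀ hε]
      have h3 : (Λ + ε) * dgjB (fun x => V x + ε) (fun x => 1 * ζ n x + (-1) * ζ k x)
          (fun x => 1 * ζ n x + (-1) * ζ k x) ≤ (Λ + ε) * (8 * (1 / ((N : ℝ) + 1))) :=
        mul_le_mul_of_nonneg_left h2 (by positivity)
      linarith)
  refine ⟨u, G, hu, hG, ?_, ?_, ?_⟩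
  · -- non-negativity
    have h1 : ∀ n, eLpNorm (fun x => min (u x) 0) 2 (volume : Measure E)
        ≤ eLpNorm (fun x => ζ n x - u x) 2 (volume : Measure E) := by
      intro n
      refine eLpNorm_mono fun x => ?_
      rw [Real.norm_eq_abs, Real.norm_eq_abs]
      have h0 := hζ0 n x
      rcases le_total 0 (u x) with h | h
      · rw [min_eq_right h]; simp
      · rw [min_eq_left h, abs_of_nonpos h, abs_of_nonneg (by linarith)]
        linarith
    have h2 : eLpNorm (fun x => min (u x) 0) 2 (volume : Measure E) ≤ 0 := ge_of_tendsto' hu_lim h1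
    have h3 : AEStronglyMeasurable (fun x => min (u x) 0) (volume : Measure E) :=
      hu.1.inf aestronglyMeasurable_const
    have h4 := (eLpNorm_eq_zero_iff h3 (by norm_num)).1 (le_antisymm h2 zero_le)
    filter_upwards [h4] with x hx
    simp only [Pi.zero_apply] at hx
    exact min_eq_right_iff.1 hx
  · -- weak derivative
    refine hasWeakFDeriv_of_tendsto (volume : Measure E) isOpen_univ (un := ζ)
      (fun n => (hζ n).c1.contDiffOn) (memLp_l2Loc (by rwa [Measure.restrict_univ]))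
      (memLp_l2Loc (by rwa [Measure.restrict_univ])) (fun K _ _ => ?_) (fun K _ _ => ?_)
    · exact tendsto_of_tendsto_of_tendsto_of_le_of_le tendsto_const_nhds hu_lim (fun _ => zero_le)
        (fun n => eLpNorm_mono_measure _ Measure.restrict_le_self)
    · exact tendsto_of_tendsto_of_tendsto_of_le_of_le tendsto_const_nhds hG_lim (fun _ => zero_le)
        (fun n => eLpNorm_mono_measure _ Measure.restrict_le_self)
  · -- the equation
    intro φ hφ
    have t1 : Tendsto (fun n => ∫ x, fderiv ℝ (ζ n) x (dgjA (fderiv ℝ φ x))) atTop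
        (𝓝 (∫ x, G x (dgjA (fderiv ℝ φ x)))) := by
      have hw : MemLp (fun x => dgjA (fderiv ℝ φ x)) 2 (volume : Measure E) := by
        refine (dgjA.continuous.comp hφ.cont_fderiv).memLp_of_hasCompactSupport ?_
        exact (hφ.2.fderiv (𝕜 := ℝ)).comp_left (map_zero _)
      have := tendsto_setIntegral_apply_clm (μ := (volume : Measure E)) (U := univ)
        (w := fun x => dgjA (fderiv ℝ φ x)) (Tn := fun n => fderiv ℝ (ζ n)) (T := G)
        (by rwa [Measure.restrict_univ]) (fun n => by rw [Measure.restrict_univ]; exact (hζ n).memLp_fderiv)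
        (by rwa [Measure.restrict_univ]) (by rwa [Measure.restrict_univ])
      simpa only [Measure.restrict_univ] using this
    have t2 : Tendsto (fun n => ∫ x, ζ n x • ((V x + ε) * φ x)) atTop
        (𝓝 (∫ x, u x • ((V x + ε) * φ x))) := by
      have hw : MemLp (fun x => (V x + ε) * φ x) 2 (volume : Measure E) :=
        (hc.mul hφ.1.continuous).memLp_of_hasCompactSupport hφ.2.mul_left
      have := tendsto_setIntegral_smul (μ := (volume : Measure E)) (U := univ)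
        (u := fun x => (V x + ε) * φ x) (φn := ζ) (φ := u)
        (by rwa [Measure.restrict_univ]) (fun n => by rw [Measure.restrict_univ]; exact (hζ n).memLp)
        (by rwa [Measure.restrict_univ]) (by rwa [Measure.restrict_univ])
      simpa only [Measure.restrict_univ] using this
    have e1 : ∀ n, dgjB (fun x => V x + ε) (ζ n) φ
        = (∫ x, fderiv ℝ (ζ n) x (dgjA (fderiv ℝ φ x))) + ∫ x, ζ n x • ((V x + ε) * φ x) := by
      intro n
      unfold dgjB
      rw [← integral_add]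
      · refine integral_congr_ae (Eventually.of_forall fun x => ?_)
        simp only [smul_eq_mul]
        ring
      · refine ((hζ n).cont_fderiv.clm_apply
          (dgjA.continuous.comp hφ.cont_fderiv)).integrable_of_hasCompactSupport ?_
        refine ((hζ n).2.fderiv (𝕜 := ℝ)).mono fun x hx => ?_
        rw [Function.mem_support] at hx ⊢
        intro h0
        apply hx
        simp [h0]
      · exact ((hζ n).1.continuous.smul (hc.mul hφ.1.continuous)).integrable_of_hasCompactSupport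
          ((hζ n).2.smul_right)
    have t3 : Tendsto (fun n => dgjB (fun x => V x + ε) (ζ n) φ - dgjL f φ) atTop (𝓝 0) := by
      rw [tendsto_zero_iff_abs_tendsto_zero]
      have hbb : 0 ≤ dgjB (fun x => V x + ε) φ φ :=
        le_trans (mul_nonneg hε.le (integral_nonneg fun x => sq_nonneg _)) (dgj_coer_l2 hV hst (ε := ε) hφ)
      have hlim : Tendsto (fun n : ℕ => Real.sqrt (2 * (1 / ((n : ℝ) + 1)) * dgjB (fun x => V x + ε) φ φ))
          atTop (𝓝 0) := by
        have h5 := ((hb0.const_mul 2).mul_const (dgjB (fun x => V x + ε) φ φ))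
        have h6 := (Real.continuous_sqrt.tendsto _).comp h5
        simp only [mul_zero, zero_mul, Real.sqrt_zero] at h6
        exact h6
      refine squeeze_zero (fun _ => abs_nonneg _) (fun n => ?_) hlim
      refine Real.abs_le_sqrt ?_
      have h7 := dgj_el hc hf (hζ n) hφ hm
      have h8 : dgjJ (fun x => V x + ε) f (ζ n) - m ≤ 1 / ((n : ℝ) + 1) := by linarith [hζJ n]
      calc _ ≤ 2 * (dgjJ (fun x => V x + ε) f (ζ n) - m) * dgjB (fun x => V x + ε) φ φ := h7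
        _ ≤ 2 * (1 / ((n : ℝ) + 1)) * dgjB (fun x => V x + ε) φ φ := by gcongr
    have t4 : Tendsto (fun n => dgjB (fun x => V x + ε) (ζ n) φ - dgjL f φ) atTop
        (𝓝 ((∫ x, G x (dgjA (fderiv ℝ φ x))) + (∫ x, u x • ((V x + ε) * φ x)) - dgjL f φ)) := by
      simp only [e1]
      exact (t1.add t2).sub_const _
    have := tendsto_nhds_unique t4 t3
    unfold dgjL at this
    linarith

end exist

end X3

/-! ## regularity: the resolvent problem -/

section X4
open Claimed.Agent.Lib.Sob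


variable {E : Type*} [NormedAddCommGroup E] [InnerProductSpace ℝ E] [FiniteDimensional ℝ E]
  [MeasurableSpace E] [BorelSpace E]

theorem dgjA_inner (L : E →L[ℝ] ℝ) (x : E) : inner ℝ (dgjA L) x = L x := by
  unfold dgjA
  exact InnerProductSpace.toDual_symm_apply

theorem dgjA_sum (L M : E →L[ℝ] ℝ) :
    L (dgjA M) = ∑ i, L (stdOrthonormalBasis ℝ E i) * M (stdOrthonormalBasis ℝ E i) := by
  rw [dgjA_apply, ← (stdOrthonormalBasis ℝ E).sum_inner_mul_inner]
  refine Finset.sum_congr rfl fun i _ => ?_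
  rw [dgjA_inner, real_inner_comm, dgjA_inner]

/-- a smooth function which satisfies the weak equation is a classical solution -/
theorem dgj_classical {v c f : E → ℝ} (hv : ContDiff ℝ 2 v) (hc : Continuous c) (hf : Continuous f)
    (h : ∀ φ : E → ℝ, DgjT φ →
      (∫ x, fderiv ℝ v x (dgjA (fderiv ℝ φ x))) + (∫ x, v x • (c x * φ x)) = ∫ x, f x * φ x) (x : E) :
    Laplacian.laplacian v x = c x * v x - f x := by
  have hcont : Continuous fun x => Laplacian.laplacian v x - c x * v x + f x :=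
    ((dgj_continuous_laplacian hv).sub (hc.mul hv.continuous)).add hf
  have hae : ∀ᵐ x : E, Laplacian.laplacian v x - c x * v x + f x = 0 := by
    refine ae_eq_zero_of_integral_contDiff_smul_eq_zero hcont.locallyIntegrable fun g hg hgc => ?_
    have hgT : DgjT g := ⟨hg, hgc⟩
    have h1 := h g hgT
    have h2 := dg98_green (stdOrthonormalBasis ℝ E) hv hgT.c1 hgc
    simp only [← dgjA_sum] at h2
    rw [h2] at h1
    have i1 : Integrable fun x => Laplacian.laplacian v x * g x :=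
      ((dgj_continuous_laplacian hv).mul hg.continuous).integrable_of_hasCompactSupport hgc.mul_left
    have i2 : Integrable fun x => v x • (c x * g x) :=
      (hv.continuous.smul (hc.mul hg.continuous)).integrable_of_hasCompactSupport (hgc.mul_left).smul_left
    have i3 : Integrable fun x => f x * g x := dgjL_integrable hf hgT
    have e : ∫ x, g x • (Laplacian.laplacian v x - c x * v x + f x)
        = (∫ x, Laplacian.laplacian v x * g x) - (∫ x, v x • (c x * g x)) + ∫ x, f x * g x := by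
      have i12 : Integrable fun x => Laplacian.laplacian v x * g x - v x • (c x * g x) := i1.sub i2
      rw [← integral_sub i1 i2, ← integral_add i12 i3]
      refine integral_congr_ae (Eventually.of_forall fun x => ?_)
      simp only [smul_eq_mul]
      ring
    rw [e]
    linarith
  have h0 : (fun x => Laplacian.laplacian v x - c x * v x + f x) = fun _ => (0 : ℝ) :=
    (Continuous.ae_eq_iff_eq (volume : Measure E) hcont continuous_const).1 hae
  have := congrFun h0 x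
  linarith

/-- (X) the resolvent problem -/
theorem dgj_resolvent {V : E → ℝ} (hV : ContDiff ℝ ∞ V) {Λ : ℝ} (hVb : ∀ x, |V x| ≤ Λ)
    (hst : ∀ φ : E → ℝ, ContDiff ℝ 1 φ → HasCompactSupport φ →
      0 ≤ ∫ x, (‖fderiv ℝ φ x‖ ^ 2 + V x * φ x ^ 2))
    {ε : ℝ} (hε : 0 < ε) {f : E → ℝ} (hf : ContDiff ℝ ∞ f) (hfc : HasCompactSupport f) (hf0 : ∀ x, 0 ≤ f x)
    (hf1 : ∃ x, f x ≠ 0) :
    ∃ u : E → ℝ, ContDiff ℝ ∞ u ∧ (∀ x, 0 ≤ u x) ∧ (∃ x, u x ≠ 0) ∧
      ∀ x, Laplacian.laplacian u x = (V x + ε) * u x - f x := by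
  have hc : Continuous fun x => V x + ε := hV.continuous.add continuous_const
  obtain ⟨u, G, hu, hG, hu0, hW, heq⟩ := dgj_weak_exists hV.continuous hVb hst hε hf.continuous hfc hf0
  have hint : ∀ φ : E → ℝ, DgjT φ → Integrable fun x => u x • ((V x + ε) * φ x) := by
    intro φ hφ
    have hw : MemLp (fun x => (V x + ε) * φ x) 2 (volume : Measure E) :=
      (hc.mul hφ.1.continuous).memLp_of_hasCompactSupport hφ.2.mul_left
    exact hu.integrable_mul hw
  have hsol : IsWeakSol (volume : Measure E) univ (fun _ => dgjA) G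
      (fun x => f x + (fun _ : E => (0 : (E →L[ℝ] ℝ) →L[ℝ] ℝ)) x (G x)
        + (fun x : E => (-(V x + ε)) • ContinuousLinearMap.id ℝ ℝ) x (u x))
      (fun x => (fun _ : E => (0 : (E →L[ℝ] ℝ) →L[ℝ] ℝ)) x
        + (fun _ : E => (0 : ℝ →L[ℝ] ((E →L[ℝ] ℝ) →L[ℝ] ℝ))) x (u x)) := by
    intro φ hφ
    have hφT : DgjT φ := ⟨hφ.smooth, hφ.compact⟩
    have h1 := heq φ hφT
    have e1 : ∫ x, φ x • (f x + (0 : (E →L[ℝ] ℝ) →L[ℝ] ℝ) (G x)
        + ((-(V x + ε)) • ContinuousLinearMap.id ℝ ℝ) (u x))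
        = (∫ x, f x * φ x) - ∫ x, u x • ((V x + ε) * φ x) := by
      rw [← integral_sub (dgjL_integrable hf.continuous hφT) (hint φ hφT)]
      refine integral_congr_ae (Eventually.of_forall fun x => ?_)
      simp
      ring
    simp only at e1 ⊢
    rw [e1]
    simp only [smul_eq_mul] at h1 ⊢
    simp
    linarith
  obtain ⟨v, hv, huv⟩ := smooth_of_weakSol (volume : Measure E) isOpen_univ
    (A := fun _ => dgjA) (b := fun _ => 0) (c := fun x : E => (-(V x + ε)) • ContinuousLinearMap.id ℝ ℝ)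
    (d := fun _ => 0) (u := u) (G := G) (f := f) (H := fun _ => 0)
    contDiffOn_const contDiffOn_const
    (((hV.add contDiff_const).neg.smul contDiff_const).contDiffOn) contDiffOn_const hf.contDiffOn
    contDiffOn_const
    (fun x _ ξ hξ => by
      rw [dgjA_self]
      have : 0 < ‖ξ‖ := norm_pos_iff.2 hξ
      positivity)
    hW (memLp_l2Loc (by rwa [Measure.restrict_univ])) (memLp_l2Loc (by rwa [Measure.restrict_univ])) hsol
  rw [Measure.restrict_univ] at huv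
  have hv' : ContDiff ℝ ∞ v := contDiffOn_univ.1 hv
  have hv2 : ContDiff ℝ 2 v := hv'.of_le (by norm_cast)
  have hv1 : ContDiff ℝ 1 v := hv'.of_le (by exact_mod_cast le_top)
  -- the weak derivative of `v`
  have hW2 : HasWeakFDeriv (volume : Measure E) univ v G :=
    hW.congr_ae isOpen_univ (by rwa [Measure.restrict_univ]) (Eventually.of_forall fun _ => rfl)
  have hW3 : HasWeakFDeriv (volume : Measure E) univ v (fderiv ℝ v) :=
    hasWeakFDeriv_of_contDiffOn (volume : Measure E) isOpen_univ hv1.contDiffOn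
  have hGv := hW2.unique isOpen_univ hW3
  rw [Measure.restrict_univ] at hGv
  have hcl := dgj_classical hv2 hc hf.continuous (fun φ hφ => by
    have h1 := heq φ hφ
    have e1 : ∫ x, fderiv ℝ v x (dgjA (fderiv ℝ φ x)) = ∫ x, G x (dgjA (fderiv ℝ φ x)) :=
      integral_congr_ae (hGv.mono fun x hx => by simp only [hx])
    have e2 : ∫ x, v x • ((V x + ε) * φ x) = ∫ x, u x • ((V x + ε) * φ x) :=
      integral_congr_ae (huv.mono fun x hx => by simp only [hx])
    rw [e1, e2]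
    exact h1)
  have hvn : ∀ x, 0 ≤ v x := by
    have hae : v =ᵐ[(volume : Measure E)] fun x => max (v x) 0 := by
      filter_upwards [huv, hu0] with x h1 h2
      rw [max_eq_left (by rw [← h1]; exact h2)]
    have := (Continuous.ae_eq_iff_eq (volume : Measure E) hv'.continuous
      (hv'.continuous.max continuous_const)).1 hae
    intro x
    rw [congrFun this x]
    exact le_max_right _ _
  refine ⟨v, hv', hvn, ?_, hcl⟩
  by_contra hcon
  push Not at hcon
  obtain ⟨x, hx⟩ := hf1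
  apply hx
  have h1 := hcl x
  have h2 : v = fun _ => 0 := funext hcon
  rw [h2] at h1
  simp at h1
  linarith

end X4

/-! ## interior derivative bounds -/

section C1
open Claimed.Agent.Lib.Sob


variable {E : Type*} [NormedAddCommGroup E] [InnerProductSpace ℝ E] [FiniteDimensional ℝ E]
  [MeasurableSpace E] [BorelSpace E]

/-- a classical solution on an open set is a weak solution there -/
theorem dgj_isWeakSol {w c : E → ℝ} (hw : ContDiff ℝ 2 w) {U : Set E}
    (heq : ∀ x ∈ U, Laplacian.laplacian w x = c x * w x) :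
    IsWeakSol (volume : Measure E) U (fun _ => dgjA) (fderiv ℝ w)
      (fun x => (fun _ : E => (0 : ℝ)) x + (fun _ : E => (0 : (E →L[ℝ] ℝ) →L[ℝ] ℝ)) x (fderiv ℝ w x)
        + (fun x : E => (-(c x)) • ContinuousLinearMap.id ℝ ℝ) x (w x))
      (fun x => (fun _ : E => (0 : (E →L[ℝ] ℝ) →L[ℝ] ℝ)) x
        + (fun _ : E => (0 : ℝ →L[ℝ] ((E →L[ℝ] ℝ) →L[ℝ] ℝ))) x (w x)) := by
  intro φ hφ
  have hφ1 : ContDiff ℝ 1 φ := hφ.smooth.of_le (by norm_cast)
  have h2 := dg98_green (stdOrthonormalBasis ℝ E) hw hφ1 hφ.compact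
  simp only [← dgjA_sum] at h2
  rw [h2]
  simp only [_root_.zero_apply, add_zero, zero_add, integral_zero]
  rw [← integral_neg]
  refine integral_congr_ae (Eventually.of_forall fun x => ?_)
  simp only [_root_.smul_apply, ContinuousLinearMap.id_apply, smul_eq_mul]
  by_cases hx : x ∈ U
  · rw [heq x hx]; ring
  · have : φ x = 0 := by
      by_contra h0
      exact hx (hφ.supp (subset_tsupport φ h0))
    rw [this]; ring

theorem dgj_ckLe_zero {X : Type*} [NormedAddCommGroup X] [NormedSpace ℝ X] {U : Set E} (k : ℕ) {Lam : ℝ}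
    (h : 0 ≤ Lam) : CkLe U k (fun _ : E => (0 : X)) Lam :=
  (ckLe_const (U := U) (0 : X) k).mono (by rw [norm_zero]; exact h)

theorem dgj_deriv_bound {V : E → ℝ} (hV : ContDiff ℝ ∞ V) (m : ℕ) {ρ : ℝ} (hρ : 0 < ρ) :
    ∃ C : ℝ, 0 ≤ C ∧ ∀ (ε : ℝ) (w : E → ℝ) (M : ℝ), 0 ≤ ε → ε ≤ 1 → 0 ≤ M → ContDiff ℝ ∞ w →
      (∀ x ∈ ball (0 : E) (ρ + 2), Laplacian.laplacian w x = (V x + ε) * w x) →
      (∀ x ∈ ball (0 : E) (ρ + 2), |w x| ≤ M) → ∀ x ∈ ball (0 : E) ρ, ‖iteratedFDeriv ℝ m w x‖ ≤ C * M := by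
  set R : ℝ := ρ + 2 with hR
  set k₁ : ℕ := m + sobN E with hk₁
  have hc0 : ContDiff ℝ ∞ (fun x : E => (-(V x)) • ContinuousLinearMap.id ℝ ℝ) := hV.neg.smul contDiff_const
  obtain ⟨Λ₀, hΛ₀, hck⟩ := exists_ckLe_of_isCompact (U := univ) (V := ball (0 : E) R) isOpen_univ hc0.contDiffOn
    (isCompact_closedBall (0 : E) R) (subset_univ _) ball_subset_closedBall (k₁ + 1)
  set Lam : ℝ := Λ₀ + 1 + ‖(dgjA : (E →L[ℝ] ℝ) →L[ℝ] E)‖ with hLam
  obtain ⟨C₁, hC₁0, hC₁⟩ := interior_Hk_lower (volume : Measure E) ℝ k₁ (0 : E) (r := ρ + 1) (R := R) (lam := 1)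
    (Lam := Lam) (by linarith) (by linarith) one_pos
  obtain ⟨C₂, hC₂0, hC₂⟩ := embedding_ball (volume : Measure E) ℝ m (0 : E) (r := ρ) (R := ρ + 1) hρ (by linarith)
  set m₀ : ℝ := Real.sqrt ((volume : Measure E) (ball (0 : E) R)).toReal with hm₀
  have hm₀0 : 0 ≤ m₀ := Real.sqrt_nonneg _
  refine ⟨C₂ * (C₁ * m₀), by positivity, ?_⟩
  intro ε w M hε0 hε1 hM hw heq hb x hx
  have hw2 : ContDiff ℝ 2 w := hw.of_le (by norm_cast)
  have hw1 : ContDiff ℝ 1 w := hw.of_le (by norm_cast)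
  have hnA : 0 ≤ ‖(dgjA : (E →L[ℝ] ℝ) →L[ℝ] E)‖ := norm_nonneg _
  have hcc : CkLe (ball (0 : E) R) (k₁ + 1) (fun x : E => (-(V x + ε)) • ContinuousLinearMap.id ℝ ℝ) Lam := by
    have h1 := hck.add isOpen_ball (ckLe_const (U := ball (0 : E) R) ((-ε) • ContinuousLinearMap.id ℝ ℝ) (k₁ + 1))
    have e : (fun x : E => (-(V x)) • ContinuousLinearMap.id ℝ ℝ + (-ε) • ContinuousLinearMap.id ℝ ℝ)
        = fun x : E => (-(V x + ε)) • ContinuousLinearMap.id ℝ ℝ := by
      funext x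
      rw [← add_smul]
      congr 1
      ring
    rw [e] at h1
    refine h1.mono ?_
    have h2 : ‖(-ε) • ContinuousLinearMap.id ℝ ℝ‖ ≤ 1 := by
      rw [norm_smul, norm_neg, Real.norm_eq_abs, abs_of_nonneg hε0]
      calc ε * ‖ContinuousLinearMap.id ℝ ℝ‖ ≤ 1 * 1 :=
            mul_le_mul hε1 ContinuousLinearMap.norm_id_le (norm_nonneg _) zero_le_one
        _ = 1 := one_mul _
    linarith
  have hLam0 : 0 ≤ Lam := by positivity
  have hL2 : L2Le (volume : Measure E) (ball (0 : E) R) w (M * m₀) :=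
    l2Le_of_bound hM hw.continuous.aestronglyMeasurable
      ((ae_restrict_iff' measurableSet_ball).2 (Eventually.of_forall fun y hy => by
        rw [Real.norm_eq_abs]; exact hb y hy)) measure_ball_lt_top.ne
  have hMm : 0 ≤ M * m₀ := by positivity
  have h1 := hC₁ (fun _ => dgjA) (fun _ => 0) (fun x : E => (-(V x + ε)) • ContinuousLinearMap.id ℝ ℝ)
    (fun _ => 0) w (fderiv ℝ w) (fun _ => 0) (fun _ => 0) (M * m₀) hMm
    contDiffOn_const contDiffOn_const (((hV.add contDiff_const).neg.smul contDiff_const).contDiffOn)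
    contDiffOn_const
    ((ckLe_const (U := ball (0 : E) R) (dgjA : (E →L[ℝ] ℝ) →L[ℝ] E) (k₁ + 1)).mono (by linarith))
    (dgj_ckLe_zero _ hLam0) (hcc.mono_order (by omega)) (dgj_ckLe_zero _ hLam0)
    (fun y _ ξ => by rw [dgjA_self, one_mul])
    (hasWeakFDeriv_of_contDiffOn (volume : Measure E) isOpen_ball hw1.contDiffOn)
    (l2Loc_of_continuousOn (hw1.continuous_fderiv (by norm_num)).continuousOn)
    hL2 (hkLe_zero_fun hMm) (hkLe_zero_fun hMm) (dgj_isWeakSol hw2 heq)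
  obtain ⟨v, hv1, hv2⟩ := hC₂ w (C₁ * (M * m₀)) (by positivity) (h1.mono_order (by omega))
  have hEq : EqOn v w (ball (0 : E) ρ) := by
    refine eqOn_of_ae_eq (volume : Measure E) isOpen_ball hv2.1.continuousOn hw.continuous.continuousOn ?_
    filter_upwards [hv1] with y hy
    exact hy.symm
  have h3 := (hv2.congr isOpen_ball hEq).2 m le_rfl x hx
  have e : C₂ * (C₁ * m₀) * M = C₂ * (C₁ * (M * m₀)) := by ring
  rw [e]
  exact h3

end C1

/-! ## strong minimum principle, compactness -/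

section C2
open Claimed.Agent.Lib.Sob


variable {E : Type*} [NormedAddCommGroup E] [InnerProductSpace ℝ E] [FiniteDimensional ℝ E]
  [MeasurableSpace E] [BorelSpace E]

/-- strong minimum principle from the mean value inequality -/
theorem dgj_smp {w : E → ℝ} (hw : ContDiff ℝ 2 w) (h0 : ∀ x, 0 ≤ w x) {Λ : ℝ} (hΛ : 0 ≤ Λ)
    (hsup : ∀ x, Laplacian.laplacian w x ≤ Λ * w x) {z : E} (hz : w z = 0) (x : E) : w x = 0 := by
  by_contra hx
  set r : ℝ := 2 * (‖x - z‖ + 1) with hr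
  have hr0 : 0 < r := by positivity
  have h1 := dgj_mv_super hw h0 hΛ z hr0.le (fun y _ => hsup y)
  rw [hz, zero_mul, mul_zero] at h1
  have hc : Continuous fun y : E => w (z + r • y) * dgjMu y :=
    (hw.continuous.comp (dgj_continuous_aff z r)).mul dgjMu_continuous
  have h2 : 0 < ∫ y, w (z + r • y) * dgjMu y := by
    refine hc.integral_pos_of_hasCompactSupport_nonneg_nonzero dgjMu_hcs.mul_left
      (fun y => mul_nonneg (h0 _) (dgjMu_nonneg y)) (x := r⁻¹ • (x - z)) ?_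
    have e : z + r • r⁻¹ • (x - z) = x := by
      rw [smul_smul, mul_inv_cancel₀ hr0.ne', one_smul]; abel
    rw [e]
    refine mul_ne_zero hx ?_
    have hn : ‖r⁻¹ • (x - z)‖ ≤ 1 / 2 := by
      rw [norm_smul, norm_inv, Real.norm_eq_abs, abs_of_pos hr0, inv_mul_le_iff₀ hr0, hr]
      linarith
    unfold dgjMu
    have : 0 < 1 - ‖r⁻¹ • (x - z)‖ ^ 2 := by nlinarith [norm_nonneg (r⁻¹ • (x - z))]
    rw [max_eq_right this.le]
    exact this.ne'
  linarith

theorem dgj_tendsto_of_conv {f : ℕ → E → ℝ} {F₀ : E → ℝ} (hf : ∀ k, ContDiff ℝ ∞ (f k)) (hF : ContDiff ℝ ∞ F₀)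
    (hconv : ∀ K : Set E, IsCompact K → K ⊆ univ → ∀ (m : ℕ) (ε : ℝ), 0 < ε → ∃ k₀, ∀ k, k₀ ≤ k →
        ∀ q ∈ K, ‖iteratedFDerivWithin ℝ m (fun p => f k p - F₀ p) univ q‖ ≤ ε) (m : ℕ) (x : E) :
    Tendsto (fun k => iteratedFDeriv ℝ m (f k) x) atTop (𝓝 (iteratedFDeriv ℝ m F₀ x)) := by
  rw [Metric.tendsto_atTop]
  intro ε hε
  obtain ⟨k₀, hk₀⟩ := hconv {x} isCompact_singleton (subset_univ _) m (ε / 2) (by positivity)
  refine ⟨k₀, fun k hk => ?_⟩
  have h1 := hk₀ k hk x (mem_singleton x)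
  rw [iteratedFDerivWithin_univ] at h1
  have h2 : iteratedFDeriv ℝ m (fun p => f k p - F₀ p) x
      = iteratedFDeriv ℝ m (f k) x - iteratedFDeriv ℝ m F₀ x :=
    iteratedFDeriv_sub_apply ((hf k).contDiffAt.of_le (by exact_mod_cast le_top))
      (hF.contDiffAt.of_le (by exact_mod_cast le_top))
  rw [h2] at h1
  rw [dist_eq_norm]
  linarith

/-- (C) compactness -/
theorem dgj_compact {V : E → ℝ} (hV : ContDiff ℝ ∞ V) (ε : ℕ → ℝ) (hε0 : ∀ k, 0 ≤ ε k) (hε1 : ∀ k, ε k ≤ 1)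
    (hε : Tendsto ε atTop (𝓝 0)) (φ : ℕ → E → ℝ) (hφ : ∀ k, ContDiff ℝ ∞ (φ k))
    (heq : ∀ k : ℕ, ∀ x ∈ ball (0 : E) ((k : ℝ) + 1), Laplacian.laplacian (φ k) x = (V x + ε k) * φ k x)
    (hb : ∀ ρ : ℝ, ∃ (C : ℝ) (k₀ : ℕ), ∀ k, k₀ ≤ k → ∀ x ∈ ball (0 : E) ρ, |φ k x| ≤ C) :
    ∃ (σ : ℕ → ℕ) (φ₀ : E → ℝ), StrictMono σ ∧ ContDiff ℝ ∞ φ₀ ∧
      (∀ x, Tendsto (fun k => φ (σ k) x) atTop (𝓝 (φ₀ x))) ∧
      ∀ x, Laplacian.laplacian φ₀ x = V x * φ₀ x := by
  obtain ⟨σ, F₀, hσ, hF₀, hconv⟩ := Claimed.Agent.Lib.aas_main (E := E) (F := ℝ) univ uniqueDiffOn_univ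
    (fun x _ => ⟨closedBall x 1, isCompact_closedBall x 1, convex_closedBall x 1,
      subset_univ _, by rw [nhdsWithin_univ]; exact closedBall_mem_nhds x one_pos⟩)
    φ (fun K _ _ => ⟨0, fun k _ => ⟨univ, isOpen_univ, subset_univ _, by
      rw [univ_inter]; exact (hφ k).contDiffOn⟩⟩)
    (fun K hK _ m => by
      obtain ⟨r, hr⟩ := hK.isBounded.subset_ball (0 : E)
      set ρ : ℝ := max r 1 with hρ
      have hρ0 : 0 < ρ := lt_of_lt_of_le one_pos (le_max_right _ _)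
      obtain ⟨C, hC0, hC⟩ := dgj_deriv_bound hV m hρ0
      obtain ⟨C₀, k₀, hk₀⟩ := hb (ρ + 2)
      refine ⟨C * |C₀|, max k₀ ⌈ρ + 1⌉₊, fun k hk q hq => ?_⟩
      rw [iteratedFDerivWithin_univ]
      have hk1 : k₀ ≤ k := le_trans (le_max_left _ _) hk
      have hk2 : ρ + 1 ≤ (k : ℝ) := (Nat.le_ceil _).trans (by exact_mod_cast le_trans (le_max_right _ _) hk)
      refine hC (ε k) (φ k) |C₀| (hε0 k) (hε1 k) (abs_nonneg _) (hφ k)
        (fun x hx => heq k x (ball_subset_ball (by linarith) hx))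
        (fun x hx => (hk₀ k hk1 x hx).trans (le_abs_self _)) q ?_
      exact ball_subset_ball (le_max_left _ _) (hr hq))
  have hF : ContDiff ℝ ∞ F₀ := contDiffOn_univ.1 hF₀
  have hlim := dgj_tendsto_of_conv (fun k => hφ (σ k)) hF hconv
  have hval : ∀ x, Tendsto (fun k => φ (σ k) x) atTop (𝓝 (F₀ x)) := by
    intro x
    have h1 := ((ContinuousMultilinearMap.apply ℝ (fun _ : Fin 0 => E) ℝ 0).continuous.tendsto _).comp (hlim 0 x)
    have e : (⇑(ContinuousMultilinearMap.apply ℝ (fun _ : Fin 0 => E) ℝ 0) ∘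
        fun k => iteratedFDeriv ℝ 0 (φ (σ k)) x) = fun k => φ (σ k) x := by
      funext k
      simp
    rw [e] at h1
    simpa using h1
  refine ⟨σ, F₀, hσ, hF, hval, fun x => ?_⟩
  have hlap : Tendsto (fun k => Laplacian.laplacian (φ (σ k)) x) atTop (𝓝 (Laplacian.laplacian F₀ x)) := by
    simp only [InnerProductSpace.laplacian_eq_iteratedFDeriv_stdOrthonormalBasis]
    refine tendsto_finsetSum _ (fun i _ => ?_)
    exact ((ContinuousMultilinearMap.apply ℝ (fun _ : Fin 2 => E) ℝ ![_, _]).continuous.tendsto _).comp (hlim 2 x)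
  have hrhs : Tendsto (fun k => (V x + ε (σ k)) * φ (σ k) x) atTop (𝓝 ((V x + 0) * F₀ x)) :=
    ((hε.comp hσ.tendsto_atTop).const_add (V x)).mul (hval x)
  rw [add_zero] at hrhs
  refine tendsto_nhds_unique hlap (hrhs.congr' ?_)
  have hev : ∀ᶠ k : ℕ in atTop, ‖x‖ < (σ k : ℝ) + 1 := by
    have h1 : Tendsto (fun k : ℕ => ((σ k : ℕ) : ℝ) + 1) atTop atTop :=
      tendsto_atTop_add_const_right _ _ (tendsto_natCast_atTop_atTop.comp hσ.tendsto_atTop)
    exact h1.eventually_gt_atTop _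
  filter_upwards [hev] with k hk
  exact (heq (σ k) x (by rwa [mem_ball, dist_zero_right])).symm

end C2

/-! ## the positive solution -/

section M1
open Claimed.Agent.Lib.Sob


variable {E : Type*} [NormedAddCommGroup E] [InnerProductSpace ℝ E] [FiniteDimensional ℝ E]
  [MeasurableSpace E] [BorelSpace E]

/-- the Harnack constant at scale `ρ` -/
noncomputable def dgjC (E : Type*) [NormedAddCommGroup E] [InnerProductSpace ℝ E] (Λ ρ : ℝ) : ℝ :=
  64 / 39 * 2 ^ Module.finrank ℝ E * Real.exp (5 * Λ * (4 * ρ) ^ 2 / 8)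

theorem dgjC_pos (Λ ρ : ℝ) : 0 < dgjC E Λ ρ := by unfold dgjC; positivity

/-- the approximate positive solutions -/
theorem dgj_approx [Nontrivial E] {V : E → ℝ} (hV : ContDiff ℝ ∞ V) {Λ : ℝ} (hVb : ∀ x, |V x| ≤ Λ)
    (hst : ∀ φ : E → ℝ, ContDiff ℝ 1 φ → HasCompactSupport φ →
      0 ≤ ∫ x, (‖fderiv ℝ φ x‖ ^ 2 + V x * φ x ^ 2)) (k : ℕ) :
    ∃ u : E → ℝ, ContDiff ℝ ∞ u ∧ (∀ x, 0 < u x) ∧ (∀ x, Laplacian.laplacian u x ≤ (Λ + 1) * u x) ∧
      ∀ x ∈ ball (0 : E) ((k : ℝ) + 1), Laplacian.laplacian u x = (V x + 1 / ((k : ℝ) + 1)) * u x := by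
  have hΛ : 0 ≤ Λ := (abs_nonneg _).trans (hVb 0)
  obtain ⟨xk, hxk⟩ := exists_norm_eq E (c := (k : ℝ) + 3) (by positivity)
  let fb : ContDiffBump xk := ⟨1 / 2, 1, by norm_num, by norm_num⟩
  have hε : (0 : ℝ) < 1 / ((k : ℝ) + 1) := by positivity
  have hε1 : 1 / ((k : ℝ) + 1) ≤ 1 := by
    rw [div_le_one (by positivity)]
    have : (0 : ℝ) ≤ k := Nat.cast_nonneg k
    linarith
  obtain ⟨u, hu, hu0, hu1, hueq⟩ := dgj_resolvent hV hVb hst hε fb.contDiff fb.hasCompactSupport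
    (fun x => fb.nonneg) ⟨xk, by
      rw [fb.one_of_mem_closedBall (mem_closedBall_self fb.rIn_pos.le)]
      norm_num⟩
  have hu2 : ContDiff ℝ 2 u := hu.of_le (by norm_cast)
  have hsup : ∀ x, Laplacian.laplacian u x ≤ (Λ + 1) * u x := by
    intro x
    rw [hueq x]
    have h1 := (abs_le.1 (hVb x)).2
    have h2 : 0 ≤ fb x := fb.nonneg
    nlinarith [hu0 x]
  refine ⟨u, hu, fun x => ?_, hsup, fun x hx => ?_⟩
  · rcases (hu0 x).lt_or_eq with h | h
    · exact h
    · exfalso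
      obtain ⟨y, hy⟩ := hu1
      exact hy (dgj_smp hu2 hu0 (by positivity) hsup h.symm y)
  · rw [hueq x]
    have : fb x = 0 := by
      refine fb.zero_of_le_dist ?_
      rw [mem_ball, dist_zero_right] at hx
      have h1 : ‖xk‖ ≤ ‖x‖ + dist x xk := by
        rw [dist_eq_norm]
        have := norm_sub_le x (x - xk)
        rwa [sub_sub_cancel] at this
      show (1 : ℝ) ≤ dist x xk
      linarith
    rw [this, sub_zero]

/-- **a stable Schrödinger operator has a positive solution** (Fischer-Colbrie and Schoen, Moss and Piepenbrink) -/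
theorem dgj_exists_pos [Nontrivial E] {V : E → ℝ} (hV : ContDiff ℝ ∞ V) {Λ : ℝ} (hVb : ∀ x, |V x| ≤ Λ)
    (hst : ∀ φ : E → ℝ, ContDiff ℝ 1 φ → HasCompactSupport φ →
      0 ≤ ∫ x, (‖fderiv ℝ φ x‖ ^ 2 + V x * φ x ^ 2)) :
    ∃ φ : E → ℝ, ContDiff ℝ ∞ φ ∧ (∀ x, 0 < φ x) ∧ ∀ x, Laplacian.laplacian φ x = V x * φ x := by
  have hΛ : 0 ≤ Λ := (abs_nonneg _).trans (hVb 0)
  have hΛ' : 0 ≤ Λ + 1 := by positivity
  choose u hu hpos hsup hequ using dgj_approx hV hVb hst
  have hu2 : ∀ k, ContDiff ℝ 2 (u k) := fun k => (hu k).of_le (by norm_cast)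
  have hε0 : ∀ k : ℕ, (0 : ℝ) ≤ 1 / ((k : ℝ) + 1) := fun k => by positivity
  have hε1 : ∀ k : ℕ, 1 / ((k : ℝ) + 1) ≤ 1 := fun k => by
    rw [div_le_one (by positivity)]
    have : (0 : ℝ) ≤ k := Nat.cast_nonneg k
    linarith
  have hsub : ∀ k : ℕ, ∀ x ∈ ball (0 : E) ((k : ℝ) + 1), -((Λ + 1) * u k x) ≤ Laplacian.laplacian (u k) x := by
    intro k x hx
    rw [hequ k x hx]
    have h1 := (abs_le.1 (hVb x)).1
    nlinarith [hpos k x, hε0 k]
  -- Harnack, both ways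
  have hH1 : ∀ (ρ : ℝ), 0 < ρ → ∀ k : ℕ, 5 * ρ ≤ (k : ℝ) + 1 → ∀ x ∈ ball (0 : E) ρ,
      u k x ≤ dgjC E (Λ + 1) ρ * u k 0 := by
    intro ρ hρ k hk x hx
    rw [mem_ball, dist_zero_right] at hx
    refine dgj_harnack (hu2 k) (fun y => (hpos k y).le) hΛ' x 0 (r := 4 * ρ) (by positivity)
      (by rw [sub_zero]; linarith) (fun y hy => hsub k y ?_) (fun y _ => hsup k y)
    rw [mem_ball, dist_eq_norm] at hy
    rw [mem_ball, dist_zero_right]
    have := norm_sub_le y (y - x)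
    rw [sub_sub_cancel] at this
    have h3 : ‖y‖ ≤ ‖y - x‖ + ‖x‖ := by
      have := norm_add_le (y - x) x
      rwa [sub_add_cancel] at this
    linarith
  have hH2 : ∀ (ρ : ℝ), 0 < ρ → ∀ k : ℕ, 5 * ρ ≤ (k : ℝ) + 1 → ∀ x ∈ ball (0 : E) ρ,
      u k 0 ≤ dgjC E (Λ + 1) ρ * u k x := by
    intro ρ hρ k hk x hx
    rw [mem_ball, dist_zero_right] at hx
    refine dgj_harnack (hu2 k) (fun y => (hpos k y).le) hΛ' 0 x (r := 4 * ρ) (by positivity)
      (by rw [zero_sub, norm_neg]; linarith) (fun y hy => hsub k y ?_) (fun y _ => hsup k y)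
    exact ball_subset_ball (by linarith) hy
  -- normalisation
  set φ : ℕ → E → ℝ := fun k => (u k 0)⁻¹ • u k with hφdef
  have hφv : ∀ k x, φ k x = (u k 0)⁻¹ * u k x := fun k x => rfl
  have hφ : ∀ k, ContDiff ℝ ∞ (φ k) := fun k => (hu k).const_smul ((u k 0)⁻¹)
  have hφeq : ∀ k : ℕ, ∀ x ∈ ball (0 : E) ((k : ℝ) + 1),
      Laplacian.laplacian (φ k) x = (V x + 1 / ((k : ℝ) + 1)) * φ k x := by
    intro k x hx
    rw [hφv, hφdef]
    simp only
    rw [InnerProductSpace.laplacian_smul _ (hu2 k).contDiffAt, hequ k x hx, smul_eq_mul]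
    ring
  obtain ⟨σ, φ₀, hσ, hφ₀, hlim, heq₀⟩ := dgj_compact hV (fun k : ℕ => 1 / ((k : ℝ) + 1)) hε0 hε1
    tendsto_one_div_add_atTop_nhds_zero_nat φ hφ hφeq (fun ρ => by
      set ρ' : ℝ := max ρ 1 with hρ'
      have hρ0 : 0 < ρ' := lt_of_lt_of_le one_pos (le_max_right _ _)
      refine ⟨dgjC E (Λ + 1) ρ', ⌈5 * ρ'⌉₊, fun k hk x hx => ?_⟩
      have hk' : 5 * ρ' ≤ (k : ℝ) + 1 := by
        have : 5 * ρ' ≤ (k : ℝ) := (Nat.le_ceil _).trans (by exact_mod_cast hk)
        linarith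
      have h1 := hH1 ρ' hρ0 k hk' x (ball_subset_ball (le_max_left _ _) hx)
      have h0 := hpos k 0
      rw [hφv, abs_of_pos (mul_pos (inv_pos.2 h0) (hpos k x)), inv_mul_le_iff₀ h0, mul_comm]
      exact h1)
  refine ⟨φ₀, hφ₀, fun x => ?_, heq₀⟩
  set ρ' : ℝ := ‖x‖ + 1 with hρ'
  have hρ0 : 0 < ρ' := by positivity
  have hge : (dgjC E (Λ + 1) ρ')⁻¹ ≤ φ₀ x := by
    refine ge_of_tendsto (hlim x) ?_
    have hev : ∀ᶠ k : ℕ in atTop, 5 * ρ' ≤ (σ k : ℝ) + 1 := by
      have h1 : Tendsto (fun k : ℕ => ((σ k : ℕ) : ℝ) + 1) atTop atTop :=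
        tendsto_atTop_add_const_right _ _ (tendsto_natCast_atTop_atTop.comp hσ.tendsto_atTop)
      exact h1.eventually_ge_atTop _
    filter_upwards [hev] with k hk
    have h1 := hH2 ρ' hρ0 (σ k) hk x (by rw [mem_ball, dist_zero_right]; linarith)
    have h0 := hpos (σ k) 0
    rw [hφv, inv_le_iff_one_le_mul₀ (dgjC_pos _ _), mul_assoc, ← div_eq_inv_mul, one_le_div h0, mul_comm]
    exact h1
  exact lt_of_lt_of_le (inv_pos.2 (dgjC_pos _ _)) hge

end M1

/-! ## EXITS -/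

/-- (`←`) a positive solution of the linearised equation gives stability (Picone, `dg98_picone`). -/
theorem dgj_stable_of_pos {n : ℕ} {v φ : DgE n → ℝ} (hv : Continuous v) (hφ : ContDiff ℝ 2 φ) (hpos : ∀ x, 0 < φ x)
    (heq : ∀ x, Laplacian.laplacian φ x = (3 * v x ^ 2 - 1) * φ x) : DgStable n v :=
  fun ξ hξ hξc => dg98_picone hφ hpos (by fun_prop) heq hξ hξc

/-- (`→`) a stable solution has a positive smooth Jacobi field. -/
theorem dgj_pos_of_stable {n : ℕ} (hn : 0 < n) {v : DgE n → ℝ} (hv : DgSol n v) (hst : DgStable n v) :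
    ∃ φ : DgE n → ℝ, ContDiff ℝ ∞ φ ∧ (∀ x, 0 < φ x) ∧
      ∀ x, Laplacian.laplacian φ x = (3 * v x ^ 2 - 1) * φ x := by
  have : Nonempty (Fin n) := ⟨⟨0, hn⟩⟩
  have hV : ContDiff ℝ ∞ (fun x : DgE n => 3 * v x ^ 2 - 1) :=
    (contDiff_const.mul (hv.contDiff_top.pow 2)).sub contDiff_const
  refine dgj_exists_pos hV (Λ := 2) (fun x => ?_) hst
  obtain ⟨h1, h2⟩ := hv.range x
  rw [abs_le]
  constructor <;> nlinarith

/-- stability of a solution `↔` existence of a positive Jacobi field. -/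
theorem dgj_stable_iff {n : ℕ} (hn : 0 < n) {v : DgE n → ℝ} (hv : DgSol n v) :
    DgStable n v ↔ ∃ φ : DgE n → ℝ, ContDiff ℝ 2 φ ∧ (∀ x, 0 < φ x) ∧
      ∀ x, Laplacian.laplacian φ x = (3 * v x ^ 2 - 1) * φ x := by
  constructor
  · intro hst
    obtain ⟨φ, h1, h2, h3⟩ := dgj_pos_of_stable hn hv hst
    exact ⟨φ, h1.of_le (by norm_cast), h2, h3⟩
  · rintro ⟨φ, h1, h2, h3⟩
    exact dgj_stable_of_pos hv.smooth.continuous h1 h2 h3

end Claimed.Agent.R329
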