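import Claimed.Agent.R329.Defs
import Claimed.Agent.R259.RegBoot
import Claimed.Agent.R259.Pack039
import Claimed.Agent.Lib.Ell.Hopf

/-!
# Row 329, post A13 (pen: helper218, prefix `dgli_`): the Liouville theorem of Ghoussoub-Gui / Ambrosio-Cabre type

`DgSol n u`, `DgStable n u` and `E(u; B_R) ≤ C R²` for `R ≥ 1` imply that `u` is one-dimensional.

Road (no Sternberg-Zumbrun, no positive Jacobi field):  for a direction `e` put `w = ∂_e u`, `c = 3u² - 1`, so `Δ w = c w`.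
For `f = β_ε(w)`, `β_ε(t) = (t + √(t² + ε²))/2` (smooth, positive, convex) one has `Δ f - c f ≥ - |c| ε / 2`, hence
`Q(f η) = ∫ f² |∇η|² - ∫ η² f (Δ f - c f) ≤ ∫ f² |∇η|² + ε ∫ f η²`.  With the logarithmic cut-off `η` and `ε → 0` the form `Q ≥ 0`
degenerates along `w⁺ η`, so by Cauchy-Schwarz `w⁺` is a very weak solution of `Δ z = c z`; by the regularity kit of row 259 it is smooth,
by the strong minimum principle of `Lib/Ell` it vanishes identically or nowhere.  So every directional derivative of `u` is `> 0`, `< 0`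
or `≡ 0`; the directions orthogonal to `∇u(0)` give `≡ 0`.
-/

set_option autoImplicit false
set_option linter.unusedSectionVars false

open MeasureTheory Metric Set Filter Topology
open scoped ContDiff

namespace Claimed.Agent.R329

section General

variable {E : Type} [NormedAddCommGroup E] [InnerProductSpace ℝ E] [FiniteDimensional ℝ E]
  [MeasurableSpace E] [BorelSpace E]

/-! ## the pairing of two differentials -/

/-- `⟨A, B⟩` for two differentials, in coordinates. -/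
noncomputable def dgli_dot (A B : E →L[ℝ] ℝ) : ℝ :=
  ∑ i, A (stdOrthonormalBasis ℝ E i) * B (stdOrthonormalBasis ℝ E i)

omit [MeasurableSpace E] [BorelSpace E] in
theorem dgli_dot_self (A : E →L[ℝ] ℝ) : dgli_dot A A = ‖A‖ ^ 2 := by
  rw [(stdOrthonormalBasis ℝ E).norm_dual A]
  exact Finset.sum_congr rfl fun i _ => by ring

omit [MeasurableSpace E] [BorelSpace E] in
theorem dgli_norm_comb_sq (a b : ℝ) (A B : E →L[ℝ] ℝ) :
    ‖a • A + b • B‖ ^ 2 = a ^ 2 * ‖A‖ ^ 2 + 2 * (a * b) * dgli_dot A B + b ^ 2 * ‖B‖ ^ 2 := by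
  rw [(stdOrthonormalBasis ℝ E).norm_dual, (stdOrthonormalBasis ℝ E).norm_dual A,
    (stdOrthonormalBasis ℝ E).norm_dual B, dgli_dot, Finset.mul_sum, Finset.mul_sum, Finset.mul_sum,
    ← Finset.sum_add_distrib, ← Finset.sum_add_distrib]
  refine Finset.sum_congr rfl fun i _ => ?_
  simp only [_root_.add_apply, _root_.smul_apply, smul_eq_mul]
  ring

omit [MeasurableSpace E] [BorelSpace E] in
theorem dgli_dot_comb_left (a b : ℝ) (A B D : E →L[ℝ] ℝ) :
    dgli_dot (a • A + b • B) D = a * dgli_dot A D + b * dgli_dot B D := by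
  simp only [dgli_dot, Finset.mul_sum, ← Finset.sum_add_distrib]
  refine Finset.sum_congr rfl fun i _ => ?_
  simp only [_root_.add_apply, _root_.smul_apply, smul_eq_mul]
  ring

omit [MeasurableSpace E] [BorelSpace E] in
theorem dgli_dot_comm (A B : E →L[ℝ] ℝ) : dgli_dot A B = dgli_dot B A :=
  Finset.sum_congr rfl fun i _ => by ring

omit [MeasurableSpace E] [BorelSpace E] in
theorem dgli_dot_continuous {X : Type} [TopologicalSpace X] {A B : X → E →L[ℝ] ℝ} (hA : Continuous A)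
    (hB : Continuous B) : Continuous fun x => dgli_dot (A x) (B x) :=
  continuous_finsetSum _ fun _ _ => (hA.clm_apply continuous_const).mul (hB.clm_apply continuous_const)

/-! ## integrability and Green's identity -/

theorem dgli_int {F : E → ℝ} (hF : Continuous F) {η : E → ℝ} (hη : HasCompactSupport η)
    (h0 : ∀ x, x ∉ tsupport η → F x = 0) : Integrable F :=
  hF.integrable_of_hasCompactSupport (hη.mono' fun x hx => by
    by_contra hcon
    exact hx (h0 x hcon))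

omit [MeasurableSpace E] [BorelSpace E] [FiniteDimensional ℝ E] in
theorem dgli_cont_fderiv {g : E → ℝ} (hg : ContDiff ℝ 1 g) : Continuous (fderiv ℝ g) :=
  hg.continuous_fderiv (by norm_num)

/-- Green's first identity. -/
theorem dgli_green {g w : E → ℝ} (hg : ContDiff ℝ 1 g) (hgc : HasCompactSupport g) (hw : ContDiff ℝ 2 w) :
    ∫ x, dgli_dot (fderiv ℝ g x) (fderiv ℝ w x) = - ∫ x, g x * Laplacian.laplacian w x := by
  have hw1 : ContDiff ℝ 1 w := hw.of_le (by norm_num)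
  have hDw : ContDiff ℝ 1 (fderiv ℝ w) := hw.fderiv_right (m := 1) (by norm_num)
  have hdir : ∀ v : E, ContDiff ℝ 1 (fun y => fderiv ℝ w y v) := fun v => hDw.clm_apply contDiff_const
  have hL : ∀ x, Laplacian.laplacian w x = ∑ i, fderiv ℝ (fun y => fderiv ℝ w y (stdOrthonormalBasis ℝ E i)) x
      (stdOrthonormalBasis ℝ E i) := fun x => R259.reg_laplacian_eq_sum hw.contDiffAt
  have hg0 : ∀ x, x ∉ tsupport g → g x = 0 := fun x hx => image_eq_zero_of_notMem_tsupport hx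
  have hg1 : ∀ x, x ∉ tsupport g → fderiv ℝ g x = 0 := fun x hx => fderiv_of_notMem_tsupport ℝ hx
  have key : ∀ i, ∫ x, g x * fderiv ℝ (fun y => fderiv ℝ w y (stdOrthonormalBasis ℝ E i)) x
      (stdOrthonormalBasis ℝ E i) = - ∫ x, fderiv ℝ g x (stdOrthonormalBasis ℝ E i) *
        fderiv ℝ w x (stdOrthonormalBasis ℝ E i) := by
    intro i
    refine integral_mul_fderiv_eq_neg_fderiv_mul_of_integrable ?_ ?_ ?_ ?_ ?_
    · exact dgli_int (((dgli_cont_fderiv hg).clm_apply continuous_const).mul (hdir _).continuous) hgc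
        fun x hx => by rw [hg1 x hx]; simp
    · exact dgli_int (hg.continuous.mul ((dgli_cont_fderiv (hdir _)).clm_apply continuous_const)) hgc
        fun x hx => by rw [hg0 x hx]; simp
    · exact dgli_int (hg.continuous.mul (hdir _).continuous) hgc fun x hx => by rw [hg0 x hx]; simp
    · exact fun x _ => (hg.differentiable (by norm_num)).differentiableAt
    · exact fun x _ => ((hdir _).differentiable (by norm_num)).differentiableAt
  have e1 : ∫ x, g x * Laplacian.laplacian w x = ∑ i, ∫ x, g x *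
      fderiv ℝ (fun y => fderiv ℝ w y (stdOrthonormalBasis ℝ E i)) x (stdOrthonormalBasis ℝ E i) := by
    rw [← integral_finsetSum]
    · refine integral_congr_ae (Eventually.of_forall fun x => ?_)
      simp only [hL x, Finset.mul_sum]
    · intro i _
      exact dgli_int (hg.continuous.mul ((dgli_cont_fderiv (hdir _)).clm_apply continuous_const)) hgc
        fun x hx => by rw [hg0 x hx]; simp
  rw [e1]
  unfold dgli_dot
  rw [integral_finsetSum, ← Finset.sum_neg_distrib]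
  · exact Finset.sum_congr rfl fun i _ => by rw [key i, neg_neg]
  · intro i _
    exact dgli_int (((dgli_cont_fderiv hg).clm_apply continuous_const).mul (hdir _).continuous) hgc
      fun x hx => by rw [hg1 x hx]; simp

/-! ## the quadratic form -/

/-- `Q_c(φ) = ∫ |∇φ|² + c φ²`. -/
noncomputable def dgli_Q (c φ : E → ℝ) : ℝ := ∫ x, (‖fderiv ℝ φ x‖ ^ 2 + c x * φ x ^ 2)

/-- the bilinear form of `Q_c`. -/
noncomputable def dgli_B (c φ ψ : E → ℝ) : ℝ :=
  ∫ x, (dgli_dot (fderiv ℝ φ x) (fderiv ℝ ψ x) + c x * φ x * ψ x)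

theorem dgli_Q_add {c φ ψ : E → ℝ} (hc : Continuous c) (hφ : ContDiff ℝ 1 φ) (hφc : HasCompactSupport φ)
    (hψ : ContDiff ℝ 1 ψ) (hψc : HasCompactSupport ψ) (t : ℝ) :
    dgli_Q c (fun y => φ y + t * ψ y) = dgli_Q c φ + 2 * t * dgli_B c φ ψ + t ^ 2 * dgli_Q c ψ := by
  have hφ0 : ∀ x, x ∉ tsupport φ → φ x = 0 := fun x hx => image_eq_zero_of_notMem_tsupport hx
  have hφ1 : ∀ x, x ∉ tsupport φ → fderiv ℝ φ x = 0 := fun x hx => fderiv_of_notMem_tsupport ℝ hx
  have hψ0 : ∀ x, x ∉ tsupport ψ → ψ x = 0 := fun x hx => image_eq_zero_of_notMem_tsupport hx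
  have hψ1 : ∀ x, x ∉ tsupport ψ → fderiv ℝ ψ x = 0 := fun x hx => fderiv_of_notMem_tsupport ℝ hx
  have i1 : Integrable fun x => ‖fderiv ℝ φ x‖ ^ 2 + c x * φ x ^ 2 :=
    dgli_int (((dgli_cont_fderiv hφ).norm.pow 2).add (hc.mul (hφ.continuous.pow 2))) hφc
      fun x hx => by rw [hφ0 x hx, hφ1 x hx]; simp
  have i2 : Integrable fun x => dgli_dot (fderiv ℝ φ x) (fderiv ℝ ψ x) + c x * φ x * ψ x :=
    dgli_int ((dgli_dot_continuous (dgli_cont_fderiv hφ) (dgli_cont_fderiv hψ)).add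
      ((hc.mul hφ.continuous).mul hψ.continuous)) hφc
      fun x hx => by rw [hφ0 x hx, hφ1 x hx]; simp [dgli_dot]
  have i3 : Integrable fun x => ‖fderiv ℝ ψ x‖ ^ 2 + c x * ψ x ^ 2 :=
    dgli_int (((dgli_cont_fderiv hψ).norm.pow 2).add (hc.mul (hψ.continuous.pow 2))) hψc
      fun x hx => by rw [hψ0 x hx, hψ1 x hx]; simp
  have i12 : Integrable fun x => ‖fderiv ℝ φ x‖ ^ 2 + c x * φ x ^ 2
      + 2 * t * (dgli_dot (fderiv ℝ φ x) (fderiv ℝ ψ x) + c x * φ x * ψ x) := i1.add (i2.const_mul _)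
  unfold dgli_Q dgli_B
  rw [← integral_const_mul, ← integral_const_mul, ← integral_add i1 (i2.const_mul _),
    ← integral_add i12 (i3.const_mul _)]
  refine integral_congr_ae (Eventually.of_forall fun x => ?_)
  have dφ : DifferentiableAt ℝ φ x := (hφ.differentiable (by norm_num)).differentiableAt
  have dψ : DifferentiableAt ℝ ψ x := (hψ.differentiable (by norm_num)).differentiableAt
  have e : fderiv ℝ (fun y => φ y + t * ψ y) x = (1 : ℝ) • fderiv ℝ φ x + t • fderiv ℝ ψ x := by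
    rw [fderiv_fun_add dφ (dψ.const_mul t), fderiv_const_mul dψ, one_smul]
  simp only [e, dgli_norm_comb_sq]
  ring

/-- `Q_c(f η) = ∫ f² |∇η|² - ∫ η² f (Δ f - c f)`. -/
theorem dgli_Q_mul {c f η : E → ℝ} (hc : Continuous c) (hf : ContDiff ℝ 2 f) (hη : ContDiff ℝ 1 η)
    (hηc : HasCompactSupport η) :
    dgli_Q c (fun y => f y * η y) = (∫ x, f x ^ 2 * ‖fderiv ℝ η x‖ ^ 2)
      - ∫ x, η x ^ 2 * f x * (Laplacian.laplacian f x - c x * f x) := by
  have hf1 : ContDiff ℝ 1 f := hf.of_le (by norm_num)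
  have hη0 : ∀ x, x ∉ tsupport η → η x = 0 := fun x hx => image_eq_zero_of_notMem_tsupport hx
  have hη1 : ∀ x, x ∉ tsupport η → fderiv ℝ η x = 0 := fun x hx => fderiv_of_notMem_tsupport ℝ hx
  have hLc : Continuous (Laplacian.laplacian f) := by
    have : Laplacian.laplacian f = fun x => ∑ i, fderiv ℝ (fun y => fderiv ℝ f y (stdOrthonormalBasis ℝ E i)) x
        (stdOrthonormalBasis ℝ E i) := funext fun x => R259.reg_laplacian_eq_sum hf.contDiffAt
    rw [this]
    refine continuous_finsetSum _ fun i _ => ?_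
    have hDf : ContDiff ℝ 1 (fderiv ℝ f) := hf.fderiv_right (m := 1) (by norm_num)
    exact (dgli_cont_fderiv (hDf.clm_apply contDiff_const)).clm_apply continuous_const
  -- the auxiliary test function `g = f η²`
  have hg : ContDiff ℝ 1 (fun y => f y * η y ^ 2) := hf1.mul (hη.pow 2)
  have hgc : HasCompactSupport (fun y => f y * η y ^ 2) := hηc.mono' fun x hx => by
    by_contra hcon
    exact hx (by simp [hη0 x hcon])
  have hG := dgli_green hg hgc hf
  have i1 : Integrable fun x => f x ^ 2 * ‖fderiv ℝ η x‖ ^ 2 :=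
    dgli_int ((hf.continuous.pow 2).mul ((dgli_cont_fderiv hη).norm.pow 2)) hηc
      fun x hx => by rw [hη1 x hx]; simp
  have i2 : Integrable fun x => η x ^ 2 * f x * (Laplacian.laplacian f x - c x * f x) :=
    dgli_int (((hη.continuous.pow 2).mul hf.continuous).mul (hLc.sub (hc.mul hf.continuous))) hηc
      fun x hx => by rw [hη0 x hx]; simp
  have i3 : Integrable fun x => dgli_dot (fderiv ℝ (fun y => f y * η y ^ 2) x) (fderiv ℝ f x) :=
    dgli_int (dgli_dot_continuous (dgli_cont_fderiv hg) (dgli_cont_fderiv hf1)) hgc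
      fun x hx => by rw [fderiv_of_notMem_tsupport ℝ hx]; simp [dgli_dot]
  have i4 : Integrable fun x => f x * η x ^ 2 * Laplacian.laplacian f x :=
    dgli_int ((hf.continuous.mul (hη.continuous.pow 2)).mul hLc) hηc
      fun x hx => by rw [hη0 x hx]; simp
  have i5 : Integrable fun x => c x * (f x * η x) ^ 2 :=
    dgli_int (hc.mul ((hf.continuous.mul hη.continuous).pow 2)) hηc
      fun x hx => by rw [hη0 x hx]; simp
  have e1 : dgli_Q c (fun y => f y * η y) = ∫ x, (dgli_dot (fderiv ℝ (fun y => f y * η y ^ 2) x) (fderiv ℝ f x)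
      + (f x ^ 2 * ‖fderiv ℝ η x‖ ^ 2 + c x * (f x * η x) ^ 2)) := by
    unfold dgli_Q
    refine integral_congr_ae (Eventually.of_forall fun x => ?_)
    have df : DifferentiableAt ℝ f x := (hf1.differentiable (by norm_num)).differentiableAt
    have dη : DifferentiableAt ℝ η x := (hη.differentiable (by norm_num)).differentiableAt
    have a1 : fderiv ℝ (fun y => f y * η y) x = f x • fderiv ℝ η x + η x • fderiv ℝ f x :=
      fderiv_fun_mul df dη
    have a2 : fderiv ℝ (fun y => f y * η y ^ 2) x = (2 * f x * η x) • fderiv ℝ η x + (η x ^ 2) • fderiv ℝ f x := by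
      rw [fderiv_fun_mul df (dη.fun_pow 2), fderiv_fun_pow 2 dη]
      simp only [smul_smul]
      congr 2
      simp
      ring
    simp only [a1, a2, dgli_norm_comb_sq, dgli_dot_comb_left, dgli_dot_self]
    ring
  have i15 : Integrable fun x => f x ^ 2 * ‖fderiv ℝ η x‖ ^ 2 + c x * (f x * η x) ^ 2 := i1.add i5
  have e2 : ∫ x, η x ^ 2 * f x * (Laplacian.laplacian f x - c x * f x)
      = (∫ x, f x * η x ^ 2 * Laplacian.laplacian f x) - ∫ x, c x * (f x * η x) ^ 2 := by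
    rw [← integral_sub i4 i5]
    exact integral_congr_ae (Eventually.of_forall fun x => by ring)
  rw [e1, integral_add i3 i15, hG, integral_add i1 i5, e2]
  ring


/-! ## the logarithmic cut-off -/

theorem dgli_zeta_deriv_neg {s : ℝ} (hs : s < 0) : deriv Real.smoothTransition s = 0 := by
  have : Real.smoothTransition =ᶠ[𝓝 s] fun _ => (0 : ℝ) := by
    filter_upwards [Iio_mem_nhds hs] with r hr
    exact Real.smoothTransition.zero_of_nonpos (le_of_lt hr)
  rw [this.deriv_eq]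
  simp

theorem dgli_zeta_deriv_gt {s : ℝ} (hs : 1 < s) : deriv Real.smoothTransition s = 0 := by
  have : Real.smoothTransition =ᶠ[𝓝 s] fun _ => (1 : ℝ) := by
    filter_upwards [Ioi_mem_nhds hs] with r hr
    exact Real.smoothTransition.one_of_one_le (le_of_lt hr)
  rw [this.deriv_eq]
  simp

theorem dgli_zeta_bound : ∃ M : ℝ, 0 ≤ M ∧ ∀ s, |deriv Real.smoothTransition s| ≤ M := by
  have hc : Continuous (deriv Real.smoothTransition) :=
    (Real.smoothTransition.contDiff (n := 1)).continuous_deriv le_rfl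
  obtain ⟨M, hM⟩ := (isCompact_Icc (a := (0 : ℝ)) (b := 1)).exists_bound_of_continuousOn hc.continuousOn
  refine ⟨max M 0, le_max_right _ _, fun s => ?_⟩
  by_cases h0 : s < 0
  · rw [dgli_zeta_deriv_neg h0]; simp
  by_cases h1 : 1 < s
  · rw [dgli_zeta_deriv_gt h1]; simp
  · exact (hM s ⟨not_lt.1 h0, not_lt.1 h1⟩).trans (le_max_left _ _)

/-- the logarithmic variable. -/
noncomputable def dgli_L (ρ : ℝ) (N : ℕ) (x : E) : ℝ :=
  (Real.log (‖x‖ ^ 2) - Real.log (ρ ^ 2)) / (N * Real.log 4)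

/-- the logarithmic cut-off: `1` on `B_ρ`, `0` outside `B_{ρ 2^N}`. -/
noncomputable def dgli_eta (ρ : ℝ) (N : ℕ) (x : E) : ℝ := 1 - Real.smoothTransition (dgli_L ρ N x)

theorem dgli_log4_pos : 0 < Real.log 4 := Real.log_pos (by norm_num)

theorem dgli_log4_ge : 1 ≤ Real.log 4 := by
  have h1 : Real.log 4 = 2 * Real.log 2 := by
    rw [show (4 : ℝ) = 2 ^ 2 by norm_num, Real.log_pow]; norm_num
  have h2 := Real.log_two_gt_d9
  rw [h1]
  linarith

omit [FiniteDimensional ℝ E] [MeasurableSpace E] [BorelSpace E] in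
theorem dgli_L_nonpos {ρ : ℝ} (hρ : 1 ≤ ρ) {N : ℕ} {x : E} (hx : ‖x‖ ≤ ρ) : dgli_L ρ N x ≤ 0 := by
  unfold dgli_L
  apply div_nonpos_of_nonpos_of_nonneg
  · rcases eq_or_ne x 0 with rfl | h0
    · have : 0 ≤ Real.log (ρ ^ 2) := Real.log_nonneg (by nlinarith)
      simp
      simpa using this
    · have h1 : 0 < ‖x‖ ^ 2 := by positivity
      have : Real.log (‖x‖ ^ 2) ≤ Real.log (ρ ^ 2) :=
        Real.log_le_log h1 (by gcongr)
      linarith
  · have := dgli_log4_pos
    positivity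

omit [FiniteDimensional ℝ E] [MeasurableSpace E] [BorelSpace E] in
theorem dgli_eta_eq_one {ρ : ℝ} (hρ : 1 ≤ ρ) {N : ℕ} {x : E} (hx : ‖x‖ ≤ ρ) : dgli_eta ρ N x = 1 := by
  unfold dgli_eta
  rw [Real.smoothTransition.zero_of_nonpos (dgli_L_nonpos hρ hx)]
  ring

omit [FiniteDimensional ℝ E] [MeasurableSpace E] [BorelSpace E] in
theorem dgli_L_ge_one {ρ : ℝ} (hρ : 1 ≤ ρ) {N : ℕ} (hN : 1 ≤ N) {x : E} (hx : ρ * 2 ^ N ≤ ‖x‖) :
    1 ≤ dgli_L ρ N x := by
  unfold dgli_L
  have hρ0 : 0 < ρ := by linarith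
  have hN0 : (0 : ℝ) < N := by exact_mod_cast hN
  rw [le_div_iff₀ (mul_pos hN0 dgli_log4_pos), one_mul]
  have h1 : Real.log ((ρ * 2 ^ N) ^ 2) = Real.log (ρ ^ 2) + N * Real.log 4 := by
    rw [mul_pow, Real.log_mul (by positivity) (by positivity), ← pow_mul, mul_comm N 2, pow_mul,
      Real.log_pow]
    norm_num
  have h2 : Real.log ((ρ * 2 ^ N) ^ 2) ≤ Real.log (‖x‖ ^ 2) :=
    Real.log_le_log (by positivity) (by gcongr)
  linarith

omit [FiniteDimensional ℝ E] [MeasurableSpace E] [BorelSpace E] in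
theorem dgli_L_gt_one {ρ : ℝ} (hρ : 1 ≤ ρ) {N : ℕ} (hN : 1 ≤ N) {x : E} (hx : ρ * 2 ^ N < ‖x‖) :
    1 < dgli_L ρ N x := by
  unfold dgli_L
  have hρ0 : 0 < ρ := by linarith
  have hN0 : (0 : ℝ) < N := by exact_mod_cast hN
  rw [lt_div_iff₀ (mul_pos hN0 dgli_log4_pos), one_mul]
  have h1 : Real.log ((ρ * 2 ^ N) ^ 2) = Real.log (ρ ^ 2) + N * Real.log 4 := by
    rw [mul_pow, Real.log_mul (by positivity) (by positivity), ← pow_mul, mul_comm N 2, pow_mul,
      Real.log_pow]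
    norm_num
  have h2 : Real.log ((ρ * 2 ^ N) ^ 2) < Real.log (‖x‖ ^ 2) :=
    Real.log_lt_log (by positivity) (by gcongr)
  linarith

omit [FiniteDimensional ℝ E] [MeasurableSpace E] [BorelSpace E] in
theorem dgli_eta_eq_zero {ρ : ℝ} (hρ : 1 ≤ ρ) {N : ℕ} (hN : 1 ≤ N) {x : E} (hx : ρ * 2 ^ N ≤ ‖x‖) :
    dgli_eta ρ N x = 0 := by
  unfold dgli_eta
  rw [Real.smoothTransition.one_of_one_le (dgli_L_ge_one hρ hN hx)]
  ring

omit [FiniteDimensional ℝ E] [MeasurableSpace E] [BorelSpace E] in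
theorem dgli_eta_eventually_one {ρ : ℝ} (hρ : 1 ≤ ρ) {N : ℕ} {x : E} (hx : ‖x‖ < ρ) :
    dgli_eta ρ N =ᶠ[𝓝 x] fun _ => (1 : ℝ) := by
  have : ball (0 : E) ρ ∈ 𝓝 x := isOpen_ball.mem_nhds (by simpa using hx)
  filter_upwards [this] with y hy
  exact dgli_eta_eq_one hρ (by simpa using (mem_ball_zero_iff.1 hy).le)

omit [FiniteDimensional ℝ E] [MeasurableSpace E] [BorelSpace E] in
theorem dgli_L_hasFDerivAt (ρ : ℝ) (N : ℕ) {x : E} (hx : x ≠ 0) :
    HasFDerivAt (dgli_L ρ N) ((N * Real.log 4)⁻¹ • ((‖x‖ ^ 2)⁻¹ • ((2 : ℝ) • innerSL ℝ x))) x := by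
  have h1 : HasFDerivAt (fun y : E => ‖y‖ ^ 2) ((2 : ℝ) • innerSL ℝ x) x := by
    have := (hasFDerivAt_id x).norm_sq
    simp only [id_eq] at this
    convert this using 1
    ext v
    simp
  have h2 := h1.log (by positivity : ‖x‖ ^ 2 ≠ 0)
  have h3 := (h2.sub_const (Real.log (ρ ^ 2))).const_mul ((N * Real.log 4)⁻¹)
  refine h3.congr_of_eventuallyEq (Eventually.of_forall fun y => ?_)
  simp only [dgli_L]
  rw [div_eq_mul_inv, mul_comm]

omit [FiniteDimensional ℝ E] [MeasurableSpace E] [BorelSpace E] in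
theorem dgli_eta_contDiff {ρ : ℝ} (hρ : 1 ≤ ρ) (N : ℕ) : ContDiff ℝ ∞ (dgli_eta ρ N : E → ℝ) := by
  rw [contDiff_iff_contDiffAt]
  intro x
  by_cases hx : ‖x‖ < ρ
  · exact contDiffAt_const.congr_of_eventuallyEq (dgli_eta_eventually_one hρ hx)
  · have hx0 : x ≠ 0 := by
      rintro rfl
      simp at hx
      linarith
    unfold dgli_eta dgli_L
    refine contDiffAt_const.sub (Real.smoothTransition.contDiffAt.comp x ?_)
    refine ContDiffAt.div_const (ContDiffAt.sub ?_ contDiffAt_const) _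
    exact (contDiffAt_id.norm_sq ℝ).log (by positivity)

theorem dgli_eta_hasCompactSupport {ρ : ℝ} (hρ : 1 ≤ ρ) {N : ℕ} (hN : 1 ≤ N) :
    HasCompactSupport (dgli_eta ρ N : E → ℝ) := by
  refine HasCompactSupport.of_support_subset_isCompact (isCompact_closedBall (0 : E) (ρ * 2 ^ N)) ?_
  intro x hx
  by_contra hcon
  apply hx
  apply dgli_eta_eq_zero hρ hN
  simp at hcon
  exact hcon.le

omit [FiniteDimensional ℝ E] [MeasurableSpace E] [BorelSpace E] in
/-- the pointwise bound of the gradient. -/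
theorem dgli_eta_fderiv_sq {M : ℝ} (hM : ∀ s, |deriv Real.smoothTransition s| ≤ M)
    {ρ : ℝ} (hρ : 1 ≤ ρ) {N : ℕ} (hN : 1 ≤ N) (x : E) :
    ‖fderiv ℝ (dgli_eta ρ N) x‖ ^ 2 ≤ (4 * M ^ 2 / (N : ℝ) ^ 2) *
      ∑ k ∈ Finset.range (N + 1), ((ρ * 2 ^ k) ^ 2)⁻¹ * (ball (0 : E) (ρ * 2 ^ (k + 1))).indicator 1 x := by
  have hρ0 : 0 < ρ := by linarith
  have hN0 : (0 : ℝ) < N := by exact_mod_cast hN
  have hM0 : 0 ≤ M := (abs_nonneg _).trans (hM 0)
  have hR : 0 ≤ (4 * M ^ 2 / (N : ℝ) ^ 2) *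
      ∑ k ∈ Finset.range (N + 1), ((ρ * 2 ^ k) ^ 2)⁻¹ * (ball (0 : E) (ρ * 2 ^ (k + 1))).indicator 1 x := by
    refine mul_nonneg (by positivity) (Finset.sum_nonneg fun k _ => mul_nonneg (by positivity) ?_)
    exact indicator_nonneg (fun _ _ => zero_le_one) x
  by_cases hx : ‖x‖ < ρ
  · rw [(dgli_eta_eventually_one hρ hx).fderiv_eq]
    simpa using hR
  have hx' : ρ ≤ ‖x‖ := not_lt.1 hx
  have hx0 : x ≠ 0 := by
    rintro rfl
    simp at hx'
    linarith
  have hxn : 0 < ‖x‖ := norm_pos_iff.2 hx0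
  have hd : HasFDerivAt (dgli_eta ρ N) (- (deriv Real.smoothTransition (dgli_L ρ N x) •
      ((N * Real.log 4)⁻¹ • ((‖x‖ ^ 2)⁻¹ • ((2 : ℝ) • innerSL ℝ x)))) : E →L[ℝ] ℝ) x := by
    have h1 : HasDerivAt Real.smoothTransition (deriv Real.smoothTransition (dgli_L ρ N x)) (dgli_L ρ N x) :=
      ((Real.smoothTransition.contDiff (n := 1)).differentiable one_ne_zero).differentiableAt.hasDerivAt
    exact (h1.comp_hasFDerivAt x (dgli_L_hasFDerivAt ρ N hx0)).const_sub 1
  rw [hd.fderiv]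
  by_cases hbig : ρ * 2 ^ N < ‖x‖
  · rw [dgli_zeta_deriv_gt (dgli_L_gt_one hρ hN hbig)]
    simpa using hR
  have hsmall : ‖x‖ ≤ ρ * 2 ^ N := not_lt.1 hbig
  -- the norm
  have hnorm : ‖(- (deriv Real.smoothTransition (dgli_L ρ N x) •
      ((N * Real.log 4)⁻¹ • ((‖x‖ ^ 2)⁻¹ • ((2 : ℝ) • innerSL ℝ x)))) : E →L[ℝ] ℝ)‖
      ≤ M * ((N : ℝ)⁻¹ * (2 * ‖x‖⁻¹)) := by
    rw [norm_neg, norm_smul, norm_smul, norm_smul, norm_smul, innerSL_apply_norm, Real.norm_eq_abs]
    have a1 : ‖((N : ℝ) * Real.log 4)⁻¹‖ ≤ (N : ℝ)⁻¹ := by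
      rw [Real.norm_eq_abs, abs_of_nonneg (by have := dgli_log4_pos; positivity)]
      apply inv_anti₀ hN0
      nlinarith [dgli_log4_ge]
    have a2 : ‖(‖x‖ ^ 2)⁻¹‖ * (‖(2 : ℝ)‖ * ‖x‖) = 2 * ‖x‖⁻¹ := by
      rw [Real.norm_eq_abs, abs_of_nonneg (by positivity)]
      simp only [Real.norm_ofNat]
      field_simp
    rw [a2]
    gcongr
    exact hM _
  obtain ⟨n, hn1, hn2⟩ := exists_nat_pow_near (x := ‖x‖ / ρ) ((one_le_div hρ0).2 hx') (one_lt_two)
  have hnN : n ≤ N := by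
    have : (2 : ℝ) ^ n ≤ 2 ^ N := hn1.trans ((div_le_iff₀ hρ0).2 (by linarith [hsmall, mul_comm ρ ((2 : ℝ) ^ N)]))
    exact (pow_le_pow_iff_right₀ one_lt_two).1 this
  have hlow : ρ * 2 ^ n ≤ ‖x‖ := by
    rw [le_div_iff₀ hρ0] at hn1
    linarith [mul_comm ρ ((2 : ℝ) ^ n)]
  have hup : ‖x‖ < ρ * 2 ^ (n + 1) := by
    rw [div_lt_iff₀ hρ0] at hn2
    linarith [mul_comm ρ ((2 : ℝ) ^ (n + 1))]
  have hterm : ((ρ * 2 ^ n) ^ 2)⁻¹ * (ball (0 : E) (ρ * 2 ^ (n + 1))).indicator 1 x ≤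
      ∑ k ∈ Finset.range (N + 1), ((ρ * 2 ^ k) ^ 2)⁻¹ * (ball (0 : E) (ρ * 2 ^ (k + 1))).indicator 1 x :=
    Finset.single_le_sum (f := fun k => ((ρ * 2 ^ k) ^ 2)⁻¹ * (ball (0 : E) (ρ * 2 ^ (k + 1))).indicator 1 x)
      (fun k _ => mul_nonneg (by positivity) (indicator_nonneg (fun _ _ => zero_le_one) x))
      (Finset.mem_range.2 (by omega))
  have hind : (ball (0 : E) (ρ * 2 ^ (n + 1))).indicator (1 : E → ℝ) x = 1 :=
    indicator_of_mem (by simpa using hup) _
  rw [hind, mul_one] at hterm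
  have hinv : (‖x‖ ^ 2)⁻¹ ≤ ((ρ * 2 ^ n) ^ 2)⁻¹ := inv_anti₀ (by positivity) (by gcongr)
  calc _ ≤ (M * ((N : ℝ)⁻¹ * (2 * ‖x‖⁻¹))) ^ 2 := by
        gcongr
    _ = (4 * M ^ 2 / (N : ℝ) ^ 2) * (‖x‖ ^ 2)⁻¹ := by
        field_simp
        ring
    _ ≤ _ := by
        gcongr
        exact hinv.trans hterm

/-- the logarithmic cut-off kills a quadratically growing weight. -/
theorem dgli_cutoff_energy {M : ℝ} (hM : ∀ s, |deriv Real.smoothTransition s| ≤ M)
    {F : E → ℝ} (hF : Continuous F) (hF0 : ∀ x, 0 ≤ F x) {C : ℝ}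
    (hgr : ∀ R : ℝ, 1 ≤ R → ∫ x in ball (0 : E) R, F x ≤ C * R ^ 2)
    {ρ : ℝ} (hρ : 1 ≤ ρ) {N : ℕ} (hN : 1 ≤ N) :
    ∫ x, F x * ‖fderiv ℝ (dgli_eta ρ N) x‖ ^ 2 ≤ 32 * M ^ 2 * C / N := by
  have hρ0 : 0 < ρ := by linarith
  have hN0 : (0 : ℝ) < N := by exact_mod_cast hN
  have hC : 0 ≤ C := by
    have h1 := hgr 1 le_rfl
    have h2 : 0 ≤ ∫ x in ball (0 : E) 1, F x := integral_nonneg fun x => hF0 x
    linarith
  have hη : ContDiff ℝ 1 (dgli_eta ρ N : E → ℝ) := (dgli_eta_contDiff hρ N).of_le (by exact_mod_cast le_top)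
  have hηc : HasCompactSupport (dgli_eta ρ N : E → ℝ) := dgli_eta_hasCompactSupport hρ hN
  have iL : Integrable fun x => F x * ‖fderiv ℝ (dgli_eta ρ N) x‖ ^ 2 := by
    exact dgli_int (hF.mul ((dgli_cont_fderiv hη).norm.pow 2)) hηc
      fun x hx => by rw [fderiv_of_notMem_tsupport ℝ hx]; simp
  have iB : ∀ R : ℝ, Integrable ((ball (0 : E) R).indicator F) := fun R =>
    ((hF.continuousOn.integrableOn_compact (isCompact_closedBall (0 : E) R)).mono_set
      ball_subset_closedBall).integrable_indicator measurableSet_ball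
  have hpt : ∀ x, F x * ‖fderiv ℝ (dgli_eta ρ N) x‖ ^ 2 ≤ ∑ k ∈ Finset.range (N + 1),
      ((4 * M ^ 2 / (N : ℝ) ^ 2) * ((ρ * 2 ^ k) ^ 2)⁻¹) * (ball (0 : E) (ρ * 2 ^ (k + 1))).indicator F x := by
    intro x
    refine (mul_le_mul_of_nonneg_left (dgli_eta_fderiv_sq hM hρ hN x) (hF0 x)).trans (le_of_eq ?_)
    rw [Finset.mul_sum, Finset.mul_sum]
    refine Finset.sum_congr rfl fun k _ => ?_
    by_cases hx : x ∈ ball (0 : E) (ρ * 2 ^ (k + 1))
    · rw [indicator_of_mem hx, indicator_of_mem hx]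
      simp only [Pi.one_apply]
      ring
    · rw [indicator_of_notMem hx, indicator_of_notMem hx]
      ring
  calc ∫ x, F x * ‖fderiv ℝ (dgli_eta ρ N) x‖ ^ 2
      ≤ ∫ x, ∑ k ∈ Finset.range (N + 1), ((4 * M ^ 2 / (N : ℝ) ^ 2) * ((ρ * 2 ^ k) ^ 2)⁻¹) *
          (ball (0 : E) (ρ * 2 ^ (k + 1))).indicator F x :=
        integral_mono iL (integrable_finsetSum _ fun k _ => (iB _).const_mul _) hpt
    _ = ∑ k ∈ Finset.range (N + 1), ((4 * M ^ 2 / (N : ℝ) ^ 2) * ((ρ * 2 ^ k) ^ 2)⁻¹) *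
          ∫ x in ball (0 : E) (ρ * 2 ^ (k + 1)), F x := by
        rw [integral_finsetSum _ fun k _ => (iB _).const_mul _]
        refine Finset.sum_congr rfl fun k _ => ?_
        rw [integral_const_mul, integral_indicator measurableSet_ball]
    _ ≤ ∑ k ∈ Finset.range (N + 1), (16 * M ^ 2 * C / (N : ℝ) ^ 2) := by
        refine Finset.sum_le_sum fun k _ => ?_
        have h1 : (1 : ℝ) ≤ ρ * 2 ^ (k + 1) := by
          have : (1 : ℝ) ≤ 2 ^ (k + 1) := one_le_pow₀ (by norm_num)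
          nlinarith
        calc _ ≤ ((4 * M ^ 2 / (N : ℝ) ^ 2) * ((ρ * 2 ^ k) ^ 2)⁻¹) * (C * (ρ * 2 ^ (k + 1)) ^ 2) := by
              gcongr
              exact hgr _ h1
          _ = _ := by
              rw [pow_succ]
              field_simp
              ring
    _ = ((N : ℝ) + 1) * (16 * M ^ 2 * C / (N : ℝ) ^ 2) := by
        rw [Finset.sum_const, Finset.card_range, nsmul_eq_mul]
        push_cast
        ring
    _ ≤ (2 * (N : ℝ)) * (16 * M ^ 2 * C / (N : ℝ) ^ 2) := by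
        have : (1 : ℝ) ≤ N := by exact_mod_cast hN
        gcongr
        linarith
    _ = 32 * M ^ 2 * C / N := by
        field_simp
        ring


end General

/-! ## the smooth convex approximation of the positive part -/

/-- `β_ε(t) = (t + √(t² + ε²)) / 2`. -/
noncomputable def dgli_beta (ε t : ℝ) : ℝ := (t + Real.sqrt (t ^ 2 + ε ^ 2)) / 2

theorem dgli_beta_rad_pos {ε : ℝ} (hε : 0 < ε) (t : ℝ) : 0 < t ^ 2 + ε ^ 2 := by positivity

theorem dgli_beta_contDiff {ε : ℝ} (hε : 0 < ε) : ContDiff ℝ ∞ (dgli_beta ε) := by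
  unfold dgli_beta
  refine (contDiff_id.add (ContDiff.sqrt ?_ fun t => (dgli_beta_rad_pos hε t).ne')).div_const 2
  exact (contDiff_id.pow 2).add contDiff_const

theorem dgli_abs_le_sqrt (ε t : ℝ) : |t| ≤ Real.sqrt (t ^ 2 + ε ^ 2) :=
  Real.abs_le_sqrt (by nlinarith [sq_nonneg ε])

theorem dgli_sqrt_le {ε : ℝ} (hε : 0 < ε) (t : ℝ) : Real.sqrt (t ^ 2 + ε ^ 2) ≤ |t| + ε := by
  rw [Real.sqrt_le_left (by positivity)]
  nlinarith [abs_nonneg t, sq_abs t]

theorem dgli_max_eq (t : ℝ) : max t 0 = (t + |t|) / 2 := by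
  rcases le_total 0 t with h | h
  · rw [max_eq_left h, abs_of_nonneg h]; ring
  · rw [max_eq_right h, abs_of_nonpos h]; ring

theorem dgli_beta_ge (ε t : ℝ) : max t 0 ≤ dgli_beta ε t := by
  rw [dgli_max_eq, dgli_beta]
  linarith [dgli_abs_le_sqrt ε t]

theorem dgli_beta_le {ε : ℝ} (hε : 0 < ε) (t : ℝ) : dgli_beta ε t ≤ max t 0 + ε / 2 := by
  rw [dgli_max_eq, dgli_beta]
  linarith [dgli_sqrt_le hε t]

theorem dgli_beta_pos {ε : ℝ} (hε : 0 < ε) (t : ℝ) : 0 < dgli_beta ε t := by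
  have h1 : |t| < Real.sqrt (t ^ 2 + ε ^ 2) := by
    rw [← Real.sqrt_sq_eq_abs]
    exact Real.sqrt_lt_sqrt (sq_nonneg t) (by nlinarith [sq_pos_of_pos hε])
  have h2 := neg_abs_le t
  unfold dgli_beta
  linarith

theorem dgli_sqrt_hasDerivAt {ε : ℝ} (hε : 0 < ε) (t : ℝ) :
    HasDerivAt (fun t : ℝ => Real.sqrt (t ^ 2 + ε ^ 2)) (t / Real.sqrt (t ^ 2 + ε ^ 2)) t := by
  have h1 : HasDerivAt (fun t : ℝ => t ^ 2 + ε ^ 2) (2 * t) t := by
    simpa using ((hasDerivAt_id t).pow 2).add_const (ε ^ 2)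
  have h2 := h1.sqrt (dgli_beta_rad_pos hε t).ne'
  convert h2 using 1
  ring

theorem dgli_beta_hasDerivAt {ε : ℝ} (hε : 0 < ε) (t : ℝ) :
    HasDerivAt (dgli_beta ε) ((1 + t / Real.sqrt (t ^ 2 + ε ^ 2)) / 2) t :=
  ((hasDerivAt_id t).add (dgli_sqrt_hasDerivAt hε t)).div_const 2

theorem dgli_beta_deriv {ε : ℝ} (hε : 0 < ε) :
    deriv (dgli_beta ε) = fun t => (1 + t / Real.sqrt (t ^ 2 + ε ^ 2)) / 2 :=
  funext fun t => (dgli_beta_hasDerivAt hε t).deriv

theorem dgli_beta_deriv2_nonneg {ε : ℝ} (hε : 0 < ε) (t : ℝ) : 0 ≤ deriv (deriv (dgli_beta ε)) t := by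
  rw [dgli_beta_deriv hε]
  set s := Real.sqrt (t ^ 2 + ε ^ 2) with hs
  have hs0 : 0 < s := Real.sqrt_pos.2 (dgli_beta_rad_pos hε t)
  have hss : s ^ 2 = t ^ 2 + ε ^ 2 := Real.sq_sqrt (dgli_beta_rad_pos hε t).le
  have h1 : HasDerivAt (fun t : ℝ => t / Real.sqrt (t ^ 2 + ε ^ 2)) ((1 * s - t * (t / s)) / s ^ 2) t :=
    (hasDerivAt_id t).div (dgli_sqrt_hasDerivAt hε t) hs0.ne'
  have h2 : HasDerivAt (fun t : ℝ => (1 + t / Real.sqrt (t ^ 2 + ε ^ 2)) / 2)
      (((1 * s - t * (t / s)) / s ^ 2) / 2) t := (h1.const_add 1).div_const 2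
  rw [h2.deriv]
  have h3 : 1 * s - t * (t / s) = ε ^ 2 / s := by
    field_simp
    nlinarith
  rw [h3]
  positivity

/-- `0 ≤ β - t β' ≤ ε / 2`. -/
theorem dgli_beta_defect {ε : ℝ} (hε : 0 < ε) (t : ℝ) :
    0 ≤ dgli_beta ε t - t * deriv (dgli_beta ε) t ∧ dgli_beta ε t - t * deriv (dgli_beta ε) t ≤ ε / 2 := by
  rw [dgli_beta_deriv hε]
  set s := Real.sqrt (t ^ 2 + ε ^ 2) with hs
  have hs0 : 0 < s := Real.sqrt_pos.2 (dgli_beta_rad_pos hε t)
  have hss : s ^ 2 = t ^ 2 + ε ^ 2 := Real.sq_sqrt (dgli_beta_rad_pos hε t).le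
  have hεs : ε ≤ s := by
    rw [hs]
    exact Real.le_sqrt_of_sq_le (by nlinarith [sq_nonneg t])
  have e : dgli_beta ε t - t * ((1 + t / s) / 2) = ε ^ 2 / (2 * s) := by
    unfold dgli_beta
    rw [← hs]
    field_simp
    nlinarith
  simp only
  rw [e]
  refine ⟨by positivity, ?_⟩
  rw [div_le_div_iff₀ (by positivity) (by norm_num)]
  nlinarith



section Main

variable {E : Type} [NormedAddCommGroup E] [InnerProductSpace ℝ E] [FiniteDimensional ℝ E]
  [MeasurableSpace E] [BorelSpace E]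

/-! ## the degenerate direction of the quadratic form -/

theorem dgli_two_le_infty : (2 : WithTop ℕ∞) ≤ ∞ := by
  have : ((2 : ℕ∞) : WithTop ℕ∞) ≤ ((⊤ : ℕ∞) : WithTop ℕ∞) := by exact_mod_cast le_top
  exact this

theorem dgli_arch {X Y : ℝ} (h : ∀ N : ℕ, 1 ≤ N → 0 ≤ X + Y / N) : 0 ≤ X := by
  have h1 : Tendsto (fun N : ℕ => X + Y / N) atTop (𝓝 (X + 0)) :=
    tendsto_const_nhds.add (tendsto_const_div_atTop_nhds_zero_nat Y)
  rw [add_zero] at h1
  exact ge_of_tendsto h1 (eventually_atTop.2 ⟨1, fun N hN => h N hN⟩)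

theorem dgli_lin_zero {b q : ℝ} (h : ∀ t : ℝ, 0 ≤ 2 * t * b + t ^ 2 * q) : b = 0 := by
  by_contra hb
  have hq : 0 < |q| + 1 := by positivity
  have h1 := h (-b / (|q| + 1))
  have h2 : 2 * (-b / (|q| + 1)) * b + (-b / (|q| + 1)) ^ 2 * q
      = (b ^ 2 / (|q| + 1) ^ 2) * (q - 2 * (|q| + 1)) := by
    field_simp
    ring
  rw [h2] at h1
  have h3 : 0 < b ^ 2 / (|q| + 1) ^ 2 := by positivity
  have h4 : q - 2 * (|q| + 1) < 0 := by linarith [le_abs_self q, abs_nonneg q]
  nlinarith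

theorem dgli_laplacian_continuous {f : E → ℝ} (hf : ContDiff ℝ 2 f) : Continuous (Laplacian.laplacian f) := by
  have : Laplacian.laplacian f = fun x => ∑ i, fderiv ℝ (fun y => fderiv ℝ f y (stdOrthonormalBasis ℝ E i)) x
      (stdOrthonormalBasis ℝ E i) := funext fun x => R259.reg_laplacian_eq_sum hf.contDiffAt
  rw [this]
  refine continuous_finsetSum _ fun i _ => ?_
  have hDf : ContDiff ℝ 1 (fderiv ℝ f) := hf.fderiv_right (m := 1) (by norm_num)
  exact (dgli_cont_fderiv (hDf.clm_apply contDiff_const)).clm_apply continuous_const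

theorem dgli_laplacian_of_notMem {ψ : E → ℝ} {x : E} (hx : x ∉ tsupport ψ) : Laplacian.laplacian ψ x = 0 := by
  have h1 : ψ =ᶠ[𝓝 x] fun _ => (0 : ℝ) := notMem_tsupport_iff_eventuallyEq.1 hx
  rw [(InnerProductSpace.laplacian_congr_nhds h1).eq_of_nhds]
  simp

theorem dgli_beta_comp_contDiff {ε : ℝ} (hε : 0 < ε) {w : E → ℝ} (hw : ContDiff ℝ 2 w) :
    ContDiff ℝ 2 (fun y => dgli_beta ε (w y)) :=
  ((dgli_beta_contDiff hε).of_le dgli_two_le_infty).comp hw

/-- `Δ β(w) - c β(w) ≥ - ε`. -/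
theorem dgli_beta_subsol {c w : E → ℝ} (hcb : ∀ x, |c x| ≤ 2) (hw : ContDiff ℝ 2 w)
    (hpde : ∀ x, Laplacian.laplacian w x = c x * w x) {ε : ℝ} (hε : 0 < ε) (x : E) :
    - ε ≤ Laplacian.laplacian (fun y => dgli_beta ε (w y)) x - c x * dgli_beta ε (w x) := by
  have hβ : ContDiffAt ℝ 2 (dgli_beta ε) (w x) :=
    ((dgli_beta_contDiff hε).of_le dgli_two_le_infty).contDiffAt
  rw [R259.opc_laplacian_comp hβ hw.contDiffAt, hpde x]
  have h1 := dgli_beta_deriv2_nonneg hε (w x)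
  obtain ⟨h2, h3⟩ := dgli_beta_defect hε (w x)
  have h4 : 0 ≤ deriv (deriv (dgli_beta ε)) (w x) * ‖gradient w x‖ ^ 2 := by positivity
  have h5 : c x * (dgli_beta ε (w x) - w x * deriv (dgli_beta ε) (w x)) ≤ ε := by
    have := (abs_le.1 (hcb x)).2
    nlinarith
  nlinarith

theorem dgli_Q_beta_le {c w η : E → ℝ} (hc : Continuous c) (hcb : ∀ x, |c x| ≤ 2) (hw : ContDiff ℝ 2 w)
    (hpde : ∀ x, Laplacian.laplacian w x = c x * w x) (hη : ContDiff ℝ 1 η) (hηc : HasCompactSupport η)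
    {ε : ℝ} (hε : 0 < ε) :
    dgli_Q c (fun y => dgli_beta ε (w y) * η y) ≤ (∫ x, dgli_beta ε (w x) ^ 2 * ‖fderiv ℝ η x‖ ^ 2)
      + ε * ∫ x, η x ^ 2 * dgli_beta ε (w x) := by
  have hf := dgli_beta_comp_contDiff hε hw
  have hη0 : ∀ x, x ∉ tsupport η → η x = 0 := fun x hx => image_eq_zero_of_notMem_tsupport hx
  have i1 : Integrable fun x => η x ^ 2 * dgli_beta ε (w x) *
      (Laplacian.laplacian (fun y => dgli_beta ε (w y)) x - c x * dgli_beta ε (w x)) :=
    dgli_int (((hη.continuous.pow 2).mul hf.continuous).mul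
      ((dgli_laplacian_continuous hf).sub (hc.mul hf.continuous))) hηc
      fun x hx => by rw [hη0 x hx]; simp
  have i2 : Integrable fun x => η x ^ 2 * dgli_beta ε (w x) :=
    dgli_int ((hη.continuous.pow 2).mul hf.continuous) hηc fun x hx => by rw [hη0 x hx]; simp
  rw [dgli_Q_mul hc hf hη hηc, sub_eq_add_neg, ← integral_neg, ← integral_const_mul]
  refine add_le_add le_rfl (integral_mono i1.neg (i2.const_mul _) fun x => ?_)
  have h1 := dgli_beta_subsol hcb hw hpde hε x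
  have h2 : 0 ≤ η x ^ 2 * dgli_beta ε (w x) := mul_nonneg (sq_nonneg _) (dgli_beta_pos hε _).le
  simp only
  nlinarith

theorem dgli_B_eq {c f η ψ : E → ℝ} (hc : Continuous c) (hf : ContDiff ℝ 1 f) (hη : ContDiff ℝ 1 η)
    (hηc : HasCompactSupport η) (hψ : ContDiff ℝ 2 ψ) (h1 : ∀ x ∈ tsupport ψ, η x = 1) :
    dgli_B c (fun y => f y * η y) ψ = ∫ x, f x * (c x * ψ x - Laplacian.laplacian ψ x) := by
  have hη0 : ∀ x, x ∉ tsupport η → η x = 0 := fun x hx => image_eq_zero_of_notMem_tsupport hx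
  have hg : ContDiff ℝ 1 (fun y => f y * η y) := hf.mul hη
  have hgc : HasCompactSupport (fun y => f y * η y) := hηc.mono' fun x hx => by
    by_contra hcon
    exact hx (by simp [hη0 x hcon])
  have hψ1 : ContDiff ℝ 1 ψ := hψ.of_le (by norm_num)
  have hG := dgli_green hg hgc hψ
  have i1 : Integrable fun x => dgli_dot (fderiv ℝ (fun y => f y * η y) x) (fderiv ℝ ψ x) :=
    dgli_int (dgli_dot_continuous (dgli_cont_fderiv hg) (dgli_cont_fderiv hψ1)) hgc
      fun x hx => by rw [fderiv_of_notMem_tsupport ℝ hx]; simp [dgli_dot]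
  have i2 : Integrable fun x => c x * (f x * η x) * ψ x :=
    dgli_int ((hc.mul (hf.continuous.mul hη.continuous)).mul hψ.continuous) hηc
      fun x hx => by rw [hη0 x hx]; simp
  have i3 : Integrable fun x => f x * η x * Laplacian.laplacian ψ x :=
    dgli_int ((hf.continuous.mul hη.continuous).mul (dgli_laplacian_continuous hψ)) hηc
      fun x hx => by rw [hη0 x hx]; simp
  unfold dgli_B
  rw [integral_add i1 i2, hG, neg_add_eq_sub, ← integral_sub i2 i3]
  refine integral_congr_ae (Eventually.of_forall fun x => ?_)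
  by_cases hx : x ∈ tsupport ψ
  · simp only [h1 x hx]
    ring
  · simp only [dgli_laplacian_of_notMem hx, image_eq_zero_of_notMem_tsupport hx]
    ring

theorem dgli_key {c w η ψ : E → ℝ} (hc : Continuous c) (hcb : ∀ x, |c x| ≤ 2) (hw : ContDiff ℝ 2 w)
    (hpde : ∀ x, Laplacian.laplacian w x = c x * w x)
    (hst : ∀ φ : E → ℝ, ContDiff ℝ 1 φ → HasCompactSupport φ → 0 ≤ dgli_Q c φ)
    (hη : ContDiff ℝ 1 η) (hηc : HasCompactSupport η) (hψ : ContDiff ℝ 2 ψ) (hψc : HasCompactSupport ψ)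
    (h1 : ∀ x ∈ tsupport ψ, η x = 1) (t : ℝ) :
    0 ≤ 2 * (∫ x, w x ^ 2 * ‖fderiv ℝ η x‖ ^ 2)
      + 2 * t * (∫ x, max (w x) 0 * (c x * ψ x - Laplacian.laplacian ψ x)) + t ^ 2 * dgli_Q c ψ := by
  have hη0 : ∀ x, x ∉ tsupport η → η x = 0 := fun x hx => image_eq_zero_of_notMem_tsupport hx
  have hη1 : ∀ x, x ∉ tsupport η → fderiv ℝ η x = 0 := fun x hx => fderiv_of_notMem_tsupport ℝ hx
  have hψ1 : ContDiff ℝ 1 ψ := hψ.of_le (by norm_num)
  have hgc : Continuous fun x => c x * ψ x - Laplacian.laplacian ψ x :=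
    (hc.mul hψ.continuous).sub (dgli_laplacian_continuous hψ)
  have hg0 : ∀ x, x ∉ tsupport ψ → c x * ψ x - Laplacian.laplacian ψ x = 0 := fun x hx => by
    rw [dgli_laplacian_of_notMem hx, image_eq_zero_of_notMem_tsupport hx]; ring
  have hwc : Continuous w := hw.continuous
  have hmc : Continuous fun x => max (w x) 0 := hwc.max continuous_const
  have iA : Integrable fun x => w x ^ 2 * ‖fderiv ℝ η x‖ ^ 2 :=
    dgli_int ((hwc.pow 2).mul ((dgli_cont_fderiv hη).norm.pow 2)) hηc fun x hx => by rw [hη1 x hx]; simp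
  have iD : Integrable fun x => ‖fderiv ℝ η x‖ ^ 2 :=
    dgli_int ((dgli_cont_fderiv hη).norm.pow 2) hηc fun x hx => by rw [hη1 x hx]; simp
  have iW : Integrable fun x => η x ^ 2 * (|w x| + 1) :=
    dgli_int ((hη.continuous.pow 2).mul (hwc.abs.add continuous_const)) hηc fun x hx => by rw [hη0 x hx]; simp
  have iG : Integrable fun x => |c x * ψ x - Laplacian.laplacian ψ x| :=
    dgli_int hgc.abs hψc fun x hx => by rw [hg0 x hx]; simp
  have iM : Integrable fun x => max (w x) 0 * (c x * ψ x - Laplacian.laplacian ψ x) :=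
    dgli_int (hmc.mul hgc) hψc fun x hx => by rw [hg0 x hx]; simp
  refine dgli_arch (Y := (∫ x, ‖fderiv ℝ η x‖ ^ 2) + (∫ x, η x ^ 2 * (|w x| + 1))
    + |t| * ∫ x, |c x * ψ x - Laplacian.laplacian ψ x|) fun N hN => ?_
  have hN0 : (0 : ℝ) < N := by exact_mod_cast hN
  have hN1 : (1 : ℝ) ≤ N := by exact_mod_cast hN
  set ε : ℝ := 1 / N with hεdef
  have hε : 0 < ε := by positivity
  have hε1 : ε ≤ 1 := by rw [hεdef, div_le_one hN0]; exact hN1
  have hf := dgli_beta_comp_contDiff hε hw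
  have hf1 : ContDiff ℝ 1 (fun y => dgli_beta ε (w y)) := hf.of_le (by norm_num)
  have hfη : ContDiff ℝ 1 (fun y => dgli_beta ε (w y) * η y) := hf1.mul hη
  have hfηc : HasCompactSupport (fun y => dgli_beta ε (w y) * η y) := hηc.mono' fun x hx => by
    by_contra hcon
    exact hx (by simp [hη0 x hcon])
  have h0 := hst (fun y => dgli_beta ε (w y) * η y + t * ψ y) (hfη.add (contDiff_const.mul hψ1))
    (hfηc.add hψc.mul_left)
  rw [dgli_Q_add hc hfη hfηc hψ1 hψc t, dgli_B_eq hc hf1 hη hηc hψ h1] at h0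
  have hQ := dgli_Q_beta_le hc hcb hw hpde hη hηc hε
  -- (b1)
  have iB1 : Integrable fun x => dgli_beta ε (w x) ^ 2 * ‖fderiv ℝ η x‖ ^ 2 :=
    dgli_int ((hf.continuous.pow 2).mul ((dgli_cont_fderiv hη).norm.pow 2)) hηc
      fun x hx => by rw [hη1 x hx]; simp
  have hβle : ∀ x, dgli_beta ε (w x) ≤ |w x| + ε / 2 := fun x =>
    (dgli_beta_le hε (w x)).trans (by
      have : max (w x) 0 ≤ |w x| := max_le (le_abs_self _) (abs_nonneg _)
      linarith)
  have b1 : ∫ x, dgli_beta ε (w x) ^ 2 * ‖fderiv ℝ η x‖ ^ 2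
      ≤ 2 * (∫ x, w x ^ 2 * ‖fderiv ℝ η x‖ ^ 2) + ε * ∫ x, ‖fderiv ℝ η x‖ ^ 2 := by
    rw [← integral_const_mul, ← integral_const_mul, ← integral_add (iA.const_mul _) (iD.const_mul _)]
    refine integral_mono iB1 ((iA.const_mul _).add (iD.const_mul _)) fun x => ?_
    have a1 := hβle x
    have a2 := (dgli_beta_pos hε (w x)).le
    have a3 : dgli_beta ε (w x) ^ 2 ≤ 2 * w x ^ 2 + ε := by
      have : dgli_beta ε (w x) ^ 2 ≤ (|w x| + ε / 2) ^ 2 := by gcongr
      nlinarith [sq_abs (w x), sq_nonneg (|w x| - ε / 2)]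
    have a4 : 0 ≤ ‖fderiv ℝ η x‖ ^ 2 := by positivity
    simp only
    nlinarith
  -- (b2)
  have iB2 : Integrable fun x => η x ^ 2 * dgli_beta ε (w x) :=
    dgli_int ((hη.continuous.pow 2).mul hf.continuous) hηc fun x hx => by rw [hη0 x hx]; simp
  have b2 : ∫ x, η x ^ 2 * dgli_beta ε (w x) ≤ ∫ x, η x ^ 2 * (|w x| + 1) := by
    refine integral_mono iB2 iW fun x => ?_
    have a1 := hβle x
    simp only
    gcongr
    linarith
  -- (b3)
  have iB3 : Integrable fun x => dgli_beta ε (w x) * (c x * ψ x - Laplacian.laplacian ψ x) :=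
    dgli_int (hf.continuous.mul hgc) hψc fun x hx => by rw [hg0 x hx]; simp
  have b3 : t * (∫ x, dgli_beta ε (w x) * (c x * ψ x - Laplacian.laplacian ψ x))
      ≤ t * (∫ x, max (w x) 0 * (c x * ψ x - Laplacian.laplacian ψ x))
        + (|t| * (ε / 2)) * ∫ x, |c x * ψ x - Laplacian.laplacian ψ x| := by
    rw [← integral_const_mul, ← integral_const_mul, ← integral_const_mul,
      ← integral_add (iM.const_mul _) (iG.const_mul _)]
    refine integral_mono (iB3.const_mul _) ((iM.const_mul _).add (iG.const_mul _)) fun x => ?_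
    have a1 := dgli_beta_ge ε (w x)
    have a2 := dgli_beta_le hε (w x)
    set g := c x * ψ x - Laplacian.laplacian ψ x
    set d := dgli_beta ε (w x) - max (w x) 0 with hd
    have a3 : t * g * d ≤ |t| * |g| * (ε / 2) := by
      have : t * g ≤ |t| * |g| := by rw [← abs_mul]; exact le_abs_self _
      have hd0 : 0 ≤ d := by linarith
      have hd1 : d ≤ ε / 2 := by linarith
      calc t * g * d ≤ |t| * |g| * d := by gcongr
        _ ≤ |t| * |g| * (ε / 2) := by gcongr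
    simp only
    have e : dgli_beta ε (w x) = max (w x) 0 + d := by rw [hd]; ring
    rw [e]
    nlinarith
  have hY : ((∫ x, ‖fderiv ℝ η x‖ ^ 2) + (∫ x, η x ^ 2 * (|w x| + 1))
      + |t| * ∫ x, |c x * ψ x - Laplacian.laplacian ψ x|) / N = ε * ((∫ x, ‖fderiv ℝ η x‖ ^ 2)
      + (∫ x, η x ^ 2 * (|w x| + 1)) + |t| * ∫ x, |c x * ψ x - Laplacian.laplacian ψ x|) := by
    rw [hεdef]; ring
  rw [hY]
  have b2' := mul_le_mul_of_nonneg_left b2 hε.le
  nlinarith

/-- `w⁺` is a very weak solution of the linearised equation. -/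
theorem dgli_pos_part_vw {c w : E → ℝ} (hc : Continuous c) (hcb : ∀ x, |c x| ≤ 2) (hw : ContDiff ℝ 2 w)
    (hpde : ∀ x, Laplacian.laplacian w x = c x * w x)
    (hst : ∀ φ : E → ℝ, ContDiff ℝ 1 φ → HasCompactSupport φ → 0 ≤ dgli_Q c φ) {C : ℝ}
    (hgr : ∀ R : ℝ, 1 ≤ R → ∫ x in ball (0 : E) R, w x ^ 2 ≤ C * R ^ 2)
    {ψ : E → ℝ} (hψ : ContDiff ℝ 2 ψ) (hψc : HasCompactSupport ψ) :
    ∫ x, max (w x) 0 * (c x * ψ x - Laplacian.laplacian ψ x) = 0 := by
  obtain ⟨M, -, hM⟩ := dgli_zeta_bound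
  obtain ⟨r, hr⟩ := hψc.isCompact.isBounded.subset_closedBall (0 : E)
  have hρ : (1 : ℝ) ≤ max r 1 := le_max_right _ _
  refine dgli_lin_zero (q := dgli_Q c ψ) fun t => ?_
  refine dgli_arch (Y := 2 * (32 * M ^ 2 * C)) fun N hN => ?_
  have hη : ContDiff ℝ 1 (dgli_eta (max r 1) N : E → ℝ) :=
    (dgli_eta_contDiff hρ N).of_le (by exact_mod_cast le_top)
  have h1 := dgli_key hc hcb hw hpde hst hη (dgli_eta_hasCompactSupport hρ hN) hψ hψc
    (fun x hx => dgli_eta_eq_one hρ ((mem_closedBall_zero_iff.1 (hr hx)).trans (le_max_left _ _))) t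
  have h2 := dgli_cutoff_energy hM (hw.continuous.pow 2) (fun x => sq_nonneg (w x)) hgr hρ hN
  have h3 : 2 * (32 * M ^ 2 * C) / (N : ℝ) = 2 * (32 * M ^ 2 * C / N) := by ring
  rw [h3]
  simp only [Pi.pow_apply] at h2
  linarith

/-- `w⁺` is smooth. -/
theorem dgli_pos_part_smooth {c w : E → ℝ} (hc : ContDiff ℝ ∞ c) (hcb : ∀ x, |c x| ≤ 2) (hw : ContDiff ℝ 2 w)
    (hpde : ∀ x, Laplacian.laplacian w x = c x * w x)
    (hst : ∀ φ : E → ℝ, ContDiff ℝ 1 φ → HasCompactSupport φ → 0 ≤ dgli_Q c φ) {C : ℝ}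
    (hgr : ∀ R : ℝ, 1 ≤ R → ∫ x in ball (0 : E) R, w x ^ 2 ≤ C * R ^ 2) :
    ContDiff ℝ ∞ (fun x => max (w x) 0) := by
  have hmc : Continuous fun x => max (w x) 0 := hw.continuous.max continuous_const
  refine R259.reg_boot (N := fun x z => - c x * z) (O := univ) ?_ hmc (fun x => mem_univ _) ⟨?_, ?_, ?_⟩
  · exact ((hc.comp contDiff_fst).neg.mul contDiff_snd).contDiffOn
  · exact hmc.locallyIntegrable
  · exact (hc.continuous.neg.mul hmc).locallyIntegrable
  · intro ξ hξ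
    have hξ2 : ContDiff ℝ 2 ξ := hξ.1.of_le dgli_two_le_infty
    have h := dgli_pos_part_vw hc.continuous hcb hw hpde hst hgr hξ2 hξ.2
    have i1 : Integrable fun x => max (w x) 0 * Laplacian.laplacian ξ x :=
      dgli_int (hmc.mul (dgli_laplacian_continuous hξ2)) hξ.2
        fun x hx => by rw [dgli_laplacian_of_notMem hx]; simp
    have i2 : Integrable fun x => - c x * max (w x) 0 * ξ x :=
      dgli_int ((hc.continuous.neg.mul hmc).mul hξ.1.continuous) hξ.2
        fun x hx => by rw [image_eq_zero_of_notMem_tsupport hx]; simp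
    have e : ∫ x, max (w x) 0 * (c x * ξ x - Laplacian.laplacian ξ x)
        = - (∫ x, - c x * max (w x) 0 * ξ x) - ∫ x, max (w x) 0 * Laplacian.laplacian ξ x := by
      have i2' : Integrable fun x => -(- c x * max (w x) 0 * ξ x) := i2.neg
      rw [← integral_neg, ← integral_sub i2' i1]
      exact integral_congr_ae (Eventually.of_forall fun x => by ring)
    rw [e] at h
    linarith

/-- bridge to `Lib/Ell`. -/
theorem dgli_ellTr_eq {z : E → ℝ} (hz : ContDiff ℝ 2 z) (x : E) :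
    Lib.Ell.ellTr (ContinuousLinearMap.id ℝ E) (Lib.Ell.ellD2 z x) = Laplacian.laplacian z x := by
  rw [R259.reg_laplacian_eq_sum hz.contDiffAt]
  unfold Lib.Ell.ellTr Lib.Ell.ellD2
  refine Finset.sum_congr rfl fun i _ => ?_
  rw [R259.regl_fderiv_apply hz.contDiffAt]
  rfl

/-- the strong minimum principle in the form used here. -/
theorem dgli_strong_min {c z : E → ℝ} (hc : Continuous c) (hz : ContDiff ℝ 2 z)
    (hpde : ∀ x, Laplacian.laplacian z x = c x * z x) (h0 : ∀ x, 0 ≤ z x) {x₀ : E} (hx₀ : z x₀ = 0) :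
    ∀ x, z x = 0 := by
  have hloc := Lib.Ell.ell_loc_of_continuousOn (U := (univ : Set E)) isOpen_univ
    (a := fun _ => ContinuousLinearMap.id ℝ E) (b := fun _ => (0 : E)) (c := fun x => - c x)
    continuousOn_const continuousOn_const hc.neg.continuousOn (fun x _ ξ η => rfl)
    (fun x _ ξ hξ => by simpa using real_inner_self_pos.2 hξ)
  have := Lib.Ell.ell_strong_min isOpen_univ isPreconnected_univ hloc hz.contDiffOn
    (fun x _ => by
      unfold Lib.Ell.ndOp
      rw [dgli_ellTr_eq hz, hpde x]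
      simp)
    (fun x _ => h0 x) (mem_univ x₀) hx₀
  exact fun x => this x (mem_univ x)

/-- the classical equation for `w⁺`, once it is known to be `C²`. -/
theorem dgli_pos_part_pde {c w : E → ℝ} (hc : Continuous c) (hw : ContDiff ℝ 2 w)
    (hpde : ∀ x, Laplacian.laplacian w x = c x * w x) (hz : ContDiff ℝ 2 (fun x => max (w x) 0)) (x : E) :
    Laplacian.laplacian (fun x => max (w x) 0) x = c x * max (w x) 0 := by
  have hwc := hw.continuous
  have hD : Continuous fun x => Laplacian.laplacian (fun x => max (w x) 0) x - c x * max (w x) 0 :=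
    (dgli_laplacian_continuous hz).sub (hc.mul hz.continuous)
  have hS : ∀ y, w y ≠ 0 → Laplacian.laplacian (fun x => max (w x) 0) y - c y * max (w y) 0 = 0 := by
    intro y hy
    rcases lt_or_gt_of_ne hy with h | h
    · have h1 : (fun x => max (w x) 0) =ᶠ[𝓝 y] fun _ => (0 : ℝ) := by
        filter_upwards [(isOpen_lt hwc continuous_const).mem_nhds h] with v hv
        exact max_eq_right (le_of_lt hv)
      rw [(InnerProductSpace.laplacian_congr_nhds h1).eq_of_nhds, max_eq_right h.le]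
      simp
    · have h1 : (fun x => max (w x) 0) =ᶠ[𝓝 y] w := by
        filter_upwards [(isOpen_lt continuous_const hwc).mem_nhds h] with v hv
        exact max_eq_left (le_of_lt hv)
      rw [(InnerProductSpace.laplacian_congr_nhds h1).eq_of_nhds, max_eq_left h.le, hpde y]
      ring
  have hcl : IsClosed {y | Laplacian.laplacian (fun x => max (w x) 0) y - c y * max (w y) 0 = 0} :=
    isClosed_eq hD continuous_const
  by_cases hx : x ∈ closure {y | w y ≠ 0}
  · have := (hcl.closure_subset_iff.2 fun y hy => hS y hy) hx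
    simp only [Set.mem_ofPred_eq] at this
    linarith
  · have hop : (closure {y | w y ≠ 0})ᶜ ∈ 𝓝 x := isClosed_closure.isOpen_compl.mem_nhds hx
    have h1 : (fun x => max (w x) 0) =ᶠ[𝓝 x] fun _ => (0 : ℝ) := by
      filter_upwards [hop] with v hv
      have : w v = 0 := by
        by_contra hcon
        exact hv (subset_closure hcon)
      simp [this]
    have h2 : w x = 0 := by
      by_contra hcon
      exact hx (subset_closure hcon)
    rw [(InnerProductSpace.laplacian_congr_nhds h1).eq_of_nhds, h2]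
    simp

/-- **dichotomy**: a solution `w` of the linearised equation with quadratic `L²` growth is `≤ 0` or `> 0`. -/
theorem dgli_dichotomy {c w : E → ℝ} (hc : ContDiff ℝ ∞ c) (hcb : ∀ x, |c x| ≤ 2) (hw : ContDiff ℝ 2 w)
    (hpde : ∀ x, Laplacian.laplacian w x = c x * w x)
    (hst : ∀ φ : E → ℝ, ContDiff ℝ 1 φ → HasCompactSupport φ → 0 ≤ dgli_Q c φ) {C : ℝ}
    (hgr : ∀ R : ℝ, 1 ≤ R → ∫ x in ball (0 : E) R, w x ^ 2 ≤ C * R ^ 2) :
    (∀ x, w x ≤ 0) ∨ ∀ x, 0 < w x := by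
  have hz : ContDiff ℝ 2 (fun x => max (w x) 0) :=
    (dgli_pos_part_smooth hc hcb hw hpde hst hgr).of_le dgli_two_le_infty
  by_cases h : ∃ x₀, w x₀ ≤ 0
  · obtain ⟨x₀, hx₀⟩ := h
    left
    intro x
    have := dgli_strong_min hc.continuous hz (dgli_pos_part_pde hc.continuous hw hpde hz)
      (fun x => le_max_right _ _) (x₀ := x₀) (max_eq_right hx₀) x
    exact (le_max_left (w x) 0).trans this.le
  · right
    intro x
    by_contra hcon
    exact h ⟨x, not_lt.1 hcon⟩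

/-- a solution of the linearised equation with quadratic growth which vanishes somewhere vanishes identically. -/
theorem dgli_zero_of_zero {c w : E → ℝ} (hc : ContDiff ℝ ∞ c) (hcb : ∀ x, |c x| ≤ 2) (hw : ContDiff ℝ 2 w)
    (hpde : ∀ x, Laplacian.laplacian w x = c x * w x)
    (hst : ∀ φ : E → ℝ, ContDiff ℝ 1 φ → HasCompactSupport φ → 0 ≤ dgli_Q c φ) {C : ℝ}
    (hgr : ∀ R : ℝ, 1 ≤ R → ∫ x in ball (0 : E) R, w x ^ 2 ≤ C * R ^ 2) {x₀ : E} (hx₀ : w x₀ = 0) :
    ∀ x, w x = 0 := by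
  have h1 : ∀ x, w x ≤ 0 := by
    rcases dgli_dichotomy hc hcb hw hpde hst hgr with h | h
    · exact h
    · exact absurd hx₀ (h x₀).ne'
  have hneg : ∀ x, Laplacian.laplacian (fun y => - w y) x = c x * (- w x) := by
    intro x
    have : Laplacian.laplacian (fun y => - w y) x = - Laplacian.laplacian w x := by
      have := InnerProductSpace.laplacian_neg (f := w)
      exact congrFun this x
    rw [this, hpde x]
    ring
  have h2 : ∀ x, - w x ≤ 0 := by
    rcases dgli_dichotomy hc hcb hw.neg hneg hst (C := C) (fun R hR => by simpa using hgr R hR) with h | h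
    · exact h
    · exact absurd (by simp [hx₀]) (h x₀).ne'
  exact fun x => le_antisymm (h1 x) (by linarith [h2 x])

/-! ## application to the Allen-Cahn equation -/

/-- Green's first identity, the `C²` factor having compact support. -/
theorem dgli_green_right {g w : E → ℝ} (hg : ContDiff ℝ 1 g) (hw : ContDiff ℝ 2 w) (hwc : HasCompactSupport w) :
    ∫ x, dgli_dot (fderiv ℝ g x) (fderiv ℝ w x) = - ∫ x, g x * Laplacian.laplacian w x := by
  have hDw : ContDiff ℝ 1 (fderiv ℝ w) := hw.fderiv_right (m := 1) (by norm_num)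
  have hdir : ∀ v : E, ContDiff ℝ 1 (fun y => fderiv ℝ w y v) := fun v => hDw.clm_apply contDiff_const
  have hL : ∀ x, Laplacian.laplacian w x = ∑ i, fderiv ℝ (fun y => fderiv ℝ w y (stdOrthonormalBasis ℝ E i)) x
      (stdOrthonormalBasis ℝ E i) := fun x => R259.reg_laplacian_eq_sum hw.contDiffAt
  have hw1 : ∀ x, x ∉ tsupport w → fderiv ℝ w x = 0 := fun x hx => fderiv_of_notMem_tsupport ℝ hx
  have hw2 : ∀ (v : E) x, x ∉ tsupport w → fderiv ℝ (fun y => fderiv ℝ w y v) x = 0 := by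
    intro v x hx
    have h1 : (fun y => fderiv ℝ w y v) =ᶠ[𝓝 x] fun _ => (0 : ℝ) := by
      filter_upwards [(isClosed_tsupport w).isOpen_compl.mem_nhds hx] with y hy
      rw [hw1 y hy]
      simp
    rw [h1.fderiv_eq]
    simp
  have key : ∀ i, ∫ x, g x * fderiv ℝ (fun y => fderiv ℝ w y (stdOrthonormalBasis ℝ E i)) x
      (stdOrthonormalBasis ℝ E i) = - ∫ x, fderiv ℝ g x (stdOrthonormalBasis ℝ E i) *
        fderiv ℝ w x (stdOrthonormalBasis ℝ E i) := by
    intro i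
    refine integral_mul_fderiv_eq_neg_fderiv_mul_of_integrable ?_ ?_ ?_ ?_ ?_
    · exact dgli_int (((dgli_cont_fderiv hg).clm_apply continuous_const).mul (hdir _).continuous) hwc
        fun x hx => by rw [hw1 x hx]; simp
    · exact dgli_int (hg.continuous.mul ((dgli_cont_fderiv (hdir _)).clm_apply continuous_const)) hwc
        fun x hx => by rw [hw2 _ x hx]; simp
    · exact dgli_int (hg.continuous.mul (hdir _).continuous) hwc fun x hx => by rw [hw1 x hx]; simp
    · exact fun x _ => (hg.differentiable (by norm_num)).differentiableAt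
    · exact fun x _ => ((hdir _).differentiable (by norm_num)).differentiableAt
  have e1 : ∫ x, g x * Laplacian.laplacian w x = ∑ i, ∫ x, g x *
      fderiv ℝ (fun y => fderiv ℝ w y (stdOrthonormalBasis ℝ E i)) x (stdOrthonormalBasis ℝ E i) := by
    rw [← integral_finsetSum]
    · refine integral_congr_ae (Eventually.of_forall fun x => ?_)
      simp only [hL x, Finset.mul_sum]
    · intro i _
      exact dgli_int (hg.continuous.mul ((dgli_cont_fderiv (hdir _)).clm_apply continuous_const)) hwc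
        fun x hx => by rw [hw2 _ x hx]; simp
  rw [e1]
  unfold dgli_dot
  rw [integral_finsetSum, ← Finset.sum_neg_distrib]
  · exact Finset.sum_congr rfl fun i _ => by rw [key i, neg_neg]
  · intro i _
    exact dgli_int (((dgli_cont_fderiv hg).clm_apply continuous_const).mul (hdir _).continuous) hwc
      fun x hx => by rw [hw1 x hx]; simp

/-- a `C²` solution of `Δ u = u³ - u` is smooth. -/
theorem dgli_smooth {u : E → ℝ} (hu : ContDiff ℝ 2 u) (hpde : ∀ x, Laplacian.laplacian u x = u x ^ 3 - u x) :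
    ContDiff ℝ ∞ u := by
  have huc := hu.continuous
  have hu1 : ContDiff ℝ 1 u := hu.of_le (by norm_num)
  refine R259.reg_boot (N := fun _ z => z - z ^ 3) (O := univ) ?_ huc (fun x => mem_univ _) ⟨?_, ?_, ?_⟩
  · exact (contDiff_snd.sub (contDiff_snd.pow 3)).contDiffOn
  · exact huc.locallyIntegrable
  · exact (huc.sub (huc.pow 3)).locallyIntegrable
  · intro ξ hξ
    have hξ2 : ContDiff ℝ 2 ξ := hξ.1.of_le dgli_two_le_infty
    have hξ1 : ContDiff ℝ 1 ξ := hξ2.of_le (by norm_num)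
    have h1 := dgli_green_right hu1 hξ2 hξ.2
    have h2 := dgli_green hξ1 hξ.2 hu
    have h3 : ∫ x, dgli_dot (fderiv ℝ u x) (fderiv ℝ ξ x) = ∫ x, dgli_dot (fderiv ℝ ξ x) (fderiv ℝ u x) :=
      integral_congr_ae (Eventually.of_forall fun x => dgli_dot_comm _ _)
    have h4 : ∫ x, ξ x * Laplacian.laplacian u x = - ∫ x, (u x - u x ^ 3) * ξ x := by
      rw [← integral_neg]
      exact integral_congr_ae (Eventually.of_forall fun x => by simp only [hpde x]; ring)
    rw [h3, h2, h4] at h1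
    linarith

/-- the linearised equation for a directional derivative. -/
theorem dgli_dir_pde {u : E → ℝ} (hu : ContDiff ℝ ∞ u) (hpde : ∀ x, Laplacian.laplacian u x = u x ^ 3 - u x)
    (e x : E) :
    Laplacian.laplacian (fun y => fderiv ℝ u y e) x = (3 * u x ^ 2 - 1) * fderiv ℝ u x e := by
  rw [← R259.refc_laplacian_dir hu e x]
  have h1 : Laplacian.laplacian u = fun x => u x ^ 3 - u x := funext hpde
  have du : DifferentiableAt ℝ u x := (hu.differentiable (by simp)).differentiableAt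
  rw [h1, fderiv_fun_sub (du.fun_pow 3) du, fderiv_fun_pow 3 du]
  simp
  ring

end Main

/-! ## EXITS -/

/-- **Liouville theorem** (post A13): a stable solution with quadratic energy growth is one-dimensional. -/
theorem dgli_main {n : ℕ} (hn : 1 ≤ n) {u : DgE n → ℝ} (hu : DgSol n u) (hs : DgStable n u) {C : ℝ}
    (hE : ∀ R : ℝ, 1 ≤ R → dgEn n u 0 R ≤ C * R ^ 2) : DgOneD n u := by
  have hsm : ContDiff ℝ ∞ u := dgli_smooth hu.smooth hu.pde
  have hu1 : ContDiff ℝ 1 u := hu.smooth.of_le (by norm_num)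
  have hDc : Continuous (fderiv ℝ u) := dgli_cont_fderiv hu1
  have hc : ContDiff ℝ ∞ (fun x => 3 * u x ^ 2 - 1) := (contDiff_const.mul (hsm.pow 2)).sub contDiff_const
  have hcb : ∀ x, |3 * u x ^ 2 - 1| ≤ 2 := by
    intro x
    obtain ⟨h1, h2⟩ := hu.range x
    rw [abs_le]
    constructor <;> nlinarith
  have hst : ∀ φ : DgE n → ℝ, ContDiff ℝ 1 φ → HasCompactSupport φ → 0 ≤ dgli_Q (fun x => 3 * u x ^ 2 - 1) φ :=
    fun φ h1 h2 => hs φ h1 h2
  -- every directional derivative which vanishes at the origin vanishes identically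
  have hzero : ∀ e : DgE n, fderiv ℝ u 0 e = 0 → ∀ x, fderiv ℝ u x e = 0 := by
    intro e he
    have hw : ContDiff ℝ 2 (fun y => fderiv ℝ u y e) :=
      (((hsm.fderiv_right (m := ∞) (by simp)).clm_apply contDiff_const).of_le dgli_two_le_infty)
    refine dgli_zero_of_zero hc hcb hw (dgli_dir_pde hsm hu.pde e) hst (C := 2 * ‖e‖ ^ 2 * C) ?_ he
    intro R hR
    have iOn : ∀ {F : DgE n → ℝ}, Continuous F → IntegrableOn F (ball (0 : DgE n) R) := fun hF =>
      (hF.continuousOn.integrableOn_compact (isCompact_closedBall (0 : DgE n) R)).mono_set ball_subset_closedBall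
    have hdens : Continuous (dgDens n u) := by
      unfold dgDens dgW
      exact ((hDc.norm.pow 2).div_const 2).add (((continuous_const.sub (hu1.continuous.pow 2)).pow 2).div_const 4)
    calc ∫ x in ball (0 : DgE n) R, fderiv ℝ u x e ^ 2
        ≤ ∫ x in ball (0 : DgE n) R, 2 * ‖e‖ ^ 2 * dgDens n u x := by
          refine setIntegral_mono (iOn ((hDc.clm_apply continuous_const).pow 2))
            (iOn (continuous_const.mul hdens)) fun x => ?_
          have h1 : |fderiv ℝ u x e| ≤ ‖fderiv ℝ u x‖ * ‖e‖ := (fderiv ℝ u x).le_opNorm e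
          have h2 : fderiv ℝ u x e ^ 2 ≤ (‖fderiv ℝ u x‖ * ‖e‖) ^ 2 := by
            rw [← sq_abs]; gcongr
          have h3 : 0 ≤ dgW (u x) := by unfold dgW; positivity
          unfold dgDens
          nlinarith [sq_nonneg ‖e‖]
      _ = 2 * ‖e‖ ^ 2 * dgEn n u 0 R := by rw [integral_const_mul]; rfl
      _ ≤ 2 * ‖e‖ ^ 2 * (C * R ^ 2) := by gcongr; exact hE R hR
      _ = 2 * ‖e‖ ^ 2 * C * R ^ 2 := by ring
  -- the direction
  obtain ⟨a, ha, hperp⟩ : ∃ a : DgE n, ‖a‖ = 1 ∧ ∀ e : DgE n, inner ℝ a e = 0 → fderiv ℝ u 0 e = 0 := by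
    by_cases hp : gradient u 0 = 0
    · refine ⟨EuclideanSpace.single ⟨0, hn⟩ 1, by simp, fun e _ => ?_⟩
      rw [← inner_gradient_left, hp, inner_zero_left]
    · refine ⟨‖gradient u 0‖⁻¹ • gradient u 0, norm_smul_inv_norm hp, fun e he => ?_⟩
      rw [inner_smul_left] at he
      have h1 : (‖gradient u 0‖⁻¹ : ℝ) ≠ 0 := inv_ne_zero (norm_ne_zero_iff.2 hp)
      rw [← inner_gradient_left]
      simpa [h1] using he
  refine ⟨a, fun s => u (s • a), ha, fun x => ?_⟩
  set s := inner ℝ a x with hsdef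
  set e := x - s • a with hedef
  have hae : inner ℝ a e = 0 := by
    rw [hedef, inner_sub_right, inner_smul_right, real_inner_self_eq_norm_sq, ha, ← hsdef]
    ring
  have hz := hzero e (hperp e hae)
  have hd : ∀ τ : ℝ, HasDerivAt (fun τ : ℝ => u (s • a + τ • e)) 0 τ := by
    intro τ
    have h1 : HasDerivAt (fun τ : ℝ => s • a + τ • e) e τ := by
      simpa using ((hasDerivAt_id τ).smul_const e).const_add (s • a)
    have h2 := ((hu1.differentiable (by norm_num)).differentiableAt (x := s • a + τ • e)).hasFDerivAt.comp_hasDerivAt τ h1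
    rw [hz] at h2
    exact h2
  have hconst := is_const_of_deriv_eq_zero (f := fun τ : ℝ => u (s • a + τ • e))
    (fun τ => (hd τ).differentiableAt) (fun τ => (hd τ).deriv) 1 0
  simp only [one_smul, zero_smul, add_zero] at hconst
  show u x = u (s • a)
  rw [← hconst, hedef]
  congr 1
  abel

end Claimed.Agent.R329
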