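import Claimed.Agent.R329.Defs

/-!
# Row 329 (De Giorgi in dimension eight): Lipschitz test functions in the stability inequality

The frozen statement `S0588` gives the stability inequality
`0 ≤ ∫ x, (‖fderiv ℝ φ x‖ ^ 2 + (3 * v x ^ 2 - 1) * φ x ^ 2)` for `φ` of class `C¹` with compact
support.  Every argument of the theory (corners of nodal domains, `|∇u| η`, logarithmic cut-offs,
`max`, `min`, `|·|` of tests) uses Lipschitz tests.  This file proves the extension:

* `dg88_hasFDerivAt_moll`: the mollification of a Lipschitz function is differentiable, with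
  derivative the mollification of the (almost everywhere defined) derivative;
* `dg88_quadForm_nonneg_of_lipschitz`: a quadratic form `∫ ‖Dφ‖² + q φ²`, `q` continuous, which is
  nonnegative on `C¹_c` is nonnegative on compactly supported Lipschitz functions;
* `dg88_stable_lipschitz`: the same in the very words of `S0588`, in every dimension.
-/

open MeasureTheory Filter Topology Set Metric
open scoped NNReal ContDiff Convolution

namespace Claimed.Agent.R329

noncomputable section

variable {E : Type*} [NormedAddCommGroup E] [InnerProductSpace ℝ E] [FiniteDimensional ℝ E]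
  [MeasurableSpace E] [BorelSpace E] (μ : Measure E) [μ.IsAddHaarMeasure]

/-- The mollification `∫ ρ(t) φ(x - t) dt` of a Lipschitz function `φ` is differentiable, and its
derivative is the mollification of `fderiv ℝ φ`. -/
theorem dg88_hasFDerivAt_moll (ρ : ContDiffBump (0 : E)) {K : ℝ≥0} {φ : E → ℝ}
    (hφ : LipschitzWith K φ) (x₀ : E) :
    HasFDerivAt (fun x => ∫ t, ρ.normed μ t • φ (x - t) ∂μ)
      (∫ t, ρ.normed μ t • fderiv ℝ φ (x₀ - t) ∂μ) x₀ := by
  have hcont : ∀ x : E, Continuous fun t => ρ.normed μ t • φ (x - t) := fun x =>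
    ρ.continuous_normed.smul (hφ.continuous.comp (continuous_const.sub continuous_id))
  refine (hasFDerivAt_integral_of_dominated_loc_of_lip' (μ := μ)
    (F := fun x t => ρ.normed μ t • φ (x - t))
    (F' := fun t => ρ.normed μ t • fderiv ℝ φ (x₀ - t))
    (bound := fun t => ρ.normed μ t * K) (s := univ) univ_mem ?_ ?_ ?_ ?_ ?_ ?_).2
  · exact fun x _ => (hcont x).aestronglyMeasurable
  · refine (hcont x₀).integrable_of_hasCompactSupport ?_
    exact ρ.hasCompactSupport_normed.smul_right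
  · refine ρ.continuous_normed.aestronglyMeasurable.smul ?_
    exact ((measurable_fderiv ℝ φ).comp (measurable_const.sub measurable_id)).aestronglyMeasurable
  · refine Eventually.of_forall fun t x _ => ?_
    rw [← smul_sub, norm_smul, Real.norm_of_nonneg (ρ.nonneg_normed t), mul_assoc]
    refine mul_le_mul_of_nonneg_left ?_ (ρ.nonneg_normed t)
    have := hφ.dist_le_mul (x - t) (x₀ - t)
    simpa [dist_eq_norm] using this
  · exact ρ.integrable_normed.mul_const _
  · have h1 : ∀ᵐ y ∂μ, DifferentiableAt ℝ φ y := hφ.ae_differentiableAt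
    have h2 : ∀ᵐ t ∂μ, DifferentiableAt ℝ φ (x₀ - t) :=
      (Measure.measurePreserving_sub_left μ x₀).quasiMeasurePreserving.ae h1
    filter_upwards [h2] with t ht
    exact ((hasFDerivAt_comp_sub t).2 ht.hasFDerivAt).const_smul (ρ.normed μ t)

/-- The derivative of the mollification is bounded by the Lipschitz constant. -/
theorem dg88_norm_moll_fderiv_le (ρ : ContDiffBump (0 : E)) {K : ℝ≥0} {φ : E → ℝ}
    (hφ : LipschitzWith K φ) (x₀ : E) :
    ‖∫ t, ρ.normed μ t • fderiv ℝ φ (x₀ - t) ∂μ‖ ≤ K := by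
  have h := norm_integral_le_of_norm_le (μ := μ) (f := fun t => ρ.normed μ t • fderiv ℝ φ (x₀ - t))
    (g := fun t => ρ.normed μ t * K) (ρ.integrable_normed.mul_const _)
    (Eventually.of_forall fun t => by
      rw [norm_smul, Real.norm_of_nonneg (ρ.nonneg_normed t)]
      exact mul_le_mul_of_nonneg_left (norm_fderiv_le_of_lipschitz ℝ hφ) (ρ.nonneg_normed t))
  rwa [integral_mul_const, ρ.integral_normed, one_mul] at h

/-- The mollification is bounded by a bound of the function. -/
theorem dg88_abs_moll_le (ρ : ContDiffBump (0 : E)) {φ : E → ℝ} {M : ℝ}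
    (hM : ∀ x, |φ x| ≤ M) (x₀ : E) :
    |∫ t, ρ.normed μ t • φ (x₀ - t) ∂μ| ≤ M := by
  have h := norm_integral_le_of_norm_le (μ := μ) (f := fun t => ρ.normed μ t • φ (x₀ - t))
    (g := fun t => ρ.normed μ t * M) (ρ.integrable_normed.mul_const _)
    (Eventually.of_forall fun t => by
      rw [norm_smul, Real.norm_of_nonneg (ρ.nonneg_normed t)]
      exact mul_le_mul_of_nonneg_left (hM _) (ρ.nonneg_normed t))
  rwa [integral_mul_const, ρ.integral_normed, one_mul] at h

/-- Away from the `rOut`-neighbourhood of the support, `ρ(t) • G (x - t)` vanishes identically. -/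
theorem dg88_moll_integrand_eq_zero {F : Type*} [NormedAddCommGroup F] [NormedSpace ℝ F]
    (ρ : ContDiffBump (0 : E)) (hρ : ρ.rOut ≤ 1) {S : Set E} {G : E → F}
    (hG : ∀ y, y ∉ S → G y = 0) {x : E} (hx : x ∉ cthickening 1 S) (t : E) :
    ρ.normed μ t • G (x - t) = 0 := by
  by_cases ht : t ∈ ball (0 : E) ρ.rOut
  · have : x - t ∉ S := by
      intro hS
      apply hx
      refine mem_cthickening_of_dist_le x (x - t) 1 S hS ?_
      have : dist x (x - t) = ‖t‖ := by simp
      rw [this]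
      have h3 : ‖t‖ < ρ.rOut := by simpa using ht
      linarith
    rw [hG _ this, smul_zero]
  · have : ρ.normed μ t = 0 := by
      have h4 : t ∉ Function.support (ρ.normed μ) := by rwa [ρ.support_normed_eq]
      simpa using h4
    rw [this, zero_smul]

/-- The standard sequence of bump functions, of radii `1 / (2 (k + 1)) < 1 / (k + 1)`. -/
def dg88_bump (k : ℕ) : ContDiffBump (0 : E) where
  rIn := 1 / (2 * ((k : ℝ) + 1))
  rOut := 1 / ((k : ℝ) + 1)
  rIn_pos := by positivity
  rIn_lt_rOut := by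
    have hk : (0 : ℝ) < (k : ℝ) + 1 := by positivity
    rw [div_lt_div_iff₀ (by positivity) hk]
    linarith

omit [InnerProductSpace ℝ E] [FiniteDimensional ℝ E] [MeasurableSpace E] [BorelSpace E] in
theorem dg88_bump_rOut_le_one (k : ℕ) : (dg88_bump (E := E) k).rOut ≤ 1 := by
  have hk : (1 : ℝ) ≤ (k : ℝ) + 1 := by
    have : (0 : ℝ) ≤ (k : ℝ) := Nat.cast_nonneg k
    linarith
  change 1 / ((k : ℝ) + 1) ≤ 1
  rw [div_le_one (by positivity)]
  exact hk

omit [InnerProductSpace ℝ E] [FiniteDimensional ℝ E] [MeasurableSpace E] [BorelSpace E] in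
theorem dg88_bump_tendsto : Tendsto (fun k : ℕ => (dg88_bump (E := E) k).rOut) atTop (𝓝 0) :=
  tendsto_one_div_add_atTop_nhds_zero_nat

omit [InnerProductSpace ℝ E] [FiniteDimensional ℝ E] [MeasurableSpace E] [BorelSpace E] in
theorem dg88_bump_ratio (k : ℕ) :
    (dg88_bump (E := E) k).rOut ≤ 2 * (dg88_bump (E := E) k).rIn := by
  change 1 / ((k : ℝ) + 1) ≤ 2 * (1 / (2 * ((k : ℝ) + 1)))
  have hk : (0 : ℝ) < (k : ℝ) + 1 := by positivity
  apply le_of_eq
  field_simp

/-- **Lipschitz tests.**  Let `q` be continuous.  If `∫ ‖Dφ‖² + q φ² ≥ 0` for all `φ ∈ C¹_c`, then the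
same holds for all compactly supported Lipschitz functions (`fderiv ℝ φ` is then the almost
everywhere defined derivative). -/
theorem dg88_quadForm_nonneg_of_lipschitz {q : E → ℝ} (hq : Continuous q)
    (hst : ∀ φ : E → ℝ, ContDiff ℝ 1 φ → HasCompactSupport φ →
      0 ≤ ∫ x, (‖fderiv ℝ φ x‖ ^ 2 + q x * φ x ^ 2) ∂μ)
    {K : ℝ≥0} {φ : E → ℝ} (hφ : LipschitzWith K φ) (hc : HasCompactSupport φ) :
    0 ≤ ∫ x, (‖fderiv ℝ φ x‖ ^ 2 + q x * φ x ^ 2) ∂μ := by
  classical
  -- the mollifications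
  set ρ : ℕ → ContDiffBump (0 : E) := fun k => dg88_bump k with hρ
  set ψ : ℕ → E → ℝ := fun k x => ∫ t, (ρ k).normed μ t • φ (x - t) ∂μ with hψ
  set D : ℕ → E → (E →L[ℝ] ℝ) := fun k x => ∫ t, (ρ k).normed μ t • fderiv ℝ φ (x - t) ∂μ with hD
  have hconv : ∀ k, ψ k = ((ρ k).normed μ ⋆[ContinuousLinearMap.lsmul ℝ ℝ, μ] φ) := by
    intro k; funext x; simp [hψ, convolution_def]
  have hconvD : ∀ k, D k = ((ρ k).normed μ ⋆[ContinuousLinearMap.lsmul ℝ ℝ, μ] (fderiv ℝ φ)) := by
    intro k; funext x; simp [hD, convolution_def]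
  have hder : ∀ k x, HasFDerivAt (ψ k) (D k x) x := fun k x => dg88_hasFDerivAt_moll μ (ρ k) hφ x
  have hfd : ∀ k x, fderiv ℝ (ψ k) x = D k x := fun k x => (hder k x).fderiv
  have hsmooth : ∀ k, ContDiff ℝ 1 (ψ k) := by
    intro k
    rw [hconv k]
    exact (ρ k).hasCompactSupport_normed.contDiff_convolution_left _
      ((ρ k).contDiff_normed) hφ.continuous.locallyIntegrable
  have hsupp : ∀ k, HasCompactSupport (ψ k) := by
    intro k
    rw [hconv k]
    exact (ρ k).hasCompactSupport_normed.convolution _ hc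
  -- bounds
  obtain ⟨M, hM⟩ : ∃ M : ℝ, ∀ x, |φ x| ≤ M := by
    obtain ⟨C, hC⟩ := hφ.continuous.bounded_above_of_compact_support hc
    exact ⟨C, fun x => by simpa using hC x⟩
  have hM0 : 0 ≤ M := le_trans (abs_nonneg _) (hM 0)
  set S : Set E := cthickening 1 (tsupport φ) with hS
  have hScomp : IsCompact S := hc.isCompact.cthickening
  obtain ⟨Q, hQ⟩ : ∃ Q : ℝ, ∀ x ∈ S, |q x| ≤ Q := by
    obtain ⟨C, hC⟩ := hScomp.exists_bound_of_continuousOn hq.continuousOn
    exact ⟨C, fun x hx => by simpa using hC x hx⟩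
  have hψ0 : ∀ k x, x ∉ S → ψ k x = 0 := by
    intro k x hx
    have : ∀ t, (ρ k).normed μ t • φ (x - t) = 0 := fun t =>
      dg88_moll_integrand_eq_zero μ (ρ k) (dg88_bump_rOut_le_one k)
        (fun y hy => image_eq_zero_of_notMem_tsupport hy) hx t
    simp only [hψ, this, integral_zero]
  have hD0 : ∀ k x, x ∉ S → D k x = 0 := by
    intro k x hx
    have : ∀ t, (ρ k).normed μ t • fderiv ℝ φ (x - t) = 0 := fun t =>
      dg88_moll_integrand_eq_zero μ (ρ k) (dg88_bump_rOut_le_one k)
        (fun y hy => fderiv_of_notMem_tsupport ℝ hy) hx t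
    simp only [hD, this, integral_zero]
  -- convergence
  have hlim1 : ∀ x, Tendsto (fun k => ψ k x) atTop (𝓝 (φ x)) := by
    intro x
    have := ContDiffBump.convolution_tendsto_right_of_continuous (μ := μ) (φ := ρ)
      (l := atTop) dg88_bump_tendsto hφ.continuous x
    simpa [hconv] using this
  have hlocint : LocallyIntegrable (fderiv ℝ φ) μ := by
    refine (locallyIntegrable_const (K : ℝ)).mono
      (measurable_fderiv ℝ φ).aestronglyMeasurable (Eventually.of_forall fun x => ?_)
    simpa using norm_fderiv_le_of_lipschitz ℝ hφ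
  have hlim2 : ∀ᵐ x ∂μ, Tendsto (fun k => D k x) atTop (𝓝 (fderiv ℝ φ x)) := by
    have := ContDiffBump.ae_convolution_tendsto_right_of_locallyIntegrable (μ := μ) (φ := ρ)
      (l := atTop) (K := 2) dg88_bump_tendsto (Eventually.of_forall dg88_bump_ratio) hlocint
    filter_upwards [this] with x hx
    simpa [hconvD] using hx
  -- dominated convergence
  have hkey : Tendsto (fun k => ∫ x, (‖fderiv ℝ (ψ k) x‖ ^ 2 + q x * ψ k x ^ 2) ∂μ) atTop
      (𝓝 (∫ x, (‖fderiv ℝ φ x‖ ^ 2 + q x * φ x ^ 2) ∂μ)) := by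
    refine tendsto_integral_of_dominated_convergence
      (S.indicator fun _ => (K : ℝ) ^ 2 + Q * M ^ 2) ?_ ?_ ?_ ?_
    · intro k
      have h1 : Continuous (fderiv ℝ (ψ k)) := (hsmooth k).continuous_fderiv one_ne_zero
      exact ((h1.norm.pow 2).add (hq.mul ((hsmooth k).continuous.pow 2))).aestronglyMeasurable
    · exact (integrableOn_const (μ := μ) (s := S) (C := (K : ℝ) ^ 2 + Q * M ^ 2)
        hScomp.measure_lt_top.ne).integrable_indicator hScomp.measurableSet
    · intro k
      refine Eventually.of_forall fun x => ?_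
      by_cases hx : x ∈ S
      · rw [indicator_of_mem hx, hfd, Real.norm_eq_abs]
        have h1 : ‖D k x‖ ^ 2 ≤ (K : ℝ) ^ 2 :=
          pow_le_pow_left₀ (norm_nonneg _) (dg88_norm_moll_fderiv_le μ (ρ k) hφ x) 2
        have h2 : ψ k x ^ 2 ≤ M ^ 2 := by
          rw [← sq_abs]
          exact pow_le_pow_left₀ (abs_nonneg _) (dg88_abs_moll_le μ (ρ k) hM x) 2
        have h3 : |q x * ψ k x ^ 2| ≤ Q * M ^ 2 := by
          rw [abs_mul, abs_of_nonneg (sq_nonneg (ψ k x))]
          exact mul_le_mul (hQ x hx) h2 (sq_nonneg _) (le_trans (abs_nonneg _) (hQ x hx))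
        calc |‖D k x‖ ^ 2 + q x * ψ k x ^ 2| ≤ |‖D k x‖ ^ 2| + |q x * ψ k x ^ 2| := abs_add_le _ _
          _ ≤ (K : ℝ) ^ 2 + Q * M ^ 2 := by
            rw [abs_of_nonneg (sq_nonneg _)]
            exact add_le_add h1 h3
      · rw [indicator_of_notMem hx, hfd, hD0 k x hx, hψ0 k x hx]
        simp
    · filter_upwards [hlim2] with x hx
      have h1 : Tendsto (fun k => ‖fderiv ℝ (ψ k) x‖ ^ 2) atTop (𝓝 (‖fderiv ℝ φ x‖ ^ 2)) := by
        simp only [hfd]
        exact (hx.norm).pow 2
      exact h1.add (((hlim1 x).pow 2).const_mul (q x))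
  exact ge_of_tendsto' hkey fun k => hst (ψ k) (hsmooth k) (hsupp k)

/-- **Lipschitz tests in the stability inequality of `S0588`**, in the very words of the frozen
statement, in every dimension. -/
theorem dg88_stable_lipschitz {n : ℕ} {v : EuclideanSpace ℝ (Fin n) → ℝ} (hv : Continuous v)
    (hstable : ∀ φ : EuclideanSpace ℝ (Fin n) → ℝ, ContDiff ℝ 1 φ → HasCompactSupport φ →
      0 ≤ ∫ x, (‖fderiv ℝ φ x‖ ^ 2 + (3 * v x ^ 2 - 1) * φ x ^ 2))
    {K : ℝ≥0} {φ : EuclideanSpace ℝ (Fin n) → ℝ} (hφ : LipschitzWith K φ)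
    (hc : HasCompactSupport φ) :
    0 ≤ ∫ x, (‖fderiv ℝ φ x‖ ^ 2 + (3 * v x ^ 2 - 1) * φ x ^ 2) :=
  dg88_quadForm_nonneg_of_lipschitz volume (q := fun x => 3 * v x ^ 2 - 1)
    (by fun_prop) hstable hφ hc

/-! ## EXITS -/

/-- EXIT (post A9 / F4): `DgStable` extends to compactly supported Lipschitz tests. -/
theorem dg88_DgStable_lipschitz {n : ℕ} {v : DgE n → ℝ} (hv : Continuous v) (hst : DgStable n v)
    {K : ℝ≥0} {φ : DgE n → ℝ} (hφ : LipschitzWith K φ) (hc : HasCompactSupport φ) :
    0 ≤ dgQ n v φ :=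
  dg88_stable_lipschitz hv hst hφ hc

/-- EXIT: the same for a solution. -/
theorem dg88_DgSol_stable_lipschitz {n : ℕ} {v : DgE n → ℝ} (hv : DgSol n v) (hst : DgStable n v)
    {K : ℝ≥0} {φ : DgE n → ℝ} (hφ : LipschitzWith K φ) (hc : HasCompactSupport φ) :
    0 ≤ dgQ n v φ :=
  dg88_DgStable_lipschitz hv.smooth.continuous hst hφ hc

end

end Claimed.Agent.R329
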