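/-
Row 329 (S0587, S0588), cell C6, post A18.  File of helper298, prefix `dgo_`.

THE LAST STEP OF BOTH STATEMENTS: a solution of the Allen-Cahn equation which depends on one variable `⟨a, x⟩` only is the planar
heteroclinic (monotone case), resp. a well or a planar heteroclinic (stable case).

Part 1: the ordinary differential equation `w'' = w ^ 3 - w` (first integral, classification of the solutions with values in `[-1,1]`).
Part 2: ridge functions, the identity `Q(Ψ η) = ∫ Ψ² |∇η|² + ∫ (-ΔΨ + VΨ) Ψ η²`, wide cut-offs.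
Part 3: solutions of negative energy (`0` and the periodic ones) are unstable: explicit Lamé ground state `Ψ = 1 - c v²`.
EXITS at the end.
-/
import Claimed.Agent.R329.Defs
import Claimed.Agent.R329.WeakForm

set_option autoImplicit false
set_option linter.unusedSectionVars false

open Set Real

namespace Claimed.Agent.R329

/-! ## Part 1: the ODE -/

section ODE

variable {w w' : ℝ → ℝ}

/-- the first integral `E = w'^2 / 2 - (1 - w^2)^2 / 4` -/
noncomputable def dgoE (w w' : ℝ → ℝ) (t : ℝ) : ℝ := w' t ^ 2 / 2 - (1 - w t ^ 2) ^ 2 / 4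

theorem dgo_E_hasDerivAt (h1 : ∀ t, HasDerivAt w (w' t) t) (h2 : ∀ t, HasDerivAt w' (w t ^ 3 - w t) t) (t : ℝ) :
    HasDerivAt (dgoE w w') 0 t := by
  have a1 := ((h2 t).fun_pow 2).div_const 2
  have a2 := ((((h1 t).fun_pow 2).const_sub 1).fun_pow 2).div_const 4
  have a3 := a1.fun_sub a2
  refine (a3.congr_deriv ?_)
  simp only [Nat.cast_ofNat, Nat.add_one_sub_one, pow_one]
  ring

theorem dgo_E_const (h1 : ∀ t, HasDerivAt w (w' t) t) (h2 : ∀ t, HasDerivAt w' (w t ^ 3 - w t) t) (s t : ℝ) :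
    dgoE w w' s = dgoE w w' t :=
  is_const_of_deriv_eq_zero (fun t => (dgo_E_hasDerivAt h1 h2 t).differentiableAt)
    (fun t => (dgo_E_hasDerivAt h1 h2 t).deriv) s t

/-- a function with values in `[-1,1]` cannot have a derivative bounded below by a positive constant -/
theorem dgo_unbounded_of_deriv_ge {m : ℝ} (hm : 0 < m) (h1 : ∀ t, HasDerivAt w (w' t) t) (hge : ∀ t, m ≤ w' t)
    (hr : ∀ t, w t ∈ Icc (-1 : ℝ) 1) : False := by
  have hd : ∀ t, HasDerivAt (fun t => w t - m * t) (w' t - m) t := fun t => by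
    simpa using (h1 t).fun_sub ((hasDerivAt_id t).const_mul m)
  have hmono : Monotone (fun t => w t - m * t) := by
    apply monotone_of_deriv_nonneg
    · exact fun t => (hd t).differentiableAt
    · intro t
      rw [(hd t).deriv]
      have := hge t
      linarith
  have h := hmono (show (0 : ℝ) ≤ 3 / m from by positivity)
  simp only at h
  have e1 : m * (3 / m) = 3 := by field_simp
  have := (hr 0).1
  have := (hr (3 / m)).2
  linarith

/-- the reflection `t ↦ - w (- t)` solves the same equation -/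
theorem dgo_reflect (h1 : ∀ t, HasDerivAt w (w' t) t) (h2 : ∀ t, HasDerivAt w' (w t ^ 3 - w t) t) :
    (∀ t, HasDerivAt (fun t => - w (-t)) (w' (-t)) t) ∧
      (∀ t, HasDerivAt (fun t => w' (-t)) ((- w (-t)) ^ 3 - (- w (-t))) t) := by
  constructor
  · intro t
    have := ((h1 (-t)).scomp t (hasDerivAt_neg t)).fun_neg
    simpa using this
  · intro t
    have := ((h2 (-t)).scomp t (hasDerivAt_neg t))
    refine (this.congr_deriv ?_)
    simp only [smul_eq_mul]
    ring

/-- the negative `t ↦ - w t` solves the same equation -/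
theorem dgo_negate (h1 : ∀ t, HasDerivAt w (w' t) t) (h2 : ∀ t, HasDerivAt w' (w t ^ 3 - w t) t) :
    (∀ t, HasDerivAt (fun t => - w t) (- w' t) t) ∧
      (∀ t, HasDerivAt (fun t => - w' t) ((- w t) ^ 3 - (- w t)) t) := by
  constructor
  · intro t
    exact (h1 t).fun_neg
  · intro t
    refine ((h2 t).fun_neg.congr_deriv ?_)
    ring

/-- an increasing solution which stays `δ`-away from the wells cannot take a positive value -/
theorem dgo_no_pos {δ t₀ : ℝ} (hδ : 0 < δ) (h1 : ∀ t, HasDerivAt w (w' t) t)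
    (h2 : ∀ t, HasDerivAt w' (w t ^ 3 - w t) t) (hpos : ∀ t, 0 < w' t) (hw : ∀ t, δ ≤ 1 - w t ^ 2)
    (h0 : 0 < w t₀) : False := by
  have hmono : Monotone w := by
    apply monotone_of_deriv_nonneg (fun t => (h1 t).differentiableAt)
    intro t
    rw [(h1 t).deriv]
    exact (hpos t).le
  set m := w t₀ * δ with hm
  have hmpos : 0 < m := mul_pos h0 hδ
  have hd : ∀ t, HasDerivAt (fun t => w' t + m * t) (w t ^ 3 - w t + m) t := fun t => by
    simpa using (h2 t).fun_add ((hasDerivAt_id t).const_mul m)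
  have hanti : AntitoneOn (fun t => w' t + m * t) (Ici t₀) := by
    apply antitoneOn_of_deriv_nonpos (convex_Ici t₀)
    · exact fun t _ => (hd t).continuousAt.continuousWithinAt
    · exact fun t _ => (hd t).differentiableAt.differentiableWithinAt
    · intro t ht
      rw [interior_Ici] at ht
      rw [(hd t).deriv]
      have a1 : w t₀ ≤ w t := hmono (le_of_lt ht)
      have a2 := hw t
      have a3 : w t₀ * δ ≤ w t * (1 - w t ^ 2) := mul_le_mul a1 a2 hδ.le (h0.le.trans a1)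
      nlinarith
  have hT : t₀ ≤ t₀ + (w' t₀ / m + 1) := by
    have := hpos t₀
    have : 0 ≤ w' t₀ / m := by positivity
    linarith
  have h := hanti (mem_Ici.2 le_rfl) (mem_Ici.2 hT) hT
  simp only at h
  have e1 : m * (t₀ + (w' t₀ / m + 1)) = m * t₀ + w' t₀ + m := by
    field_simp
    ring
  have := hpos (t₀ + (w' t₀ / m + 1))
  linarith

/-- **an increasing solution with values in `(-1,1)` has energy zero** -/
theorem dgo_mono_E_zero (h1 : ∀ t, HasDerivAt w (w' t) t) (h2 : ∀ t, HasDerivAt w' (w t ^ 3 - w t) t)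
    (hr : ∀ t, w t ∈ Ioo (-1 : ℝ) 1) (hpos : ∀ t, 0 < w' t) (t : ℝ) : dgoE w w' t = 0 := by
  have hc := dgo_E_const h1 h2
  set E₀ := dgoE w w' 0 with hE
  have hEt : ∀ t, w' t ^ 2 / 2 - (1 - w t ^ 2) ^ 2 / 4 = E₀ := fun t => hc t 0
  have hsq : ∀ t, 0 < 1 - w t ^ 2 ∧ 1 - w t ^ 2 ≤ 1 := fun t => by
    have := hr t
    constructor
    · nlinarith [this.1, this.2]
    · nlinarith [sq_nonneg (w t)]
  rw [hc t 0]
  rcases lt_trichotomy E₀ 0 with hneg | hz | hp
  · exfalso
    have hδ : ∀ t, -4 * E₀ ≤ 1 - w t ^ 2 := fun t => by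
      have a := hEt t
      have b := hsq t
      nlinarith [sq_nonneg (w' t)]
    by_cases hex : ∃ t₀, 0 < w t₀
    · obtain ⟨t₀, ht₀⟩ := hex
      exact dgo_no_pos (by linarith) h1 h2 hpos hδ ht₀
    · push Not at hex
      obtain ⟨r1, r2⟩ := dgo_reflect h1 h2
      have hst : StrictMono w := by
        apply strictMono_of_deriv_pos
        intro t
        rw [(h1 t).deriv]
        exact hpos t
      have : w (-1) < w 0 := hst (by norm_num)
      refine dgo_no_pos (w := fun t => - w (-t)) (w' := fun t => w' (-t)) (δ := -4 * E₀) (t₀ := 1) (by linarith)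
        r1 r2 (fun t => hpos _) (fun t => ?_) ?_
      · have := hδ (-t)
        simpa using this
      · have := hex 0
        linarith
  · exact hz
  · exfalso
    refine dgo_unbounded_of_deriv_ge (m := min 1 (2 * E₀)) (lt_min one_pos (by linarith)) h1 (fun t => ?_)
      (fun t => ⟨(hr t).1.le, (hr t).2.le⟩)
    have a := hEt t
    have b := hpos t
    by_cases h : 1 ≤ w' t
    · exact (min_le_left _ _).trans h
    · push Not at h
      refine (min_le_right _ _).trans ?_
      nlinarith [sq_nonneg (1 - w t ^ 2)]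

/-- **classification of the increasing solutions with values in `(-1,1)`** -/
theorem dgo_mono_classify (h1 : ∀ t, HasDerivAt w (w' t) t) (h2 : ∀ t, HasDerivAt w' (w t ^ 3 - w t) t)
    (hr : ∀ t, w t ∈ Ioo (-1 : ℝ) 1) (hpos : ∀ t, 0 < w' t) :
    ∃ c : ℝ, ∀ t, w t = Real.tanh ((t - c) / Real.sqrt 2) := by
  have hE := dgo_mono_E_zero h1 h2 hr hpos
  have h2pos : (0 : ℝ) < Real.sqrt 2 := Real.sqrt_pos.2 (by norm_num)
  have hs2 : Real.sqrt 2 * Real.sqrt 2 = 2 := Real.mul_self_sqrt (by norm_num)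
  have hsq : ∀ t, 0 < 1 - w t ^ 2 := fun t => by
    have := hr t
    nlinarith [this.1, this.2]
  -- the first order equation
  have hfirst : ∀ t, w' t = (1 - w t ^ 2) / Real.sqrt 2 := fun t => by
    have a : w' t ^ 2 / 2 - (1 - w t ^ 2) ^ 2 / 4 = 0 := hE t
    have b : (Real.sqrt 2 * w' t) ^ 2 = (1 - w t ^ 2) ^ 2 := by
      have : (Real.sqrt 2 * w' t) ^ 2 = (Real.sqrt 2 * Real.sqrt 2) * w' t ^ 2 := by ring
      rw [this, hs2]
      linarith
    have c : Real.sqrt 2 * w' t = 1 - w t ^ 2 := by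
      have p1 : 0 ≤ Real.sqrt 2 * w' t := (mul_pos h2pos (hpos t)).le
      exact (pow_left_inj₀ p1 (hsq t).le (by norm_num)).1 b
    field_simp
    linarith
  -- `artanh w - t / √2` is constant
  have hA : ∀ t, HasDerivAt (fun t => 1 / 2 * Real.log ((1 + w t) / (1 - w t)) - t / Real.sqrt 2) 0 t := fun t => by
    have hp : 0 < 1 + w t := by linarith [(hr t).1]
    have hm : 0 < 1 - w t := by linarith [(hr t).2]
    have d1 : HasDerivAt (fun t => (1 + w t) / (1 - w t)) ((w' t * (1 - w t) - (1 + w t) * (- w' t)) / (1 - w t) ^ 2) t :=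
      ((h1 t).const_add 1).fun_div ((h1 t).const_sub 1) hm.ne'
    have d2 := (d1.log (div_pos hp hm).ne').const_mul (1 / 2 : ℝ)
    have d3 := d2.fun_sub ((hasDerivAt_id t).div_const (Real.sqrt 2))
    refine d3.congr_deriv ?_
    rw [hfirst t]
    have : 1 - w t ^ 2 = (1 + w t) * (1 - w t) := by ring
    rw [this]
    field_simp
    ring
  have hconst : ∀ t, 1 / 2 * Real.log ((1 + w t) / (1 - w t)) - t / Real.sqrt 2
      = 1 / 2 * Real.log ((1 + w 0) / (1 - w 0)) - 0 / Real.sqrt 2 := fun t =>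
    is_const_of_deriv_eq_zero (fun t => (hA t).differentiableAt) (fun t => (hA t).deriv) t 0
  refine ⟨- Real.sqrt 2 * (1 / 2 * Real.log ((1 + w 0) / (1 - w 0))), fun t => ?_⟩
  have e1 : (t - - Real.sqrt 2 * (1 / 2 * Real.log ((1 + w 0) / (1 - w 0)))) / Real.sqrt 2
      = Real.artanh (w t) := by
    rw [Real.artanh_eq_half_log ⟨(hr t).1.le, (hr t).2.le⟩]
    have := hconst t
    field_simp
    field_simp at this
    linarith
  rw [e1, Real.tanh_artanh (hr t)]

/-- a continuous function without zeros has a constant sign -/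
theorem dgo_sign_const {f : ℝ → ℝ} (hc : Continuous f) (hne : ∀ t, f t ≠ 0) : (∀ t, 0 < f t) ∨ (∀ t, f t < 0) := by
  rcases lt_or_gt_of_ne (hne 0) with h0 | h0
  · right
    intro t
    by_contra h
    push Not at h
    obtain ⟨s, hs⟩ := mem_range_of_exists_le_of_exists_ge hc ⟨0, h0.le⟩ ⟨t, h⟩
    exact hne s hs
  · left
    intro t
    by_contra h
    push Not at h
    obtain ⟨s, hs⟩ := mem_range_of_exists_le_of_exists_ge hc ⟨t, h⟩ ⟨0, h0.le⟩
    exact hne s hs

/-- a solution of energy zero with values in `[-1,1]` which touches the well `1` is the well -/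
theorem dgo_touch_one (h1 : ∀ t, HasDerivAt w (w' t) t) (hr : ∀ t, w t ∈ Icc (-1 : ℝ) 1)
    (hE : ∀ t, dgoE w w' t = 0) {t₀ : ℝ} (h0 : w t₀ = 1) (t : ℝ) : w t = 1 := by
  have hb : ∀ t, |w' t| ≤ 2 * (1 - w t) := fun t => by
    have a : w' t ^ 2 / 2 - (1 - w t ^ 2) ^ 2 / 4 = 0 := hE t
    have b := hr t
    have hz : 0 ≤ 1 - w t := by linarith [b.2]
    apply abs_le_of_sq_le_sq' _ (by positivity) |> fun h => abs_le.2 h
    have e : (1 - w t ^ 2) ^ 2 = (1 - w t) ^ 2 * (1 + w t) ^ 2 := by ring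
    have f1 : (1 + w t) ^ 2 ≤ 4 := by nlinarith [b.1, b.2]
    have f2 : (1 - w t) ^ 2 * (1 + w t) ^ 2 ≤ (1 - w t) ^ 2 * 4 := mul_le_mul_of_nonneg_left f1 (sq_nonneg _)
    nlinarith
  have d1 : ∀ t, HasDerivAt (fun t => (1 - w t) * Real.exp (-2 * t))
      ((- w' t) * Real.exp (-2 * t) + (1 - w t) * (Real.exp (-2 * t) * (-2))) t := fun t => by
    have a := ((h1 t).const_sub 1).fun_mul (((hasDerivAt_id t).const_mul (-2 : ℝ)).exp)
    simpa using a
  have d2 : ∀ t, HasDerivAt (fun t => (1 - w t) * Real.exp (2 * t))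
      ((- w' t) * Real.exp (2 * t) + (1 - w t) * (Real.exp (2 * t) * 2)) t := fun t => by
    have a := ((h1 t).const_sub 1).fun_mul (((hasDerivAt_id t).const_mul (2 : ℝ)).exp)
    simpa using a
  have m1 : Antitone (fun t => (1 - w t) * Real.exp (-2 * t)) := by
    apply antitone_of_deriv_nonpos (fun t => (d1 t).differentiableAt)
    intro t
    rw [(d1 t).deriv]
    have a := abs_le.1 (hb t)
    have e := Real.exp_pos (-2 * t)
    nlinarith [a.1, a.2]
  have m2 : Monotone (fun t => (1 - w t) * Real.exp (2 * t)) := by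
    apply monotone_of_deriv_nonneg (fun t => (d2 t).differentiableAt)
    intro t
    rw [(d2 t).deriv]
    have a := abs_le.1 (hb t)
    have e := Real.exp_pos (2 * t)
    nlinarith [a.1, a.2]
  have hz : 0 ≤ 1 - w t := by linarith [(hr t).2]
  rcases le_total t₀ t with h | h
  · have := m1 h
    simp only [h0, sub_self, zero_mul] at this
    have e := Real.exp_pos (-2 * t)
    nlinarith
  · have := m2 h
    simp only [h0, sub_self, zero_mul] at this
    have e := Real.exp_pos (2 * t)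
    nlinarith

/-- **classification of all solutions with values in `[-1,1]`**: negative energy (the unstable ones: `0` and the periodic
solutions), the two wells, the increasing and the decreasing heteroclinic. -/
theorem dgo_classify (h1 : ∀ t, HasDerivAt w (w' t) t) (h2 : ∀ t, HasDerivAt w' (w t ^ 3 - w t) t)
    (hr : ∀ t, w t ∈ Icc (-1 : ℝ) 1) :
    dgoE w w' 0 < 0 ∨ (∀ t, w t = 1) ∨ (∀ t, w t = -1) ∨
      (∃ c : ℝ, ∀ t, w t = Real.tanh ((t - c) / Real.sqrt 2)) ∨
      (∃ c : ℝ, ∀ t, w t = Real.tanh ((-t - c) / Real.sqrt 2)) := by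
  have hc := dgo_E_const h1 h2
  have hcont : Continuous w' := continuous_iff_continuousAt.2 fun t => (h2 t).continuousAt
  obtain ⟨n1, n2⟩ := dgo_negate h1 h2
  have hrn : ∀ t, - w t ∈ Icc (-1 : ℝ) 1 := fun t => ⟨by linarith [(hr t).2], by linarith [(hr t).1]⟩
  have hEn : ∀ t, dgoE (fun t => - w t) (fun t => - w' t) t = dgoE w w' t := fun t => by
    simp only [dgoE]
    ring
  rcases lt_trichotomy (dgoE w w' 0) 0 with hneg | hz | hp
  · exact Or.inl hneg
  · right
    have hE : ∀ t, dgoE w w' t = 0 := fun t => (hc t 0).trans hz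
    by_cases t1 : ∃ t₀, w t₀ = 1
    · obtain ⟨t₀, ht₀⟩ := t1
      exact Or.inl (dgo_touch_one h1 hr hE ht₀)
    by_cases t2 : ∃ t₀, w t₀ = -1
    · obtain ⟨t₀, ht₀⟩ := t2
      refine Or.inr (Or.inl fun t => ?_)
      have := dgo_touch_one (w := fun t => - w t) (w' := fun t => - w' t) n1 hrn (fun t => (hEn t).trans (hE t))
        (t₀ := t₀) (by simp [ht₀]) t
      linarith
    push Not at t1 t2
    have hro : ∀ t, w t ∈ Ioo (-1 : ℝ) 1 := fun t =>
      ⟨lt_of_le_of_ne (hr t).1 (Ne.symm (t2 t)), lt_of_le_of_ne (hr t).2 (t1 t)⟩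
    have hne : ∀ t, w' t ≠ 0 := fun t h => by
      have a : w' t ^ 2 / 2 - (1 - w t ^ 2) ^ 2 / 4 = 0 := hE t
      rw [h] at a
      have b := hro t
      have : 0 < 1 - w t ^ 2 := by nlinarith [b.1, b.2]
      nlinarith
    rcases dgo_sign_const hcont hne with hpos | hnegd
    · exact Or.inr (Or.inr (Or.inl (dgo_mono_classify h1 h2 hro hpos)))
    · obtain ⟨c, hcc⟩ := dgo_mono_classify (w := fun t => - w t) (w' := fun t => - w' t) n1 n2
        (fun t => ⟨by linarith [(hro t).2], by linarith [(hro t).1]⟩) (fun t => by linarith [hnegd t])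
      refine Or.inr (Or.inr (Or.inr ⟨-c, fun t => ?_⟩))
      have := hcc t
      have e : (-t - -c) / Real.sqrt 2 = - ((t - c) / Real.sqrt 2) := by ring
      rw [e, Real.tanh_neg, ← this]
      ring
  · exfalso
    have hlow : ∀ t, 2 * dgoE w w' 0 ≤ w' t ^ 2 := fun t => by
      have a : w' t ^ 2 / 2 - (1 - w t ^ 2) ^ 2 / 4 = dgoE w w' 0 := hc t 0
      nlinarith [sq_nonneg (1 - w t ^ 2)]
    have hne : ∀ t, w' t ≠ 0 := fun t h => by
      have := hlow t
      rw [h] at this
      nlinarith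
    have key : ∀ (W W' : ℝ → ℝ), (∀ t, HasDerivAt W (W' t) t) → (∀ t, W t ∈ Icc (-1 : ℝ) 1) →
        (∀ t, 2 * dgoE w w' 0 ≤ W' t ^ 2) → (∀ t, 0 < W' t) → False := by
      intro W W' g1 gr gl gp
      refine dgo_unbounded_of_deriv_ge (m := min 1 (2 * dgoE w w' 0)) (lt_min one_pos (by linarith)) g1
        (fun t => ?_) gr
      have b := gp t
      by_cases h : 1 ≤ W' t
      · exact (min_le_left _ _).trans h
      · push Not at h
        refine (min_le_right _ _).trans ?_
        nlinarith [gl t]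
    rcases dgo_sign_const hcont hne with hpos | hnegd
    · exact key w w' h1 hr hlow hpos
    · exact key _ _ n1 hrn (fun t => by simpa using hlow t) (fun t => by linarith [hnegd t])

end ODE

/-! ## Part 2: ridge functions, the `Q` identity, wide cut-offs -/

section Ridge

open MeasureTheory InnerProductSpace

variable {E : Type*} [NormedAddCommGroup E] [InnerProductSpace ℝ E] [FiniteDimensional ℝ E]

/-- the derivative of a ridge function -/
theorem dgo_ridge_hasFDerivAt {f : ℝ → ℝ} (hf : Differentiable ℝ f) (a x : E) :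
    HasFDerivAt (fun y : E => f (inner ℝ a y)) (deriv f (inner ℝ a x) • innerSL ℝ a) x := by
  have h1 : HasFDerivAt (fun y : E => inner ℝ a y) (innerSL ℝ a) x := (innerSL ℝ a).hasFDerivAt
  have h2 := (hf (inner ℝ a x)).hasDerivAt.comp_hasFDerivAt x h1
  exact h2

theorem dgo_ridge_fderiv_apply {f : ℝ → ℝ} (hf : Differentiable ℝ f) (a x ξ : E) :
    fderiv ℝ (fun y : E => f (inner ℝ a y)) x ξ = deriv f (inner ℝ a x) * inner ℝ a ξ := by
  rw [(dgo_ridge_hasFDerivAt hf a x).fderiv]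
  simp

theorem dgo_ridge_contDiff {f : ℝ → ℝ} {k : ℕ∞} (hf : ContDiff ℝ k f) (a : E) :
    ContDiff ℝ k (fun y : E => f (inner ℝ a y)) :=
  hf.comp (innerSL ℝ a).contDiff

/-- the squared norm of the gradient of a ridge function -/
theorem dgo_ridge_norm_sq {f : ℝ → ℝ} (hf : Differentiable ℝ f) {a : E} (ha : ‖a‖ = 1) (x : E) :
    ‖fderiv ℝ (fun y : E => f (inner ℝ a y)) x‖ ^ 2 = deriv f (inner ℝ a x) ^ 2 := by
  rw [(dgo_ridge_hasFDerivAt hf a x).fderiv, norm_smul, innerSL_apply_norm, ha, mul_one, Real.norm_eq_abs, sq_abs]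

/-- **the Laplacian of a ridge function** -/
theorem dgo_ridge_laplacian {f : ℝ → ℝ} (hf : ContDiff ℝ 2 f) {a : E} (ha : ‖a‖ = 1) (x : E) :
    Laplacian.laplacian (fun y : E => f (inner ℝ a y)) x = deriv (deriv f) (inner ℝ a x) := by
  have hf1 : Differentiable ℝ f := hf.differentiable (by norm_num)
  have hf' : ContDiff ℝ 1 (deriv f) := by
    have : ContDiff ℝ (1 + 1) f := by
      rw [one_add_one_eq_two]
      exact hf
    exact (contDiff_succ_iff_deriv.1 this).2.2
  have hf'1 : Differentiable ℝ (deriv f) := hf'.differentiable (by norm_num)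
  set b := stdOrthonormalBasis ℝ E
  rw [dg98_laplacian_eq b (dgo_ridge_contDiff hf a) x]
  have h1 : ∀ i, (fun y : E => fderiv ℝ (fun y : E => f (inner ℝ a y)) y (b i))
      = fun y : E => (fun t => deriv f t * inner ℝ a (b i)) (inner ℝ a y) := fun i => by
    funext y
    exact dgo_ridge_fderiv_apply hf1 a y (b i)
  have h2 : ∀ i, fderiv ℝ (fun y : E => fderiv ℝ (fun y : E => f (inner ℝ a y)) y (b i)) x (b i)
      = deriv (deriv f) (inner ℝ a x) * inner ℝ a (b i) ^ 2 := fun i => by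
    rw [h1 i, dgo_ridge_fderiv_apply (hf'1.mul_const _) a x (b i)]
    rw [deriv_mul_const (hf'1 _)]
    ring
  simp only [h2]
  rw [← Finset.mul_sum]
  have h3 : ∑ i, inner ℝ a (b i) ^ 2 = 1 := by
    have := b.sum_sq_norm_inner_right a
    rw [ha] at this
    simp only [Real.norm_eq_abs, sq_abs, one_pow] at this
    rw [← this]
    exact Finset.sum_congr rfl fun i _ => by rw [real_inner_comm]
  rw [h3, mul_one]

variable [MeasurableSpace E] [BorelSpace E]

/-- **the `Q` identity** (ground state substitution): for `Ψ ∈ C²`, `η ∈ C¹_c`, `V` continuous,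
`∫ |∇(Ψη)|² + V (Ψη)² = ∫ Ψ² |∇η|² + ∫ (-ΔΨ + VΨ) Ψ η²`. -/
theorem dgo_Q_identity {Ψ η V : E → ℝ} (hΨ : ContDiff ℝ 2 Ψ) (hη : ContDiff ℝ 1 η) (hηc : HasCompactSupport η)
    (hV : Continuous V) :
    ∫ x, (‖fderiv ℝ (fun y => Ψ y * η y) x‖ ^ 2 + V x * (Ψ x * η x) ^ 2) =
      (∫ x, Ψ x ^ 2 * ‖fderiv ℝ η x‖ ^ 2) + ∫ x, (- Laplacian.laplacian Ψ x + V x * Ψ x) * Ψ x * η x ^ 2 := by
  have hΨ1 : ContDiff ℝ 1 Ψ := hΨ.of_le (by norm_num)
  have hdΨ : ∀ x, DifferentiableAt ℝ Ψ x := fun x => (hΨ1.differentiable (by norm_num)) x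
  have hdη : ∀ x, DifferentiableAt ℝ η x := fun x => (hη.differentiable (by norm_num)) x
  set b := stdOrthonormalBasis ℝ E
  have hζ : ContDiff ℝ 1 (fun x => Ψ x * η x ^ 2) := hΨ1.mul (hη.pow 2)
  have hsη2 : HasCompactSupport (fun x => η x ^ 2) := hηc.comp_left (g := fun t => t ^ 2) (by simp)
  have hζc : HasCompactSupport (fun x => Ψ x * η x ^ 2) := hsη2.mul_left
  have hgreen := dg98_green b hΨ hζ hζc
  -- the pointwise identity
  have hpt : ∀ x, ‖fderiv ℝ (fun y => Ψ y * η y) x‖ ^ 2 =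
      (∑ i, fderiv ℝ Ψ x (b i) * fderiv ℝ (fun x => Ψ x * η x ^ 2) x (b i)) + Ψ x ^ 2 * ‖fderiv ℝ η x‖ ^ 2 := by
    intro x
    rw [dg98_norm_sq_clm b, dg98_norm_sq_clm b, Finset.mul_sum, ← Finset.sum_add_distrib]
    refine Finset.sum_congr rfl fun i _ => ?_
    have e1 : fderiv ℝ (fun y => Ψ y * η y) x = Ψ x • fderiv ℝ η x + η x • fderiv ℝ Ψ x :=
      ((hdΨ x).hasFDerivAt.mul (hdη x).hasFDerivAt).fderiv
    have e2 : fderiv ℝ (fun y => Ψ y * η y ^ 2) x = Ψ x • ((2 * η x) • fderiv ℝ η x) + η x ^ 2 • fderiv ℝ Ψ x := by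
      have h := (hdΨ x).hasFDerivAt.mul ((hdη x).hasFDerivAt.pow 2)
      exact (h.congr_fderiv (by simp)).fderiv
    rw [e1, e2]
    simp only [add_apply, smul_apply, smul_eq_mul]
    ring
  have hcΔ : Continuous (fun x => Laplacian.laplacian Ψ x) := by
    have : (fun x => Laplacian.laplacian Ψ x) = fun x => ∑ i, fderiv ℝ (fun y => fderiv ℝ Ψ y (b i)) x (b i) := by
      funext x
      exact dg98_laplacian_eq b hΨ x
    rw [this]
    exact continuous_finsetSum _ fun i _ =>
      dg98_continuous_fderiv_apply (dg98_contDiff_fderiv_apply hΨ (b i)) (b i)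
  have hcη' : Continuous (fun x => ‖fderiv ℝ η x‖ ^ 2) := ((hη.continuous_fderiv (by norm_num)).norm).pow 2
  have hsη' : HasCompactSupport (fun x => ‖fderiv ℝ η x‖ ^ 2) := by
    have h0 : HasCompactSupport (fderiv ℝ η) := hηc.fderiv (𝕜 := ℝ)
    exact h0.comp_left (g := fun L => ‖L‖ ^ 2) (by simp)
  have i1 : Integrable (fun x => ∑ i, fderiv ℝ Ψ x (b i) * fderiv ℝ (fun x => Ψ x * η x ^ 2) x (b i)) := by
    refine integrable_finsetSum _ fun i _ => ?_
    exact ((dg98_continuous_fderiv_apply hΨ1 (b i)).mul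
      (dg98_continuous_fderiv_apply hζ (b i))).integrable_of_hasCompactSupport
      (hζc.fderiv_apply (𝕜 := ℝ) (b i)).mul_left
  have i2 : Integrable (fun x => Ψ x ^ 2 * ‖fderiv ℝ η x‖ ^ 2) :=
    ((hΨ.continuous.pow 2).mul hcη').integrable_of_hasCompactSupport hsη'.mul_left
  have i3 : Integrable (fun x => V x * (Ψ x * η x) ^ 2) := by
    have : (fun x => V x * (Ψ x * η x) ^ 2) = fun x => (V x * Ψ x ^ 2) * η x ^ 2 := by
      funext x
      ring
    rw [this]
    exact ((hV.mul (hΨ.continuous.pow 2)).mul (hη.continuous.pow 2)).integrable_of_hasCompactSupport hsη2.mul_left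
  have i4 : Integrable (fun x => Laplacian.laplacian Ψ x * (Ψ x * η x ^ 2)) :=
    (hcΔ.mul hζ.continuous).integrable_of_hasCompactSupport hζc.mul_left
  calc ∫ x, (‖fderiv ℝ (fun y => Ψ y * η y) x‖ ^ 2 + V x * (Ψ x * η x) ^ 2)
      = ∫ x, ((∑ i, fderiv ℝ Ψ x (b i) * fderiv ℝ (fun x => Ψ x * η x ^ 2) x (b i)) + Ψ x ^ 2 * ‖fderiv ℝ η x‖ ^ 2
          + V x * (Ψ x * η x) ^ 2) := by simp only [hpt]
    _ = (∫ x, ∑ i, fderiv ℝ Ψ x (b i) * fderiv ℝ (fun x => Ψ x * η x ^ 2) x (b i)) + (∫ x, Ψ x ^ 2 * ‖fderiv ℝ η x‖ ^ 2)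
          + ∫ x, V x * (Ψ x * η x) ^ 2 := by
        have i12 : Integrable (fun x => (∑ i, fderiv ℝ Ψ x (b i) * fderiv ℝ (fun x => Ψ x * η x ^ 2) x (b i))
            + Ψ x ^ 2 * ‖fderiv ℝ η x‖ ^ 2) := i1.add i2
        rw [integral_add i12 i3, integral_add i1 i2]
    _ = (∫ x, Ψ x ^ 2 * ‖fderiv ℝ η x‖ ^ 2) + ((- ∫ x, Laplacian.laplacian Ψ x * (Ψ x * η x ^ 2))
          + ∫ x, V x * (Ψ x * η x) ^ 2) := by
        rw [hgreen]
        ring
    _ = (∫ x, Ψ x ^ 2 * ‖fderiv ℝ η x‖ ^ 2) + ∫ x, (- Laplacian.laplacian Ψ x + V x * Ψ x) * Ψ x * η x ^ 2 := by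
        have i4n : Integrable (fun x => -(Laplacian.laplacian Ψ x * (Ψ x * η x ^ 2))) := i4.neg
        rw [← integral_neg, ← integral_add i4n i3]
        congr 1
        refine integral_congr_ae (Filter.Eventually.of_forall fun x => ?_)
        simp only
        ring

/-- **wide cut-offs**: the Dirichlet energy can be made small with respect to the `L²` norm -/
theorem dgo_wide_cutoff {μ : ℝ} (hμ : 0 < μ) :
    ∃ η : E → ℝ, ContDiff ℝ 1 η ∧ HasCompactSupport η ∧ (∫ x, ‖fderiv ℝ η x‖ ^ 2) < μ * ∫ x, η x ^ 2 := by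
  let f : ContDiffBump (0 : E) := ⟨1, 2, one_pos, one_lt_two⟩
  have hf : ContDiff ℝ 1 (f : E → ℝ) := f.contDiff
  have hfc : HasCompactSupport (f : E → ℝ) := f.hasCompactSupport
  set A := ∫ x, ‖fderiv ℝ (f : E → ℝ) x‖ ^ 2 with hA
  set B := ∫ x, (f x) ^ 2 with hB
  have hA0 : 0 ≤ A := integral_nonneg fun x => by positivity
  have hB0 : 0 < B := by
    refine (hf.continuous.pow 2).integral_pos_of_hasCompactSupport_nonneg_nonzero
      (hfc.comp_left (g := fun t => t ^ 2) (by simp)) (fun x => by positivity) (x := 0) ?_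
    have : f 0 = 1 := f.one_of_mem_closedBall (by simp [f])
    simp [this]
  set r := min 1 (μ * B / (A + 1)) with hr
  have hq : 0 < μ * B / (A + 1) := by positivity
  have hr0 : 0 < r := lt_min one_pos hq
  have hr1 : r ≤ 1 := min_le_left _ _
  have hr2 : r ≤ μ * B / (A + 1) := min_le_right _ _
  have hkey : r ^ 2 * A < μ * B := by
    have h1 : r ^ 2 ≤ r := by nlinarith
    have h2 : r * (A + 1) ≤ μ * B := by
      rwa [le_div_iff₀ (by positivity)] at hr2
    nlinarith
  refine ⟨fun x => f (r • x), hf.comp (contDiff_const_smul r), hfc.comp_smul hr0.ne', ?_⟩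
  have e1 : ∀ x, ‖fderiv ℝ (fun x => f (r • x)) x‖ ^ 2 = r ^ 2 * (fun y => ‖fderiv ℝ (f : E → ℝ) y‖ ^ 2) (r • x) := fun x => by
    rw [fderiv_comp_smul, norm_smul, mul_pow, Real.norm_eq_abs, sq_abs]
  set K := |(r ^ Module.finrank ℝ E)⁻¹| with hK
  have hK0 : 0 < K := abs_pos.2 (inv_ne_zero (pow_ne_zero _ hr0.ne'))
  have I1 : ∫ x, ‖fderiv ℝ (fun x => f (r • x)) x‖ ^ 2 = r ^ 2 * (K * A) := by
    calc ∫ x, ‖fderiv ℝ (fun x => f (r • x)) x‖ ^ 2
        = ∫ x, r ^ 2 * (fun y => ‖fderiv ℝ (f : E → ℝ) y‖ ^ 2) (r • x) :=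
          integral_congr_ae (Filter.Eventually.of_forall e1)
      _ = r ^ 2 * ∫ x, (fun y => ‖fderiv ℝ (f : E → ℝ) y‖ ^ 2) (r • x) := integral_const_mul _ _
      _ = r ^ 2 * (K * A) := by
          rw [Measure.integral_comp_smul volume (fun y => ‖fderiv ℝ (f : E → ℝ) y‖ ^ 2) r, smul_eq_mul]
  have I2 : ∫ x, (f (r • x)) ^ 2 = K * B := by
    have := Measure.integral_comp_smul volume (fun y : E => (f y) ^ 2) r
    rw [smul_eq_mul] at this
    exact this
  rw [I1, I2]
  nlinarith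

end Ridge

/-! ## Part 3: negative energy is unstable -/

section Unstable

open MeasureTheory InnerProductSpace

/-- **a one-dimensional solution of negative energy (`0`, or a periodic one) is unstable**: the Lamé ground state
`Ψ = 1 - c v²`, `κ = 4E + 1`, `c = 3 / (2 + √(4 - 3κ))`, satisfies `-ΔΨ + (3v² - 1)Ψ = (cκ - 1)Ψ` and `cκ - 1 < 0`. -/
theorem dgo_unstable_of_E_neg {n : ℕ} {v : DgE n → ℝ} {w : ℝ → ℝ} (hw : ContDiff ℝ 2 w) {a : DgE n} (ha : ‖a‖ = 1)
    (hv : ∀ x, v x = w (inner ℝ a x)) (hode : ∀ t, deriv (deriv w) t = w t ^ 3 - w t)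
    (hr : ∀ t, w t ∈ Icc (-1 : ℝ) 1) (hE : dgoE w (deriv w) 0 < 0) : ¬ DgStable n v := by
  intro hs
  have hw1 : Differentiable ℝ w := hw.differentiable (by norm_num)
  have hw' : ContDiff ℝ 1 (deriv w) := by
    have : ContDiff ℝ (1 + 1) w := by
      rw [one_add_one_eq_two]
      exact hw
    exact (contDiff_succ_iff_deriv.1 this).2.2
  have hw'1 : Differentiable ℝ (deriv w) := hw'.differentiable (by norm_num)
  have h1 : ∀ t, HasDerivAt w (deriv w t) t := fun t => (hw1 t).hasDerivAt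
  have h2 : ∀ t, HasDerivAt (deriv w) (w t ^ 3 - w t) t := fun t => by
    rw [← hode t]
    exact (hw'1 t).hasDerivAt
  set E₀ := dgoE w (deriv w) 0 with hE₀
  have hEt : ∀ t, deriv w t ^ 2 / 2 - (1 - w t ^ 2) ^ 2 / 4 = E₀ := fun t => dgo_E_const h1 h2 t 0
  -- the constants
  set κ := 4 * E₀ + 1 with hκ
  have hκ1 : κ < 1 := by linarith
  set s := Real.sqrt (4 - 3 * κ) with hsdef
  have hs2 : s ^ 2 = 4 - 3 * κ := Real.sq_sqrt (by linarith)
  have hs1 : 1 < s := by
    rw [hsdef]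
    exact Real.lt_sqrt_of_sq_lt (by linarith)
  set c := 3 / (2 + s) with hc
  have hc0 : 0 < c := by positivity
  have hc1 : c < 1 := by
    rw [hc, div_lt_one (by positivity)]
    linarith
  have hquad : κ * c ^ 2 - 4 * c + 3 = 0 := by
    have hne : (2 + s) ≠ 0 := by positivity
    rw [hc]
    field_simp
    nlinarith
  set lam := c * κ - 1 with hlam
  have hlam0 : lam < 0 := by nlinarith
  -- the amplitude
  set f : ℝ → ℝ := fun t => 1 - c * w t ^ 2 with hf
  have hfC : ContDiff ℝ 2 f := contDiff_const.sub (contDiff_const.mul (hw.pow 2))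
  have hf1 : ∀ t, HasDerivAt f (- (2 * c) * (w t * deriv w t)) t := fun t => by
    have := (((h1 t).fun_pow 2).const_mul c).const_sub 1
    refine this.congr_deriv ?_
    simp only [Nat.cast_ofNat, Nat.add_one_sub_one, pow_one]
    ring
  have hf' : deriv f = fun t => - (2 * c) * (w t * deriv w t) := funext fun t => (hf1 t).deriv
  have hf2 : ∀ t, deriv (deriv f) t = - (2 * c) * (deriv w t * deriv w t + w t * (w t ^ 3 - w t)) := fun t => by
    rw [hf']
    exact (((h1 t).fun_mul (h2 t)).const_mul (- (2 * c))).deriv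
  set Ψ : DgE n → ℝ := fun y => f (inner ℝ a y) with hΨ
  have hΨC : ContDiff ℝ 2 Ψ := dgo_ridge_contDiff hfC a
  have hvC : Continuous v := by
    have : v = fun x => w (inner ℝ a x) := funext hv
    rw [this]
    exact (dgo_ridge_contDiff hw a).continuous
  have hV : Continuous (fun x => 3 * v x ^ 2 - 1) := (continuous_const.mul (hvC.pow 2)).sub continuous_const
  have heig : ∀ x, - Laplacian.laplacian Ψ x + (3 * v x ^ 2 - 1) * Ψ x = lam * Ψ x := fun x => by
    rw [hΨ, dgo_ridge_laplacian hfC ha x, hf2, hv x]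
    have e := hEt (inner ℝ a x)
    simp only [hf]
    set W := w (inner ℝ a x)
    set W' := deriv w (inner ℝ a x)
    have e' : W' * W' = 2 * E₀ + (1 - W ^ 2) ^ 2 / 2 := by nlinarith
    rw [e']
    have hE4 : 4 * E₀ = κ - 1 := by rw [hκ]; ring
    have : E₀ = (κ - 1) / 4 := by linarith
    rw [this, hlam]
    have q : κ * c ^ 2 = 4 * c - 3 := by linarith
    have : -(-(2 * c) * (2 * ((κ - 1) / 4) + (1 - W ^ 2) ^ 2 / 2 + W * (W ^ 3 - W))) + (3 * W ^ 2 - 1) * (1 - c * W ^ 2)
        - (c * κ - 1) * (1 - c * W ^ 2) = (κ * c ^ 2 - 4 * c + 3) * W ^ 2 := by ring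
    rw [hquad] at this
    linarith
  have hΨb : ∀ x, 1 - c ≤ Ψ x ∧ Ψ x ≤ 1 := fun x => by
    have b := hr (inner ℝ a x)
    have b2 : w (inner ℝ a x) ^ 2 ≤ 1 := by nlinarith [b.1, b.2]
    have b3 : 0 ≤ w (inner ℝ a x) ^ 2 := sq_nonneg _
    simp only [hΨ, hf]
    constructor <;> nlinarith
  -- the cut-off
  have hμ : 0 < - lam * (1 - c) ^ 2 := by
    have : 0 < (1 - c) ^ 2 := by
      have : 0 < 1 - c := by linarith
      positivity
    nlinarith
  obtain ⟨η, hη, hηc, hlt⟩ := dgo_wide_cutoff (E := DgE n) hμ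
  have hst := hs (fun y => Ψ y * η y) ((hΨC.of_le (by norm_num)).mul hη) hηc.mul_left
  have hid := dgo_Q_identity hΨC hη hηc hV
  rw [hid] at hst
  have hcη' : Continuous (fun x => ‖fderiv ℝ η x‖ ^ 2) := ((hη.continuous_fderiv (by norm_num)).norm).pow 2
  have hsη' : HasCompactSupport (fun x => ‖fderiv ℝ η x‖ ^ 2) :=
    (hηc.fderiv (𝕜 := ℝ)).comp_left (g := fun L => ‖L‖ ^ 2) (by simp)
  have hsη2 : HasCompactSupport (fun x => η x ^ 2) := hηc.comp_left (g := fun t => t ^ 2) (by simp)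
  have j1 : Integrable (fun x => ‖fderiv ℝ η x‖ ^ 2) := hcη'.integrable_of_hasCompactSupport hsη'
  have j2 : Integrable (fun x => Ψ x ^ 2 * ‖fderiv ℝ η x‖ ^ 2) :=
    ((hΨC.continuous.pow 2).mul hcη').integrable_of_hasCompactSupport hsη'.mul_left
  have j3 : Integrable (fun x => η x ^ 2) := (hη.continuous.pow 2).integrable_of_hasCompactSupport hsη2
  have j4 : Integrable (fun x => Ψ x ^ 2 * η x ^ 2) :=
    ((hΨC.continuous.pow 2).mul (hη.continuous.pow 2)).integrable_of_hasCompactSupport hsη2.mul_left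
  have k1 : ∫ x, Ψ x ^ 2 * ‖fderiv ℝ η x‖ ^ 2 ≤ ∫ x, ‖fderiv ℝ η x‖ ^ 2 := by
    refine integral_mono j2 j1 fun x => ?_
    have b := hΨb x
    have : Ψ x ^ 2 ≤ 1 := by nlinarith [b.1, b.2]
    have p : 0 ≤ ‖fderiv ℝ η x‖ ^ 2 := by positivity
    simp only
    nlinarith
  have k2 : (1 - c) ^ 2 * ∫ x, η x ^ 2 ≤ ∫ x, Ψ x ^ 2 * η x ^ 2 := by
    rw [← integral_const_mul]
    refine integral_mono (j3.const_mul _) j4 fun x => ?_
    have b := hΨb x
    have : (1 - c) ^ 2 ≤ Ψ x ^ 2 := by nlinarith [b.1, b.2]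
    have p : 0 ≤ η x ^ 2 := by positivity
    simp only
    nlinarith
  have k3 : ∫ x, (- Laplacian.laplacian Ψ x + (3 * v x ^ 2 - 1) * Ψ x) * Ψ x * η x ^ 2 = lam * ∫ x, Ψ x ^ 2 * η x ^ 2 := by
    rw [← integral_const_mul]
    refine integral_congr_ae (Filter.Eventually.of_forall fun x => ?_)
    simp only
    rw [heig x]
    ring
  rw [k3] at hst
  nlinarith

end Unstable

/-! ## EXITS -/

section Exits

open InnerProductSpace

/-- **EXIT 1 (every `n`)**: a stable solution which depends on one variable only is a well or a planar transition. -/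
theorem dgo_rigid_of_oneD {n : ℕ} {v : DgE n → ℝ} (hv : DgSol n v) (hs : DgStable n v) (h1D : DgOneD n v) :
    DgRigid n v := by
  obtain ⟨a, h, ha, hvh⟩ := h1D
  have haa : ∀ t : ℝ, inner ℝ a (t • a) = t := fun t => by
    rw [inner_smul_right, real_inner_self_eq_norm_sq, ha]
    ring
  set w : ℝ → ℝ := fun t => v (t • a) with hwdef
  have hwh : ∀ t, w t = h t := fun t => by
    simp only [hwdef]
    rw [hvh, haa]
  have hvw : ∀ x, v x = w (inner ℝ a x) := fun x => by rw [hwh, hvh]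
  have hw : ContDiff ℝ 2 w := hv.smooth.comp (contDiff_id.smul contDiff_const)
  have hw1 : Differentiable ℝ w := hw.differentiable (by norm_num)
  have hw' : ContDiff ℝ 1 (deriv w) := by
    have : ContDiff ℝ (1 + 1) w := by
      rw [one_add_one_eq_two]
      exact hw
    exact (contDiff_succ_iff_deriv.1 this).2.2
  have hw'1 : Differentiable ℝ (deriv w) := hw'.differentiable (by norm_num)
  have hode : ∀ t, deriv (deriv w) t = w t ^ 3 - w t := fun t => by
    have e1 := dgo_ridge_laplacian hw ha (t • a)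
    have e2 : (fun y : DgE n => w (inner ℝ a y)) = v := (funext hvw).symm
    rw [e2, haa, hv.pde] at e1
    exact e1.symm
  have hr : ∀ t, w t ∈ Icc (-1 : ℝ) 1 := fun t => hv.range _
  have h1 : ∀ t, HasDerivAt w (deriv w t) t := fun t => (hw1 t).hasDerivAt
  have h2 : ∀ t, HasDerivAt (deriv w) (w t ^ 3 - w t) t := fun t => by
    rw [← hode t]
    exact (hw'1 t).hasDerivAt
  rcases dgo_classify h1 h2 hr with hE | hp | hm | ⟨c, hc⟩ | ⟨c, hc⟩
  · exact absurd hs (dgo_unstable_of_E_neg hw ha hvw hode hr hE)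
  · exact Or.inl fun x => by rw [hvw, hp]
  · exact Or.inr (Or.inl fun x => by rw [hvw, hm])
  · exact Or.inr (Or.inr ⟨a, ha, c, fun x => by rw [hvw, hc]⟩)
  · refine Or.inr (Or.inr ⟨-a, by rw [norm_neg, ha], c, fun x => ?_⟩)
    rw [hvw, hc, inner_neg_left]

end Exits

end Claimed.Agent.R329
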