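import Claimed.Agent.R329.Defs

/-!
# Row 329, post A16 (helper286): slices.  `DgE (n+1) = DgE n × ℝ` through `dgSnoc`.

* algebra of `dgSnoc` (coordinates, linearity, norm, inner product), the projections `dgsl_init`, `dgsl_last`,
  the inclusion `dgsl_incl`, the vertical unit vector `dgsl_e`;
* `dgSnoc` is a measure preserving homeomorphism `DgE n × ℝ → DgE (n+1)`; Fubini in both orders;
* derivatives of slices, splitting of `‖fderiv‖²` and of the Laplacian;
* cylinder tests `φ(x') ψ(t)`;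
* exits: the second variation of a cylinder test, cylindrical extension of solutions, stability up and down.
-/

set_option autoImplicit false
open MeasureTheory Metric Set Filter

namespace Claimed.Agent.R329

variable {n : ℕ}

/-! ## Algebra of `dgSnoc` -/

@[simp] theorem dgsl_snoc_castSucc (x' : DgE n) (t : ℝ) (i : Fin n) :
    dgSnoc x' t i.castSucc = x' i := by
  simp [dgSnoc]

@[simp] theorem dgsl_snoc_last (x' : DgE n) (t : ℝ) : dgSnoc x' t (Fin.last n) = t := by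
  simp [dgSnoc]

theorem dgsl_ext {x y : DgE (n + 1)} (h : ∀ i : Fin n, x i.castSucc = y i.castSucc)
    (hl : x (Fin.last n) = y (Fin.last n)) : x = y := by
  ext i
  refine Fin.lastCases hl (fun j => h j) i

theorem dgsl_snoc_add (x' y' : DgE n) (s t : ℝ) :
    dgSnoc (x' + y') (s + t) = dgSnoc x' s + dgSnoc y' t := by
  apply dgsl_ext <;> simp

theorem dgsl_snoc_sub (x' y' : DgE n) (s t : ℝ) :
    dgSnoc (x' - y') (s - t) = dgSnoc x' s - dgSnoc y' t := by
  apply dgsl_ext <;> simp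

theorem dgsl_snoc_smul (c : ℝ) (x' : DgE n) (t : ℝ) :
    dgSnoc (c • x') (c * t) = c • dgSnoc x' t := by
  apply dgsl_ext <;> simp

@[simp] theorem dgsl_snoc_zero : dgSnoc (0 : DgE n) 0 = 0 := by
  apply dgsl_ext <;> simp

theorem dgsl_inner_snoc (a x : DgE n) (s t : ℝ) :
    inner ℝ (dgSnoc a s) (dgSnoc x t) = inner ℝ a x + s * t := by
  simp only [PiLp.inner_apply, Fin.sum_univ_castSucc, dgsl_snoc_castSucc, dgsl_snoc_last]
  simp [mul_comm]

theorem dgsl_norm_sq_snoc (x : DgE n) (t : ℝ) : ‖dgSnoc x t‖ ^ 2 = ‖x‖ ^ 2 + t ^ 2 := by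
  rw [← real_inner_self_eq_norm_sq, dgsl_inner_snoc, real_inner_self_eq_norm_sq]; ring

theorem dgsl_norm_le_snoc (x : DgE n) (t : ℝ) : ‖x‖ ≤ ‖dgSnoc x t‖ := by
  have h := dgsl_norm_sq_snoc x t
  exact abs_le_of_sq_le_sq' (by nlinarith [sq_nonneg t]) (norm_nonneg _) |>.2

theorem dgsl_abs_le_snoc (x : DgE n) (t : ℝ) : |t| ≤ ‖dgSnoc x t‖ := by
  have h := dgsl_norm_sq_snoc x t
  exact abs_le_of_sq_le_sq (by nlinarith [sq_nonneg ‖x‖]) (norm_nonneg _)

theorem dgsl_norm_snoc_le (x : DgE n) (t : ℝ) : ‖dgSnoc x t‖ ≤ ‖x‖ + |t| := by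
  have h := dgsl_norm_sq_snoc x t
  refine abs_le_of_sq_le_sq' ?_ (by positivity) |>.2
  nlinarith [norm_nonneg x, abs_nonneg t, sq_abs t]

/-- the horizontal projection `(x', t) ↦ x'` -/
noncomputable def dgsl_init (n : ℕ) : DgE (n + 1) →L[ℝ] DgE n :=
  LinearMap.toContinuousLinearMap
    { toFun := fun x => WithLp.toLp 2 (fun i : Fin n => x i.castSucc)
      map_add' := fun x y => by ext i; simp
      map_smul' := fun c x => by ext i; simp }

/-- the vertical projection `(x', t) ↦ t` -/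
noncomputable def dgsl_last (n : ℕ) : DgE (n + 1) →L[ℝ] ℝ :=
  EuclideanSpace.proj (Fin.last n)

@[simp] theorem dgsl_init_apply (x : DgE (n + 1)) (i : Fin n) : dgsl_init n x i = x i.castSucc := rfl

@[simp] theorem dgsl_last_apply (x : DgE (n + 1)) : dgsl_last n x = x (Fin.last n) := rfl

@[simp] theorem dgsl_init_snoc (x' : DgE n) (t : ℝ) : dgsl_init n (dgSnoc x' t) = x' := by
  ext i; simp

theorem dgsl_last_snoc (x' : DgE n) (t : ℝ) : dgsl_last n (dgSnoc x' t) = t := by simp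

@[simp] theorem dgsl_snoc_init_last (x : DgE (n + 1)) :
    dgSnoc (dgsl_init n x) (dgsl_last n x) = x := by
  apply dgsl_ext <;> simp

/-- the linear isomorphism `DgE n × ℝ ≃ DgE (n+1)` -/
noncomputable def dgsl_equiv (n : ℕ) : (DgE n × ℝ) ≃L[ℝ] DgE (n + 1) :=
  LinearEquiv.toContinuousLinearEquiv
    { toFun := fun p => dgSnoc p.1 p.2
      map_add' := fun p q => dgsl_snoc_add _ _ _ _
      map_smul' := fun c p => by simpa using dgsl_snoc_smul c p.1 p.2
      invFun := fun x => (dgsl_init n x, dgsl_last n x)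
      left_inv := fun p => by simp
      right_inv := fun x => dgsl_snoc_init_last x }

@[simp] theorem dgsl_equiv_apply (p : DgE n × ℝ) : dgsl_equiv n p = dgSnoc p.1 p.2 := rfl

@[simp] theorem dgsl_equiv_symm_apply (x : DgE (n + 1)) :
    (dgsl_equiv n).symm x = (dgsl_init n x, dgsl_last n x) := rfl

theorem dgsl_continuous_snoc : Continuous (fun p : DgE n × ℝ => dgSnoc p.1 p.2) :=
  (dgsl_equiv n).continuous

theorem dgsl_snoc_injective {x y : DgE n} {s t : ℝ} (h : dgSnoc x s = dgSnoc y t) : x = y ∧ s = t := by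
  have h1 := congrArg (dgsl_init n) h
  have h2 := congrArg (dgsl_last n) h
  simp only [dgsl_init_snoc] at h1
  rw [dgsl_last_snoc, dgsl_last_snoc] at h2
  exact ⟨h1, h2⟩

/-- the horizontal inclusion `x' ↦ (x', 0)` -/
noncomputable def dgsl_incl (n : ℕ) : DgE n →L[ℝ] DgE (n + 1) :=
  ((dgsl_equiv n : (DgE n × ℝ) →L[ℝ] DgE (n + 1))).comp (ContinuousLinearMap.inl ℝ (DgE n) ℝ)

/-- the vertical unit vector `e_{n+1} = (0, 1)` -/
noncomputable def dgsl_e (n : ℕ) : DgE (n + 1) := dgSnoc 0 1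

@[simp] theorem dgsl_incl_apply (x' : DgE n) : dgsl_incl n x' = dgSnoc x' 0 := rfl

theorem dgsl_e_eq_single : dgsl_e n = EuclideanSpace.single (Fin.last n) (1 : ℝ) := by
  apply dgsl_ext
  · intro i; simp [dgsl_e, Fin.castSucc_ne_last]
  · simp [dgsl_e]

theorem dgsl_norm_e : ‖dgsl_e n‖ = 1 := by
  rw [dgsl_e_eq_single]; simp

theorem dgsl_snoc_eq (x' : DgE n) (t : ℝ) : dgSnoc x' t = dgsl_incl n x' + t • dgsl_e n := by
  apply dgsl_ext <;> simp [dgsl_e]

theorem dgsl_snoc_add_vert (x' : DgE n) (t s : ℝ) : dgSnoc x' (t + s) = dgSnoc x' t + s • dgsl_e n := by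
  apply dgsl_ext <;> simp [dgsl_e]

theorem dgsl_inner_e (x : DgE (n + 1)) : inner ℝ (dgsl_e n) x = x (Fin.last n) := by
  conv_lhs => rw [← dgsl_snoc_init_last x]
  rw [dgsl_e, dgsl_inner_snoc]; simp

theorem dgsl_incl_single (i : Fin n) :
    dgsl_incl n (EuclideanSpace.single i (1 : ℝ)) = EuclideanSpace.single i.castSucc (1 : ℝ) := by
  apply dgsl_ext
  · intro j
    by_cases h : j = i
    · subst h; simp
    · simp [h]
  · simp [(Fin.castSucc_ne_last i).symm]

/-! ## The measure -/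

/-- the isometry `WithLp 2 (DgE n × ℝ) ≃ DgE (n+1)` -/
noncomputable def dgsl_isom (n : ℕ) : WithLp 2 (DgE n × ℝ) ≃ₗᵢ[ℝ] DgE (n + 1) where
  toLinearEquiv := (WithLp.linearEquiv 2 ℝ (DgE n × ℝ)).trans (dgsl_equiv n).toLinearEquiv
  norm_map' := fun p => by
    have h : ‖dgSnoc p.fst p.snd‖ ^ 2 = ‖p‖ ^ 2 := by
      rw [dgsl_norm_sq_snoc, WithLp.prod_norm_sq_eq_of_L2]; simp
    exact (sq_eq_sq₀ (norm_nonneg _) (norm_nonneg _)).mp h

theorem dgsl_measurePreserving :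
    MeasurePreserving (fun p : DgE n × ℝ => dgSnoc p.1 p.2)
      ((volume : Measure (DgE n)).prod (volume : Measure ℝ)) (volume : Measure (DgE (n + 1))) := by
  have h1 : MeasurePreserving (@WithLp.toLp 2 (DgE n × ℝ)) := WithLp.volume_preserving_toLp _ _
  have h2 := (dgsl_isom n).measurePreserving
  exact h2.comp h1

theorem dgsl_measurableEmbedding :
    MeasurableEmbedding (fun p : DgE n × ℝ => dgSnoc p.1 p.2) :=
  (dgsl_equiv n).toHomeomorph.measurableEmbedding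

theorem dgsl_measurable_snoc : Measurable (fun p : DgE n × ℝ => dgSnoc p.1 p.2) :=
  dgsl_continuous_snoc.measurable

section fubini

variable {F : Type*} [NormedAddCommGroup F] [NormedSpace ℝ F]

theorem dgsl_integral_prod (f : DgE (n + 1) → F) :
    ∫ x, f x = ∫ p : DgE n × ℝ, f (dgSnoc p.1 p.2)
      ∂((volume : Measure (DgE n)).prod (volume : Measure ℝ)) :=
  (dgsl_measurePreserving.integral_comp dgsl_measurableEmbedding f).symm

omit [NormedSpace ℝ F] in
theorem dgsl_integrable_prod_iff (f : DgE (n + 1) → F) :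
    Integrable (fun p : DgE n × ℝ => f (dgSnoc p.1 p.2))
      ((volume : Measure (DgE n)).prod (volume : Measure ℝ)) ↔ Integrable f :=
  dgsl_measurePreserving.integrable_comp_emb dgsl_measurableEmbedding

/-- Fubini: first the vertical line, then the base -/
theorem dgsl_integral_snoc {f : DgE (n + 1) → F} (hf : Integrable f) :
    ∫ x, f x = ∫ x' : DgE n, ∫ t : ℝ, f (dgSnoc x' t) := by
  rw [dgsl_integral_prod]
  exact integral_prod _ ((dgsl_integrable_prod_iff f).2 hf)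

/-- Fubini: first the horizontal slice, then the height -/
theorem dgsl_integral_snoc' {f : DgE (n + 1) → F} (hf : Integrable f) :
    ∫ x, f x = ∫ t : ℝ, ∫ x' : DgE n, f (dgSnoc x' t) := by
  rw [dgsl_integral_prod]
  exact integral_prod_symm _ ((dgsl_integrable_prod_iff f).2 hf)

omit [NormedSpace ℝ F] in
theorem dgsl_integrable_vert_ae {f : DgE (n + 1) → F} (hf : Integrable f) :
    ∀ᵐ x' : DgE n, Integrable (fun t : ℝ => f (dgSnoc x' t)) :=
  ((dgsl_integrable_prod_iff f).2 hf).prod_right_ae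

omit [NormedSpace ℝ F] in
theorem dgsl_integrable_slice_ae {f : DgE (n + 1) → F} (hf : Integrable f) :
    ∀ᵐ t : ℝ, Integrable (fun x' : DgE n => f (dgSnoc x' t)) :=
  ((dgsl_integrable_prod_iff f).2 hf).prod_left_ae

theorem dgsl_integrable_integral_vert {f : DgE (n + 1) → F} (hf : Integrable f) :
    Integrable (fun x' : DgE n => ∫ t : ℝ, f (dgSnoc x' t)) :=
  ((dgsl_integrable_prod_iff f).2 hf).integral_prod_left

theorem dgsl_integrable_integral_slice {f : DgE (n + 1) → F} (hf : Integrable f) :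
    Integrable (fun t : ℝ => ∫ x' : DgE n, f (dgSnoc x' t)) :=
  ((dgsl_integrable_prod_iff f).2 hf).integral_prod_right

end fubini

theorem dgsl_lintegral_snoc {f : DgE (n + 1) → ENNReal} (hf : Measurable f) :
    ∫⁻ x, f x = ∫⁻ x' : DgE n, ∫⁻ t : ℝ, f (dgSnoc x' t) := by
  rw [← dgsl_measurePreserving.lintegral_comp hf]
  exact lintegral_prod _ (hf.comp dgsl_measurable_snoc).aemeasurable

theorem dgsl_lintegral_snoc' {f : DgE (n + 1) → ENNReal} (hf : Measurable f) :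
    ∫⁻ x, f x = ∫⁻ t : ℝ, ∫⁻ x' : DgE n, f (dgSnoc x' t) := by
  rw [← dgsl_measurePreserving.lintegral_comp hf]
  exact lintegral_prod_symm _ (hf.comp dgsl_measurable_snoc).aemeasurable

/-- the integral of a tensor product (no integrability needed) -/
theorem dgsl_integral_tensor (a : DgE n → ℝ) (b : ℝ → ℝ) :
    ∫ x : DgE (n + 1), a (dgsl_init n x) * b (dgsl_last n x) = (∫ x', a x') * ∫ t, b t := by
  rw [dgsl_integral_prod]
  simp only [dgsl_init_snoc, dgsl_last_snoc]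
  exact integral_prod_mul a b

theorem dgsl_integrable_tensor {a : DgE n → ℝ} {b : ℝ → ℝ} (ha : Integrable a) (hb : Integrable b) :
    Integrable (fun x : DgE (n + 1) => a (dgsl_init n x) * b (dgsl_last n x)) := by
  rw [← dgsl_integrable_prod_iff]
  simp only [dgsl_init_snoc, dgsl_last_snoc]
  exact ha.mul_prod hb

/-- the volume of a cylinder -/
theorem dgsl_volume_cyl (A : Set (DgE n)) (B : Set ℝ) :
    volume ((fun p : DgE n × ℝ => dgSnoc p.1 p.2) '' (A ×ˢ B)) = volume A * volume B := by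
  rw [← dgsl_measurePreserving.measure_preimage_emb dgsl_measurableEmbedding,
    dgsl_measurableEmbedding.injective.preimage_image]
  exact Measure.prod_prod A B

/-- the ball sits in the cylinder -/
theorem dgsl_ball_subset_cyl (x' : DgE n) (t R : ℝ) :
    ball (dgSnoc x' t) R ⊆ (fun p : DgE n × ℝ => dgSnoc p.1 p.2) '' (ball x' R ×ˢ ball t R) := by
  intro y hy
  refine ⟨(dgsl_init n y, dgsl_last n y), ⟨?_, ?_⟩, dgsl_snoc_init_last y⟩
  · rw [mem_ball, dist_eq_norm] at hy ⊢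
    refine lt_of_le_of_lt ?_ hy
    conv_rhs => rw [← dgsl_snoc_init_last y, ← dgsl_snoc_sub]
    exact dgsl_norm_le_snoc _ _
  · rw [mem_ball, dist_eq_norm] at hy ⊢
    refine lt_of_le_of_lt ?_ hy
    conv_rhs => rw [← dgsl_snoc_init_last y, ← dgsl_snoc_sub]
    exact dgsl_abs_le_snoc _ _

/-- the cylinder sits in the ball of radius `R + L` -/
theorem dgsl_cyl_subset_ball (x' : DgE n) (t R L : ℝ) :
    (fun p : DgE n × ℝ => dgSnoc p.1 p.2) '' (ball x' R ×ˢ ball t L) ⊆ ball (dgSnoc x' t) (R + L) := by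
  rintro _ ⟨p, ⟨h1, h2⟩, rfl⟩
  rw [mem_ball, dist_eq_norm] at h1 h2 ⊢
  simp only
  rw [← dgsl_snoc_sub]
  refine lt_of_le_of_lt (dgsl_norm_snoc_le _ _) ?_
  rw [Real.norm_eq_abs] at h2
  linarith

/-! ## Derivatives of slices -/

theorem dgsl_hasFDerivAt_snoc_left (x' : DgE n) (t : ℝ) :
    HasFDerivAt (fun y : DgE n => dgSnoc y t) (dgsl_incl n) x' := by
  have h : (fun y : DgE n => dgSnoc y t) = fun y => dgsl_incl n y + t • dgsl_e n := by
    funext y; exact dgsl_snoc_eq y t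
  rw [h]
  exact (dgsl_incl n).hasFDerivAt.add_const _

theorem dgsl_hasDerivAt_snoc_right (x' : DgE n) (t : ℝ) :
    HasDerivAt (fun s : ℝ => dgSnoc x' s) (dgsl_e n) t := by
  have h : (fun s : ℝ => dgSnoc x' s) = fun s => dgsl_incl n x' + s • dgsl_e n := by
    funext s; exact dgsl_snoc_eq x' s
  rw [h]
  simpa using ((hasDerivAt_id t).smul_const (dgsl_e n)).const_add (dgsl_incl n x')

theorem dgsl_hasFDerivAt_slice {u : DgE (n + 1) → ℝ} {x' : DgE n} {t : ℝ}
    (h : DifferentiableAt ℝ u (dgSnoc x' t)) :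
    HasFDerivAt (fun y : DgE n => u (dgSnoc y t))
      ((fderiv ℝ u (dgSnoc x' t)).comp (dgsl_incl n)) x' :=
  h.hasFDerivAt.comp x' (dgsl_hasFDerivAt_snoc_left x' t)

theorem dgsl_fderiv_slice {u : DgE (n + 1) → ℝ} {x' : DgE n} {t : ℝ}
    (h : DifferentiableAt ℝ u (dgSnoc x' t)) :
    fderiv ℝ (fun y : DgE n => u (dgSnoc y t)) x' = (fderiv ℝ u (dgSnoc x' t)).comp (dgsl_incl n) :=
  (dgsl_hasFDerivAt_slice h).fderiv

theorem dgsl_hasDerivAt_vert {u : DgE (n + 1) → ℝ} {x' : DgE n} {t : ℝ}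
    (h : DifferentiableAt ℝ u (dgSnoc x' t)) :
    HasDerivAt (fun s : ℝ => u (dgSnoc x' s)) (fderiv ℝ u (dgSnoc x' t) (dgsl_e n)) t :=
  h.hasFDerivAt.comp_hasDerivAt t (dgsl_hasDerivAt_snoc_right x' t)

theorem dgsl_deriv_vert {u : DgE (n + 1) → ℝ} {x' : DgE n} {t : ℝ}
    (h : DifferentiableAt ℝ u (dgSnoc x' t)) :
    deriv (fun s : ℝ => u (dgSnoc x' s)) t = fderiv ℝ u (dgSnoc x' t) (dgsl_e n) :=
  (dgsl_hasDerivAt_vert h).deriv

/-- Pythagoras for a linear functional on `DgE (n+1)` -/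
theorem dgsl_norm_sq_clm (l : DgE (n + 1) →L[ℝ] ℝ) :
    ‖l‖ ^ 2 = ‖l.comp (dgsl_incl n)‖ ^ 2 + (l (dgsl_e n)) ^ 2 := by
  set a : DgE (n + 1) := (InnerProductSpace.toDual ℝ (DgE (n + 1))).symm l with ha
  have hl : ∀ x, l x = inner ℝ a x := fun x => by
    rw [ha, InnerProductSpace.toDual_symm_apply]
  have hn : ‖l‖ = ‖a‖ := by rw [ha, LinearIsometryEquiv.norm_map]
  have h1 : l.comp (dgsl_incl n) = InnerProductSpace.toDual ℝ (DgE n) (dgsl_init n a) := by
    ext y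
    rw [ContinuousLinearMap.comp_apply, hl, InnerProductSpace.toDual_apply_apply, dgsl_incl_apply]
    conv_lhs => rw [← dgsl_snoc_init_last a]
    rw [dgsl_inner_snoc]; simp
  have h2 : l (dgsl_e n) = dgsl_last n a := by
    rw [hl, real_inner_comm, dgsl_inner_e]; rfl
  rw [h1, h2, LinearIsometryEquiv.norm_map, ← dgsl_norm_sq_snoc, dgsl_snoc_init_last, hn]

/-- `|∇u|² = |∇_{x'} u|² + (∂_t u)²` -/
theorem dgsl_norm_sq_fderiv {u : DgE (n + 1) → ℝ} {x' : DgE n} {t : ℝ}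
    (h : DifferentiableAt ℝ u (dgSnoc x' t)) :
    ‖fderiv ℝ u (dgSnoc x' t)‖ ^ 2 =
      ‖fderiv ℝ (fun y : DgE n => u (dgSnoc y t)) x'‖ ^ 2 + (deriv (fun s : ℝ => u (dgSnoc x' s)) t) ^ 2 := by
  rw [dgsl_fderiv_slice h, dgsl_deriv_vert h]
  exact dgsl_norm_sq_clm _

theorem dgsl_contDiff_snoc {k : WithTop ℕ∞} : ContDiff ℝ k (fun p : DgE n × ℝ => dgSnoc p.1 p.2) :=
  (dgsl_equiv n).contDiff

theorem dgsl_contDiff_slice {k : WithTop ℕ∞} {u : DgE (n + 1) → ℝ} (hu : ContDiff ℝ k u) (t : ℝ) :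
    ContDiff ℝ k (fun y : DgE n => u (dgSnoc y t)) :=
  hu.comp (dgsl_contDiff_snoc.comp (contDiff_id.prodMk contDiff_const))

theorem dgsl_contDiff_vert {k : WithTop ℕ∞} {u : DgE (n + 1) → ℝ} (hu : ContDiff ℝ k u) (x' : DgE n) :
    ContDiff ℝ k (fun s : ℝ => u (dgSnoc x' s)) :=
  hu.comp (dgsl_contDiff_snoc.comp (contDiff_const.prodMk contDiff_id))

/-! ## The Laplacian splits -/

theorem dgsl_iteratedFDeriv_slice {u : DgE (n + 1) → ℝ} (hu : ContDiff ℝ 2 u) (x' : DgE n) (t : ℝ)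
    (v w : DgE n) :
    iteratedFDeriv ℝ 2 (fun y : DgE n => u (dgSnoc y t)) x' ![v, w] =
      iteratedFDeriv ℝ 2 u (dgSnoc x' t) ![dgsl_incl n v, dgsl_incl n w] := by
  have h : (fun y : DgE n => u (dgSnoc y t)) = (fun z => u (z + t • dgsl_e n)) ∘ (dgsl_incl n) := by
    funext y; simp only [Function.comp_apply]; rw [← dgsl_snoc_eq]
  have hu' : ContDiff ℝ 2 (fun z => u (z + t • dgsl_e n)) := hu.comp (contDiff_id.add contDiff_const)
  rw [h, (dgsl_incl n).iteratedFDeriv_comp_right hu' x' le_rfl, iteratedFDeriv_comp_add_right,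
    ← dgsl_snoc_eq, ContinuousMultilinearMap.compContinuousLinearMap_apply]
  congr 1
  funext i
  fin_cases i <;> rfl

theorem dgsl_iteratedDeriv_vert {u : DgE (n + 1) → ℝ} (hu : ContDiff ℝ 2 u) (x' : DgE n) (t : ℝ) :
    iteratedDeriv 2 (fun s : ℝ => u (dgSnoc x' s)) t =
      iteratedFDeriv ℝ 2 u (dgSnoc x' t) ![dgsl_e n, dgsl_e n] := by
  have h : (fun s : ℝ => u (dgSnoc x' s)) =
      (fun z => u (z + dgsl_incl n x')) ∘ (ContinuousLinearMap.toSpanSingleton ℝ (dgsl_e n)) := by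
    funext s
    simp only [Function.comp_apply, ContinuousLinearMap.toSpanSingleton_apply]
    rw [add_comm, ← dgsl_snoc_eq]
  have hu' : ContDiff ℝ 2 (fun z => u (z + dgsl_incl n x')) := hu.comp (contDiff_id.add contDiff_const)
  rw [iteratedDeriv_eq_iteratedFDeriv, h,
    (ContinuousLinearMap.toSpanSingleton ℝ (dgsl_e n)).iteratedFDeriv_comp_right hu' t le_rfl,
    iteratedFDeriv_comp_add_right, ContinuousMultilinearMap.compContinuousLinearMap_apply,
    ContinuousLinearMap.toSpanSingleton_apply, add_comm (t • dgsl_e n), ← dgsl_snoc_eq]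
  congr 1
  funext i
  fin_cases i <;> simp

/-- `Δ u (x', t) = Δ_{x'} u(·, t) (x') + ∂_t² u (x', t)` -/
theorem dgsl_laplacian_snoc {u : DgE (n + 1) → ℝ} (hu : ContDiff ℝ 2 u) (x' : DgE n) (t : ℝ) :
    Laplacian.laplacian u (dgSnoc x' t) =
      Laplacian.laplacian (fun y : DgE n => u (dgSnoc y t)) x' +
        iteratedDeriv 2 (fun s : ℝ => u (dgSnoc x' s)) t := by
  rw [InnerProductSpace.laplacian_eq_iteratedFDeriv_orthonormalBasis u
      (EuclideanSpace.basisFun (Fin (n + 1)) ℝ),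
    InnerProductSpace.laplacian_eq_iteratedFDeriv_orthonormalBasis _
      (EuclideanSpace.basisFun (Fin n) ℝ), dgsl_iteratedDeriv_vert hu]
  simp only [EuclideanSpace.basisFun_apply]
  rw [Fin.sum_univ_castSucc]
  congr 1
  · refine Finset.sum_congr rfl fun i _ => ?_
    rw [dgsl_iteratedFDeriv_slice hu, dgsl_incl_single]
  · rw [dgsl_e_eq_single]

/-! ## Cylindrical extension of a function of `x'` -/

/-- the cylindrical extension `(x', t) ↦ v x'` -/
noncomputable def dgsl_up (v : DgE n → ℝ) : DgE (n + 1) → ℝ := fun x => v (dgsl_init n x)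

@[simp] theorem dgsl_up_snoc (v : DgE n → ℝ) (x' : DgE n) (t : ℝ) : dgsl_up v (dgSnoc x' t) = v x' := by
  simp [dgsl_up]

theorem dgsl_up_apply (v : DgE n → ℝ) (x : DgE (n + 1)) : dgsl_up v x = v (dgsl_init n x) := rfl

theorem dgsl_up_contDiff {k : WithTop ℕ∞} {v : DgE n → ℝ} (hv : ContDiff ℝ k v) :
    ContDiff ℝ k (dgsl_up v) :=
  hv.comp (dgsl_init n).contDiff

theorem dgsl_contDiff_of_up {k : WithTop ℕ∞} {v : DgE n → ℝ} (hv : ContDiff ℝ k (dgsl_up v)) :
    ContDiff ℝ k v := by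
  have h := dgsl_contDiff_slice hv 0
  simpa using h

theorem dgsl_up_continuous {v : DgE n → ℝ} (hv : Continuous v) : Continuous (dgsl_up v) :=
  hv.comp (dgsl_init n).continuous

theorem dgsl_up_laplacian {v : DgE n → ℝ} (hv : ContDiff ℝ 2 v) (x : DgE (n + 1)) :
    Laplacian.laplacian (dgsl_up v) x = Laplacian.laplacian v (dgsl_init n x) := by
  conv_lhs => rw [← dgsl_snoc_init_last x]
  rw [dgsl_laplacian_snoc (dgsl_up_contDiff hv)]
  simp only [dgsl_up_snoc]
  simp [iteratedDeriv_const]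

theorem dgsl_up_sol {v : DgE n → ℝ} (hv : DgSol n v) : DgSol (n + 1) (dgsl_up v) where
  smooth := dgsl_up_contDiff hv.smooth
  range := fun x => hv.range _
  pde := fun x => by rw [dgsl_up_laplacian hv.smooth]; exact hv.pde _

theorem dgsl_sol_of_up {v : DgE n → ℝ} (hv : DgSol (n + 1) (dgsl_up v)) : DgSol n v where
  smooth := dgsl_contDiff_of_up hv.smooth
  range := fun x => by simpa using hv.range (dgSnoc x 0)
  pde := fun x => by
    have h := hv.pde (dgSnoc x 0)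
    rw [dgsl_up_laplacian (dgsl_contDiff_of_up hv.smooth)] at h
    simpa using h

/-! ## Cylinder tests `φ(x') ψ(t)` -/

/-- the cylinder test `(x', t) ↦ φ x' * ψ t` -/
noncomputable def dgsl_cyl (φ : DgE n → ℝ) (ψ : ℝ → ℝ) : DgE (n + 1) → ℝ :=
  fun x => φ (dgsl_init n x) * ψ (dgsl_last n x)

@[simp] theorem dgsl_cyl_snoc (φ : DgE n → ℝ) (ψ : ℝ → ℝ) (x' : DgE n) (t : ℝ) :
    dgsl_cyl φ ψ (dgSnoc x' t) = φ x' * ψ t := by
  simp [dgsl_cyl]

theorem dgsl_cyl_contDiff {k : WithTop ℕ∞} {φ : DgE n → ℝ} {ψ : ℝ → ℝ} (hφ : ContDiff ℝ k φ)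
    (hψ : ContDiff ℝ k ψ) : ContDiff ℝ k (dgsl_cyl φ ψ) :=
  (hφ.comp (dgsl_init n).contDiff).mul (hψ.comp (dgsl_last n).contDiff)

theorem dgsl_cyl_hasCompactSupport {φ : DgE n → ℝ} {ψ : ℝ → ℝ} (hφ : HasCompactSupport φ)
    (hψ : HasCompactSupport ψ) : HasCompactSupport (dgsl_cyl φ ψ) := by
  have hK : IsCompact ((fun p : DgE n × ℝ => dgSnoc p.1 p.2) '' (tsupport φ ×ˢ tsupport ψ)) :=
    (hφ.isCompact.prod hψ.isCompact).image dgsl_continuous_snoc
  refine HasCompactSupport.intro hK fun x hx => ?_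
  by_contra hne
  apply hx
  refine ⟨(dgsl_init n x, dgsl_last n x), ⟨?_, ?_⟩, dgsl_snoc_init_last x⟩
  · exact subset_tsupport _ (fun h0 => hne (by simp only [dgsl_cyl]; rw [h0, zero_mul]))
  · exact subset_tsupport _ (fun h0 => hne (by simp only [dgsl_cyl]; rw [h0, mul_zero]))

/-- `|∇(φ ⊗ ψ)|² = |∇φ|² ψ² + φ² ψ'²` -/
theorem dgsl_cyl_norm_sq_fderiv {φ : DgE n → ℝ} {ψ : ℝ → ℝ} (hφ : Differentiable ℝ φ)
    (hψ : Differentiable ℝ ψ) (x' : DgE n) (t : ℝ) :
    ‖fderiv ℝ (dgsl_cyl φ ψ) (dgSnoc x' t)‖ ^ 2 =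
      ‖fderiv ℝ φ x'‖ ^ 2 * ψ t ^ 2 + φ x' ^ 2 * (deriv ψ t) ^ 2 := by
  have hd : DifferentiableAt ℝ (dgsl_cyl φ ψ) (dgSnoc x' t) :=
    ((hφ.comp (dgsl_init n).differentiable).mul (hψ.comp (dgsl_last n).differentiable)) _
  rw [dgsl_norm_sq_fderiv hd]
  simp only [dgsl_cyl_snoc]
  have h1 : fderiv ℝ (fun y : DgE n => φ y * ψ t) x' = ψ t • fderiv ℝ φ x' :=
    ((hφ x').hasFDerivAt.mul_const (ψ t)).fderiv
  have h2 : deriv (fun s : ℝ => φ x' * ψ s) t = φ x' * deriv ψ t :=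
    ((hψ t).hasDerivAt.const_mul (φ x')).deriv
  rw [h1, h2, norm_smul, Real.norm_eq_abs, mul_pow, sq_abs, mul_pow]
  ring

end Claimed.Agent.R329
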