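import Claimed.Agent.R329.StabMono
import Claimed.Agent.R329.EndProfiles
import Claimed.Agent.R329.Calib
import Claimed.Agent.R329.Slide
import Claimed.Agent.R329.Growth
import Claimed.Agent.R329.Base258
import Claimed.Agent.R329.Rot
import Claimed.Agent.R329.Liouville
import Claimed.Agent.R329.OneDStable
import Claimed.Agent.R329.OneD
import Claimed.Agent.R329.FlatEnd
import Claimed.Agent.R329.Hub
import Claimed.Agent.R329.Slice
import Claimed.Agent.Lib.Gmt.IF

/-!
# Row 329: BY-PRODUCTS IN LOW DIMENSIONS, unconditional      (pen: helper218, prefix `dgLD_`)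

No open contract below any theorem of this file (no K9, no K10: `#print axioms` = the three); the first three parts use no geometric measure theory.

* `dgLD_stable_two`     : the statement of S0588 in `ℝ²` (a stable solution of the plane is a well or a planar transition;
                          Ghoussoub-Gui 1998, Berestycki-Caffarelli-Nirenberg 1997), also in `ℝ¹`.
* `dgLD_K9_le_three`    : contract K9 (Theorem 1.3 of the paper) in `ℝⁿ`, `n ≤ 3` (Ambrosio-Cabré 2000).
* `dgLD_deGiorgi_two`   : the statement of S0587 in `ℝ²` = De Giorgi's conjecture in the plane (Ghoussoub-Gui 1998).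
* `dgLD_deGiorgi_three` : the statement of S0587 in `ℝ³` = De Giorgi's conjecture in space (Ambrosio-Cabré 2000).
* `dgLD_min_of_ends`    : K2 + K3 + K4 in every dimension: if the stable solutions of `ℝⁿ` are rigid, the monotone solutions of `ℝⁿ⁺¹`
                          are global minimisers (`dgLD_min_of_own_ends`: only the two end profiles of `u` are asked to be rigid).
* `dgLD_gibbons`        : GIBBONS' CONJECTURE in every dimension (Farina 1999, Barlow-Bass-Gui 2000, Berestycki-Hamel-Monneau 2000);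
                          `dgLD_gibbons_core`: one level `7/8` is enough.
* `dgLD_monotone_core`  : Part I of the paper in EVERY dimension `n + 1 ≤ 8`; `dgLD_reduction`: S0588 in `ℝⁿ` implies S0587 in `ℝⁿ⁺¹`, `n ≤ 7`;
                          `dgLD_deGiorgi_four_of_ends`: De Giorgi's conjecture in `ℝ⁴` when the end profiles have finite density.
* `dgLD_bernstein`      : THE BERNSTEIN THEOREM FOR MINIMAL BOUNDARIES: a global perimeter minimiser of `ℝᵐ`, `2 ≤ m ≤ 7`, is a half-space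
                          (De Giorgi, Fleming, Almgren, Simons), from `Lib/Gmt` (monotonicity, compactness, regularity, Simons' theorem).
* `dgLD_calib`          : CALIBRATION: if all level sets of `φ` are minimal, `{φ < 0}` is a global perimeter minimiser; `dgLD_graph_min`: subgraphs.
* `dgLD_bernstein_graph`: BERNSTEIN'S THEOREM: an entire smooth solution of the minimal surface equation on `ℝⁿ` is affine.

Road: Modica's bound gives `E(u; B_R) ≤ C Rⁿ`; the Liouville theorem `dgli_main` (post A13) turns `stable + E ≤ C R²` into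
one-dimensional symmetry; `dgo_rigid_of_oneD` (post A18) classifies.  In `ℝ³`: the end profiles are stable solutions of `ℝ²`, hence rigid,
hence minimising barriers (K3), so `u` is a minimiser (K4), so `E ≤ C R²` (K5).
-/

set_option autoImplicit false

open MeasureTheory Metric Set Filter Topology

namespace Claimed.Agent.R329

/-- Modica: the energy density of a solution is at most `1/2`. -/
theorem dgLD_dens_le {n : ℕ} {u : DgE n → ℝ} (hu : DgSol n u) (x : DgE n) : dgDens n u x ≤ 1 / 2 := by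
  have h1 := dg258_exit_modica hu x
  have h2 : dgW (u x) ≤ 1 / 4 := by
    obtain ⟨h3, h4⟩ := hu.range x
    unfold dgW
    have h5 : 0 ≤ 1 - u x ^ 2 := by nlinarith
    have h6 : 1 - u x ^ 2 ≤ 1 := by nlinarith [sq_nonneg (u x)]
    nlinarith
  unfold dgDens
  linarith

/-- the energy of a solution grows at most like the volume. -/
theorem dgLD_en_le {n : ℕ} {u : DgE n → ℝ} (hu : DgSol n u) {R : ℝ} (hR : 0 < R) :
    dgEn n u 0 R ≤ 1 / 2 * volume.real (ball (0 : DgE n) 1) * R ^ n := by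
  have hu1 : ContDiff ℝ 1 u := hu.smooth.of_le (by norm_num)
  have h1 : dgEn n u 0 R ≤ ∫ _x in ball (0 : DgE n) R, (1 / 2 : ℝ) :=
    setIntegral_mono (dgro_integrableOn_dens hu1 0 R) (integrableOn_const measure_ball_lt_top.ne) (dgLD_dens_le hu)
  rw [setIntegral_const, dgB8_volume_ball hR, smul_eq_mul] at h1
  linarith

/-- stable + quadratic energy growth: rigid (every dimension). -/
theorem dgLD_rigid_of_quadratic {n : ℕ} (hn : 1 ≤ n) {u : DgE n → ℝ} (hu : DgSol n u) (hs : DgStable n u) {C : ℝ}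
    (hE : ∀ R : ℝ, 1 ≤ R → dgEn n u 0 R ≤ C * R ^ 2) : DgRigid n u :=
  dgo_rigid_of_oneD hu hs (dgli_main hn hu hs hE)

/-- **Theorem 1.2 of the paper (S0588) in dimensions one and two.** -/
theorem dgLD_stable_le_two {n : ℕ} (h1 : 1 ≤ n) (h2 : n ≤ 2) {v : DgE n → ℝ} (hv : DgSol n v) (hs : DgStable n v) :
    DgRigid n v := by
  refine dgLD_rigid_of_quadratic h1 hv hs (C := 1 / 2 * volume.real (ball (0 : DgE n) 1)) fun R hR => ?_
  refine (dgLD_en_le hv (by linarith)).trans ?_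
  exact mul_le_mul_of_nonneg_left (pow_le_pow_right₀ hR h2) (by positivity)

/-- **Contract K9 (Theorem 1.3 of the paper) in dimensions at most three.** -/
theorem dgLD_K9_le_three {n : ℕ} (h1 : 1 ≤ n) (h3 : n ≤ 3) {v : DgE n → ℝ} (hv : DgSol n v) (hs : DgStable n v)
    (hd : DgFinDens n v) : DgRigid n v := by
  obtain ⟨C, hC⟩ := hd
  refine dgLD_rigid_of_quadratic h1 hv hs (C := |C|) fun R hR => (hC R hR).trans ?_
  have hR0 : (0 : ℝ) ≤ R := by linarith
  calc C * R ^ (n - 1) ≤ |C| * R ^ (n - 1) := mul_le_mul_of_nonneg_right (le_abs_self C) (by positivity)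
    _ ≤ |C| * R ^ 2 := mul_le_mul_of_nonneg_left (pow_le_pow_right₀ hR (by omega)) (abs_nonneg C)

theorem dgLD_planar_of_rigid {n : ℕ} {u : DgE n → ℝ} (hr : ∀ x, u x ∈ Ioo (-1 : ℝ) 1) (h : DgRigid n u) : DgPlanar n u := by
  rcases h with h | h | h
  · exact absurd (h 0) (hr 0).2.ne
  · exact absurd (h 0) (hr 0).1.ne'
  · exact h

/-- **K2 + K3 + K4 in every dimension**: a strictly monotone solution of `ℝⁿ⁺¹` whose two end profiles are rigid is a global minimiser. -/
theorem dgLD_min_of_own_ends {n : ℕ} {u : DgE (n + 1) → ℝ} (hu : DgSol (n + 1) u)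
    (hmono : ∀ x, 0 < fderiv ℝ u x (EuclideanSpace.single (Fin.last n) 1))
    (hrig : ∀ v : DgE n → ℝ, DgSol n v → DgStable n v →
      ((∀ x : DgE (n + 1), Tendsto (fun s : ℝ => u (x + s • EuclideanSpace.single (Fin.last n) 1)) atTop
          (𝓝 (v (WithLp.toLp 2 fun i : Fin n => x i.castSucc)))) ∨
        (∀ x : DgE (n + 1), Tendsto (fun s : ℝ => u (x + s • EuclideanSpace.single (Fin.last n) 1)) atBot
          (𝓝 (v (WithLp.toLp 2 fun i : Fin n => x i.castSucc))))) → DgRigid n v) : DgMin (n + 1) u := by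
  obtain ⟨vm, vp, H⟩ := dg88e_ends' hu hmono
  have hlm : ∀ x : DgE (n + 1), Tendsto (fun s : ℝ => u (x + s • EuclideanSpace.single (Fin.last n) 1)) atBot
      (𝓝 (vm (WithLp.toLp 2 fun i : Fin n => x i.castSucc))) := fun x =>
    (dg88e_unif_of_seq H.conv_m (isCompact_singleton (x := x))).tendsto_at (mem_singleton x)
  have hlp : ∀ x : DgE (n + 1), Tendsto (fun s : ℝ => u (x + s • EuclideanSpace.single (Fin.last n) 1)) atTop
      (𝓝 (vp (WithLp.toLp 2 fun i : Fin n => x i.castSucc))) := fun x =>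
    (dg88e_unif_of_seq H.conv_p (isCompact_singleton (x := x))).tendsto_at (mem_singleton x)
  have hminm : DgMin (n + 1) fun x : DgE (n + 1) => vm (WithLp.toLp 2 fun i : Fin n => x i.castSucc) :=
    (dgB1_exit_ext_lip (hrig vm H.sol_m H.stable_m (Or.inr hlm))).dgMin
  have hminp : DgMin (n + 1) fun x : DgE (n + 1) => vp (WithLp.toLp 2 fun i : Fin n => x i.castSucc) :=
    (dgB1_exit_ext_lip (hrig vp H.sol_p H.stable_p (Or.inl hlp))).dgMin
  exact dgB2_min hu _ hmono (H.ext_sol_m.smooth.of_le (by norm_num)) (H.ext_sol_p.smooth.of_le (by norm_num)) hminm hminp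
    hlm hlp

theorem dgLD_min_of_ends {n : ℕ} {u : DgE (n + 1) → ℝ} (hu : DgSol (n + 1) u)
    (hmono : ∀ x, 0 < fderiv ℝ u x (EuclideanSpace.single (Fin.last n) 1))
    (hrig : ∀ v : DgE n → ℝ, DgSol n v → DgStable n v → DgRigid n v) : DgMin (n + 1) u :=
  dgLD_min_of_own_ends hu hmono fun v hv hs _ => hrig v hv hs

/-- contract K10 in dimensions one and two. -/
theorem dgLD_K10_le_two {n : ℕ} (h1 : 1 ≤ n) (h2 : n ≤ 2) {v : DgE n → ℝ} (hv : DgSol n v) (hs : DgStable n v) :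
    DgFinDens n v :=
  dgB8_K5_closed hv (dgB1_exit_min (dgLD_stable_le_two h1 h2 hv hs))

/-- De Giorgi's conjecture in dimensions one and two, any coordinate direction. -/
theorem dgLD_deGiorgi_le_two {n : ℕ} (h1 : 1 ≤ n) (h2 : n ≤ 2) {u : DgE n → ℝ} (hu : DgSol n u)
    (hr : ∀ x, u x ∈ Ioo (-1 : ℝ) 1) (k : Fin n) (hmono : ∀ x, 0 < fderiv ℝ u x (EuclideanSpace.single k 1)) :
    ∃ e : DgE n, ‖e‖ = 1 ∧ 0 < e k ∧ ∃ c : ℝ, ∀ x, u x = Real.tanh ((inner ℝ e x - c) / Real.sqrt 2) :=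
  dg1_K8 (dgLD_planar_of_rigid hr (dgLD_stable_le_two h1 h2 hu (dgA7_stable hu _ hmono))) k hmono

/-- the step from `ℝⁿ` to `ℝⁿ⁺¹`, `n ≤ 2`, without geometric measure theory. -/
theorem dgLD_deGiorgi_step {n : ℕ} (h2 : n ≤ 2)
    (hrig : ∀ v : DgE n → ℝ, DgSol n v → DgStable n v → DgRigid n v)
    {u : DgE (n + 1) → ℝ} (hu : DgSol (n + 1) u) (hr : ∀ x, u x ∈ Ioo (-1 : ℝ) 1)
    (hmono : ∀ x, 0 < fderiv ℝ u x (EuclideanSpace.single (Fin.last n) 1)) :
    ∃ e : DgE (n + 1), ‖e‖ = 1 ∧ 0 < e (Fin.last n) ∧ ∃ c : ℝ,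
      ∀ x, u x = Real.tanh ((inner ℝ e x - c) / Real.sqrt 2) :=
  dg1_K8 (dgLD_planar_of_rigid hr (dgLD_K9_le_three (by omega) (by omega) hu (dgA7_stable hu _ hmono)
    (dgB8_K5_closed hu (dgLD_min_of_ends hu hmono hrig)))) _ hmono

/-! ## The statements, in the words of S0588 and S0587 -/

/-- **The statement of S0588 in `ℝ²`, unconditional.** -/
theorem dgLD_stable_two (v : EuclideanSpace ℝ (Fin 2) → ℝ) (hv : ContDiff ℝ 2 v)
    (hrange : ∀ x, v x ∈ Set.Icc (-1 : ℝ) 1)
    (hpde : ∀ x, Laplacian.laplacian v x = v x ^ 3 - v x)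
    (hstable : ∀ φ : EuclideanSpace ℝ (Fin 2) → ℝ, ContDiff ℝ 1 φ → HasCompactSupport φ →
      0 ≤ ∫ x, (‖fderiv ℝ φ x‖ ^ 2 + (3 * v x ^ 2 - 1) * φ x ^ 2)) :
    (∀ x, v x = 1) ∨ (∀ x, v x = -1) ∨
      ∃ a : EuclideanSpace ℝ (Fin 2), ‖a‖ = 1 ∧ ∃ b : ℝ,
        ∀ x, v x = Real.tanh ((inner ℝ a x - b) / Real.sqrt 2) :=
  dgLD_stable_le_two (by norm_num) le_rfl ⟨hv, hrange, hpde⟩ hstable

/-- **De Giorgi's conjecture in `ℝ²` (the statement of S0587 in the plane), unconditional.** -/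
theorem dgLD_deGiorgi_two (u : EuclideanSpace ℝ (Fin 2) → ℝ) (hu : ContDiff ℝ 2 u)
    (hrange : ∀ x, u x ∈ Set.Ioo (-1 : ℝ) 1)
    (hpde : ∀ x, Laplacian.laplacian u x = u x ^ 3 - u x)
    (hmono : ∀ x, 0 < fderiv ℝ u x (EuclideanSpace.single 1 1)) :
    ∃ e : EuclideanSpace ℝ (Fin 2), ‖e‖ = 1 ∧ 0 < e 1 ∧ ∃ c : ℝ,
      ∀ x, u x = Real.tanh ((inner ℝ e x - c) / Real.sqrt 2) :=
  dgLD_deGiorgi_le_two (by norm_num) le_rfl ⟨hu, fun x => Set.Ioo_subset_Icc_self (hrange x), hpde⟩ hrange 1 hmono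

/-- **De Giorgi's conjecture in `ℝ³` (the statement of S0587 in space), unconditional.** -/
theorem dgLD_deGiorgi_three (u : EuclideanSpace ℝ (Fin 3) → ℝ) (hu : ContDiff ℝ 2 u)
    (hrange : ∀ x, u x ∈ Set.Ioo (-1 : ℝ) 1)
    (hpde : ∀ x, Laplacian.laplacian u x = u x ^ 3 - u x)
    (hmono : ∀ x, 0 < fderiv ℝ u x (EuclideanSpace.single 2 1)) :
    ∃ e : EuclideanSpace ℝ (Fin 3), ‖e‖ = 1 ∧ 0 < e 2 ∧ ∃ c : ℝ,
      ∀ x, u x = Real.tanh ((inner ℝ e x - c) / Real.sqrt 2) :=
  dgLD_deGiorgi_step (n := 2) le_rfl (fun _ hv hs => dgLD_stable_le_two (by norm_num) le_rfl hv hs)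
    ⟨hu, fun x => Set.Ioo_subset_Icc_self (hrange x), hpde⟩ hrange hmono

/-! ## Gibbons' conjecture -/

/-- a function which is in the phase `+` above the hyperplane `x_k = M` and in the phase `-` below `x_k = -M` is flat in the direction
`e_k` (in the words of `SlideEnd.lean`). -/
theorem dgLD_flat_of_strip {n : ℕ} {u : DgE n → ℝ} (k : Fin n) {M : ℝ}
    (hp : ∀ x : DgE n, M ≤ x k → 7 / 8 < u x) (hm : ∀ x : DgE n, x k ≤ -M → u x < -(7 / 8)) :
    DgFlat n u (EuclideanSpace.single k 1) := by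
  intro ε hε
  refine ⟨2 * M, fun x₀ x hx₀ => ?_⟩
  have hin : inner ℝ (x - x₀) (EuclideanSpace.single k (1 : ℝ)) = x k - x₀ k := by
    simp [EuclideanSpace.inner_single_right]
  have h1 : x₀ k < M := by
    by_contra h
    have h' := hp x₀ (not_lt.1 h)
    have := (abs_le.1 hx₀).2
    linarith
  have h2 : -M < x₀ k := by
    by_contra h
    have h' := hm x₀ (not_lt.1 h)
    have := (abs_le.1 hx₀).1
    linarith
  have h3 : 0 ≤ ε * ‖x - x₀‖ := by positivity
  rw [hin]
  constructor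
  · intro h
    have := hp x (by linarith)
    linarith
  · intro h
    have := hm x (by linarith)
    linarith

/-- the core of Gibbons' conjecture: ONE level is enough. -/
theorem dgLD_gibbons_core {n : ℕ} {u : DgE n → ℝ} (hu : DgSol n u) (k : Fin n) {M : ℝ}
    (hp : ∀ x : DgE n, M ≤ x k → 7 / 8 < u x) (hm : ∀ x : DgE n, x k ≤ -M → u x < -(7 / 8)) :
    ∃ c : ℝ, ∀ x, u x = Real.tanh ((x k - c) / Real.sqrt 2) := by
  set e : DgE n := EuclideanSpace.single k 1 with he
  have hen : ‖e‖ = 1 := by simp [he]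
  have hF : DgFlat n u e := dgLD_flat_of_strip k hp hm
  have hex : ∀ x : DgE n, inner ℝ e x = x k := fun x => dgro_inner_single x k
  have hek : ∀ t : ℝ, (t • e) k = t := fun t => by simp [he]
  have hcont : Continuous fun t : ℝ => u (t • e) :=
    hu.smooth.continuous.comp (continuous_id.smul continuous_const)
  obtain ⟨t₀, ht₀⟩ : (0 : ℝ) ∈ range fun t : ℝ => u (t • e) :=
    mem_range_of_exists_le_of_exists_ge hcont
      ⟨-|M|, by
        have := hm ((-|M|) • e) (by rw [hek]; exact neg_le_neg (le_abs_self M))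
        linarith⟩
      ⟨|M|, by
        have := hp (|M| • e) (by rw [hek]; exact le_abs_self M)
        linarith⟩
  have ht₀' : u (t₀ • e) = 0 := ht₀
  have hne : ∃ x, |u x| < 1 := ⟨t₀ • e, by rw [ht₀']; simp⟩
  obtain ⟨a, ha, b, hab⟩ := dgFE_planar_of_flat hu hen hF hne
  have h1D := (dgSE_oneD hu hen hF).1
  have hae : inner ℝ a e = a k := by rw [real_inner_comm, hex]
  have hs2 : (0 : ℝ) < Real.sqrt 2 := by positivity
  have hlin : ∀ x : DgE n, inner ℝ a x = x k * a k := by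
    intro x
    have h1 := h1D x
    rw [hab x, hab (inner ℝ e x • e), inner_smul_right, hae, hex] at h1
    have h2 := (div_left_inj' hs2.ne').1 (Real.tanh_injective h1)
    linarith
  have hα2 : a k * a k = 1 := by
    have := hlin a
    rw [real_inner_self_eq_norm_sq, ha] at this
    linarith
  rcases mul_self_eq_one_iff.1 hα2 with h | h
  · exact ⟨b, fun x => by rw [hab x, hlin x, h, mul_one]⟩
  · exfalso
    set t : ℝ := max M (-b) + 1 with ht
    have h1 := hp (t • e) (by rw [hek]; have := le_max_left M (-b); linarith)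
    rw [hab, hlin, hek, h] at h1
    have h2 : (t * -1 - b) / Real.sqrt 2 < 0 :=
      div_neg_of_neg_of_pos (by have := le_max_right M (-b); linarith) hs2
    have h3 : Real.tanh ((t * -1 - b) / Real.sqrt 2) < 0 := by
      rw [Real.tanh_eq_sinh_div_cosh]
      exact div_neg_of_neg_of_pos (Real.sinh_neg_iff.2 h2) (Real.cosh_pos _)
    linarith

/-- **GIBBONS' CONJECTURE, EVERY DIMENSION, unconditional** (Farina 1999; Barlow-Bass-Gui 2000; Berestycki-Hamel-Monneau 2000): an entire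
solution with `u → ±1` as `x_k → ±∞`, UNIFORMLY in the other variables, is the planar transition in the direction `e_k`. -/
theorem dgLD_gibbons {n : ℕ} (k : Fin n) (u : EuclideanSpace ℝ (Fin n) → ℝ) (hu : ContDiff ℝ 2 u)
    (hrange : ∀ x, u x ∈ Set.Icc (-1 : ℝ) 1)
    (hpde : ∀ x, Laplacian.laplacian u x = u x ^ 3 - u x)
    (hplus : ∀ δ : ℝ, 0 < δ → ∃ M : ℝ, ∀ x : EuclideanSpace ℝ (Fin n), M ≤ x k → |u x - 1| < δ)
    (hminus : ∀ δ : ℝ, 0 < δ → ∃ M : ℝ, ∀ x : EuclideanSpace ℝ (Fin n), x k ≤ -M → |u x + 1| < δ) :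
    ∃ c : ℝ, ∀ x, u x = Real.tanh ((x k - c) / Real.sqrt 2) := by
  obtain ⟨M₁, h₁⟩ := hplus (1 / 8) (by norm_num)
  obtain ⟨M₂, h₂⟩ := hminus (1 / 8) (by norm_num)
  refine dgLD_gibbons_core ⟨hu, hrange, hpde⟩ k (M := max M₁ M₂) (fun x hx => ?_) (fun x hx => ?_)
  · have := abs_lt.1 (h₁ x (le_trans (le_max_left _ _) hx))
    linarith [this.1]
  · have := abs_lt.1 (h₂ x (le_trans hx (neg_le_neg (le_max_right _ _))))
    linarith [this.2]

/-! ## Part I of the paper in every dimension (uses the Hub: Savin's theorem for minimisers) -/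

/-- **PART I OF THE PAPER IN EVERY DIMENSION `n + 1 ≤ 8`, no open contract below it**: a strictly monotone solution of `ℝⁿ⁺¹` whose two end
profiles (stable solutions of `ℝⁿ`) are rigid is a planar transition.  (`n = 7`: `dgHub_monotone_core`.) -/
theorem dgLD_monotone_core {n : ℕ} (h7 : n ≤ 7) {u : DgE (n + 1) → ℝ} (hu : DgSol (n + 1) u)
    (hr : ∀ x, u x ∈ Ioo (-1 : ℝ) 1)
    (hmono : ∀ x, 0 < fderiv ℝ u x (EuclideanSpace.single (Fin.last n) 1))
    (hrig : ∀ v : DgE n → ℝ, DgSol n v → DgStable n v →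
      ((∀ x : DgE (n + 1), Tendsto (fun s : ℝ => u (x + s • EuclideanSpace.single (Fin.last n) 1)) atTop
          (𝓝 (v (WithLp.toLp 2 fun i : Fin n => x i.castSucc)))) ∨
        (∀ x : DgE (n + 1), Tendsto (fun s : ℝ => u (x + s • EuclideanSpace.single (Fin.last n) 1)) atBot
          (𝓝 (v (WithLp.toLp 2 fun i : Fin n => x i.castSucc))))) → DgRigid n v) :
    ∃ e : DgE (n + 1), ‖e‖ = 1 ∧ 0 < e (Fin.last n) ∧ ∃ c : ℝ,
      ∀ x, u x = Real.tanh ((inner ℝ e x - c) / Real.sqrt 2) := by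
  rcases Nat.lt_or_ge n 7 with h | h
  · rcases Nat.eq_zero_or_pos n with rfl | h0
    · exact dgLD_deGiorgi_le_two le_rfl (by norm_num) hu hr _ hmono
    · exact dg1_K8 (dgHub_savin_min (by omega) (by omega) u hu.smooth hr hu.pde (dgLD_min_of_own_ends hu hmono hrig)) _ hmono
  · obtain rfl : n = 7 := by omega
    exact dgHub_monotone_core hu hr hmono hrig

/-- **THE REDUCTION IN EVERY DIMENSION**: for `n ≤ 7`, the statement of S0588 in `ℝⁿ` implies the statement of S0587 in `ℝⁿ⁺¹`. -/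
theorem dgLD_reduction {n : ℕ} (h7 : n ≤ 7)
    (hrig : ∀ v : DgE n → ℝ, DgSol n v → DgStable n v → DgRigid n v)
    {u : DgE (n + 1) → ℝ} (hu : DgSol (n + 1) u) (hr : ∀ x, u x ∈ Ioo (-1 : ℝ) 1)
    (hmono : ∀ x, 0 < fderiv ℝ u x (EuclideanSpace.single (Fin.last n) 1)) :
    ∃ e : DgE (n + 1), ‖e‖ = 1 ∧ 0 < e (Fin.last n) ∧ ∃ c : ℝ,
      ∀ x, u x = Real.tanh ((inner ℝ e x - c) / Real.sqrt 2) :=
  dgLD_monotone_core h7 hu hr hmono fun v hv hs _ => hrig v hv hs

/-- **De Giorgi's conjecture in `ℝ⁴` for solutions whose end profiles have finite density** (`E(v; B_R) ≤ C R²`). -/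
theorem dgLD_deGiorgi_four_of_ends (u : EuclideanSpace ℝ (Fin 4) → ℝ) (hu : ContDiff ℝ 2 u)
    (hrange : ∀ x, u x ∈ Set.Ioo (-1 : ℝ) 1)
    (hpde : ∀ x, Laplacian.laplacian u x = u x ^ 3 - u x)
    (hmono : ∀ x, 0 < fderiv ℝ u x (EuclideanSpace.single 3 1))
    (hends : ∀ v : DgE 3 → ℝ, DgSol 3 v →
      ((∀ x : DgE 4, Tendsto (fun s : ℝ => u (x + s • EuclideanSpace.single 3 1)) atTop
          (𝓝 (v (WithLp.toLp 2 fun i : Fin 3 => x i.castSucc)))) ∨
        (∀ x : DgE 4, Tendsto (fun s : ℝ => u (x + s • EuclideanSpace.single 3 1)) atBot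
          (𝓝 (v (WithLp.toLp 2 fun i : Fin 3 => x i.castSucc))))) → DgFinDens 3 v) :
    ∃ e : EuclideanSpace ℝ (Fin 4), ‖e‖ = 1 ∧ 0 < e 3 ∧ ∃ c : ℝ,
      ∀ x, u x = Real.tanh ((inner ℝ e x - c) / Real.sqrt 2) :=
  dgLD_monotone_core (n := 3) (by norm_num) ⟨hu, fun x => Set.Ioo_subset_Icc_self (hrange x), hpde⟩ hrange hmono
    fun v hv hs h => dgLD_K9_le_three (by norm_num) le_rfl hv hs (hends v hv h)

/-! ## The Bernstein theorem for minimal boundaries -/

section Bernstein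

open Claimed.Agent.Gmt

theorem dgLD_refl_eq (m : ℕ) : (LinearIsometryEquiv.refl ℝ (E m)).toContinuousLinearEquiv =
    ContinuousLinearEquiv.refl ℝ (E m) := by
  ext v
  rfl

/-- translates and dilates of global perimeter minimisers are global perimeter minimisers. -/
theorem dgLD_min_dil {m : ℕ} (hm : 1 ≤ m) {S : Set (E m)} (hS : GmtMin univ S) (x : E m) {ρ : ℝ} (hρ : 0 < ρ) :
    GmtMin univ (gmtDil x ρ S) := by
  have h := gmt_blow_min hm (LinearIsometryEquiv.refl ℝ (E m)) x hρ hS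
  rw [dgLD_refl_eq, gmtBlow_refl, gmtBlow_refl] at h
  have hu : gmtDil x ρ (univ : Set (E m)) = univ := by
    ext y
    simp [gmtDil]
  rwa [hu] at h

/-- a perimeter minimising cone of `ℝᵐ`, `2 ≤ m ≤ 7`, with the vertex on its boundary is a half-space (regularity + Simons). -/
theorem dgLD_cone_half {m : ℕ} (h2 : 2 ≤ m) (h7 : m ≤ 7) {C : Set (E m)} (hC : GmtMin univ C) (hc : GmtCone C)
    (h0 : (0 : E m) ∈ gmtBd C) : ∃ e : E m, ‖e‖ = 1 ∧ C =ᵐ[volume] gmtHalf 0 e := by
  have hsing : gmtSing C univ = ∅ := gmt_sing_empty h2 h7 gmtData_eu hC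
  refine gmt_simons h2 h7 hC hc (fun x hx _ => ?_) h0
  by_contra hreg
  have hx' : x ∈ gmtSing C univ := ⟨mem_univ _, hx, hreg⟩
  rw [hsing] at hx'
  exact hx'

/-- all half-spaces through the origin have the same density ratio. -/
theorem dgLD_I_half {m : ℕ} (i : Fin m) {e e' : E m} (he : ‖e‖ = 1) (he' : ‖e'‖ = 1) :
    gmtI (gmtHalf 0 e) 0 1 = gmtI (gmtHalf 0 e') 0 1 := by
  obtain ⟨L, hL⟩ := dgro_exists_rot e he i
  obtain ⟨L', hL'⟩ := dgro_exists_rot e' he' i
  set O : E m ≃ₗᵢ[ℝ] E m := L.symm.trans L' with hOdef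
  have hO : O e = e' := by
    rw [hOdef, LinearIsometryEquiv.trans_apply, ← hL, LinearIsometryEquiv.symm_apply_apply, hL']
  have h := gmtI_gmtBlow O 0 one_pos (measurableSet_gmtHalf 0 e) 0 1
  have hb : gmtBlow O.toContinuousLinearEquiv 0 1 (gmtHalf 0 e) = gmtHalf 0 e' := by
    ext y
    have h1 : inner ℝ (O.symm y) e = inner ℝ y e' := by
      rw [← O.inner_map_map (O.symm y) e, O.apply_symm_apply, hO]
    have h2 : gmtAff O.toContinuousLinearEquiv 0 1 y = O.symm y := by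
      simp [gmtAff]
    show gmtAff O.toContinuousLinearEquiv 0 1 y ∈ gmtHalf 0 e ↔ y ∈ gmtHalf 0 e'
    rw [h2]
    show inner ℝ (O.symm y - 0) e < 0 ↔ inner ℝ (y - 0) e' < 0
    rw [sub_zero, sub_zero, h1]
  have h3 : gmtAff O.toContinuousLinearEquiv (0 : E m) 1 0 = 0 := by
    simp [gmtAff]
  rw [hb, h3, mul_one] at h
  exact h.symm

/-- **THE BERNSTEIN THEOREM FOR MINIMAL BOUNDARIES** (De Giorgi, Fleming, Almgren, Simons): a global perimeter minimiser of `ℝᵐ`,
`2 ≤ m ≤ 7`, with non-empty boundary is a half-space. -/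
theorem dgLD_bernstein {m : ℕ} (h2 : 2 ≤ m) (h7 : m ≤ 7) {S : Set (E m)} (hS : GmtMin univ S) {x₀ : E m}
    (hx₀ : x₀ ∈ gmtBd S) : ∃ e : E m, ‖e‖ = 1 ∧ S =ᵐ[volume] gmtHalf x₀ e := by
  have hm1 : 1 ≤ m := by omega
  have i0 : Fin m := ⟨0, by omega⟩
  have hmono := gmtI_mono_min_univ hm1 hS x₀
  -- (a) the tangent cone at `x₀` is a half-space
  have hr0 : Tendsto (fun i : ℕ => 1 / ((i : ℝ) + 1)) atTop (𝓝 0) := tendsto_one_div_add_atTop_nhds_zero_nat
  obtain ⟨φ, C₀, hφ, hC₀m, hconv₀⟩ := gmt_tangent_exists h2 gmtData_eu hS (mem_univ x₀) gmt_frame_eu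
    (r := fun i : ℕ => 1 / ((i : ℝ) + 1)) (fun i => by positivity) hr0
  obtain ⟨hC₀, hc₀, hI₀, hb₀, -⟩ := gmt_tangent_props h2 gmtData_eu hS (mem_univ x₀) gmt_frame_eu
    (r := fun i : ℕ => 1 / ((φ i : ℝ) + 1)) (fun i => by positivity) (hr0.comp hφ.tendsto_atTop) hC₀m hconv₀
  obtain ⟨e₀, he₀, hH₀⟩ := dgLD_cone_half h2 h7 hC₀ hc₀ (hb₀ hx₀)
  have hTh : gmtTh S x₀ = gmtI (gmtHalf 0 e₀) 0 1 := by
    rw [← gmtThA_eu h2 hS x₀, ← hI₀]
    exact gmtI_congr hC₀m (measurableSet_gmtHalf 0 e₀) hH₀ 0 1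
  -- (b) a blow-down
  set T : ℕ → Set (E m) := fun i => gmtDil x₀ ((i : ℝ) + 1) S with hTdef
  have hT : ∀ i, GmtMin univ (T i) := fun i => dgLD_min_dil hm1 hS x₀ (by positivity)
  have hcv : GmtCvg (fun _ : ℕ => (univ : Set (E m))) (fun _ _ => gmtEu m) (fun _ _ => 0) univ (fun _ => gmtEu m)
      (fun _ => 0) := gmtCvg_const isOpen_univ (gmtInt_eu univ) continuousOn_const
  obtain ⟨ψ, hψ, C, hCm, hconv⟩ := gmtLAM_compact hcv hT
  have hT' : ∀ i, GmtLAM (fun _ => gmtEu m) (fun _ => 0) univ (T (ψ i)) := fun i => hT (ψ i)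
  have hCmin : GmtMin univ C := gmtLAM_closure hcv hT' hCm hconv
  have hwk : GmtWk univ (fun i => gmtMu (T (ψ i))) (gmtMu C) := gmtLAM_wk_eu hcv hT' hCm hconv
  have h0C : (0 : E m) ∈ gmtBd C := by
    refine gmtLAM_bd_lim hcv hT' hconv (x := fun _ => 0) (mem_univ _) (fun i => ?_) tendsto_const_nhds
    rw [hTdef]
    simp only
    rw [gmtBd_gmtDil _ _ (by positivity)]
    simpa [gmtDil] using hx₀
  have hρ : Tendsto (fun i : ℕ => ((ψ i : ℕ) : ℝ) + 1) atTop atTop :=
    tendsto_atTop_add_const_right _ _ (tendsto_natCast_atTop_atTop.comp hψ.tendsto_atTop)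
  have hlim : ∀ σ : ℝ, 0 < σ → Tendsto (fun i : ℕ => gmtI S x₀ ((((ψ i : ℕ) : ℝ) + 1) * σ)) atTop (𝓝 (gmtI C 0 σ)) := by
    intro σ hσ
    have h1 := gmtI_wk hwk 0 hσ
    refine h1.congr fun i => ?_
    rw [hTdef]
    simp only
    rw [gmtI_gmtDil x₀ (by positivity) hS.meas, smul_zero, add_zero]
  have hle : ∀ ρ σ : ℝ, 0 < ρ → 0 < σ → gmtI S x₀ ρ ≤ gmtI C 0 σ := by
    intro ρ σ hρ0 hσ
    refine ge_of_tendsto (hlim σ hσ) ?_
    filter_upwards [(hρ.atTop_mul_const hσ).eventually_ge_atTop ρ] with i hi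
    exact hmono hρ0 (lt_of_lt_of_le hρ0 hi) hi
  have hconst : ∀ σ : ℝ, 0 < σ → gmtI C 0 σ = gmtI C 0 1 := by
    intro σ hσ
    refine le_antisymm ?_ ?_
    · exact le_of_tendsto (hlim σ hσ) (Eventually.of_forall fun i => hle _ _ (by positivity) one_pos)
    · exact le_of_tendsto (hlim 1 one_pos) (Eventually.of_forall fun i => hle _ _ (by positivity) hσ)
  have hd1 : ∀ X : Set (E m), gmtDil 0 1 X = X := by
    intro X
    ext y
    simp [gmtDil]
  have hCcone : GmtCone C := by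
    have := gmt_cone_of_const hm1 hCmin (x := 0) hconst
    rwa [hd1] at this
  obtain ⟨e₁, he₁, hH₁⟩ := dgLD_cone_half h2 h7 hCmin hCcone h0C
  have hI1 : gmtI C 0 1 = gmtTh S x₀ := by
    rw [hTh, gmtI_congr hCm (measurableSet_gmtHalf 0 e₁) hH₁ 0 1]
    exact dgLD_I_half i0 he₁ he₀
  -- (c) the density ratio of `S` at `x₀` is constant
  have hSconst : ∀ ρ : ℝ, 0 < ρ → gmtI S x₀ ρ = gmtTh S x₀ := fun ρ hρ0 =>
    le_antisymm ((hle ρ 1 hρ0 one_pos).trans hI1.le) (gmtTh_le_min hm1 hS x₀ hρ0)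
  have hScone : GmtCone (gmtDil x₀ 1 S) := gmt_cone_of_const hm1 hS hSconst
  have h0S : (0 : E m) ∈ gmtBd (gmtDil x₀ 1 S) := by
    rw [gmtBd_gmtDil _ _ one_pos]
    simpa [gmtDil] using hx₀
  obtain ⟨e, he, hH⟩ := dgLD_cone_half h2 h7 (dgLD_min_dil hm1 hS x₀ one_pos) hScone h0S
  refine ⟨e, he, ?_⟩
  rw [← gmtDil_gmtHalf x₀ e one_pos] at hH
  rw [ae_eq_set] at hH ⊢
  have hv : ∀ X : Set (E m), volume (gmtDil x₀ 1 X) = volume X := by
    intro X
    rw [volume_gmtDil X x₀ one_pos]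
    simp
  constructor
  · rw [← hv]
    exact hH.1
  · rw [← hv]
    exact hH.2

end Bernstein

/-! ## Calibration -/

section Calib

open Claimed.Agent.Gmt
open scoped RealInnerProductSpace ContDiff

variable {m : ℕ}

/-- **CALIBRATION**: if all level sets of a smooth function without critical points are minimal (`div (∇φ/|∇φ|) = 0`), then `{φ < 0}` is a
global perimeter minimiser. -/
theorem dgLD_calib {φ : E m → ℝ} (hφ : ContDiff ℝ ∞ φ) (hg : ∀ y, fderiv ℝ φ y ≠ 0)
    (hdiv : ∀ y, gmtDiv (fun z => ‖gradient φ z‖⁻¹ • gradient φ z) y = 0) :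
    GmtMin univ {y | φ y < 0} := by
  set S : Set (E m) := {y | φ y < 0} with hSdef
  set X : E m → E m := fun z => ‖gradient φ z‖⁻¹ • gradient φ z with hX
  have hSm : MeasurableSet S := measurableSet_lt hφ.continuous.measurable measurable_const
  have hgr : ∀ y, gradient φ y ≠ 0 := by
    intro y h
    apply hg y
    have h1 : fderiv ℝ φ y = InnerProductSpace.toDual ℝ (E m) (gradient φ y) := by simp [gradient]
    rw [h1, h, map_zero]
  have hXn : ∀ y, ‖X y‖ = 1 := fun y => by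
    simp only [hX]
    rw [norm_smul, norm_inv, norm_norm, inv_mul_cancel₀ (norm_ne_zero_iff.2 (hgr y))]
  have hXs : ContDiff ℝ 1 X := by
    have h1 : ContDiff ℝ 1 (gradient φ) := by
      have h2 : gradient φ = fun y => (InnerProductSpace.toDual ℝ (E m)).symm (fderiv ℝ φ y) := rfl
      rw [h2]
      exact (InnerProductSpace.toDual ℝ (E m)).symm.toContinuousLinearEquiv.contDiff.comp
        (hφ.fderiv_right (m := 1) (by norm_cast))
    exact ((h1.norm ℝ hgr).inv (fun y => norm_ne_zero_iff.2 (hgr y))).smul h1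
  have hreg := fun (r : ℝ) (hr : 0 < r) => gmt_reg_mu (S := S) 0 r hr φ hφ.contDiffOn (fun y _ => hg y) hSm (by
    have h1 : S ∩ ball 0 r = {y | y ∈ ball 0 r ∧ φ y < 0} := by
      ext y
      exact and_comm
    rw [h1]
    exact ae_eq_refl _)
  refine ⟨hSm, fun W hW => ?_, fun W S' hW hS' hCD hfin' => ?_⟩
  · obtain ⟨r, hr, hsub⟩ := hW.2.1.isBounded.subset_ball_lt 0 0
    exact (hreg r hr).1.2 W ⟨hW.1, hW.2.1, hsub⟩
  obtain ⟨r, hr, hsub⟩ := hW.2.1.isBounded.subset_ball_lt 0 0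
  obtain ⟨hLF, -, hnu, -⟩ := hreg r hr
  have hWr : W ⊆ ball 0 r := subset_closure.trans hsub
  simp only [integral_zero, sub_zero]
  refine ENNReal.toReal_mono hfin' ?_
  conv_lhs => unfold gmtPer
  refine iSup_le fun T => iSup_le fun hT => iSup_le fun hA => ?_
  obtain ⟨K, hK, hKW, hsd⟩ := hCD
  obtain ⟨η, hη1, hη2, hη3, hη4, hη5⟩ := gmt_exists_cutoff (hK.union hT.cpt) hW.1 (union_subset hKW hT.sub)
  have hηc1 : ContDiff ℝ 1 η := hη1.of_le (by norm_cast)
  have hη1' : ∀ x ∈ K ∪ tsupport T, η x = 1 := fun x hx => hη5.self_of_nhdsSet x hx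
  have hηd : ∀ x ∈ K, fderiv ℝ η x = 0 := by
    intro x hx
    have h1 : η =ᶠ[𝓝 x] fun _ => (1 : ℝ) := eventually_nhdsSet_iff_forall.1 hη5 x (Or.inl hx)
    rw [h1.fderiv_eq]
    simp
  set Y : E m → E m := fun y => η y • X y with hY
  have hYt : GmtTest W Y := ⟨hηc1.smul hXs, hη2.smul_right, (tsupport_smul_subset_left η X).trans hη3⟩
  have hYa : GmtAdm (fun _ => gmtEu m) Y := gmtAdm_smul ((gmtAdm_eu_iff X).2 fun x => (hXn x).le) hη4
  have hfinK : ∀ K', IsCompact K' → K' ⊆ ball (0 : E m) r → gmtMu S K' ≠ ⊤ := fun K' h1 h2 =>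
    gmtMu_compact_ne_top isOpen_ball hLF h1 h2
  have hTr : GmtTest (ball 0 r) T := ⟨hT.c1, hT.cpt, hT.sub.trans hWr⟩
  have hYr : GmtTest (ball 0 r) Y := ⟨hYt.c1, hYt.cpt, hYt.sub.trans hWr⟩
  have hintT : Integrable (fun x => ⟪T x, gmtNu S x⟫) (gmtMu S) :=
    gmt_integrable_inner_test hfinK (measurable_gmtNu S) (Eventually.of_forall (norm_gmtNu_le_one S))
      ⟨hT.c1, hT.cpt, hT.sub.trans hWr⟩
  have hintη : Integrable η (gmtMu S) :=
    gmt_integrable_of_cc hη1.continuous hη2 (hfinK _ hη2 (hη3.trans hWr))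
  -- (1), (2)
  have h12 : ∫ x in S, gmtDiv T x ≤ ∫ x, η x ∂(gmtMu S) := by
    rw [gmt_gauss_green isOpen_ball hLF hTr]
    refine integral_mono hintT hintη fun x => ?_
    by_cases hx : x ∈ tsupport T
    · rw [hη1' x (Or.inr hx)]
      have h1 := hA x (gmtNu S x)
      rw [gmtEu_apply, real_inner_self_eq_norm_sq, Real.sqrt_sq (norm_nonneg _)] at h1
      exact h1.trans (norm_gmtNu_le_one S x)
    · rw [image_eq_zero_of_notMem_tsupport hx, inner_zero_left]
      exact (hη4 x).1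
  -- (3), (4)
  have h34 : ∫ x, η x ∂(gmtMu S) = ∫ x in S, gmtDiv Y x := by
    rw [gmt_gauss_green isOpen_ball hLF hYr]
    refine integral_congr_ae ?_
    rw [ae_restrict_iff' measurableSet_ball] at hnu
    filter_upwards [hnu] with x hx
    by_cases hxb : x ∈ ball (0 : E m) r
    · rw [hx hxb]
      show η x = ⟪η x • X x, X x⟫
      rw [real_inner_smul_left, real_inner_self_eq_norm_sq, hXn]
      ring
    · have h0 : η x = 0 := image_eq_zero_of_notMem_tsupport fun h => hxb (hWr (hη3 h))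
      show η x = ⟪η x • X x, gmtNu S x⟫
      rw [h0, zero_smul, inner_zero_left]
  -- (5)
  have h5 : ∫ x in S, gmtDiv Y x = ∫ x in S', gmtDiv Y x := by
    rw [← integral_indicator hSm, ← integral_indicator hS']
    congr 1
    funext x
    by_cases hx : x ∈ K
    · have h0 : gmtDiv Y x = 0 := by
        rw [hY, gmtDiv_smul (hηc1.differentiable (by norm_num) x) (hXs.differentiable (by norm_num) x), hdiv x, hηd x hx]
        simp
      simp [indicator, h0]
    · have hiff : x ∈ S ↔ x ∈ S' := by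
        constructor
        · intro h
          by_contra h'
          exact hx (hsd (Or.inl ⟨h, h'⟩))
        · intro h
          by_contra h'
          exact hx (hsd (Or.inr ⟨h, h'⟩))
      by_cases hxS : x ∈ S
      · rw [indicator_of_mem hxS, indicator_of_mem (hiff.1 hxS)]
      · rw [indicator_of_notMem hxS, indicator_of_notMem (fun h => hxS (hiff.2 h))]
  calc ENNReal.ofReal (∫ x in S, gmtDiv T x) ≤ ENNReal.ofReal (∫ x in S', gmtDiv Y x) :=
        ENNReal.ofReal_le_ofReal (by rw [← h5, ← h34]; exact h12)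
    _ ≤ gmtPer (fun _ => gmtEu m) S' W := by
        unfold gmtPer
        exact le_iSup_of_le Y (le_iSup_of_le hYt (le_iSup_of_le hYa le_rfl))

end Calib

/-! ## Bernstein's theorem for entire minimal graphs -/

section Graph

open Claimed.Agent.Gmt
open scoped RealInnerProductSpace ContDiff

/-- a zero of `φ` which is not critical lies on the boundary of `{φ < 0}`. -/
theorem dgLD_mem_bd {m : ℕ} {φ : E m → ℝ} (hφ : Continuous φ) {x₀ : E m} (h0 : φ x₀ = 0) (hg : fderiv ℝ φ x₀ ≠ 0) :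
    x₀ ∈ gmtBd {y | φ y < 0} := by
  intro r hr
  constructor
  · by_contra hcon
    have hz : volume ({y | φ y < 0} ∩ ball x₀ r) = 0 := le_antisymm (not_lt.1 hcon) zero_le
    have hopen : IsOpen ({y | φ y < 0} ∩ ball x₀ r) := (isOpen_lt hφ continuous_const).inter isOpen_ball
    have hempty := (hopen.measure_eq_zero_iff volume).1 hz
    apply hg
    refine IsLocalMin.fderiv_eq_zero ?_
    filter_upwards [ball_mem_nhds x₀ hr] with y hy
    rw [h0]
    by_contra hneg
    have hy' : y ∈ ({y | φ y < 0} ∩ ball x₀ r) := ⟨not_le.1 hneg, hy⟩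
    rw [hempty] at hy'
    exact hy'
  · by_contra hcon
    have hz : volume (ball x₀ r \ {y | φ y < 0}) = 0 := le_antisymm (not_lt.1 hcon) zero_le
    have hsub : {y | 0 < φ y} ∩ ball x₀ r ⊆ ball x₀ r \ {y | φ y < 0} := fun y hy =>
      ⟨hy.2, fun h => lt_asymm (show 0 < φ y from hy.1) (show φ y < 0 from h)⟩
    have hz' : volume ({y | 0 < φ y} ∩ ball x₀ r) = 0 := measure_mono_null hsub hz
    have hopen : IsOpen ({y | 0 < φ y} ∩ ball x₀ r) := (isOpen_lt continuous_const hφ).inter isOpen_ball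
    have hempty := (hopen.measure_eq_zero_iff volume).1 hz'
    apply hg
    refine IsLocalMax.fderiv_eq_zero ?_
    filter_upwards [ball_mem_nhds x₀ hr] with y hy
    rw [h0]
    by_contra hneg
    have hy' : y ∈ ({y | 0 < φ y} ∩ ball x₀ r) := ⟨not_le.1 hneg, hy⟩
    rw [hempty] at hy'
    exact hy'

variable {n : ℕ}

/-- the defining function `t - u(x)` of the subgraph of `u`. -/
noncomputable def dgLD_phi (u : DgE n → ℝ) (y : DgE (n + 1)) : ℝ := dgsl_last n y - u (dgsl_init n y)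

theorem dgLD_phi_contDiff {u : DgE n → ℝ} (hu : ContDiff ℝ ∞ u) : ContDiff ℝ ∞ (dgLD_phi u) :=
  (dgsl_last n).contDiff.sub (hu.comp (dgsl_init n).contDiff)

theorem dgLD_phi_fderiv {u : DgE n → ℝ} (hu : Differentiable ℝ u) (y v : DgE (n + 1)) :
    fderiv ℝ (dgLD_phi u) y v = dgsl_last n v - fderiv ℝ u (dgsl_init n y) (dgsl_init n v) := by
  have h1 : HasFDerivAt (dgLD_phi u) (dgsl_last n - (fderiv ℝ u (dgsl_init n y)).comp (dgsl_init n)) y :=
    (dgsl_last n).hasFDerivAt.sub ((hu _).hasFDerivAt.comp y (dgsl_init n).hasFDerivAt)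
  rw [h1.fderiv]
  rfl

theorem dgLD_phi_fderiv_ne {u : DgE n → ℝ} (hu : Differentiable ℝ u) (y : DgE (n + 1)) :
    fderiv ℝ (dgLD_phi u) y ≠ 0 := by
  intro h
  have h1 := dgLD_phi_fderiv hu y (dgsl_e n)
  rw [h] at h1
  simp [dgsl_e] at h1

theorem dgLD_phi_grad {u : DgE n → ℝ} (hu : Differentiable ℝ u) (y : DgE (n + 1)) :
    gradient (dgLD_phi u) y = dgSnoc (-gradient u (dgsl_init n y)) 1 := by
  refine ext_inner_right ℝ fun v => ?_
  rw [gmt_inner_gradient, dgLD_phi_fderiv hu]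
  conv_rhs => rw [← dgsl_snoc_init_last v, dgsl_inner_snoc, inner_neg_left, gmt_inner_gradient]
  ring

/-- `1/√(1 + |∇u|²)` -/
noncomputable def dgLD_w (u : DgE n → ℝ) (x : DgE n) : ℝ := (Real.sqrt (1 + ‖gradient u x‖ ^ 2))⁻¹

theorem dgLD_phi_normal {u : DgE n → ℝ} (hu : Differentiable ℝ u) (y : DgE (n + 1)) :
    ‖gradient (dgLD_phi u) y‖⁻¹ • gradient (dgLD_phi u) y =
      dgSnoc (-(dgLD_w u (dgsl_init n y) • gradient u (dgsl_init n y))) (dgLD_w u (dgsl_init n y)) := by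
  rw [dgLD_phi_grad hu]
  have h1 : ‖dgSnoc (-gradient u (dgsl_init n y)) 1‖ = Real.sqrt (1 + ‖gradient u (dgsl_init n y)‖ ^ 2) := by
    rw [← Real.sqrt_sq (norm_nonneg (dgSnoc (-gradient u (dgsl_init n y)) 1)), dgsl_norm_sq_snoc, norm_neg]
    congr 1
    ring
  rw [h1, ← dgsl_snoc_smul, smul_neg, mul_one]
  rfl

theorem dgLD_grad_contDiff {u : DgE n → ℝ} (hu : ContDiff ℝ ∞ u) : ContDiff ℝ 1 (gradient u) := by
  have h2 : gradient u = fun y => (InnerProductSpace.toDual ℝ (DgE n)).symm (fderiv ℝ u y) := rfl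
  rw [h2]
  exact (InnerProductSpace.toDual ℝ (DgE n)).symm.toContinuousLinearEquiv.contDiff.comp
    (hu.fderiv_right (m := 1) (by norm_cast))

theorem dgLD_w_contDiff {u : DgE n → ℝ} (hu : ContDiff ℝ ∞ u) : ContDiff ℝ 1 (dgLD_w u) := by
  have h1 := dgLD_grad_contDiff hu
  have h2 : ContDiff ℝ 1 fun x => 1 + ‖gradient u x‖ ^ 2 := contDiff_const.add (h1.norm_sq ℝ)
  exact (h2.sqrt fun x => by positivity).inv fun x => (Real.sqrt_pos.2 (by positivity)).ne'

/-- the divergence of a field of `ℝⁿ⁺¹` which does not depend on the last variable. -/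
theorem dgLD_div_lift {F : DgE n → DgE n} {w : DgE n → ℝ} (hF : Differentiable ℝ F) (hw : Differentiable ℝ w)
    (y : DgE (n + 1)) :
    gmtDiv (fun z => dgSnoc (-(F (dgsl_init n z))) (w (dgsl_init n z))) y = -gmtDiv F (dgsl_init n y) := by
  have h1 : HasFDerivAt (fun z => dgSnoc (-(F (dgsl_init n z))) (w (dgsl_init n z)))
      (-((dgsl_incl n).comp ((fderiv ℝ F (dgsl_init n y)).comp (dgsl_init n))) +
        ((fderiv ℝ w (dgsl_init n y)).comp (dgsl_init n)).smulRight (dgsl_e n)) y := by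
    have e : (fun z => dgSnoc (-(F (dgsl_init n z))) (w (dgsl_init n z))) =
        fun z => -(dgsl_incl n (F (dgsl_init n z))) + w (dgsl_init n z) • dgsl_e n := by
      funext z
      rw [dgsl_snoc_eq, map_neg]
    rw [e]
    have hFi : HasFDerivAt (fun z => F (dgsl_init n z)) ((fderiv ℝ F (dgsl_init n y)).comp (dgsl_init n)) y :=
      (hF _).hasFDerivAt.comp y (dgsl_init n).hasFDerivAt
    have hwi : HasFDerivAt (fun z => w (dgsl_init n z)) ((fderiv ℝ w (dgsl_init n y)).comp (dgsl_init n)) y :=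
      (hw _).hasFDerivAt.comp y (dgsl_init n).hasFDerivAt
    exact (((dgsl_incl n).hasFDerivAt.comp y hFi).neg).add (hwi.smul_const (dgsl_e n))
  have hl : dgsl_init n (eb (Fin.last n)) = 0 := by
    ext i
    simp [Fin.castSucc_ne_last]
  have hc : ∀ i : Fin n, dgsl_init n (eb i.castSucc) = eb i := by
    intro i
    ext j
    by_cases h : j = i
    · subst h; simp
    · simp [h]
  unfold gmtDiv
  rw [h1.fderiv, Fin.sum_univ_castSucc, ← Finset.sum_neg_distrib]
  simp [hl, hc, dgsl_e]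

/-- if the subgraph of a continuous function is a half-space (up to a null set), the function is affine. -/
theorem dgLD_affine_of_half {u : DgE n → ℝ} (hu : Continuous u) {x₀ e : DgE (n + 1)} (he : ‖e‖ = 1)
    (hH : ({y | dgLD_phi u y < 0} : Set (DgE (n + 1))) =ᵐ[volume] gmtHalf x₀ e) :
    ∃ (a : DgE n) (b : ℝ), ∀ x, u x = inner ℝ a x + b := by
  have hφc : Continuous (dgLD_phi u) := (dgsl_last n).continuous.sub (hu.comp (dgsl_init n).continuous)
  set ℓ : DgE (n + 1) → ℝ := fun y => inner ℝ (y - x₀) e with hℓ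
  have hℓc : Continuous ℓ := (continuous_id.sub continuous_const).inner continuous_const
  rw [ae_eq_set] at hH
  have hA : ∀ y, dgLD_phi u y < 0 → ℓ y ≤ 0 := by
    intro y hy
    by_contra hcon
    have hopen : IsOpen ({z | dgLD_phi u z < 0} ∩ {z | 0 < ℓ z}) :=
      (isOpen_lt hφc continuous_const).inter (isOpen_lt continuous_const hℓc)
    have hsub : {z | dgLD_phi u z < 0} ∩ {z | 0 < ℓ z} ⊆ {z | dgLD_phi u z < 0} \ gmtHalf x₀ e := fun z hz =>
      ⟨hz.1, fun h => lt_asymm (show 0 < ℓ z from hz.2) (show ℓ z < 0 from h)⟩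
    have hempty := (hopen.measure_eq_zero_iff volume).1 (measure_mono_null hsub hH.1)
    have hy' : y ∈ ({z | dgLD_phi u z < 0} ∩ {z | 0 < ℓ z}) := ⟨hy, not_le.1 hcon⟩
    rw [hempty] at hy'
    exact hy'
  have hB : ∀ y, ℓ y < 0 → dgLD_phi u y ≤ 0 := by
    intro y hy
    by_contra hcon
    have hopen : IsOpen ({z | ℓ z < 0} ∩ {z | 0 < dgLD_phi u z}) :=
      (isOpen_lt hℓc continuous_const).inter (isOpen_lt continuous_const hφc)
    have hsub : {z | ℓ z < 0} ∩ {z | 0 < dgLD_phi u z} ⊆ gmtHalf x₀ e \ {z | dgLD_phi u z < 0} := fun z hz =>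
      ⟨hz.1, fun h => lt_asymm (show 0 < dgLD_phi u z from hz.2) (show dgLD_phi u z < 0 from h)⟩
    have hempty := (hopen.measure_eq_zero_iff volume).1 (measure_mono_null hsub hH.2)
    have hy' : y ∈ ({z | ℓ z < 0} ∩ {z | 0 < dgLD_phi u z}) := ⟨hy, not_le.1 hcon⟩
    rw [hempty] at hy'
    exact hy'
  set e' : DgE n := dgsl_init n e with he'
  set ε : ℝ := dgsl_last n e with hε'
  set α : DgE n → ℝ := fun x => inner ℝ (x - dgsl_init n x₀) e' - dgsl_last n x₀ * ε with hα
  have hℓs : ∀ x t, ℓ (dgSnoc x t) = α x + t * ε := by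
    intro x t
    simp only [hℓ, hα]
    conv_lhs => rw [← dgsl_snoc_init_last x₀, ← dgsl_snoc_init_last e, ← dgsl_snoc_sub, dgsl_inner_snoc]
    ring
  have hφs : ∀ x t, dgLD_phi u (dgSnoc x t) = t - u x := by
    intro x t
    simp [dgLD_phi]
  have hA' : ∀ x t, t < u x → α x + t * ε ≤ 0 := fun x t h => by
    rw [← hℓs]
    exact hA _ (by rw [hφs]; linarith)
  have hB' : ∀ x t, α x + t * ε < 0 → t ≤ u x := fun x t h => by
    have := hB (dgSnoc x t) (by rw [hℓs]; exact h)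
    rw [hφs] at this
    linarith
  have hε : 0 < ε := by
    rcases lt_trichotomy ε 0 with h | h | h
    · exfalso
      set t : ℝ := min (u 0 - 1) ((-α 0 + 1) / ε) with ht
      have h1 : t < u 0 := lt_of_le_of_lt (min_le_left _ _) (by linarith)
      have h2 : t ≤ (-α 0 + 1) / ε := min_le_right _ _
      have h3 : -α 0 + 1 ≤ t * ε := by rwa [le_div_iff_of_neg h] at h2
      have := hA' 0 t h1
      linarith
    · exfalso
      have hα0 : ∀ x, α x = 0 := by
        intro x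
        have h1 := hA' x (u x - 1) (by linarith)
        rw [h, mul_zero, add_zero] at h1
        by_contra hne
        have h2 : α x < 0 := lt_of_le_of_ne h1 hne
        have := hB' x (u x + 1) (by rw [h, mul_zero, add_zero]; exact h2)
        linarith
      have he0 : e' = 0 := by
        have h1 := hα0 (dgsl_init n x₀ + e')
        simp only [hα, add_sub_cancel_left, h, mul_zero, sub_zero] at h1
        exact inner_self_eq_zero.1 h1
      have h0 : e = 0 := by
        rw [← dgsl_snoc_init_last e, ← he', ← hε', he0, h]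
        simp
      rw [h0, norm_zero] at he
      exact zero_ne_one he
    · exact h
  refine ⟨-(ε⁻¹ • e'), (inner ℝ (dgsl_init n x₀) e') / ε + dgsl_last n x₀, fun x => ?_⟩
  have hux : u x = -α x / ε := by
    apply le_antisymm
    · by_contra hcon
      rw [not_le] at hcon
      have h1 := hA' x ((-α x / ε + u x) / 2) (by linarith)
      have h2 : (-α x / ε + u x) / 2 ≤ -α x / ε := by
        rw [le_div_iff₀ hε]
        linarith
      linarith
    · by_contra hcon
      rw [not_le] at hcon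
      have h2 : (-α x / ε + u x) / 2 < -α x / ε := by linarith
      rw [lt_div_iff₀ hε] at h2
      have h1 := hB' x ((-α x / ε + u x) / 2) (by linarith)
      linarith
  rw [hux]
  simp only [hα, inner_sub_left, inner_neg_left, real_inner_smul_left, real_inner_comm e' x]
  field_simp
  ring

/-- the subgraph of an entire solution of the minimal surface equation is a global perimeter minimiser. -/
theorem dgLD_graph_min {u : DgE n → ℝ} (hu : ContDiff ℝ ∞ u)
    (hmse : ∀ x, gmtDiv (fun z => (Real.sqrt (1 + ‖gradient u z‖ ^ 2))⁻¹ • gradient u z) x = 0) :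
    GmtMin univ ({y | dgLD_phi u y < 0} : Set (DgE (n + 1))) := by
  have hd : Differentiable ℝ u := hu.differentiable (by simp)
  refine dgLD_calib (dgLD_phi_contDiff hu) (dgLD_phi_fderiv_ne hd) fun y => ?_
  rw [funext (dgLD_phi_normal hd)]
  rw [dgLD_div_lift (F := fun x => dgLD_w u x • gradient u x) (w := dgLD_w u)
    (((dgLD_w_contDiff hu).smul (dgLD_grad_contDiff hu)).differentiable (by norm_num))
    ((dgLD_w_contDiff hu).differentiable (by norm_num)) y]
  have := hmse (dgsl_init n y)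
  simp only [dgLD_w]
  rw [this, neg_zero]

/-- **BERNSTEIN'S THEOREM** (Bernstein `n = 2`, De Giorgi `n = 3`, Almgren `n = 4`, Simons `n ≤ 7`), here for `n ≤ 6`: an entire smooth
solution of the minimal surface equation `div (∇u / √(1 + |∇u|²)) = 0` on `ℝⁿ` is affine. -/
theorem dgLD_bernstein_graph {n : ℕ} (h1 : 1 ≤ n) (h6 : n ≤ 6) (u : EuclideanSpace ℝ (Fin n) → ℝ) (hu : ContDiff ℝ ∞ u)
    (hmse : ∀ x, ∑ i : Fin n, fderiv ℝ (fun z => (Real.sqrt (1 + ‖gradient u z‖ ^ 2))⁻¹ • gradient u z) x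
      (EuclideanSpace.single i 1) i = 0) :
    ∃ (a : EuclideanSpace ℝ (Fin n)) (b : ℝ), ∀ x, u x = inner ℝ a x + b := by
  have hd : Differentiable ℝ u := hu.differentiable (by simp)
  have hmin := dgLD_graph_min hu hmse
  have hx₀ : dgSnoc (0 : DgE n) (u 0) ∈ gmtBd ({y | dgLD_phi u y < 0} : Set (DgE (n + 1))) :=
    dgLD_mem_bd (dgLD_phi_contDiff hu).continuous (by simp [dgLD_phi]) (dgLD_phi_fderiv_ne hd _)
  obtain ⟨e, he, hH⟩ := dgLD_bernstein (m := n + 1) (by omega) (by omega) hmin hx₀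
  exact dgLD_affine_of_half hu.continuous he hH

end Graph

end Claimed.Agent.R329
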