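import Claimed.Agent.R329.Defs
import Claimed.Agent.Lib.Gmt.BvCompactB
import Claimed.Agent.Lib.Gmt.BvBasic

/-!
# Row 329, post B3: Modica-Mortola compactness and lower bound; the blow-down of a solution of finite density.   (pen: helper78)

`Φ(s) = (s - s³/3)/√2`, `|∇Φ(w)| = √(2W(w)) |∇w| ≤ ε|∇w|²/2 + W(w)/ε`; `BV_loc` compactness of `Φ(w_i)` (`Lib/Gmt`), the limit takes
the two values `± √2/3`, so it is `(√2/3)(2 χ_S - 1)`; lower semicontinuity of the total variation gives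
`s₀ P(S; U) ≤ liminf E_ε(w_i; U)`, `s₀ = 2√2/3`.

EXITS (end of the file): `dgB3_mm` (general sequences), `dgB3_blowdown` (`w_i = u(R_i ·)`, `u` a solution of finite density).
-/

set_option autoImplicit false
open scoped ENNReal Topology
open MeasureTheory Metric Set Filter
open Claimed.Agent.Gmt

namespace Claimed.Agent.R329

/-- the Modica-Mortola primitive `Φ(s) = ∫₀ˢ √(2W) = (s - s³/3)/√2`. -/
noncomputable def dgB3_Phi (s : ℝ) : ℝ := (s - s ^ 3 / 3) / Real.sqrt 2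

theorem dgB3_sqrt2_pos : (0 : ℝ) < Real.sqrt 2 := Real.sqrt_pos.2 (by norm_num)

theorem dgB3_sqrt2_sq : Real.sqrt 2 ^ 2 = 2 := Real.sq_sqrt (by norm_num)

theorem dgB3_hasDerivAt_Phi (s : ℝ) : HasDerivAt dgB3_Phi ((1 - s ^ 2) / Real.sqrt 2) s := by
  unfold dgB3_Phi
  have h3 : HasDerivAt (fun s : ℝ => s ^ 3 / 3) (((3 : ℕ) : ℝ) * s ^ (3 - 1) / 3) s :=
    (hasDerivAt_pow 3 s).div_const 3
  have h : HasDerivAt (fun s : ℝ => s - s ^ 3 / 3) (1 - ((3 : ℕ) : ℝ) * s ^ (3 - 1) / 3) s :=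
    (hasDerivAt_id' s).sub h3
  have h2 := h.div_const (Real.sqrt 2)
  have e : (1 - s ^ 2) / Real.sqrt 2 = (1 - ((3 : ℕ) : ℝ) * s ^ (3 - 1) / 3) / Real.sqrt 2 := by
    norm_num
  rw [e]
  exact h2

theorem dgB3_contDiff_Phi : ContDiff ℝ 1 dgB3_Phi := by
  unfold dgB3_Phi
  fun_prop

theorem dgB3_Phi_sq (s : ℝ) : dgB3_Phi s ^ 2 - 2 / 9 = -(2 / 9) * dgW s * (4 - s ^ 2) := by
  unfold dgB3_Phi dgW
  rw [div_pow, dgB3_sqrt2_sq]
  ring

theorem dgB3_Phi_abs_le {s : ℝ} (hs : |s| ≤ 1) : |dgB3_Phi s| ≤ 1 := by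
  have h := dgB3_Phi_sq s
  have hs2 : s ^ 2 ≤ 1 := by
    have := sq_le_sq' (neg_le_of_abs_le hs) (le_of_abs_le hs)
    simpa using this
  have hW : 0 ≤ dgW s := by unfold dgW; positivity
  have : dgB3_Phi s ^ 2 ≤ 1 := by nlinarith [mul_nonneg hW (by linarith : (0:ℝ) ≤ 4 - s ^ 2)]
  exact abs_le_one_iff_mul_self_le_one.2 (by nlinarith)

theorem dgB3_Phi_sq_le {s : ℝ} (hs : |s| ≤ 1) : |dgB3_Phi s ^ 2 - 2 / 9| ≤ 8 / 9 * dgW s := by
  have hs2 : s ^ 2 ≤ 1 := by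
    have := sq_le_sq' (neg_le_of_abs_le hs) (le_of_abs_le hs)
    simpa using this
  have hW : 0 ≤ dgW s := by unfold dgW; positivity
  rw [dgB3_Phi_sq, abs_le]
  constructor <;> nlinarith [mul_nonneg hW (sq_nonneg s), mul_nonneg hW (by linarith : (0:ℝ) ≤ 4 - s ^ 2)]

theorem dgB3_Phi_top {s : ℝ} (hs : |s| ≤ 1) :
    (s - 1) ^ 2 ≤ 3 * Real.sqrt 2 * (Real.sqrt 2 / 3 - dgB3_Phi s) := by
  have h1 : -1 ≤ s := neg_le_of_abs_le hs
  have e : 3 * Real.sqrt 2 * (Real.sqrt 2 / 3 - dgB3_Phi s) = (s - 1) ^ 2 * (s + 2) := by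
    unfold dgB3_Phi
    have := dgB3_sqrt2_pos
    field_simp
    rw [dgB3_sqrt2_sq]
    ring
  rw [e]
  nlinarith [sq_nonneg (s - 1)]

theorem dgB3_Phi_bot {s : ℝ} (hs : |s| ≤ 1) :
    (s + 1) ^ 2 ≤ 3 * Real.sqrt 2 * (dgB3_Phi s + Real.sqrt 2 / 3) := by
  have h1 : s ≤ 1 := le_of_abs_le hs
  have e : 3 * Real.sqrt 2 * (dgB3_Phi s + Real.sqrt 2 / 3) = (s + 1) ^ 2 * (2 - s) := by
    unfold dgB3_Phi
    have := dgB3_sqrt2_pos
    field_simp
    rw [dgB3_sqrt2_sq]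
    ring
  rw [e]
  nlinarith [sq_nonneg (s + 1)]

theorem dgB3_young {ε a : ℝ} (hε : 0 < ε) (s : ℝ) :
    |(1 - s ^ 2) / Real.sqrt 2| * a ≤ ε * a ^ 2 / 2 + dgW s / ε := by
  set p := |(1 - s ^ 2) / Real.sqrt 2| with hp
  have hp2 : p ^ 2 = 2 * dgW s := by
    rw [hp, sq_abs, div_pow, dgB3_sqrt2_sq]
    unfold dgW
    ring
  have hW : dgW s = p ^ 2 / 2 := by linarith
  rw [hW]
  have : ε * a ^ 2 / 2 + p ^ 2 / 2 / ε - p * a = (ε * a - p) ^ 2 / (2 * ε) := by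
    field_simp
    ring
  have h2 : 0 ≤ (ε * a - p) ^ 2 / (2 * ε) := by positivity
  linarith


/-- the `ε`-energy density `ε|∇w|²/2 + W(w)/ε`. -/
noncomputable def dgB3_dens (n : ℕ) (ε : ℝ) (w : DgE n → ℝ) (x : DgE n) : ℝ :=
  ε * ‖fderiv ℝ w x‖ ^ 2 / 2 + dgW (w x) / ε

theorem dgB3_dgW_nonneg (s : ℝ) : 0 ≤ dgW s := by unfold dgW; positivity

theorem dgB3_dens_nonneg {n : ℕ} {ε : ℝ} (hε : 0 < ε) (w : DgE n → ℝ) (x : DgE n) :
    0 ≤ dgB3_dens n ε w x := by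
  unfold dgB3_dens
  have := dgB3_dgW_nonneg (w x)
  positivity

theorem dgB3_W_le {n : ℕ} {ε : ℝ} (hε : 0 < ε) (w : DgE n → ℝ) (x : DgE n) :
    dgW (w x) ≤ ε * dgB3_dens n ε w x := by
  unfold dgB3_dens
  have h1 : ε * (ε * ‖fderiv ℝ w x‖ ^ 2 / 2 + dgW (w x) / ε)
      = ε ^ 2 * ‖fderiv ℝ w x‖ ^ 2 / 2 + dgW (w x) := by
    field_simp
  rw [h1]
  have : 0 ≤ ε ^ 2 * ‖fderiv ℝ w x‖ ^ 2 / 2 := by positivity
  linarith

theorem dgB3_continuous_dens {n : ℕ} {ε : ℝ} {w : DgE n → ℝ} (hw : ContDiff ℝ 1 w) :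
    Continuous (dgB3_dens n ε w) := by
  unfold dgB3_dens dgW
  have h1 : Continuous (fderiv ℝ w) := hw.continuous_fderiv (by norm_num)
  have h2 : Continuous w := hw.continuous
  fun_prop

theorem dgB3_norm_fderiv_le {n : ℕ} {ε : ℝ} (hε : 0 < ε) {w : DgE n → ℝ} {x : DgE n}
    (hw : DifferentiableAt ℝ w x) :
    ‖fderiv ℝ (fun y => dgB3_Phi (w y)) x‖ ≤ dgB3_dens n ε w x := by
  have h := ((dgB3_hasDerivAt_Phi (w x)).comp_hasFDerivAt x hw.hasFDerivAt).fderiv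
  have h' : fderiv ℝ (fun y => dgB3_Phi (w y)) x = ((1 - w x ^ 2) / Real.sqrt 2) • fderiv ℝ w x := h
  rw [h', norm_smul, Real.norm_eq_abs]
  exact dgB3_young hε (w x)

theorem dgB3_contDiff_comp {n : ℕ} {w : DgE n → ℝ} (hw : ContDiff ℝ 1 w) :
    ContDiff ℝ 1 fun y => dgB3_Phi (w y) := dgB3_contDiff_Phi.comp hw

theorem dgB3_var_le {n : ℕ} {ε : ℝ} (hε : 0 < ε) {w : DgE n → ℝ} (hw : ContDiff ℝ 1 w)
    {U : Set (DgE n)} (hU : IsOpen U) :
    gmtVar (fun y => dgB3_Phi (w y)) U ≤ ∫⁻ x in U, ENNReal.ofReal (dgB3_dens n ε w x) := by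
  rw [gmtVar_of_contDiffOn hU (dgB3_contDiff_comp hw).contDiffOn]
  refine lintegral_mono fun x => ?_
  rw [← ofReal_norm]
  exact ENNReal.ofReal_le_ofReal
    (dgB3_norm_fderiv_le hε ((hw.differentiable (by norm_num)) x))


/-- the a.e. limit of `Φ(w_i)` takes only the values `± √2/3`. -/
theorem dgB3_two_values {n : ℕ} {w : ℕ → DgE n → ℝ} {ε : ℕ → ℝ} {u' : DgE n → ℝ}
    (hw : ∀ i, ContDiff ℝ 1 (w i)) (hb : ∀ i x, |w i x| ≤ 1)
    (hε : ∀ i, 0 < ε i) (hε0 : Tendsto ε atTop (𝓝 0))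
    (hE : ∀ r : ℝ, 0 < r → ∃ C : ℝ≥0∞, C ≠ ⊤ ∧ ∀ᶠ i in atTop,
      ∫⁻ x in ball 0 r, ENNReal.ofReal (dgB3_dens n (ε i) (w i) x) ≤ C)
    (hm : Measurable u')
    (hae : ∀ᵐ x, Tendsto (fun i => dgB3_Phi (w i x)) atTop (𝓝 (u' x))) :
    ∀ᵐ x, u' x ^ 2 = 2 / 9 := by
  have key : ∀ k : ℕ, ∀ᵐ x ∂(volume.restrict (ball (0 : DgE n) ((k : ℝ) + 1))),
      u' x ^ 2 = 2 / 9 := by
    intro k
    obtain ⟨C, hC, hCe⟩ := hE ((k : ℝ) + 1) (by positivity)
    set B := ball (0 : DgE n) ((k : ℝ) + 1) with hB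
    let f : ℕ → DgE n → ℝ≥0∞ := fun i x => ENNReal.ofReal |dgB3_Phi (w i x) ^ 2 - 2 / 9|
    have hfm : ∀ i, Measurable (f i) := fun i => by
      have hc : Continuous fun x => |dgB3_Phi (w i x) ^ 2 - 2 / 9| := by
        have := (dgB3_contDiff_comp (hw i)).continuous
        fun_prop
      exact ENNReal.measurable_ofReal.comp hc.measurable
    have hfi : ∀ i, ∫⁻ x in B, f i x ≤ ENNReal.ofReal (8 / 9 * ε i) *
        ∫⁻ x in B, ENNReal.ofReal (dgB3_dens n (ε i) (w i) x) := by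
      intro i
      rw [← lintegral_const_mul' _ _ ENNReal.ofReal_ne_top]
      refine lintegral_mono fun x => ?_
      rw [← ENNReal.ofReal_mul (by have := hε i; positivity)]
      refine ENNReal.ofReal_le_ofReal ?_
      calc |dgB3_Phi (w i x) ^ 2 - 2 / 9| ≤ 8 / 9 * dgW (w i x) := dgB3_Phi_sq_le (hb i x)
        _ ≤ 8 / 9 * (ε i * dgB3_dens n (ε i) (w i) x) := by
            gcongr
            exact dgB3_W_le (hε i) _ _
        _ = 8 / 9 * ε i * dgB3_dens n (ε i) (w i) x := by ring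
    have hlim : Tendsto (fun i => ∫⁻ x in B, f i x) atTop (𝓝 0) := by
      have h1 : Tendsto (fun i => ENNReal.ofReal (8 / 9 * ε i) * C) atTop (𝓝 0) := by
        have h2 : Tendsto (fun i => ENNReal.ofReal (8 / 9 * ε i)) atTop
            (𝓝 (ENNReal.ofReal (8 / 9 * 0))) := ENNReal.tendsto_ofReal (hε0.const_mul _)
        simp only [mul_zero, ENNReal.ofReal_zero] at h2
        have h3 := ENNReal.Tendsto.mul_const h2 (Or.inr hC)
        simpa using h3
      refine tendsto_of_tendsto_of_tendsto_of_le_of_le' tendsto_const_nhds h1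
        (Eventually.of_forall fun _ => zero_le) ?_
      filter_upwards [hCe] with i hi
      exact (hfi i).trans (by gcongr)
    have hfatou := lintegral_liminf_le (μ := volume.restrict B) (u := atTop) hfm
    rw [hlim.liminf_eq] at hfatou
    have h0 : ∫⁻ x in B, ENNReal.ofReal |u' x ^ 2 - 2 / 9| = 0 := by
      refine le_antisymm ?_ zero_le
      refine le_trans (le_of_eq ?_) hfatou
      refine lintegral_congr_ae ?_
      filter_upwards [ae_restrict_of_ae hae] with x hx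
      have : Tendsto (fun i => f i x) atTop (𝓝 (ENNReal.ofReal |u' x ^ 2 - 2 / 9|)) :=
        ENNReal.tendsto_ofReal (((hx.pow 2).sub_const _).abs)
      exact this.liminf_eq.symm
    have hmm : Measurable fun x => ENNReal.ofReal |u' x ^ 2 - 2 / 9| :=
      ENNReal.measurable_ofReal.comp (((hm.pow_const 2).sub_const _).abs)
    filter_upwards [(lintegral_eq_zero_iff hmm).1 h0] with x hx
    have h1 : |u' x ^ 2 - 2 / 9| ≤ 0 := ENNReal.ofReal_eq_zero.1 hx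
    have h2 : u' x ^ 2 - 2 / 9 = 0 := abs_eq_zero.1 (le_antisymm h1 (abs_nonneg _))
    linarith
  have hun : (⋃ k : ℕ, ball (0 : DgE n) ((k : ℝ) + 1)) = univ := by
    refine eq_univ_of_forall fun x => ?_
    obtain ⟨k, hk⟩ := exists_nat_gt ‖x‖
    exact mem_iUnion.2 ⟨k, by rw [mem_ball_zero_iff]; linarith⟩
  have := (ae_restrict_iUnion_iff (μ := (volume : Measure (DgE n)))
    (fun k : ℕ => ball (0 : DgE n) ((k : ℝ) + 1)) (fun x => u' x ^ 2 = 2 / 9)).2 key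
  rwa [hun, Measure.restrict_univ] at this

theorem dgB3_value {t : ℝ} (ht : t ^ 2 = 2 / 9) :
    (0 < t ∧ t = Real.sqrt 2 / 3) ∨ (t ≤ 0 ∧ t = -(Real.sqrt 2 / 3)) := by
  have h2 := dgB3_sqrt2_sq
  have h0 := dgB3_sqrt2_pos
  have hf : (t - Real.sqrt 2 / 3) * (t + Real.sqrt 2 / 3) = 0 := by nlinarith
  rcases mul_eq_zero.1 hf with h | h
  · left
    have : t = Real.sqrt 2 / 3 := by linarith
    exact ⟨by rw [this]; positivity, this⟩
  · right
    have : t = -(Real.sqrt 2 / 3) := by linarith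
    exact ⟨by rw [this]; linarith, this⟩


/-- pointwise: `Φ(s_i) → ± √2/3` with `|s_i| ≤ 1` forces `s_i → ± 1`. -/
theorem dgB3_tendsto_top {s : ℕ → ℝ} (hs : ∀ i, |s i| ≤ 1)
    (h : Tendsto (fun i => dgB3_Phi (s i)) atTop (𝓝 (Real.sqrt 2 / 3))) :
    Tendsto s atTop (𝓝 1) := by
  have h1 : Tendsto (fun i => 3 * Real.sqrt 2 * (Real.sqrt 2 / 3 - dgB3_Phi (s i))) atTop (𝓝 0) := by
    have := (h.const_sub (Real.sqrt 2 / 3)).const_mul (3 * Real.sqrt 2)
    simpa using this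
  have h2 : Tendsto (fun i => (s i - 1) ^ 2) atTop (𝓝 0) :=
    squeeze_zero (fun i => sq_nonneg _) (fun i => dgB3_Phi_top (hs i)) h1
  have h3 : Tendsto (fun i => Real.sqrt ((s i - 1) ^ 2)) atTop (𝓝 0) := by
    have := (Real.continuous_sqrt.tendsto 0).comp h2
    simpa [Function.comp_def] using this
  have h4 : Tendsto (fun i => |s i - 1|) atTop (𝓝 0) := by
    simpa only [Real.sqrt_sq_eq_abs] using h3
  have h5 : Tendsto (fun i => s i - 1) atTop (𝓝 0) := (tendsto_zero_iff_abs_tendsto_zero _).2 h4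
  have := h5.add_const 1
  simpa using this

theorem dgB3_tendsto_bot {s : ℕ → ℝ} (hs : ∀ i, |s i| ≤ 1)
    (h : Tendsto (fun i => dgB3_Phi (s i)) atTop (𝓝 (-(Real.sqrt 2 / 3)))) :
    Tendsto s atTop (𝓝 (-1)) := by
  have h1 : Tendsto (fun i => 3 * Real.sqrt 2 * (dgB3_Phi (s i) + Real.sqrt 2 / 3)) atTop (𝓝 0) := by
    have := (h.add_const (Real.sqrt 2 / 3)).const_mul (3 * Real.sqrt 2)
    simpa using this
  have h2 : Tendsto (fun i => (s i + 1) ^ 2) atTop (𝓝 0) :=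
    squeeze_zero (fun i => sq_nonneg _) (fun i => dgB3_Phi_bot (hs i)) h1
  have h3 : Tendsto (fun i => Real.sqrt ((s i + 1) ^ 2)) atTop (𝓝 0) := by
    have := (Real.continuous_sqrt.tendsto 0).comp h2
    simpa [Function.comp_def] using this
  have h4 : Tendsto (fun i => |s i + 1|) atTop (𝓝 0) := by
    simpa only [Real.sqrt_sq_eq_abs] using h3
  have h5 : Tendsto (fun i => s i + 1) atTop (𝓝 0) := (tendsto_zero_iff_abs_tendsto_zero _).2 h4
  have := h5.add_const (-1)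
  simpa using this

/-- total variation of the two-valued limit. -/
theorem dgB3_var_limit {n : ℕ} {u' : DgE n → ℝ} (hm : Measurable u')
    (h2 : ∀ᵐ x, u' x ^ 2 = 2 / 9) {U : Set (DgE n)} (hU : IsOpen U) :
    gmtVar u' U = ENNReal.ofReal (2 * Real.sqrt 2 / 3) * gmtP {x | 0 < u' x} U := by
  have hS : MeasurableSet {x | 0 < u' x} := measurableSet_lt measurable_const hm
  have h0 := dgB3_sqrt2_pos
  have e : u' =ᵐ[volume.restrict U]
      fun x => -(Real.sqrt 2 / 3) - (-(2 * Real.sqrt 2 / 3)) * gmtChi {x | 0 < u' x} x := by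
    filter_upwards [ae_restrict_of_ae h2] with x hx
    rcases dgB3_value hx with ⟨h, h'⟩ | ⟨h, h'⟩
    · have : gmtChi {x | 0 < u' x} x = 1 := by simp [gmtChi, h]
      rw [this, h']
      ring
    · have : gmtChi {x | 0 < u' x} x = 0 := by simp [gmtChi, not_lt.2 h]
      rw [this, h']
      ring
  have hl : LocallyIntegrableOn
      (fun x => (-(2 * Real.sqrt 2 / 3)) * gmtChi {x | 0 < u' x} x) U :=
    ((gmtChi_locallyIntegrable hS).locallyIntegrableOn U).smul (-(2 * Real.sqrt 2 / 3))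
  rw [gmtVar_congr e, gmtVar_const_sub _ hU hl, gmtVar_const_mul,
    ← gmtP_eq_gmtVar hS, abs_neg, abs_of_pos (by positivity)]


/-! ## scaling -/

theorem dgB3_dens_scale {n : ℕ} {ρ : ℝ} (hρ : 0 < ρ) (u : DgE n → ℝ) (x : DgE n) :
    dgB3_dens n ρ⁻¹ (fun y => u (ρ • y)) x = ρ * dgDens n u (ρ • x) := by
  unfold dgB3_dens dgDens
  rw [fderiv_comp_smul, norm_smul, Real.norm_eq_abs, abs_of_pos hρ]
  field_simp

theorem dgB3_continuous_dgDens {n : ℕ} {u : DgE n → ℝ} (hu : ContDiff ℝ 1 u) :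
    Continuous (dgDens n u) := by
  unfold dgDens dgW
  have h1 : Continuous (fderiv ℝ u) := hu.continuous_fderiv (by norm_num)
  have h2 : Continuous u := hu.continuous
  fun_prop

theorem dgB3_dgDens_nonneg {n : ℕ} (u : DgE n → ℝ) (x : DgE n) : 0 ≤ dgDens n u x := by
  unfold dgDens
  have := dgB3_dgW_nonneg (u x)
  positivity

/-- the rescaled energy: `E_{1/ρ}(u(ρ ·); B_r(x₀)) = ρ^{1-n} E(u; B_{ρ r}(ρ x₀))`. -/
theorem dgB3_energy_scale {n : ℕ} (hn : 1 ≤ n) {ρ : ℝ} (hρ : 0 < ρ) {u : DgE n → ℝ}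
    (hu : ContDiff ℝ 1 u) (x₀ : DgE n) (r : ℝ) :
    ∫⁻ x in ball x₀ r, ENNReal.ofReal (dgB3_dens n ρ⁻¹ (fun y => u (ρ • y)) x)
      = ENNReal.ofReal (dgEn n u (ρ • x₀) (ρ * r) / ρ ^ (n - 1)) := by
  have hc : Continuous fun x : DgE n => ρ * dgDens n u (ρ • x) := by
    have := dgB3_continuous_dgDens hu
    fun_prop
  have hi : IntegrableOn (fun x : DgE n => ρ * dgDens n u (ρ • x)) (ball x₀ r) :=
    (hc.continuousOn.integrableOn_compact (isCompact_closedBall x₀ r)).mono_set ball_subset_closedBall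
  simp_rw [dgB3_dens_scale hρ]
  rw [← ofReal_integral_eq_lintegral_ofReal hi
    (Eventually.of_forall fun x => mul_nonneg hρ.le (dgB3_dgDens_nonneg u _))]
  congr 1
  rw [integral_const_mul, Measure.setIntegral_comp_smul_of_pos volume (dgDens n u) (ball x₀ r) hρ,
    _root_.smul_ball hρ.ne', Real.norm_eq_abs, abs_of_pos hρ, finrank_euclideanSpace, Fintype.card_fin,
    smul_eq_mul]
  unfold dgEn
  obtain ⟨k, rfl⟩ : ∃ k, n = k + 1 := ⟨n - 1, by omega⟩
  rw [Nat.add_sub_cancel, pow_succ]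
  field_simp

/-! ## EXITS -/

/-- **Modica-Mortola, compactness and lower bound.**  `w_i` of class `C¹`, `|w_i| ≤ 1`, `ε_i → 0⁺`, energies locally bounded.
Then a subsequence converges in `L¹_loc` and a.e. to `2 χ_S - 1`, `S` of locally finite perimeter, and
`s₀ P(S; U) ≤ liminf E_{ε_i}(w_i; U)` for every open `U`, with `s₀ = 2√2/3`. -/
theorem dgB3_mm {n : ℕ} {w : ℕ → DgE n → ℝ} {ε : ℕ → ℝ}
    (hw : ∀ i, ContDiff ℝ 1 (w i)) (hb : ∀ i x, |w i x| ≤ 1)
    (hε : ∀ i, 0 < ε i) (hε0 : Tendsto ε atTop (𝓝 0))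
    (hE : ∀ r : ℝ, 0 < r → ∃ C : ℝ≥0∞, C ≠ ⊤ ∧ ∀ᶠ i in atTop,
      ∫⁻ x in ball 0 r, ENNReal.ofReal (dgB3_dens n (ε i) (w i) x) ≤ C) :
    ∃ (φ : ℕ → ℕ) (S : Set (DgE n)), StrictMono φ ∧ MeasurableSet S ∧ GmtLF S univ ∧
      GmtConvF univ (fun i => w (φ i)) (fun x => 2 * gmtChi S x - 1) ∧
      (∀ᵐ x, Tendsto (fun i => w (φ i) x) atTop (𝓝 (2 * gmtChi S x - 1))) ∧
      ∀ U : Set (DgE n), IsOpen U → ENNReal.ofReal (2 * Real.sqrt 2 / 3) * gmtP S U ≤
        liminf (fun i => ∫⁻ x in U, ENNReal.ofReal (dgB3_dens n (ε (φ i)) (w (φ i)) x)) atTop := by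
  have h0 := dgB3_sqrt2_pos
  -- the functions `v_i = Φ(w_i)`
  have hvc : ∀ i, Continuous fun y => dgB3_Phi (w i y) := fun i => (dgB3_contDiff_comp (hw i)).continuous
  have hvl : ∀ i, LocallyIntegrable fun y => dgB3_Phi (w i y) := fun i => (hvc i).locallyIntegrable
  -- local bound on every ball
  have hEx : ∀ x : DgE n, ∃ C : ℝ≥0∞, C ≠ ⊤ ∧ ∀ᶠ i in atTop,
      ∫⁻ y in ball x 1, ENNReal.ofReal (dgB3_dens n (ε i) (w i) y) ≤ C := by
    intro x
    obtain ⟨C, hC, hCe⟩ := hE (‖x‖ + 1) (by positivity)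
    refine ⟨C, hC, ?_⟩
    filter_upwards [hCe] with i hi
    refine (lintegral_mono_set ?_).trans hi
    intro y hy
    rw [mem_ball_zero_iff]
    rw [mem_ball, dist_eq_norm] at hy
    calc ‖y‖ = ‖(y - x) + x‖ := by rw [sub_add_cancel]
      _ ≤ ‖y - x‖ + ‖x‖ := norm_add_le _ _
      _ < ‖x‖ + 1 := by linarith
  obtain ⟨φ₁, u', hφ₁, hm, hu', hconv⟩ := gmtVar_compactness (W := (univ : Set (DgE n))) isOpen_univ
    (u := fun i y => dgB3_Phi (w i y)) hvl (by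
      intro x _
      obtain ⟨C, hC, hCe⟩ := hEx x
      refine ⟨1, one_pos, (1 + C) * volume (ball x 1),
        ENNReal.mul_ne_top (ENNReal.add_ne_top.2 ⟨ENNReal.one_ne_top, hC⟩)
          measure_ball_lt_top.ne, ?_⟩
      filter_upwards [hCe] with i hi
      rw [← setLIntegral_const]
      refine lintegral_mono fun y => add_le_add ?_ ?_
      · rw [← ofReal_norm, Real.norm_eq_abs]
        exact ENNReal.ofReal_le_one.2 (dgB3_Phi_abs_le (hb i y))
      · exact (dgB3_var_le (hε i) (hw i) isOpen_ball).trans hi)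
  obtain ⟨φ₂, hφ₂, hae⟩ := GmtConvF.exists_subseq_ae isOpen_univ
    (fun i => (hvl (φ₁ i)).locallyIntegrableOn _) hu' hconv
  have hφ : StrictMono (φ₁ ∘ φ₂) := hφ₁.comp hφ₂
  have hae' : ∀ᵐ x, Tendsto (fun i => dgB3_Phi (w (φ₁ (φ₂ i)) x)) atTop (𝓝 (u' x)) := by
    filter_upwards [hae] with x hx
    exact hx (mem_univ x)
  have h2 : ∀ᵐ x, u' x ^ 2 = 2 / 9 :=
    dgB3_two_values (w := fun i => w (φ₁ (φ₂ i))) (ε := fun i => ε (φ₁ (φ₂ i)))
      (fun i => hw _) (fun i => hb _) (fun i => hε _) (hε0.comp hφ.tendsto_atTop)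
      (fun r hr => by
        obtain ⟨C, hC, hCe⟩ := hE r hr
        exact ⟨C, hC, hφ.tendsto_atTop.eventually hCe⟩) hm hae'
  have hS : MeasurableSet {x | 0 < u' x} := measurableSet_lt measurable_const hm
  -- the lower bound
  have hlow : ∀ U : Set (DgE n), IsOpen U →
      ENNReal.ofReal (2 * Real.sqrt 2 / 3) * gmtP {x | 0 < u' x} U ≤
        liminf (fun i => ∫⁻ x in U,
          ENNReal.ofReal (dgB3_dens n (ε ((φ₁ ∘ φ₂) i)) (w ((φ₁ ∘ φ₂) i)) x)) atTop := by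
    intro U hU
    rw [← dgB3_var_limit hm h2 hU]
    have hc : GmtConvF U (fun i y => dgB3_Phi (w ((φ₁ ∘ φ₂) i) y)) u' := fun K hK _ =>
      (hconv K hK (subset_univ _)).comp hφ₂.tendsto_atTop
    refine (gmtVar_lsc hU (fun i => (hvl _).locallyIntegrableOn _) (hu'.mono_set (subset_univ _))
      hc).trans ?_
    exact liminf_le_liminf (Eventually.of_forall fun i => dgB3_var_le (hε _) (hw _) hU)
  -- a.e. convergence of `w`
  have hwae : ∀ᵐ x, Tendsto (fun i => w ((φ₁ ∘ φ₂) i) x) atTop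
      (𝓝 (2 * gmtChi {x | 0 < u' x} x - 1)) := by
    filter_upwards [hae', h2] with x hx hx2
    rcases dgB3_value hx2 with ⟨h, h'⟩ | ⟨h, h'⟩
    · have e : gmtChi {x | 0 < u' x} x = 1 := by simp [gmtChi, h]
      rw [e]
      rw [h'] at hx
      have := dgB3_tendsto_top (s := fun i => w (φ₁ (φ₂ i)) x) (fun i => hb _ x) hx
      norm_num
      exact this
    · have e : gmtChi {x | 0 < u' x} x = 0 := by simp [gmtChi, not_lt.2 h]
      rw [e]
      rw [h'] at hx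
      have := dgB3_tendsto_bot (s := fun i => w (φ₁ (φ₂ i)) x) (fun i => hb _ x) hx
      norm_num
      exact this
  refine ⟨φ₁ ∘ φ₂, {x | 0 < u' x}, hφ, hS, ?_, ?_, hwae, hlow⟩
  · -- locally finite perimeter
    rw [gmtLF_iff_local isOpen_univ hS]
    intro x _
    refine ⟨1, one_pos, fun htop => ?_⟩
    obtain ⟨C, hC, hCe⟩ := hEx x
    have h1 := hlow (ball x 1) isOpen_ball
    rw [htop, ENNReal.mul_top (by
      rw [Ne, ENNReal.ofReal_eq_zero, not_le]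
      positivity)] at h1
    have h3 : liminf (fun i => ∫⁻ y in ball x 1,
        ENNReal.ofReal (dgB3_dens n (ε ((φ₁ ∘ φ₂) i)) (w ((φ₁ ∘ φ₂) i)) y)) atTop ≤ C :=
      liminf_le_of_frequently_le' (Eventually.frequently (hφ.tendsto_atTop.eventually hCe))
    exact hC (top_le_iff.1 (h1.trans h3))
  · -- `L¹_loc` convergence
    intro K hK _
    have hchim : Measurable (gmtChi {x | 0 < u' x}) := measurable_const.indicator hS
    have h1 : Tendsto (fun i => ∫⁻ x in K,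
        ‖w ((φ₁ ∘ φ₂) i) x - (2 * gmtChi {x | 0 < u' x} x - 1)‖ₑ) atTop (𝓝 (∫⁻ _ in K, 0)) := by
      refine tendsto_lintegral_of_dominated_convergence (fun _ => (2 : ℝ≥0∞))
        (fun i => (((hw _).continuous.measurable).sub ((hchim.const_mul 2).sub_const 1)).enorm)
        (fun i => Eventually.of_forall fun x => ?_) ?_ ?_
      · show ‖w ((φ₁ ∘ φ₂) i) x - (2 * gmtChi {x | 0 < u' x} x - 1)‖ₑ ≤ 2
        rw [← ofReal_norm, Real.norm_eq_abs]
        have hb1 := abs_le.1 (hb ((φ₁ ∘ φ₂) i) x)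
        have : |w ((φ₁ ∘ φ₂) i) x - (2 * gmtChi {x | 0 < u' x} x - 1)| ≤ 2 := by
          by_cases a : 0 < u' x
          · have e : gmtChi {x | 0 < u' x} x = 1 := by simp [gmtChi, a]
            rw [e, abs_le]
            constructor <;> linarith [hb1.1, hb1.2]
          · have e : gmtChi {x | 0 < u' x} x = 0 := by simp [gmtChi, a]
            rw [e, abs_le]
            constructor <;> linarith [hb1.1, hb1.2]
        calc ENNReal.ofReal _ ≤ ENNReal.ofReal 2 := ENNReal.ofReal_le_ofReal this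
          _ = 2 := by simp
      · simp only [lintegral_const, Measure.restrict_apply, MeasurableSet.univ, univ_inter]
        exact ENNReal.mul_ne_top (by simp) hK.measure_lt_top.ne
      · filter_upwards [ae_restrict_of_ae hwae] with x hx
        have h5 := (hx.sub_const (2 * gmtChi {x | 0 < u' x} x - 1)).enorm
        simpa using h5
    simpa using h1


/-- **The blow-down of a solution of finite density.**  Along a subsequence `u(R_i ·) → 2 χ_S - 1` in `L¹_loc` and a.e., `S` has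
locally finite perimeter and `s₀ P(S; B_r(x₀)) ≤ liminf R_i^{1-n} E(u; B_{R_i r}(R_i x₀))`. -/
theorem dgB3_blowdown {n : ℕ} (hn : 1 ≤ n) {u : DgE n → ℝ} (hu : DgSol n u) (hd : DgFinDens n u)
    {R : ℕ → ℝ} (hR0 : ∀ i, 0 < R i) (hR : Tendsto R atTop atTop) :
    ∃ (φ : ℕ → ℕ) (S : Set (DgE n)), StrictMono φ ∧ MeasurableSet S ∧ GmtLF S univ ∧
      GmtConvF univ (fun i x => u (R (φ i) • x)) (fun x => 2 * gmtChi S x - 1) ∧
      (∀ᵐ x, Tendsto (fun i => u (R (φ i) • x)) atTop (𝓝 (2 * gmtChi S x - 1))) ∧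
      (∀ U : Set (DgE n), IsOpen U → ENNReal.ofReal (2 * Real.sqrt 2 / 3) * gmtP S U ≤
        liminf (fun i => ∫⁻ x in U, ENNReal.ofReal (R (φ i) * dgDens n u (R (φ i) • x))) atTop) ∧
      ∀ (x₀ : DgE n) (r : ℝ), ENNReal.ofReal (2 * Real.sqrt 2 / 3) * gmtP S (ball x₀ r) ≤
        liminf (fun i => ENNReal.ofReal
          (dgEn n u (R (φ i) • x₀) (R (φ i) * r) / R (φ i) ^ (n - 1))) atTop := by
  have hu1 : ContDiff ℝ 1 u := hu.smooth.of_le (by norm_num)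
  obtain ⟨C₀, hC₀⟩ := hd
  obtain ⟨φ, S, hφ, hS, hLF, hconv, hae, hlow⟩ := dgB3_mm (n := n)
    (w := fun i y => u (R i • y)) (ε := fun i => (R i)⁻¹)
    (fun i => hu1.comp (contDiff_const_smul (R i)))
    (fun i x => abs_le.2 ⟨(hu.range _).1, (hu.range _).2⟩)
    (fun i => inv_pos.2 (hR0 i)) (tendsto_inv_atTop_zero.comp hR)
    (fun r hr => by
      refine ⟨ENNReal.ofReal (C₀ * r ^ (n - 1)), ENNReal.ofReal_ne_top, ?_⟩
      filter_upwards [hR.eventually_ge_atTop (1 / r)] with i hi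
      rw [dgB3_energy_scale hn (hR0 i) hu1, smul_zero]
      refine ENNReal.ofReal_le_ofReal ?_
      have h1 : 1 ≤ R i * r := by
        rw [div_le_iff₀ hr] at hi
        exact hi
      rw [div_le_iff₀ (pow_pos (hR0 i) _)]
      calc dgEn n u 0 (R i * r) ≤ C₀ * (R i * r) ^ (n - 1) := hC₀ _ h1
        _ = C₀ * r ^ (n - 1) * R i ^ (n - 1) := by rw [mul_pow]; ring)
  refine ⟨φ, S, hφ, hS, hLF, hconv, hae, fun U hU => ?_, fun x₀ r => ?_⟩
  · have := hlow U hU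
    simp_rw [dgB3_dens_scale (hR0 _)] at this
    exact this
  · have := hlow (ball x₀ r) isOpen_ball
    simp_rw [dgB3_energy_scale hn (hR0 _) hu1] at this
    exact this

end Claimed.Agent.R329
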