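import Claimed.Agent.R329.MMrecR

/-!
# Row 329, post B4.1, leaf of helper58: the averaging lemma of the recovery sequence.   Prefix `dgB4a_`.

For continuous `f`, `lam > 0` the majorant `H(t,x) = c₂ g'(a)²/ε + c₃ g'(a)`, `a = (t - f x)/(lam x · ε)`, has, for fixed `x`, the primitive
`c₂ lam Φ(a) + c₃ lam ε g(a)` in `t`; so `∫_θ^{1-θ} H(t,x) dt ≤ (c₂ s₀ + 2 c₃ ε) lam x`.  Fubini, and a level `t` below the average.
-/

set_option autoImplicit false
open MeasureTheory Metric Set Filter Topology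

namespace Claimed.Agent.R329

theorem dgB4a_gp_continuous : Continuous dgB41_gp := by
  have hG : Continuous dgG := continuous_iff_continuousAt.2 fun s => (dgB41_hasDerivAt_G s).continuousAt
  unfold dgB41_gp
  exact (continuous_const.sub (hG.pow 2)).div_const _

/-- the inner integral (over the levels) -/
theorem dgB4a_inner {a b c l ε c₂ c₃ : ℝ} (hab : a ≤ b) (hl : 0 < l) (hε : 0 < ε) (hc₂ : 0 ≤ c₂) (hc₃ : 0 ≤ c₃) :
    ∫ t in Icc a b, (c₂ * (dgB41_gp ((t - c) / (l * ε)) ^ 2 / ε) + c₃ * dgB41_gp ((t - c) / (l * ε))) ≤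
      (c₂ * dgB4_s0 + c₃ * (2 * ε)) * l := by
  have hle : l * ε ≠ 0 := (mul_pos hl hε).ne'
  have harg : ∀ t : ℝ, HasDerivAt (fun t : ℝ => (t - c) / (l * ε)) (1 / (l * ε)) t := fun t =>
    ((hasDerivAt_id t).sub_const c).div_const (l * ε)
  have hP : ∀ t : ℝ, HasDerivAt
      (fun t : ℝ => c₂ * l * dgB41_Phi ((t - c) / (l * ε)) + c₃ * l * ε * dgG ((t - c) / (l * ε)))
      (c₂ * (dgB41_gp ((t - c) / (l * ε)) ^ 2 / ε) + c₃ * dgB41_gp ((t - c) / (l * ε))) t := by
    intro t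
    have h1 := ((dgB41_hasDerivAt_Phi ((t - c) / (l * ε))).comp t (harg t)).const_mul (c₂ * l)
    have h2 := ((dgB41_hasDerivAt_G ((t - c) / (l * ε))).comp t (harg t)).const_mul (c₃ * l * ε)
    refine (h1.add h2).congr_deriv ?_
    field_simp
  have hcont : Continuous fun t : ℝ =>
      c₂ * (dgB41_gp ((t - c) / (l * ε)) ^ 2 / ε) + c₃ * dgB41_gp ((t - c) / (l * ε)) := by
    have ha : Continuous fun t : ℝ => (t - c) / (l * ε) := (continuous_id.sub continuous_const).div_const _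
    exact (continuous_const.mul (((dgB4a_gp_continuous.comp ha).pow 2).div_const ε)).add
      (continuous_const.mul (dgB4a_gp_continuous.comp ha))
  rw [integral_Icc_eq_integral_Ioc, ← intervalIntegral.integral_of_le hab,
    intervalIntegral.integral_eq_sub_of_hasDerivAt (fun t _ => hP t) (hcont.intervalIntegrable _ _)]
  have h1 := abs_le.1 (dgB41_abs_Phi_le ((b - c) / (l * ε)))
  have h2 := abs_le.1 (dgB41_abs_Phi_le ((a - c) / (l * ε)))
  have h3 := dgB41_G_mem ((b - c) / (l * ε))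
  have h4 := dgB41_G_mem ((a - c) / (l * ε))
  have hA : c₂ * l * (dgB41_Phi ((b - c) / (l * ε)) - dgB41_Phi ((a - c) / (l * ε))) ≤ c₂ * l * dgB4_s0 :=
    mul_le_mul_of_nonneg_left (by linarith [h1.2, h2.1]) (by positivity)
  have hB : c₃ * l * ε * (dgG ((b - c) / (l * ε)) - dgG ((a - c) / (l * ε))) ≤ c₃ * l * ε * 2 :=
    mul_le_mul_of_nonneg_left (by linarith [h3.2, h4.1]) (by positivity)
  nlinarith [hA, hB]

/-! ## EXITS -/

/-- **The averaging lemma.** -/
theorem dgB4a_avg {n : ℕ} {f lam : DgE n → ℝ} (hf : Continuous f) (hlam : Continuous lam) (hpos : ∀ x, 0 < lam x)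
    (y : DgE n) (ρ : ℝ) {ε θ c₂ c₃ : ℝ} (hε : 0 < ε) (hθ : 0 < θ) (hθ' : θ < 1 / 2) (hc₂ : 0 ≤ c₂) (hc₃ : 0 ≤ c₃) :
    ∃ t ∈ Icc θ (1 - θ), ∫ x in ball y ρ, (c₂ * (dgB41_gp ((t - f x) / (lam x * ε)) ^ 2 / ε) +
        c₃ * dgB41_gp ((t - f x) / (lam x * ε))) ≤
      (c₂ * dgB4_s0 + c₃ * (2 * ε)) * (∫ x in ball y ρ, lam x) / (1 - 2 * θ) := by
  set H : ℝ → DgE n → ℝ := fun t x =>
    c₂ * (dgB41_gp ((t - f x) / (lam x * ε)) ^ 2 / ε) + c₃ * dgB41_gp ((t - f x) / (lam x * ε)) with hH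
  have hHc : Continuous (Function.uncurry H) := by
    have harg : Continuous fun p : ℝ × DgE n => (p.1 - f p.2) / (lam p.2 * ε) :=
      (continuous_fst.sub (hf.comp continuous_snd)).div ((hlam.comp continuous_snd).mul continuous_const)
        (fun p => (mul_pos (hpos _) hε).ne')
    exact (continuous_const.mul (((dgB4a_gp_continuous.comp harg).pow 2).div_const ε)).add
      (continuous_const.mul (dgB4a_gp_continuous.comp harg))
  have hH0 : ∀ t x, 0 ≤ H t x := by
    intro t x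
    have := (dgB41_gp_pos ((t - f x) / (lam x * ε))).le
    simp only [hH]
    positivity
  have hHb : ∀ t x, H t x ≤ c₂ / ε + c₃ := by
    intro t x
    have h0 := (dgB41_gp_pos ((t - f x) / (lam x * ε))).le
    have h1 := dgB41_gp_le_one ((t - f x) / (lam x * ε))
    have h2 : dgB41_gp ((t - f x) / (lam x * ε)) ^ 2 ≤ 1 := pow_le_one₀ h0 h1
    simp only [hH]
    have h3 : c₂ * (dgB41_gp ((t - f x) / (lam x * ε)) ^ 2 / ε) ≤ c₂ * (1 / ε) := by gcongr
    have h4 : c₃ * dgB41_gp ((t - f x) / (lam x * ε)) ≤ c₃ * 1 := by gcongr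
    calc _ ≤ c₂ * (1 / ε) + c₃ * 1 := add_le_add h3 h4
      _ = c₂ / ε + c₃ := by ring
  set μ : Measure ℝ := volume.restrict (Icc θ (1 - θ)) with hμ
  set ν : Measure (DgE n) := volume.restrict (ball y ρ) with hν
  have : IsFiniteMeasure ν := ⟨by rw [hν, Measure.restrict_apply_univ]; exact measure_ball_lt_top⟩
  have hint : Integrable (Function.uncurry H) (μ.prod ν) :=
    Integrable.of_bound hHc.aestronglyMeasurable (c₂ / ε + c₃)
      (ae_of_all _ fun p => by
        show ‖H p.1 p.2‖ ≤ _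
        rw [Real.norm_of_nonneg (hH0 _ _)]
        exact hHb _ _)
  have hΨ : Integrable (fun t => ∫ x, H t x ∂ν) μ := hint.integral_prod_left
  have hlen : θ ≤ 1 - θ := by linarith
  have hpos' : 0 < 1 - 2 * θ := by linarith
  have hvol : (volume : Measure ℝ).real (Icc θ (1 - θ)) = 1 - 2 * θ := by
    rw [Real.volume_real_Icc_of_le hlen]
    ring
  obtain ⟨t, ht, hle⟩ := exists_le_setAverage (μ := (volume : Measure ℝ)) (s := Icc θ (1 - θ))
    (f := fun t => ∫ x, H t x ∂ν)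
    (by rw [Real.volume_Icc]; simp only [ne_eq, ENNReal.ofReal_eq_zero, not_le]; linarith)
    (by rw [Real.volume_Icc]; exact ENNReal.ofReal_ne_top) hΨ
  refine ⟨t, ht, hle.trans ?_⟩
  rw [setAverage_eq, smul_eq_mul, hvol]
  have hswap : ∫ t in Icc θ (1 - θ), (∫ x, H t x ∂ν) = ∫ x, (∫ t in Icc θ (1 - θ), H t x) ∂ν :=
    integral_integral_swap hint
  have hlamint : Integrable lam ν :=
    (hlam.continuousOn.integrableOn_compact (isCompact_closedBall y ρ)).mono_set ball_subset_closedBall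
  have hmain : ∫ x, (∫ t in Icc θ (1 - θ), H t x) ∂ν ≤ ∫ x, (c₂ * dgB4_s0 + c₃ * (2 * ε)) * lam x ∂ν :=
    integral_mono hint.integral_prod_right (hlamint.const_mul _)
      fun x => dgB4a_inner hlen (hpos x) hε hc₂ hc₃
  rw [integral_const_mul] at hmain
  rw [hswap, inv_mul_eq_div]
  gcongr

end Claimed.Agent.R329
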