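import Claimed.Agent.R329.MMrecR

/-!
# Row 329, post B4.1 (chief: helper108), leaf of helper288: the mollified indicator.   Prefix `dgB4f_`.

* `dgB4f_moll`: `f = ρ_σ * 1_F` is `C¹`, `∫_{B_ρ} |∇f| ≤ P(F; B_ρ')`, `∫_{B_ρ} |f - 1_F| ≤ σ P(F; B_ρ')`;
* `dgB4f_mv`: the uniform mean value inequality on a ball;
* `dgB4f_cheb`: Chebyshev for the levels `t ∈ [θ, 1 - θ]`.
-/

set_option autoImplicit false
open MeasureTheory Metric Set Filter Topology
open Claimed.Agent.Gmt

namespace Claimed.Agent.R329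

theorem dgB4f_locallyIntegrable {n : ℕ} {F : Set (DgE n)} (hF : MeasurableSet F) :
    LocallyIntegrable (F.indicator fun _ => (1 : ℝ)) :=
  (locallyIntegrable_const (1 : ℝ)).indicator hF

theorem dgB4f_thickening {n : ℕ} (y : DgE n) {ρ ρ' σ : ℝ} (h : ρ + σ ≤ ρ') :
    thickening σ (ball y ρ) ⊆ ball y ρ' := by
  intro z hz
  rw [mem_thickening_iff] at hz
  obtain ⟨x, hx, hzx⟩ := hz
  rw [mem_ball] at hx ⊢
  calc dist z y ≤ dist z x + dist x y := dist_triangle _ _ _
    _ < σ + ρ := add_lt_add hzx hx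
    _ ≤ ρ' := by linarith

/-- **The mollified indicator.** -/
theorem dgB4f_moll {n : ℕ} {F : Set (DgE n)} (hF : MeasurableSet F) (y : DgE n) {ρ ρ' σ : ℝ}
    (hσ : 0 < σ) (hσ' : σ < (ρ' - ρ) / 2) (hfin : gmtP F (ball y ρ') ≠ ⊤) :
    ContDiff ℝ 1 (gmtMol σ (F.indicator fun _ => (1 : ℝ))) ∧
      ∫ x in ball y ρ, ‖fderiv ℝ (gmtMol σ (F.indicator fun _ => (1 : ℝ))) x‖ ≤
        (gmtP F (ball y ρ')).toReal ∧
      ∫ x in ball y ρ, |gmtMol σ (F.indicator fun _ => (1 : ℝ)) x - F.indicator (fun _ => (1 : ℝ)) x| ≤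
        σ * (gmtP F (ball y ρ')).toReal := by
  have hu := dgB4f_locallyIntegrable hF
  have hc : ContDiff ℝ 1 (gmtMol σ (F.indicator fun _ => (1 : ℝ))) :=
    (gmtMol_contDiff hσ hu).of_le (by exact_mod_cast le_top)
  have hP : gmtP F (ball y ρ') = gmtVar (F.indicator fun _ => (1 : ℝ)) (ball y ρ') :=
    gmtP_eq_gmtVar hF _
  refine ⟨hc, ?_, ?_⟩
  · have h1 := lintegral_fderiv_gmtMol_le hσ hu (U' := ball y ρ) (U := ball y ρ') isOpen_ball
      (dgB4f_thickening y (by linarith))
    rw [← hP] at h1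
    rw [integral_norm_eq_lintegral_enorm
      (hc.continuous_fderiv one_ne_zero).aestronglyMeasurable]
    exact ENNReal.toReal_mono hfin h1
  · have h1 := lintegral_gmtMol_sub_le hσ (ε' := 2 * σ) (by linarith) hu (U' := ball y ρ)
      (U := ball y ρ') isOpen_ball (dgB4f_thickening y (by linarith))
    rw [← hP] at h1
    have hm : AEStronglyMeasurable
        (fun x => gmtMol σ (F.indicator fun _ => (1 : ℝ)) x - F.indicator (fun _ => (1 : ℝ)) x)
        (volume.restrict (ball y ρ)) :=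
      (hc.continuous.aestronglyMeasurable).sub
        ((measurable_const.indicator hF).aestronglyMeasurable)
    have h2 := integral_norm_eq_lintegral_enorm hm
    simp only [Real.norm_eq_abs] at h2
    rw [h2]
    have h3 := ENNReal.toReal_mono (ENNReal.mul_ne_top ENNReal.ofReal_ne_top hfin) h1
    rwa [ENNReal.toReal_mul, ENNReal.toReal_ofReal hσ.le] at h3

/-- **The uniform mean value inequality.** -/
theorem dgB4f_mv {n : ℕ} {f : DgE n → ℝ} (hf : ContDiff ℝ 1 f) (y : DgE n) (ρ : ℝ) {η₁ : ℝ}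
    (hη₁ : 0 < η₁) :
    ∃ κ : ℝ, 0 < κ ∧ κ ≤ 1 ∧ ∀ x ∈ ball y ρ, ∀ z, dist x z < κ →
      |f z - f x| ≤ dist x z * (‖fderiv ℝ f x‖ + η₁) := by
  have hcont : Continuous (fderiv ℝ f) := hf.continuous_fderiv one_ne_zero
  have huc : UniformContinuousOn (fderiv ℝ f) (closedBall y (ρ + 1)) :=
    (isCompact_closedBall y (ρ + 1)).uniformContinuousOn_of_continuous hcont.continuousOn
  rw [Metric.uniformContinuousOn_iff] at huc
  obtain ⟨δ, hδ, hδ'⟩ := huc η₁ hη₁
  refine ⟨min δ 1, lt_min hδ one_pos, min_le_right _ _, fun x hx z hz => ?_⟩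
  have hsub : ball x (min δ 1) ⊆ closedBall y (ρ + 1) := by
    intro w hw
    rw [mem_ball] at hw hx
    rw [mem_closedBall]
    have h1 : dist w x < 1 := lt_of_lt_of_le hw (min_le_right _ _)
    linarith [dist_triangle w x y]
  have hxx : x ∈ ball x (min δ 1) := mem_ball_self (lt_min hδ one_pos)
  have hzz : z ∈ ball x (min δ 1) := by rw [mem_ball, dist_comm]; exact hz
  have hb : ∀ w ∈ ball x (min δ 1), ‖fderiv ℝ f w‖ ≤ ‖fderiv ℝ f x‖ + η₁ := by
    intro w hw
    have h1 : dist w x < δ := lt_of_lt_of_le hw (min_le_left _ _)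
    have h2 := hδ' w (hsub hw) x (hsub hxx) h1
    rw [dist_eq_norm] at h2
    have h3 : ‖fderiv ℝ f w‖ ≤ ‖fderiv ℝ f x‖ + ‖fderiv ℝ f w - fderiv ℝ f x‖ := by
      have := norm_add_le (fderiv ℝ f x) (fderiv ℝ f w - fderiv ℝ f x)
      simpa using this
    linarith
  have h := Convex.norm_image_sub_le_of_norm_fderiv_le
    (fun w _ => (hf.differentiable one_ne_zero) w) hb (convex_ball x _) hxx hzz
  rw [Real.norm_eq_abs, ← dist_eq_norm, dist_comm z x, mul_comm] at h
  exact h

/-- **Chebyshev for the levels.** -/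
theorem dgB4f_cheb {n : ℕ} {F : Set (DgE n)} (hF : MeasurableSet F) {f : DgE n → ℝ}
    (hf : Continuous f) (y : DgE n) (ρ : ℝ) {θ t : ℝ} (hθ : 0 < θ) (ht : t ∈ Icc θ (1 - θ)) :
    ∫ x in ball y ρ, |(if t < f x then (1 : ℝ) else -1) - dgB4_ph F x| ≤
      2 / θ * ∫ x in ball y ρ, |f x - F.indicator (fun _ => (1 : ℝ)) x| := by
  rw [← integral_const_mul]
  have hint : IntegrableOn (fun x => |f x - F.indicator (fun _ => (1 : ℝ)) x|) (ball y ρ) := by
    have h1 : IntegrableOn f (ball y ρ) :=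
      (hf.continuousOn.integrableOn_compact (isCompact_closedBall y ρ)).mono_set
        ball_subset_closedBall
    have h2 : IntegrableOn (F.indicator fun _ => (1 : ℝ)) (ball y ρ) :=
      (integrableOn_const (measure_ball_lt_top.ne)).indicator hF
    exact (h1.sub h2).abs
  refine integral_mono_of_nonneg (Eventually.of_forall fun x => abs_nonneg _)
    (hint.const_mul _) (Eventually.of_forall fun x => ?_)
  obtain ⟨ht1, ht2⟩ := ht
  simp only [dgB4_ph]
  by_cases hx : x ∈ F
  · rw [indicator_of_mem hx, indicator_of_mem hx]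
    by_cases h : t < f x
    · rw [if_pos h]
      norm_num
      positivity
    · rw [if_neg h]
      have h1 : θ ≤ |f x - 1| := by
        rw [abs_sub_comm]
        exact le_trans (by linarith [not_lt.1 h]) (le_abs_self _)
      have h2 : 2 / θ * θ ≤ 2 / θ * |f x - 1| := mul_le_mul_of_nonneg_left h1 (by positivity)
      rw [div_mul_cancel₀ _ hθ.ne'] at h2
      norm_num
      exact h2
  · rw [indicator_of_notMem hx, indicator_of_notMem hx]
    by_cases h : t < f x
    · rw [if_pos h]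
      have h1 : θ ≤ |f x - 0| := by
        rw [sub_zero]
        exact le_trans (by linarith) (le_abs_self _)
      have h2 : 2 / θ * θ ≤ 2 / θ * |f x - 0| := mul_le_mul_of_nonneg_left h1 (by positivity)
      rw [div_mul_cancel₀ _ hθ.ne'] at h2
      norm_num
      norm_num at h2
      exact h2
    · rw [if_neg h]
      norm_num
      positivity

end Claimed.Agent.R329
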