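import Claimed.Agent.R329.Defs
import Claimed.Agent.Lib.Gmt.GgMeasB

/-!
# Row 329, post B4.5 (helper17), prefix `dgB45_`: from the ball inequalities to `GmtMin univ E`.

Leaf `dgB4_min_of_balls` of `MMrec.lean`, verbatim.  Pure `Lib/Gmt`: perimeter measure `gmtMu` (additive), locality off the compact
set where the competitor differs, and a telescoping sum over `N` thin annuli instead of continuity radii.
-/

set_option autoImplicit false
open MeasureTheory Metric Set Filter Topology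
open Claimed.Agent.Gmt

namespace Claimed.Agent.R329

/-- The comparison on one annulus. -/
theorem dgB45_annulus {n : ℕ} {E S' W K : Set (DgE n)} (hE : MeasurableSet E) (hS' : MeasurableSet S')
    (hfin : ∀ r : ℝ, gmtP E (ball (0 : DgE n) r) ≠ ⊤)
    (h : ∀ (r δ : ℝ) (F : Set (DgE n)), 0 < r → 0 < δ → MeasurableSet F →
      (∀ x ∉ ball (0 : DgE n) r, (x ∈ F ↔ x ∈ E)) →
      gmtP F (ball (0 : DgE n) (r + δ)) ≠ ⊤ → gmtP E (ball (0 : DgE n) r) ≤ gmtP F (ball (0 : DgE n) (r + δ)))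
    (hW : IsOpen W) (hK : IsCompact K) (hKW : K ⊆ W) (hd : symmDiff E S' ⊆ K) (hS'fin : gmtP S' W ≠ ⊤)
    {r δ : ℝ} (hr : 0 < r) (hδ : 0 < δ) (hWr : W ⊆ ball (0 : DgE n) r) :
    gmtMu E W ≤ gmtMu S' W + gmtMu E (ball (0 : DgE n) (r + δ) \ ball (0 : DgE n) r) := by
  have hKo : IsOpen Kᶜ := hK.isClosed.isOpen_compl
  have hiff : ∀ x ∉ K, (x ∈ S' ↔ x ∈ E) := by
    intro x hx
    constructor
    · intro h1
      by_contra h2
      exact hx (hd (Or.inr ⟨h1, h2⟩))
    · intro h1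
      by_contra h2
      exact hx (hd (Or.inl ⟨h1, h2⟩))
  have hres : (gmtMu E).restrict Kᶜ = (gmtMu S').restrict Kᶜ := by
    refine gmtMu_restrict_congr hKo hE hS' ?_
    have : E ∩ Kᶜ = S' ∩ Kᶜ := by
      ext x
      constructor
      · rintro ⟨h1, h2⟩; exact ⟨(hiff x h2).2 h1, h2⟩
      · rintro ⟨h1, h2⟩; exact ⟨(hiff x h2).1 h1, h2⟩
    rw [this]
    exact ae_eq_refl _
  have hloc : ∀ A : Set (DgE n), MeasurableSet A → A ⊆ Kᶜ → gmtMu S' A = gmtMu E A := by
    intro A hA hAK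
    have h1 := congrArg (fun μ : Measure (DgE n) => μ A) hres
    simp only [Measure.restrict_apply hA, inter_eq_left.2 hAK] at h1
    exact h1.symm
  set B : Set (DgE n) := ball (0 : DgE n) (r + δ) with hB
  set Br : Set (DgE n) := ball (0 : DgE n) r with hBr
  have hBrB : Br ⊆ B := ball_subset_ball (by linarith)
  have hWB : W ⊆ B := hWr.trans hBrB
  have hWm : MeasurableSet W := hW.measurableSet
  have hBm : MeasurableSet B := measurableSet_ball
  have hBrm : MeasurableSet Br := measurableSet_ball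
  -- decomposition of the competitor
  have e1 : gmtMu S' B = gmtMu S' W + gmtMu E (B \ W) := by
    rw [← measure_inter_add_sdiff B hWm, inter_eq_right.2 hWB,
      hloc (B \ W) (hBm.diff hWm) (fun x hx hxK => hx.2 (hKW hxK))]
  have e2 : gmtMu E Br = gmtMu E W + gmtMu E (Br \ W) := by
    rw [← measure_inter_add_sdiff Br hWm, inter_eq_right.2 hWr]
  have e3 : gmtMu E (B \ W) = gmtMu E (Br \ W) + gmtMu E (B \ Br) := by
    rw [← measure_inter_add_sdiff (B \ W) hBrm]
    congr 2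
    · ext x
      constructor
      · rintro ⟨⟨_, h2⟩, h3⟩; exact ⟨h3, h2⟩
      · rintro ⟨h1, h2⟩; exact ⟨⟨hBrB h1, h2⟩, h1⟩
    · ext x
      constructor
      · rintro ⟨⟨h1, _⟩, h3⟩; exact ⟨h1, h3⟩
      · rintro ⟨h1, h2⟩; exact ⟨⟨h1, fun h3 => h2 (hWr h3)⟩, h2⟩
  have hEB : gmtMu E B ≠ ⊤ := by rw [gmtMu_open E isOpen_ball]; exact hfin _
  have hfinBW : gmtMu E (B \ W) ≠ ⊤ := ne_top_of_le_ne_top hEB (measure_mono sdiff_subset)
  have hfinBrW : gmtMu E (Br \ W) ≠ ⊤ :=
    ne_top_of_le_ne_top hEB (measure_mono (sdiff_subset.trans hBrB))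
  have hS'B : gmtP S' B ≠ ⊤ := by
    rw [← gmtMu_open S' isOpen_ball, e1]
    refine ENNReal.add_ne_top.2 ⟨?_, hfinBW⟩
    rw [gmtMu_open S' hW]; exact hS'fin
  have hmain : gmtP E Br ≤ gmtP S' B :=
    h r δ S' hr hδ hS' (fun x hx => hiff x (fun hxK => hx (hWr (hKW hxK)))) hS'B
  rw [← gmtMu_open E isOpen_ball, ← gmtMu_open S' isOpen_ball, e1, e2, e3] at hmain
  have h4 : gmtMu E W + gmtMu E (Br \ W) ≤ (gmtMu S' W + gmtMu E (B \ Br)) + gmtMu E (Br \ W) := by
    calc gmtMu E W + gmtMu E (Br \ W) ≤ gmtMu S' W + (gmtMu E (Br \ W) + gmtMu E (B \ Br)) := hmain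
      _ = (gmtMu S' W + gmtMu E (B \ Br)) + gmtMu E (Br \ W) := by ring
  exact (ENNReal.add_le_add_iff_right hfinBrW).1 h4

/-- **B4.5 (from balls to `GmtMin`)**, verbatim `dgB4_min_of_balls`. -/
theorem dgB45_min_of_balls {n : ℕ} {E : Set (DgE n)} (hE : MeasurableSet E)
    (hfin : ∀ r : ℝ, gmtP E (ball (0 : DgE n) r) ≠ ⊤)
    (h : ∀ (r δ : ℝ) (F : Set (DgE n)), 0 < r → 0 < δ → MeasurableSet F → (∀ x ∉ ball (0 : DgE n) r, (x ∈ F ↔ x ∈ E)) →
      gmtP F (ball (0 : DgE n) (r + δ)) ≠ ⊤ → gmtP E (ball (0 : DgE n) r) ≤ gmtP F (ball (0 : DgE n) (r + δ))) :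
    GmtMin univ E := by
  refine ⟨hE, ?_, ?_⟩
  · intro W hW
    obtain ⟨r, hr⟩ := hW.2.1.isBounded.subset_ball (0 : DgE n)
    exact ne_top_of_le_ne_top (hfin r) (gmtPer_mono _ E (subset_closure.trans hr))
  · intro W S' hW hS' hCD hS'fin
    obtain ⟨K, hK, hKW, hd⟩ := hCD
    obtain ⟨r₁, hr₁⟩ := hW.2.1.isBounded.subset_ball (0 : DgE n)
    set r₀ : ℝ := max r₁ 1 with hr₀
    have hr₀pos : 0 < r₀ := lt_of_lt_of_le one_pos (le_max_right _ _)
    have hWr₀ : W ⊆ ball (0 : DgE n) r₀ :=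
      (subset_closure.trans hr₁).trans (ball_subset_ball (le_max_left _ _))
    have hS'fin' : gmtP S' W ≠ ⊤ := hS'fin
    have hEW : gmtP E W ≠ ⊤ := ne_top_of_le_ne_top (hfin r₀) (gmtPer_mono _ E hWr₀)
    simp only [integral_zero, sub_zero]
    show (gmtP E W).toReal ≤ (gmtP S' W).toReal
    set a : ℝ := (gmtP E W).toReal with ha
    set b : ℝ := (gmtP S' W).toReal with hb
    set G : ℝ → ℝ := fun r => (gmtMu E (ball (0 : DgE n) r)).toReal with hG
    have hGfin : ∀ r, gmtMu E (ball (0 : DgE n) r) ≠ ⊤ := fun r => by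
      rw [gmtMu_open E isOpen_ball]; exact hfin r
    have key : ∀ r δ : ℝ, r₀ ≤ r → 0 < δ → a ≤ b + (G (r + δ) - G r) := by
      intro r δ hr hδ
      have h1 := dgB45_annulus hE hS' hfin h hW.1 hK hKW hd hS'fin' (lt_of_lt_of_le hr₀pos hr) hδ
        (hWr₀.trans (ball_subset_ball hr))
      have h2 : gmtMu E (ball (0 : DgE n) (r + δ) \ ball (0 : DgE n) r)
          = gmtMu E (ball (0 : DgE n) (r + δ)) - gmtMu E (ball (0 : DgE n) r) :=
        measure_sdiff (ball_subset_ball (by linarith)) measurableSet_ball.nullMeasurableSet (hGfin r)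
      rw [gmtMu_open E hW.1, gmtMu_open S' hW.1, h2] at h1
      have h3 : (gmtMu E (ball (0 : DgE n) (r + δ)) - gmtMu E (ball (0 : DgE n) r)).toReal
          = G (r + δ) - G r :=
        ENNReal.toReal_sub_of_le (measure_mono (ball_subset_ball (by linarith))) (hGfin _)
      have h4 : gmtP S' W + (gmtMu E (ball (0 : DgE n) (r + δ)) - gmtMu E (ball (0 : DgE n) r)) ≠ ⊤ :=
        ENNReal.add_ne_top.2 ⟨hS'fin', ne_top_of_le_ne_top (hGfin _) tsub_le_self⟩
      have h5 := (ENNReal.toReal_le_toReal hEW h4).2 h1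
      rw [ENNReal.toReal_add hS'fin' (ne_top_of_le_ne_top (hGfin _) tsub_le_self), h3] at h5
      exact h5
    have hGnn : ∀ r, 0 ≤ G r := fun r => ENNReal.toReal_nonneg
    -- telescoping sum over `N` annuli of width `1 / N`
    have hsum : ∀ N : ℕ, 0 < N → (N : ℝ) * a ≤ (N : ℝ) * b + G (r₀ + 1) := by
      intro N hN
      have hN' : (0 : ℝ) < N := by exact_mod_cast hN
      set f : ℕ → ℝ := fun k => G (r₀ + (k : ℝ) / N) with hf
      have h1 : ∀ k ∈ Finset.range N, a ≤ b + (f (k + 1) - f k) := by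
        intro k _
        have h0 : 0 ≤ (k : ℝ) / N := by positivity
        have h2 := key (r₀ + (k : ℝ) / N) (1 / N) (by linarith) (by positivity)
        have h3 : r₀ + (k : ℝ) / N + 1 / N = r₀ + ((k + 1 : ℕ) : ℝ) / N := by
          push_cast; ring
        rw [h3] at h2
        exact h2
      have h2 := Finset.sum_le_sum h1
      rw [Finset.sum_const, Finset.sum_add_distrib, Finset.sum_const, Finset.sum_range_sub,
        Finset.card_range, nsmul_eq_mul, nsmul_eq_mul] at h2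
      have h3 : f N = G (r₀ + 1) := by
        show G (r₀ + (N : ℝ) / N) = G (r₀ + 1)
        rw [div_self hN'.ne']
      have h4 : 0 ≤ f 0 := hGnn _
      rw [h3] at h2
      linarith
    by_contra hlt
    push Not at hlt
    obtain ⟨N, hN⟩ := exists_nat_gt (G (r₀ + 1) / (a - b))
    have hab : 0 < a - b := by linarith
    have hNpos : 0 < N := by
      have : (0 : ℝ) < N := lt_of_le_of_lt (div_nonneg (hGnn _) hab.le) hN
      exact_mod_cast this
    have h1 := hsum N hNpos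
    rw [div_lt_iff₀ hab] at hN
    nlinarith

end Claimed.Agent.R329
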