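import Claimed.Agent.R329.MMrec
import Claimed.Agent.Lib.Gmt.BvGlueA

/-!
# Row 329, post B4.2 (helper88, prefix `dgB42_`): the patched comparison in a thin layer = leaf `dgB4_patch` of `MMrec.lean`.

Source: Proposition 3.3 (`prop:monotone-exact-limit`), (3.9) to (3.12).  Deterministic, explicit constant 16.

* `dgB42_cut`  : radial `C¹` cut-off, `1` on `B̄_a(y)`, `0` off `B_{a+h}(y)`, slope `≤ 2/h`;
* `dgB42_pt`   : `dens(z) ≤ 3 (dens v + dens w) + 8 |v - w|² / ε` for `z = v + ψ (w - v)`;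
* `dgB42_step` : one layer: `E(v; B_{a+ε}) ≤ E(w; B_a) + ∫_{layer} G`;
* `dgB42_patch`: the leaf, verbatim (sum over the layers, pigeonhole).
-/

set_option autoImplicit false
open MeasureTheory Metric Set Filter Topology
open Claimed.Agent.Gmt

namespace Claimed.Agent.R329

section B42

variable {n : ℕ}

/-- the `ε`-energy density. -/
noncomputable def dgB42_d (n : ℕ) (ε : ℝ) (w : DgE n → ℝ) (x : DgE n) : ℝ :=
  ε / 2 * ‖fderiv ℝ w x‖ ^ 2 + dgW (w x) / ε

theorem dgB42_En_eq (ε : ℝ) (w : DgE n → ℝ) (S : Set (DgE n)) : dgB4_En n ε w S = ∫ x in S, dgB42_d n ε w x := rfl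

theorem dgB42_W_nonneg (s : ℝ) : 0 ≤ dgW s := by unfold dgW; positivity

theorem dgB42_d_nonneg {ε : ℝ} (hε : 0 < ε) (w : DgE n → ℝ) (x : DgE n) : 0 ≤ dgB42_d n ε w x := by
  have := dgB42_W_nonneg (w x)
  unfold dgB42_d
  positivity

theorem dgB42_d_continuous (ε : ℝ) {w : DgE n → ℝ} (hw : ContDiff ℝ 1 w) : Continuous (dgB42_d n ε w) := by
  have h1 : Continuous (fderiv ℝ w) := hw.continuous_fderiv one_ne_zero
  have h2 : Continuous w := hw.continuous
  unfold dgB42_d dgW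
  fun_prop

theorem dgB42_intOn {f : DgE n → ℝ} (hf : Continuous f) (y : DgE n) (ρ : ℝ) : IntegrableOn f (ball y ρ) :=
  (hf.locallyIntegrable.integrableOn_isCompact (isCompact_closedBall y ρ)).mono_set ball_subset_closedBall

theorem dgB42_diff {f : DgE n → ℝ} (hf : Continuous f) (y : DgE n) {ρ ρ' : ℝ} (h : ρ ≤ ρ') :
    ∫ x in ball y ρ' \ ball y ρ, f x = (∫ x in ball y ρ', f x) - ∫ x in ball y ρ, f x :=
  setIntegral_sdiff measurableSet_ball (dgB42_intOn hf y ρ') (ball_subset_ball h)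

theorem dgB42_mono {f : DgE n → ℝ} (hf : Continuous f) (h0 : ∀ x, 0 ≤ f x) (y : DgE n) {ρ ρ' : ℝ} (h : ρ ≤ ρ') :
    ∫ x in ball y ρ, f x ≤ ∫ x in ball y ρ', f x :=
  setIntegral_mono_set (dgB42_intOn hf y ρ') (Eventually.of_forall h0) (ball_subset_ball h).eventuallyLE

/-- radial `C¹` cut-off with slope `≤ 2/h`. -/
theorem dgB42_cut (y : DgE n) {a h : ℝ} (ha : 0 < a) (hh : 0 < h) :
    ∃ ψ : DgE n → ℝ, ContDiff ℝ 1 ψ ∧ (∀ x, ψ x ∈ Icc (0 : ℝ) 1) ∧ (∀ x, ‖x - y‖ ≤ a → ψ x = 1) ∧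
      (∀ x, a + h ≤ ‖x - y‖ → ψ x = 0) ∧ ∀ x, ‖fderiv ℝ ψ x‖ ≤ 2 / h := by
  obtain ⟨k, hk1, hk01, hkα, hkβ, hkd⟩ := gmt_exists_ramp (α := a) (β := a + h) (η := 1) (by linarith) one_pos
  have hC : (1 + 1) / (a + h - a) = 2 / h := by
    rw [add_sub_cancel_left]; norm_num
  rw [hC] at hkd
  refine ⟨fun x => k ‖x - y‖, ?_, fun x => hk01 _, fun x hx => hkα _ hx, fun x hx => hkβ _ hx, fun x => ?_⟩
  · rw [contDiff_iff_contDiffAt]
    intro x
    by_cases hx : x - y = 0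
    · have h1 : ∀ᶠ x' in 𝓝 x, ‖x' - y‖ < a := by
        have hc : Continuous fun x' : DgE n => ‖x' - y‖ := by fun_prop
        refine (hc.tendsto x).eventually (gt_mem_nhds ?_)
        rw [hx, norm_zero]; exact ha
      have h2 : (fun x' => k ‖x' - y‖) =ᶠ[𝓝 x] fun _ => (1 : ℝ) := by
        filter_upwards [h1] with x' hx' using hkα _ hx'.le
      exact contDiffAt_const.congr_of_eventuallyEq h2
    · exact hk1.contDiffAt.comp x ((contDiffAt_id.sub contDiffAt_const).norm ℝ hx)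
  · have hL : LipschitzWith (Real.toNNReal (2 / h)) k := by
      refine lipschitzWith_of_nnnorm_deriv_le (hk1.differentiable one_ne_zero) fun s => ?_
      rw [← NNReal.coe_le_coe, Real.coe_toNNReal _ (by positivity), coe_nnnorm, Real.norm_eq_abs]
      exact hkd s
    have hL2 : LipschitzWith (Real.toNNReal (2 / h)) (fun x : DgE n => k ‖x - y‖) := by
      refine LipschitzWith.of_dist_le_mul fun x x' => ?_
      refine (hL.dist_le_mul _ _).trans ?_
      refine mul_le_mul_of_nonneg_left ?_ (NNReal.coe_nonneg _)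
      rw [Real.dist_eq, dist_eq_norm]
      calc |‖x - y‖ - ‖x' - y‖| ≤ ‖(x - y) - (x' - y)‖ := abs_norm_sub_norm_le _ _
        _ = ‖x - x'‖ := by congr 1; abel
    have := norm_fderiv_le_of_lipschitz ℝ hL2 (x₀ := x)
    rwa [Real.coe_toNNReal _ (by positivity)] at this

/-- the derivative of the interpolation. -/
theorem dgB42_fderiv {v w ψ : DgE n → ℝ} (hv : ContDiff ℝ 1 v) (hw : ContDiff ℝ 1 w) (hψ : ContDiff ℝ 1 ψ) (x : DgE n) :
    fderiv ℝ (fun x => v x + ψ x * (w x - v x)) x =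
      (1 - ψ x) • fderiv ℝ v x + ψ x • fderiv ℝ w x + (w x - v x) • fderiv ℝ ψ x := by
  have dv : HasFDerivAt v (fderiv ℝ v x) x := (hv.differentiable one_ne_zero x).hasFDerivAt
  have dw : HasFDerivAt w (fderiv ℝ w x) x := (hw.differentiable one_ne_zero x).hasFDerivAt
  have dψ : HasFDerivAt ψ (fderiv ℝ ψ x) x := (hψ.differentiable one_ne_zero x).hasFDerivAt
  have h : HasFDerivAt (fun x => v x + ψ x * (w x - v x))
      (fderiv ℝ v x + (ψ x • (fderiv ℝ w x - fderiv ℝ v x) + (w x - v x) • fderiv ℝ ψ x)) x :=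
    dv.add (dψ.mul (dw.sub dv))
  rw [h.fderiv]
  ext e
  simp only [add_apply, smul_apply, sub_apply, smul_eq_mul]
  ring

theorem dgB42_eq_w {ε : ℝ} {v w ψ : DgE n → ℝ} (hv : ContDiff ℝ 1 v) (hw : ContDiff ℝ 1 w) (hψ : ContDiff ℝ 1 ψ)
    (hψ01 : ∀ x, ψ x ∈ Icc (0 : ℝ) 1) {x : DgE n} (hx : ψ x = 1) :
    dgB42_d n ε (fun x => v x + ψ x * (w x - v x)) x = dgB42_d n ε w x := by
  have h0 : fderiv ℝ ψ x = 0 := by
    have : IsLocalMax ψ x := Eventually.of_forall fun x' => by rw [hx]; exact (hψ01 x').2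
    exact this.fderiv_eq_zero
  unfold dgB42_d
  rw [dgB42_fderiv hv hw hψ, h0]
  simp [hx]

theorem dgB42_eq_v {ε : ℝ} {v w ψ : DgE n → ℝ} (hv : ContDiff ℝ 1 v) (hw : ContDiff ℝ 1 w) (hψ : ContDiff ℝ 1 ψ)
    (hψ01 : ∀ x, ψ x ∈ Icc (0 : ℝ) 1) {x : DgE n} (hx : ψ x = 0) :
    dgB42_d n ε (fun x => v x + ψ x * (w x - v x)) x = dgB42_d n ε v x := by
  have h0 : fderiv ℝ ψ x = 0 := by
    have : IsLocalMin ψ x := Eventually.of_forall fun x' => by rw [hx]; exact (hψ01 x').1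
    exact this.fderiv_eq_zero
  unfold dgB42_d
  rw [dgB42_fderiv hv hw hψ, h0]
  simp [hx]

/-- `W(z) ≤ 2 W(w) + 2 |v - w|²` for `z` between `v` and `w` in `[-1, 1]`. -/
theorem dgB42_W_le {a b t : ℝ} (ha : a ∈ Icc (-1 : ℝ) 1) (hb : b ∈ Icc (-1 : ℝ) 1) (ht : t ∈ Icc (0 : ℝ) 1) :
    dgW (a + t * (b - a)) ≤ 2 * dgW b + 2 * (a - b) ^ 2 := by
  set z := a + t * (b - a) with hz
  have hz1 : z ≤ 1 := by
    have : z = (1 - t) * a + t * b := by rw [hz]; ring
    rw [this]; nlinarith [ha.2, hb.2, ht.1, ht.2]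
  have hz2 : -1 ≤ z := by
    have : z = (1 - t) * a + t * b := by rw [hz]; ring
    rw [this]; nlinarith [ha.1, hb.1, ht.1, ht.2]
  set p := (1 - z ^ 2) / 2 with hp
  set q := (1 - b ^ 2) / 2 with hq
  have e1 : dgW z = p ^ 2 := by unfold dgW; rw [hp]; ring
  have e2 : dgW b = q ^ 2 := by unfold dgW; rw [hq]; ring
  have e3 : p - q = (b - z) * ((b + z) / 2) := by rw [hp, hq]; ring
  have e4 : b - z = (1 - t) * (b - a) := by rw [hz]; ring
  have h5 : |(b + z) / 2| ≤ 1 := by rw [abs_le]; constructor <;> linarith [hb.1, hb.2]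
  have h6 : |b - z| ≤ |a - b| := by
    rw [e4, abs_mul, abs_sub_comm b a, abs_of_nonneg (by linarith [ht.2] : (0 : ℝ) ≤ 1 - t)]
    exact mul_le_of_le_one_left (abs_nonneg _) (by linarith [ht.1])
  have h7 : |p - q| ≤ |a - b| := by
    rw [e3, abs_mul]
    calc |b - z| * |(b + z) / 2| ≤ |a - b| * 1 := mul_le_mul h6 h5 (abs_nonneg _) (abs_nonneg _)
      _ = |a - b| := mul_one _
  have h8 : (p - q) ^ 2 ≤ (a - b) ^ 2 := sq_le_sq.2 h7
  rw [e1, e2]
  nlinarith [sq_nonneg (p - 2 * q)]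

/-- the pointwise bound in the layer. -/
theorem dgB42_pt {ε : ℝ} (hε : 0 < ε) {v w ψ : DgE n → ℝ} (hv : ContDiff ℝ 1 v) (hw : ContDiff ℝ 1 w)
    (hψ : ContDiff ℝ 1 ψ) (hv1 : ∀ x, v x ∈ Icc (-1 : ℝ) 1) (hw1 : ∀ x, w x ∈ Icc (-1 : ℝ) 1)
    (hψ01 : ∀ x, ψ x ∈ Icc (0 : ℝ) 1) (hψd : ∀ x, ‖fderiv ℝ ψ x‖ ≤ 2 / ε) (x : DgE n) :
    dgB42_d n ε (fun x => v x + ψ x * (w x - v x)) x ≤
      3 * (dgB42_d n ε v x + dgB42_d n ε w x) + 8 / ε * (v x - w x) ^ 2 := by
  have hW := dgB42_W_le (hv1 x) (hw1 x) (hψ01 x)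
  have hWv := dgB42_W_nonneg (v x)
  have hWw := dgB42_W_nonneg (w x)
  set A := ‖fderiv ℝ v x‖ with hA
  set B := ‖fderiv ℝ w x‖ with hB
  set d := |v x - w x| with hd
  have hA0 : 0 ≤ A := norm_nonneg _
  have hB0 : 0 ≤ B := norm_nonneg _
  have hd0 : 0 ≤ d := abs_nonneg _
  have hd2 : d ^ 2 = (v x - w x) ^ 2 := sq_abs _
  have hN : ‖fderiv ℝ (fun x => v x + ψ x * (w x - v x)) x‖ ≤ A + B + d * (2 / ε) := by
    rw [dgB42_fderiv hv hw hψ]
    refine (norm_add_le _ _).trans (add_le_add ((norm_add_le _ _).trans (add_le_add ?_ ?_)) ?_)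
    · rw [norm_smul, Real.norm_eq_abs, abs_of_nonneg (by linarith [(hψ01 x).2] : (0 : ℝ) ≤ 1 - ψ x)]
      exact mul_le_of_le_one_left hA0 (by linarith [(hψ01 x).1])
    · rw [norm_smul, Real.norm_eq_abs, abs_of_nonneg (hψ01 x).1]
      exact mul_le_of_le_one_left hB0 (hψ01 x).2
    · rw [norm_smul, Real.norm_eq_abs, abs_sub_comm]
      exact mul_le_mul_of_nonneg_left (hψd x) hd0
  have hN2 : ‖fderiv ℝ (fun x => v x + ψ x * (w x - v x)) x‖ ^ 2 ≤ 3 * (A ^ 2 + B ^ 2 + (d * (2 / ε)) ^ 2) := by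
    have h1 : ‖fderiv ℝ (fun x => v x + ψ x * (w x - v x)) x‖ ^ 2 ≤ (A + B + d * (2 / ε)) ^ 2 :=
      pow_le_pow_left₀ (norm_nonneg _) hN 2
    refine h1.trans ?_
    nlinarith [sq_nonneg (A - B), sq_nonneg (A - d * (2 / ε)), sq_nonneg (B - d * (2 / ε))]
  have e1 : ε / 2 * (3 * (d * (2 / ε)) ^ 2) = 6 / ε * (v x - w x) ^ 2 := by
    rw [mul_pow, hd2]; field_simp; ring
  have h2 : ε / 2 * ‖fderiv ℝ (fun x => v x + ψ x * (w x - v x)) x‖ ^ 2 ≤
      3 * (ε / 2 * A ^ 2 + ε / 2 * B ^ 2) + 6 / ε * (v x - w x) ^ 2 := by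
    rw [← e1]
    have := mul_le_mul_of_nonneg_left hN2 (by positivity : (0 : ℝ) ≤ ε / 2)
    linarith
  have h3 : dgW (v x + ψ x * (w x - v x)) / ε ≤ 2 * (dgW (w x) / ε) + 2 / ε * (v x - w x) ^ 2 := by
    have := div_le_div_of_nonneg_right hW hε.le
    have e : (2 * dgW (w x) + 2 * (v x - w x) ^ 2) / ε = 2 * (dgW (w x) / ε) + 2 / ε * (v x - w x) ^ 2 := by ring
    rwa [e] at this
  have h4 : 0 ≤ dgW (v x) / ε := by positivity
  have h5 : 0 ≤ dgW (w x) / ε := by positivity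
  have e6 : 8 / ε * (v x - w x) ^ 2 = 6 / ε * (v x - w x) ^ 2 + 2 / ε * (v x - w x) ^ 2 := by ring
  unfold dgB42_d
  rw [e6]
  linarith

/-- the majorant in the layers. -/
noncomputable def dgB42_G (n : ℕ) (ε : ℝ) (v w : DgE n → ℝ) (x : DgE n) : ℝ :=
  3 * (dgB42_d n ε v x + dgB42_d n ε w x) + 8 / ε * (v x - w x) ^ 2

theorem dgB42_G_continuous (ε : ℝ) {v w : DgE n → ℝ} (hv : ContDiff ℝ 1 v) (hw : ContDiff ℝ 1 w) :
    Continuous (dgB42_G n ε v w) := by
  have h1 := dgB42_d_continuous ε hv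
  have h2 := dgB42_d_continuous ε hw
  have h3 := hv.continuous
  have h4 := hw.continuous
  unfold dgB42_G
  fun_prop

theorem dgB42_G_nonneg {ε : ℝ} (hε : 0 < ε) (v w : DgE n → ℝ) (x : DgE n) : 0 ≤ dgB42_G n ε v w x := by
  have h1 := dgB42_d_nonneg hε v x
  have h2 := dgB42_d_nonneg hε w x
  unfold dgB42_G
  positivity

/-- one layer. -/
theorem dgB42_step {ε a R : ℝ} (y : DgE n) {v w : DgE n → ℝ} (hε : 0 < ε) (ha : 0 < a) (haR : a + ε < R)
    (hv : ContDiff ℝ 1 v) (hw : ContDiff ℝ 1 w) (hv1 : ∀ x, v x ∈ Icc (-1 : ℝ) 1) (hw1 : ∀ x, w x ∈ Icc (-1 : ℝ) 1)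
    (hmin : dgB4_Min n ε v (ball y R)) :
    ∫ x in ball y (a + ε), dgB42_d n ε v x ≤ (∫ x in ball y a, dgB42_d n ε w x) +
      ((∫ x in ball y (a + ε), dgB42_G n ε v w x) - ∫ x in ball y a, dgB42_G n ε v w x) := by
  obtain ⟨ψ, hψ, hψ01, hψ1, hψ0, hψd⟩ := dgB42_cut y ha hε
  set φ : DgE n → ℝ := fun x => ψ x * (w x - v x) with hφ
  have hφ1 : ContDiff ℝ 1 φ := hψ.mul (hw.sub hv)
  have hz : ContDiff ℝ 1 (fun x => v x + ψ x * (w x - v x)) := hv.add hφ1
  have hφ0 : ∀ x, x ∉ closedBall y (a + ε) → φ x = 0 := fun x hx => by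
    have : a + ε ≤ ‖x - y‖ := by
      rw [mem_closedBall, dist_eq_norm, not_le] at hx
      exact hx.le
    rw [hφ]
    simp only [hψ0 x this, zero_mul]
  have hφc : HasCompactSupport φ := HasCompactSupport.intro (isCompact_closedBall y (a + ε)) hφ0
  have hφs : tsupport φ ⊆ ball y R := by
    have h1 : tsupport φ ⊆ closedBall y (a + ε) := by
      refine closure_minimal (fun x hx => ?_) isClosed_closedBall
      by_contra hx'
      exact hx (hφ0 x hx')
    exact h1.trans (closedBall_subset_ball haR)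
  have hm := hmin φ hφ1 hφc hφs
  rw [dgB42_En_eq, dgB42_En_eq] at hm
  have cz := dgB42_d_continuous ε hz
  have cv := dgB42_d_continuous ε hv
  have cG := dgB42_G_continuous ε hv hw
  have hab : a ≤ a + ε := by linarith
  have e1 : ∫ x in ball y a, dgB42_d n ε (fun x => v x + ψ x * (w x - v x)) x = ∫ x in ball y a, dgB42_d n ε w x :=
    setIntegral_congr_fun measurableSet_ball fun x hx => by
      refine dgB42_eq_w hv hw hψ hψ01 (hψ1 x ?_)
      rw [mem_ball, dist_eq_norm] at hx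
      exact hx.le
  have e2 : ∫ x in ball y R \ ball y (a + ε), dgB42_d n ε (fun x => v x + ψ x * (w x - v x)) x =
      ∫ x in ball y R \ ball y (a + ε), dgB42_d n ε v x :=
    setIntegral_congr_fun (measurableSet_ball.diff measurableSet_ball) fun x hx => by
      refine dgB42_eq_v hv hw hψ hψ01 (hψ0 x ?_)
      have := hx.2
      rw [mem_ball, dist_eq_norm, not_lt] at this
      exact this
  have e3 : ∫ x in ball y (a + ε) \ ball y a, dgB42_d n ε (fun x => v x + ψ x * (w x - v x)) x ≤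
      ∫ x in ball y (a + ε) \ ball y a, dgB42_G n ε v w x :=
    setIntegral_mono ((dgB42_intOn cz y (a + ε)).mono_set sdiff_subset) ((dgB42_intOn cG y (a + ε)).mono_set sdiff_subset)
      fun x => dgB42_pt hε hv hw hψ hv1 hw1 hψ01 hψd x
  rw [dgB42_diff cz y haR.le, dgB42_diff cv y haR.le] at e2
  rw [dgB42_diff cz y hab, dgB42_diff cG y hab] at e3
  linarith

/-- **B4.2 (patched comparison in a thin layer)**: the leaf `dgB4_patch` of `MMrec.lean`, verbatim. -/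
theorem dgB42_patch {n : ℕ} {ε δ r : ℝ} (y : DgE n) {v w : DgE n → ℝ} (hε : 0 < ε) (hr : 0 < r) (hδ : 4 * ε < δ)
    (hv : ContDiff ℝ 1 v) (hw : ContDiff ℝ 1 w) (hv1 : ∀ x, v x ∈ Icc (-1 : ℝ) 1) (hw1 : ∀ x, w x ∈ Icc (-1 : ℝ) 1)
    (hmin : dgB4_Min n ε v (ball y (r + δ))) :
    dgB4_En n ε v (ball y r) ≤ dgB4_En n ε w (ball y (r + δ)) +
      16 * (ε / δ) * (dgB4_En n ε v (ball y (r + δ) \ ball y r) + dgB4_En n ε w (ball y (r + δ) \ ball y r)) +
      16 / δ * ∫ x in ball y (r + δ) \ ball y r, (v x - w x) ^ 2 := by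
  have hδ0 : 0 < δ := by linarith
  have cv := dgB42_d_continuous ε hv
  have cw := dgB42_d_continuous ε hw
  have cG := dgB42_G_continuous ε hv hw
  have cD : Continuous fun x => (v x - w x) ^ 2 := by
    have h3 := hv.continuous
    have h4 := hw.continuous
    fun_prop
  -- the number of layers
  set L : ℕ := ⌈δ / (2 * ε)⌉₊ with hL
  have hL1 : δ / (2 * ε) ≤ L := Nat.le_ceil _
  have hL2 : (L : ℝ) < δ / (2 * ε) + 1 := Nat.ceil_lt_add_one (by positivity)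
  have hq : 2 < δ / (2 * ε) := by
    rw [lt_div_iff₀ (by positivity)]; linarith
  have hL0 : (0 : ℝ) < L := by linarith
  have hL3 : (L : ℝ) * ε < δ := by
    have h1 : (L : ℝ) < δ / ε := by
      have : δ / ε = δ / (2 * ε) + δ / (2 * ε) := by field_simp; ring
      linarith
    rwa [lt_div_iff₀ hε] at h1
  set Iv : ℝ → ℝ := fun ρ => ∫ x in ball y ρ, dgB42_d n ε v x with hIv
  set Iw : ℝ → ℝ := fun ρ => ∫ x in ball y ρ, dgB42_d n ε w x with hIw
  set IG : ℝ → ℝ := fun ρ => ∫ x in ball y ρ, dgB42_G n ε v w x with hIG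
  have hstep : ∀ i ∈ Finset.range L, Iv r ≤ Iw (r + δ) + (IG (r + ((i + 1 : ℕ) : ℝ) * ε) - IG (r + (i : ℝ) * ε)) := by
    intro i hi
    have hi' : ((i + 1 : ℕ) : ℝ) ≤ L := by exact_mod_cast Finset.mem_range.1 hi
    have hi0 : (0 : ℝ) ≤ (i : ℝ) * ε := by positivity
    have ea : r + ((i + 1 : ℕ) : ℝ) * ε = r + (i : ℝ) * ε + ε := by push_cast; ring
    have hlt : r + (i : ℝ) * ε + ε < r + δ := by
      rw [← ea]
      have := mul_le_mul_of_nonneg_right hi' hε.le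
      linarith
    have h := dgB42_step y hε (by linarith : 0 < r + (i : ℝ) * ε) hlt hv hw hv1 hw1 hmin
    have m1 : Iv r ≤ Iv (r + (i : ℝ) * ε + ε) := dgB42_mono cv (dgB42_d_nonneg hε v) y (by linarith)
    have m2 : Iw (r + (i : ℝ) * ε) ≤ Iw (r + δ) := dgB42_mono cw (dgB42_d_nonneg hε w) y (by linarith)
    rw [ea]
    simp only [hIv, hIw, hIG] at m1 m2 ⊢
    linarith
  have hsum := Finset.sum_le_sum hstep
  rw [Finset.sum_const, Finset.card_range, Finset.sum_add_distrib, Finset.sum_const, Finset.card_range,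
    Finset.sum_range_sub (fun i : ℕ => IG (r + (i : ℝ) * ε)), nsmul_eq_mul, nsmul_eq_mul] at hsum
  simp only [Nat.cast_zero, zero_mul, add_zero] at hsum
  have m3 : IG (r + (L : ℝ) * ε) ≤ IG (r + δ) := dgB42_mono cG (dgB42_G_nonneg hε v w) y (by linarith)
  -- the integral of the majorant over the annulus
  set A : Set (DgE n) := ball y (r + δ) \ ball y r with hA
  have hrδ : r ≤ r + δ := by linarith
  have iA : ∀ {f : DgE n → ℝ}, Continuous f → IntegrableOn f A := fun hf => (dgB42_intOn hf y (r + δ)).mono_set sdiff_subset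
  have eT : IG (r + δ) - IG r = 3 * (dgB4_En n ε v A + dgB4_En n ε w A) + 8 / ε * ∫ x in A, (v x - w x) ^ 2 := by
    have h1 : IG (r + δ) - IG r = ∫ x in A, dgB42_G n ε v w x := (dgB42_diff cG y hrδ).symm
    rw [h1, dgB42_En_eq, dgB42_En_eq]
    unfold dgB42_G
    have i1 : IntegrableOn (fun x => 3 * (dgB42_d n ε v x + dgB42_d n ε w x)) A := ((iA cv).add (iA cw)).const_mul 3
    have i2 : IntegrableOn (fun x => 8 / ε * (v x - w x) ^ 2) A := (iA cD).const_mul _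
    rw [integral_add i1 i2, integral_const_mul, integral_const_mul, integral_add (iA cv) (iA cw)]
  have hEv : 0 ≤ dgB4_En n ε v A := setIntegral_nonneg (measurableSet_ball.diff measurableSet_ball) fun x _ => dgB42_d_nonneg hε v x
  have hEw : 0 ≤ dgB4_En n ε w A := setIntegral_nonneg (measurableSet_ball.diff measurableSet_ball) fun x _ => dgB42_d_nonneg hε w x
  have hD : 0 ≤ ∫ x in A, (v x - w x) ^ 2 := setIntegral_nonneg (measurableSet_ball.diff measurableSet_ball) fun x _ => sq_nonneg _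
  set T := IG (r + δ) - IG r with hT
  have hT0 : 0 ≤ T := by rw [eT]; positivity
  have h6 : (L : ℝ) * (Iv r - Iw (r + δ)) ≤ T := by
    have : (L : ℝ) * (Iv r - Iw (r + δ)) = L * Iv r - L * Iw (r + δ) := by ring
    rw [this, hT]; linarith
  have h7 : Iv r - Iw (r + δ) ≤ T * (2 * ε / δ) := by
    have h8 : Iv r - Iw (r + δ) ≤ T / L := by
      rw [le_div_iff₀ hL0, mul_comm]; exact h6
    refine h8.trans ?_
    rw [div_eq_mul_inv]
    refine mul_le_mul_of_nonneg_left ?_ hT0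
    rw [inv_le_comm₀ hL0 (by positivity)]
    have : (2 * ε / δ)⁻¹ = δ / (2 * ε) := by rw [inv_div]
    rw [this]; exact hL1
  have e9 : T * (2 * ε / δ) = 6 * (ε / δ) * (dgB4_En n ε v A + dgB4_En n ε w A) + 16 / δ * ∫ x in A, (v x - w x) ^ 2 := by
    rw [eT]; field_simp; ring
  have h10 : 6 * (ε / δ) * (dgB4_En n ε v A + dgB4_En n ε w A) ≤ 16 * (ε / δ) * (dgB4_En n ε v A + dgB4_En n ε w A) := by
    have : 0 ≤ (ε / δ) * (dgB4_En n ε v A + dgB4_En n ε w A) := by positivity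
    nlinarith
  have e11 : dgB4_En n ε v (ball y r) = Iv r := rfl
  have e12 : dgB4_En n ε w (ball y (r + δ)) = Iw (r + δ) := rfl
  rw [e11, e12]
  linarith

end B42

end Claimed.Agent.R329
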