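import Claimed.Agent.R329.MMrec

/-!
# Row 329, post B4.3 (pen: helper238, prefix `dgB43_`): scaling of the energy and of minimality

The two leaves `dgB4_scale_en`, `dgB4_scale_min` of `MMrec.lean`, verbatim.
-/

set_option autoImplicit false
open MeasureTheory Metric Set Filter Topology
open scoped Pointwise

namespace Claimed.Agent.R329

variable {n : ℕ}

/-- the rescaled density. -/
theorem dgB43_dens (u : DgE n → ℝ) {ε : ℝ} (hε : 0 < ε) (x : DgE n) :
    ε / 2 * ‖fderiv ℝ (dgB4_rs u ε) x‖ ^ 2 + dgW (dgB4_rs u ε x) / ε = ε⁻¹ * dgDens n u (ε⁻¹ • x) := by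
  have e : dgB4_rs u ε = fun z => u (ε⁻¹ • z) := rfl
  rw [e, fderiv_comp_smul, norm_smul, Real.norm_eq_abs, abs_of_pos (inv_pos.2 hε), dgDens]
  field_simp

/-- **B4.3a (scaling of the energy).** -/
theorem dgB43_scale_en (hn : 1 ≤ n) (u : DgE n → ℝ) {ε : ℝ} (hε : 0 < ε) (y : DgE n) (r : ℝ) :
    dgB4_En n ε (dgB4_rs u ε) (ball y r) = ε ^ (n - 1) * dgEn n u (ε⁻¹ • y) (ε⁻¹ * r) := by
  have hi : 0 < ε⁻¹ := inv_pos.2 hε
  unfold dgB4_En dgEn
  simp only [dgB43_dens u hε]
  rw [integral_const_mul,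
    Measure.setIntegral_comp_smul_of_pos volume (fun z => dgDens n u z) (ball y r) hi,
    _root_.smul_ball hi.ne', Real.norm_eq_abs, abs_of_pos hi, finrank_euclideanSpace_fin, smul_eq_mul,
    ← mul_assoc]
  congr 1
  obtain ⟨m, rfl⟩ : ∃ m, n = m + 1 := ⟨n - 1, by omega⟩
  simp only [Nat.add_sub_cancel, inv_pow, inv_inv]
  rw [pow_succ]
  field_simp

/-- the energy density of a `C¹` function is continuous. -/
theorem dgB43_continuous_dens {w : DgE n → ℝ} (hw : ContDiff ℝ 1 w) : Continuous (dgDens n w) := by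
  have h1 : Continuous (fderiv ℝ w) := hw.continuous_fderiv (by norm_num)
  have h2 : Continuous w := hw.continuous
  unfold dgDens dgW
  fun_prop

theorem dgB43_integrableOn_dens {w : DgE n → ℝ} (hw : ContDiff ℝ 1 w) (x₀ : DgE n) (R : ℝ) :
    IntegrableOn (dgDens n w) (ball x₀ R) :=
  ((dgB43_continuous_dens hw).continuousOn.integrableOn_compact
    (isCompact_closedBall x₀ R)).mono_set ball_subset_closedBall

/-- off the support of the perturbation the densities agree. -/
theorem dgB43_dens_eq_off {u ψ : DgE n → ℝ} {x : DgE n} (hx : x ∉ tsupport ψ) :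
    dgDens n (fun z => u z + ψ z) x = dgDens n u x := by
  have h0 : ψ =ᶠ[𝓝 x] 0 := notMem_tsupport_iff_eventuallyEq.1 hx
  have h1 : (fun z => u z + ψ z) =ᶠ[𝓝 x] u := by
    filter_upwards [h0] with z hz
    simp [hz]
  have h2 : u x + ψ x = u x := h1.eq_of_nhds
  unfold dgDens
  rw [h1.fderiv_eq]
  simp only [h2]

/-- **Minimality in every ball** (not only the centred ones). -/
theorem dgB43_min_ball {u : DgE n → ℝ} (hu : ContDiff ℝ 1 u) (hmin : DgMin n u) (y : DgE n) (r : ℝ)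
    {ψ : DgE n → ℝ} (hψ : ContDiff ℝ 1 ψ) (hc : HasCompactSupport ψ) (hs : tsupport ψ ⊆ ball y r) :
    dgEn n u y r ≤ dgEn n (fun x => u x + ψ x) y r := by
  set R : ℝ := ‖y‖ + r with hR
  have hsub : ball y r ⊆ ball (0 : DgE n) R := by
    apply ball_subset_ball'
    rw [dist_zero_right, hR]
    linarith
  have h1 := hmin R ψ hψ hc (hs.trans hsub)
  have huψ : ContDiff ℝ 1 (fun x => u x + ψ x) := hu.add hψ
  have split : ∀ {w : DgE n → ℝ}, ContDiff ℝ 1 w →
      dgEn n w 0 R = dgEn n w y r + ∫ x in ball (0 : DgE n) R \ ball y r, dgDens n w x := by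
    intro w hw
    unfold dgEn
    have hI := dgB43_integrableOn_dens hw 0 R
    rw [← setIntegral_union disjoint_sdiff_right (measurableSet_ball.diff measurableSet_ball)
      (hI.mono_set hsub) (hI.mono_set sdiff_subset), union_sdiff_cancel hsub]
  rw [split hu, split huψ] at h1
  have h2 : ∫ x in ball (0 : DgE n) R \ ball y r, dgDens n (fun x => u x + ψ x) x
      = ∫ x in ball (0 : DgE n) R \ ball y r, dgDens n u x := by
    apply setIntegral_congr_fun (measurableSet_ball.diff measurableSet_ball)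
    intro x hx
    exact dgB43_dens_eq_off fun hx' => hx.2 (hs hx')
  rw [h2] at h1
  linarith

/-- **B4.3b (scaling of minimality).** -/
theorem dgB43_scale_min (hn : 1 ≤ n) {u : DgE n → ℝ} (hu : ContDiff ℝ 1 u) (hmin : DgMin n u) {ε : ℝ}
    (hε : 0 < ε) (y : DgE n) (r : ℝ) : dgB4_Min n ε (dgB4_rs u ε) (ball y r) := by
  intro φ hφ hc hs
  have hi : 0 < ε⁻¹ := inv_pos.2 hε
  set ψ : DgE n → ℝ := fun x => φ (ε • x) with hψdef
  have hψ : ContDiff ℝ 1 ψ := hφ.comp (contDiff_const_smul ε)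
  have hcψ : HasCompactSupport ψ := hc.comp_smul hε.ne'
  have e : (fun x => dgB4_rs u ε x + φ x) = dgB4_rs (fun x => u x + ψ x) ε := by
    funext x
    simp only [dgB4_rs, hψdef, smul_smul, mul_inv_cancel₀ hε.ne', one_smul]
  have hsψ : tsupport ψ ⊆ ball (ε⁻¹ • y) (ε⁻¹ * r) := by
    intro x hx
    have h1 : ε • x ∈ tsupport φ := by
      by_contra hcon
      have h0 : φ =ᶠ[𝓝 (ε • x)] 0 := notMem_tsupport_iff_eventuallyEq.1 hcon
      have hcont : ContinuousAt (fun z : DgE n => ε • z) x := by fun_prop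
      have h2 : ψ =ᶠ[𝓝 x] 0 := hcont.eventually h0
      exact (notMem_tsupport_iff_eventuallyEq.2 h2) hx
    have h2 := hs h1
    have h3 : ε⁻¹ • (ε • x) ∈ ε⁻¹ • ball y r := smul_mem_smul_set h2
    rw [smul_smul, inv_mul_cancel₀ hε.ne', one_smul, _root_.smul_ball hi.ne', Real.norm_eq_abs,
      abs_of_pos hi] at h3
    exact h3
  rw [e, dgB43_scale_en hn u hε, dgB43_scale_en hn _ hε]
  exact mul_le_mul_of_nonneg_left (dgB43_min_ball hu hmin _ _ hψ hcψ hsψ) (by positivity)

end Claimed.Agent.R329
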