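import Claimed.Agent.R329.MMrec

/-!
# Row 329, post B4.4 (pen: helper148): the upper bound (3.13), assembly.   Prefix `dgB44_`.

`dgB44_upper_of` : the upper bound from the four leaves B4.1 (recovery), B4.2 (patch), B4.3a/b (scaling) GIVEN AS HYPOTHESES
(no `sorry` in its closure: the integration pen feeds it with the leaves' own files).
`dgB44_upper`    : the leaf `dgB4_upper` of `MMrec.lean`, verbatim, from the leaves as they stand in `MMrec.lean`.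

Proof.  `v = u(·/ε_j)`, `w` = recovery function for `F` on `B_{r+δ/2} ⊂ B_{r+δ}` with tolerance `η₁`, patch in the layer of width `δ/2`:
`E(v;B_r) ≤ E(w;B_{r+δ/2}) + 32 (ε/δ) (E(v;A) + E(w;A)) + (32/δ) ∫_A (v-w)²`, `A = B_{r+δ/2} ∖ B_r`;
`E(v;A) ≤ E(v;B_{ρ₀}(0)) = ε^{n-1} E(u;B_{ρ₀/ε}) ≤ C ρ₀^{n-1}`;  `(v-w)² ≤ 2|v-w| ≤ 2|v - ph E| + 2|w - ph F|` on `A` (`ph E = ph F` there).
-/

set_option autoImplicit false
open MeasureTheory Metric Set Filter Topology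
open Claimed.Agent.Gmt

namespace Claimed.Agent.R329

/-! ## small tools -/

theorem dgB44_dens_continuous {n : ℕ} {w : DgE n → ℝ} (hw : ContDiff ℝ 1 w) (ε : ℝ) :
    Continuous fun x => ε / 2 * ‖fderiv ℝ w x‖ ^ 2 + dgW (w x) / ε := by
  unfold dgW
  have h1 : Continuous fun x => fderiv ℝ w x := hw.continuous_fderiv (by norm_num)
  have h2 : Continuous w := hw.continuous
  fun_prop

theorem dgB44_dens_nonneg {n : ℕ} (w : DgE n → ℝ) {ε : ℝ} (hε : 0 < ε) (x : DgE n) :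
    0 ≤ ε / 2 * ‖fderiv ℝ w x‖ ^ 2 + dgW (w x) / ε := by
  unfold dgW
  positivity

theorem dgB44_integrableOn_of_continuous {n : ℕ} {f : DgE n → ℝ} (hf : Continuous f) {S : Set (DgE n)} (y : DgE n) (ρ : ℝ)
    (hS : S ⊆ ball y ρ) : IntegrableOn f S :=
  (hf.continuousOn.integrableOn_compact (isCompact_closedBall y ρ)).mono_set (hS.trans ball_subset_closedBall)

/-- monotonicity of the energy in the set -/
theorem dgB44_En_mono {n : ℕ} {w : DgE n → ℝ} (hw : ContDiff ℝ 1 w) {ε : ℝ} (hε : 0 < ε) {S T : Set (DgE n)} (hST : S ⊆ T)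
    (y : DgE n) (ρ : ℝ) (hT : T ⊆ ball y ρ) : dgB4_En n ε w S ≤ dgB4_En n ε w T := by
  unfold dgB4_En
  exact setIntegral_mono_set (dgB44_integrableOn_of_continuous (dgB44_dens_continuous hw ε) y ρ hT)
    (Eventually.of_forall fun x => dgB44_dens_nonneg w hε x) (Eventually.of_forall hST)

theorem dgB44_rs_contDiff {n : ℕ} {u : DgE n → ℝ} (hu : ContDiff ℝ 1 u) (ε : ℝ) : ContDiff ℝ 1 (dgB4_rs u ε) := by
  unfold dgB4_rs
  exact hu.comp (contDiff_id.const_smul ε⁻¹)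

theorem dgB44_ph_measurable {n : ℕ} {F : Set (DgE n)} (hF : MeasurableSet F) : Measurable (dgB4_ph F) := by
  unfold dgB4_ph
  exact (measurable_const.indicator hF).sub_const 1

theorem dgB44_ph_abs_le {n : ℕ} (F : Set (DgE n)) (x : DgE n) : |dgB4_ph F x| ≤ 1 := by
  unfold dgB4_ph
  by_cases h : x ∈ F
  · simp [h]; norm_num
  · simp [h]

theorem dgB44_ph_congr {n : ℕ} {E F : Set (DgE n)} {x : DgE n} (h : x ∈ F ↔ x ∈ E) : dgB4_ph F x = dgB4_ph E x := by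
  unfold dgB4_ph
  by_cases hx : x ∈ E
  · simp [hx, h.2 hx]
  · have hxF : x ∉ F := fun h' => hx (h.1 h')
    simp [hx, hxF]

/-- `|w - ph F|` is integrable on bounded sets -/
theorem dgB44_diff_integrableOn {n : ℕ} {w : DgE n → ℝ} (hw : Continuous w) (hw1 : ∀ x, w x ∈ Icc (-1 : ℝ) 1)
    {F : Set (DgE n)} (hF : MeasurableSet F) {S : Set (DgE n)} (y : DgE n) (ρ : ℝ) (hS : S ⊆ ball y ρ) :
    IntegrableOn (fun x => |w x - dgB4_ph F x|) S := by
  have hfin : volume S < ⊤ := (measure_mono hS).trans_lt measure_ball_lt_top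
  refine Measure.integrableOn_of_bounded (M := 2) hfin.ne ?_ (Eventually.of_forall fun x => ?_)
  · exact ((hw.measurable.sub (dgB44_ph_measurable hF)).abs).aestronglyMeasurable
  · rw [Real.norm_eq_abs, abs_abs]
    have h1 := dgB44_ph_abs_le F x
    have h2 : |w x| ≤ 1 := abs_le.2 (hw1 x)
    calc |w x - dgB4_ph F x| ≤ |w x| + |dgB4_ph F x| := abs_sub _ _
      _ ≤ 2 := by linarith

/-- the `L²` term of the patch: `∫_A (v-w)² ≤ 2 ∫_B |v - ph E| + 2 ∫_{B'} |w - ph F|`. -/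
theorem dgB44_sq_le {n : ℕ} {v w : DgE n → ℝ} (hv : Continuous v) (hw : Continuous w) (hv1 : ∀ x, v x ∈ Icc (-1 : ℝ) 1)
    (hw1 : ∀ x, w x ∈ Icc (-1 : ℝ) 1) {E F : Set (DgE n)} (hE : MeasurableSet E) (hF : MeasurableSet F)
    {A B B' : Set (DgE n)} (hA : MeasurableSet A) (hAB : A ⊆ B) (hAB' : A ⊆ B') (y y' : DgE n) (ρ ρ' : ℝ) (hB : B ⊆ ball y ρ)
    (hB' : B' ⊆ ball y' ρ') (hFE : ∀ x ∈ A, (x ∈ F ↔ x ∈ E)) :
    ∫ x in A, (v x - w x) ^ 2 ≤ 2 * (∫ x in B, |v x - dgB4_ph E x|) + 2 * ∫ x in B', |w x - dgB4_ph F x| := by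
  have hI1 := dgB44_diff_integrableOn hv hv1 hE y ρ hB
  have hI2 := dgB44_diff_integrableOn hw hw1 hF y' ρ' hB'
  have h1 : ∫ x in A, |v x - dgB4_ph E x| ≤ ∫ x in B, |v x - dgB4_ph E x| :=
    setIntegral_mono_set hI1 (Eventually.of_forall fun x => abs_nonneg _) (Eventually.of_forall hAB)
  have h2 : ∫ x in A, |w x - dgB4_ph F x| ≤ ∫ x in B', |w x - dgB4_ph F x| :=
    setIntegral_mono_set hI2 (Eventually.of_forall fun x => abs_nonneg _) (Eventually.of_forall hAB')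
  have hc : Continuous fun x => (v x - w x) ^ 2 := by fun_prop
  have h3 : ∫ x in A, (v x - w x) ^ 2 ≤ ∫ x in A, (2 * |v x - dgB4_ph E x| + 2 * |w x - dgB4_ph F x|) := by
    refine setIntegral_mono_on (dgB44_integrableOn_of_continuous hc y ρ (hAB.trans hB))
      (((hI1.mono_set hAB).const_mul 2).add ((hI2.mono_set hAB').const_mul 2)) hA fun x hx => ?_
    rw [dgB44_ph_congr (hFE x hx)]
    have ha : |v x - w x| ≤ 2 := by
      have h1 := hv1 x
      have h2 := hw1 x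
      rw [abs_le]
      constructor <;> linarith [h1.1, h1.2, h2.1, h2.2]
    have hb : |v x - w x| ≤ |v x - dgB4_ph E x| + |w x - dgB4_ph E x| := by
      have : v x - w x = (v x - dgB4_ph E x) - (w x - dgB4_ph E x) := by ring
      rw [this]
      exact abs_sub _ _
    have hc : (v x - w x) ^ 2 = |v x - w x| * |v x - w x| := by rw [← sq, sq_abs]
    rw [hc]
    nlinarith [abs_nonneg (v x - w x)]
  rw [integral_add ((hI1.mono_set hAB).const_mul 2) ((hI2.mono_set hAB').const_mul 2), integral_const_mul,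
    integral_const_mul] at h3
  linarith

/-! ## the assembly -/

/-- **The upper bound (3.13) from the leaves given as hypotheses.** -/
theorem dgB44_upper_of {n : ℕ} {u : DgE n → ℝ} (hu : DgSol n u) (hfd : DgFinDens n u)
    {ε : ℕ → ℝ} {E : Set (DgE n)} (hB : DgBlow n u ε E) (y : DgE n) {r δ : ℝ} (hr : 0 < r) (hδ : 0 < δ)
    {F : Set (DgE n)} (hF : MeasurableSet F) (hFE : ∀ x ∈ ball y (r + δ) \ ball y r, (x ∈ F ↔ x ∈ E))
    -- B4.1
    (hrec : ∀ η : ℝ, 0 < η → ∃ ε₀ > 0, ∀ e ∈ Ioo (0 : ℝ) ε₀, ∃ w : DgE n → ℝ, ContDiff ℝ 1 w ∧ (∀ x, w x ∈ Icc (-1 : ℝ) 1) ∧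
      ∫ x in ball y (r + δ / 2), |w x - dgB4_ph F x| ≤ η ∧
      dgB4_En n e w (ball y (r + δ / 2)) ≤ dgB4_s0 * (gmtP F (ball y (r + δ))).toReal + η)
    -- B4.2
    (hpatch : ∀ (e : ℝ) (v w : DgE n → ℝ), 0 < e → 4 * e < δ / 2 → ContDiff ℝ 1 v → ContDiff ℝ 1 w →
      (∀ x, v x ∈ Icc (-1 : ℝ) 1) → (∀ x, w x ∈ Icc (-1 : ℝ) 1) → dgB4_Min n e v (ball y (r + δ / 2)) →
      dgB4_En n e v (ball y r) ≤ dgB4_En n e w (ball y (r + δ / 2)) +
        16 * (e / (δ / 2)) * (dgB4_En n e v (ball y (r + δ / 2) \ ball y r) + dgB4_En n e w (ball y (r + δ / 2) \ ball y r)) +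
        16 / (δ / 2) * ∫ x in ball y (r + δ / 2) \ ball y r, (v x - w x) ^ 2)
    -- B4.3a
    (hsen : ∀ e : ℝ, 0 < e → ∀ ρ : ℝ, dgB4_En n e (dgB4_rs u e) (ball 0 ρ) = e ^ (n - 1) * dgEn n u (e⁻¹ • (0 : DgE n)) (e⁻¹ * ρ))
    -- B4.3b
    (hsmin : ∀ e : ℝ, 0 < e → dgB4_Min n e (dgB4_rs u e) (ball y (r + δ / 2)))
    {η : ℝ} (hη : 0 < η) :
    ∀ᶠ j in atTop, dgB4_En n (ε j) (dgB4_rs u (ε j)) (ball y r) ≤
      dgB4_s0 * (gmtP F (ball y (r + δ))).toReal + η := by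
  obtain ⟨C, hC⟩ := hfd
  set P : ℝ := dgB4_s0 * (gmtP F (ball y (r + δ))).toReal with hP
  set η₁ : ℝ := η / (4 * (1 + 64 / δ)) with hη₁def
  have hD : 0 < 1 + 64 / δ := by positivity
  have hη₁ : 0 < η₁ := by positivity
  have hη₁' : η₁ * (1 + 64 / δ) = η / 4 := by
    rw [hη₁def]
    field_simp
  obtain ⟨ε₀, hε₀, hw0⟩ := hrec η₁ hη₁
  set ρ0 : ℝ := ‖y‖ + r + δ with hρ0
  have hρ0pos : 0 < ρ0 := by positivity
  set K : ℝ := C * ρ0 ^ (n - 1) + P + η₁ with hK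
  have hu1 : ContDiff ℝ 1 u := hu.smooth.of_le (by norm_num)
  -- the eventual conditions
  have e1 : ∀ᶠ j in atTop, ε j < ε₀ := hB.lim.eventually (Iio_mem_nhds hε₀)
  have e2 : ∀ᶠ j in atTop, ε j < δ / 8 := hB.lim.eventually (Iio_mem_nhds (by positivity))
  have e3 : ∀ᶠ j in atTop, ε j < ρ0 := hB.lim.eventually (Iio_mem_nhds hρ0pos)
  have e4 : ∀ᶠ j in atTop, 32 * (ε j / δ) * K < η / 4 := by
    have : Tendsto (fun j => 32 * (ε j / δ) * K) atTop (𝓝 (32 * (0 / δ) * K)) :=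
      ((hB.lim.div_const δ).const_mul 32).mul_const K
    rw [zero_div, mul_zero, zero_mul] at this
    exact this.eventually (Iio_mem_nhds (by positivity))
  have e5 : ∀ᶠ j in atTop, 64 / δ * (∫ x in ball (0 : DgE n) ρ0, |dgB4_rs u (ε j) x - dgB4_ph E x|) < η / 4 := by
    have : Tendsto (fun j => 64 / δ * (∫ x in ball (0 : DgE n) ρ0, |dgB4_rs u (ε j) x - dgB4_ph E x|)) atTop
        (𝓝 (64 / δ * 0)) := (hB.conv ρ0).const_mul _
    rw [mul_zero] at this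
    exact this.eventually (Iio_mem_nhds (by positivity))
  filter_upwards [e1, e2, e3, e4, e5] with j h1 h2 h3 h4 h5
  have hpos := hB.pos j
  set e := ε j with he
  set v := dgB4_rs u e with hv
  obtain ⟨w, hwC, hw1, hwL, hwE⟩ := hw0 e ⟨hpos, h1⟩
  have hvC : ContDiff ℝ 1 v := dgB44_rs_contDiff hu1 e
  have hv1 : ∀ x, v x ∈ Icc (-1 : ℝ) 1 := fun x => hu.range _
  have hp := hpatch e v w hpos (by linarith) hvC hwC hv1 hw1 (hsmin e hpos)
  set A : Set (DgE n) := ball y (r + δ / 2) \ ball y r with hA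
  have hAsub : A ⊆ ball y (r + δ / 2) := sdiff_subset
  have hsub0 : ball y (r + δ / 2) ⊆ ball (0 : DgE n) ρ0 := by
    intro x hx
    rw [mem_ball, dist_eq_norm] at hx
    rw [mem_ball, dist_zero_right]
    have : ‖x‖ ≤ ‖x - y‖ + ‖y‖ := by
      have := norm_add_le (x - y) y
      rwa [sub_add_cancel] at this
    rw [hρ0]
    linarith
  -- T2
  have hT2 : dgB4_En n e v A ≤ C * ρ0 ^ (n - 1) := by
    have ha : dgB4_En n e v A ≤ dgB4_En n e v (ball 0 ρ0) :=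
      dgB44_En_mono hvC hpos (hAsub.trans hsub0) 0 ρ0 subset_rfl
    rw [hv, hsen e hpos ρ0, smul_zero] at ha
    have hb : dgEn n u 0 (e⁻¹ * ρ0) ≤ C * (e⁻¹ * ρ0) ^ (n - 1) := by
      apply hC
      rw [inv_mul_eq_div, one_le_div hpos]
      exact h3.le
    have hc : e ^ (n - 1) * (C * (e⁻¹ * ρ0) ^ (n - 1)) = C * ρ0 ^ (n - 1) := by
      rw [mul_pow, inv_pow]
      have : e ^ (n - 1) ≠ 0 := (pow_pos hpos _).ne'
      field_simp
    calc dgB4_En n e (dgB4_rs u e) A ≤ e ^ (n - 1) * dgEn n u 0 (e⁻¹ * ρ0) := ha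
      _ ≤ e ^ (n - 1) * (C * (e⁻¹ * ρ0) ^ (n - 1)) := mul_le_mul_of_nonneg_left hb (pow_pos hpos _).le
      _ = C * ρ0 ^ (n - 1) := hc
  -- T3
  have hT3 : dgB4_En n e w A ≤ P + η₁ :=
    (dgB44_En_mono hwC hpos hAsub y (r + δ / 2) subset_rfl).trans hwE
  -- T4
  have hT4 : ∫ x in A, (v x - w x) ^ 2 ≤ 2 * (∫ x in ball (0 : DgE n) ρ0, |v x - dgB4_ph E x|) + 2 * η₁ := by
    have := dgB44_sq_le hvC.continuous hwC.continuous hv1 hw1 hB.meas hF (A := A) (B := ball (0 : DgE n) ρ0)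
      (B' := ball y (r + δ / 2)) (measurableSet_ball.diff measurableSet_ball) (hAsub.trans hsub0) hAsub 0 y ρ0 (r + δ / 2)
      subset_rfl subset_rfl (fun x hx => hFE x ⟨ball_subset_ball (by linarith) hx.1, hx.2⟩)
    linarith
  set τ : ℝ := ∫ x in ball (0 : DgE n) ρ0, |v x - dgB4_ph E x| with hτ
  have hk1 : 16 * (e / (δ / 2)) = 32 * (e / δ) := by field_simp; ring
  have hk2 : 16 / (δ / 2) = 32 / δ := by field_simp; ring
  rw [hk1, hk2] at hp
  have hq1 : 32 * (e / δ) * (dgB4_En n e v A + dgB4_En n e w A) ≤ 32 * (e / δ) * K := by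
    apply mul_le_mul_of_nonneg_left _ (by positivity)
    rw [hK]
    linarith
  have hq2 : 32 / δ * ∫ x in A, (v x - w x) ^ 2 ≤ 32 / δ * (2 * τ + 2 * η₁) :=
    mul_le_mul_of_nonneg_left hT4 (by positivity)
  have hq3 : 32 / δ * (2 * τ + 2 * η₁) = 64 / δ * τ + 64 / δ * η₁ := by ring
  have hq4 : η₁ + 64 / δ * η₁ = η / 4 := by rw [← hη₁']; ring
  linarith

/-! ## EXITS -/

/-- **B4.4 = the leaf `dgB4_upper` of `MMrec.lean`, verbatim** (from the leaves as they stand there). -/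
theorem dgB44_upper {n : ℕ} (hn : 1 ≤ n) {u : DgE n → ℝ} (hu : DgSol n u) (hmin : DgMin n u) (hfd : DgFinDens n u)
    {ε : ℕ → ℝ} {E : Set (DgE n)} (hB : DgBlow n u ε E) (y : DgE n) {r δ : ℝ} (hr : 0 < r) (hδ : 0 < δ)
    {F : Set (DgE n)} (hF : MeasurableSet F) (hFE : ∀ x ∈ ball y (r + δ) \ ball y r, (x ∈ F ↔ x ∈ E))
    (hfin : gmtP F (ball y (r + δ)) ≠ ⊤) {η : ℝ} (hη : 0 < η) :
    ∀ᶠ j in atTop, dgB4_En n (ε j) (dgB4_rs u (ε j)) (ball y r) ≤
      dgB4_s0 * (gmtP F (ball y (r + δ))).toReal + η :=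
  dgB44_upper_of hu hfd hB y hr hδ hF hFE
    (fun _ hη' => dgB4_recovery hn hF y (by positivity) (by linarith) hfin hη')
    (fun _ _ _ he hd hv hw hv1 hw1 hm => dgB4_patch y he hr hd hv hw hv1 hw1 hm)
    (fun _ he ρ => dgB4_scale_en hn u he 0 ρ)
    (fun _ he => dgB4_scale_min hn (hu.smooth.of_le (by norm_num)) hmin he y _) hη

end Claimed.Agent.R329
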