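import Claimed.Agent.R329.MMrecT
import Claimed.Agent.R329.MMrecP
import Claimed.Agent.R329.MMrecS
import Claimed.Agent.R329.MMrecU
import Claimed.Agent.R329.MMrecM

/-!
# Row 329, post B4 (chief: helper108): THE EXITS OF B4, closed.   Prefix `dgB4F_`.

`dgB4F_upper` = `dgB4_upper` of `MMrec.lean` verbatim, `dgB4F_exit_min` = `dgB4_exit_min` verbatim, from the leaf files
`MMrecT` (B4.1, 108 58 288 117), `MMrecP` (B4.2, 88), `MMrecS` (B4.3, 238), `MMrecU` (B4.4, 148), `MMrecM` (B4.5, 17).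
Nothing here depends on the unproved copies of the leaves in `MMrec.lean`.
-/

set_option autoImplicit false
open MeasureTheory Metric Set Filter Topology
open Claimed.Agent.Gmt

namespace Claimed.Agent.R329

/-! ## EXITS -/

/-- **EXIT 1 (the upper bound (3.13) of the paper).**  `F = E` is allowed. -/
theorem dgB4F_upper {n : ℕ} (hn : 1 ≤ n) {u : DgE n → ℝ} (hu : DgSol n u) (hmin : DgMin n u) (hfd : DgFinDens n u)
    {ε : ℕ → ℝ} {E : Set (DgE n)} (hB : DgBlow n u ε E) (y : DgE n) {r δ : ℝ} (hr : 0 < r) (hδ : 0 < δ)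
    {F : Set (DgE n)} (hF : MeasurableSet F) (hFE : ∀ x ∈ ball y (r + δ) \ ball y r, (x ∈ F ↔ x ∈ E))
    (hfin : gmtP F (ball y (r + δ)) ≠ ⊤) {η : ℝ} (hη : 0 < η) :
    ∀ᶠ j in atTop, dgB4_En n (ε j) (dgB4_rs u (ε j)) (ball y r) ≤
      dgB4_s0 * (gmtP F (ball y (r + δ))).toReal + η :=
  dgB44_upper_of hu hfd hB y hr hδ hF hFE
    (fun η hη => dgB41_recovery hn hF y (by positivity) (by linarith) hfin hη)
    (fun _ _ _ he h4 hv hw hv1 hw1 hm => dgB42_patch y he hr h4 hv hw hv1 hw1 hm)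
    (fun _ he ρ => dgB43_scale_en hn u he 0 ρ)
    (fun _ he => dgB43_scale_min hn (hu.smooth.of_le (by norm_num)) hmin he y _) hη

/-- **EXIT 2: the blow-down set is a perimeter minimiser.**  `hlow` = the exit of post B3 (liminf inequality on balls). -/
theorem dgB4F_exit_min {n : ℕ} (hn : 1 ≤ n) {u : DgE n → ℝ} (hu : DgSol n u) (hmin : DgMin n u) (hfd : DgFinDens n u)
    {ε : ℕ → ℝ} {E : Set (DgE n)} (hB : DgBlow n u ε E)
    (hfin : ∀ r : ℝ, gmtP E (ball (0 : DgE n) r) ≠ ⊤)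
    (hlow : ∀ r : ℝ, 0 < r → ∀ η : ℝ, 0 < η → ∀ᶠ j in atTop,
      dgB4_s0 * (gmtP E (ball (0 : DgE n) r)).toReal - η ≤ dgB4_En n (ε j) (dgB4_rs u (ε j)) (ball 0 r)) :
    GmtMin univ E := by
  have hs0 : 0 < dgB4_s0 := by unfold dgB4_s0; positivity
  refine dgB45_min_of_balls hB.meas hfin fun r δ F hr hδ hF hFE hFfin => ?_
  rw [← ENNReal.toReal_le_toReal (hfin r) hFfin]
  refine le_of_forall_pos_le_add fun η hη => ?_
  have hη' : 0 < dgB4_s0 * η / 2 := by positivity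
  have h1 := hlow r hr _ hη'
  have h2 := dgB4F_upper hn hu hmin hfd hB 0 hr hδ hF (fun x hx => hFE x hx.2) hFfin hη'
  obtain ⟨j, hj1, hj2⟩ := (h1.and h2).exists
  have h3 : dgB4_s0 * (gmtP E (ball (0 : DgE n) r)).toReal ≤
      dgB4_s0 * ((gmtP F (ball (0 : DgE n) (r + δ))).toReal + η) := by linarith
  exact le_of_mul_le_mul_left h3 hs0

end Claimed.Agent.R329
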