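import Claimed.Agent.R329.MMrecR

/-!
# Row 329, post B4.1, leaf of helper108 typed by helper117: THE LEVEL LEMMA.   Prefix `dgB4l_`.

For one level `t` of a `C¹` function `f`: the function `w = g(D/ε)`, `D` = mollified signed distance to the level, has
`E_ε(w; B) + Λ ∫_B |w - sgn(f - t)|` bounded by an explicit constant times `|B|` plus the integral of the explicit continuous majorant.
-/

set_option autoImplicit false
open MeasureTheory Metric Set Filter Topology
open Claimed.Agent.Gmt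

namespace Claimed.Agent.R329

theorem dgB4l_contDiff_G : ContDiff ℝ 1 dgG := by
  have hd : Differentiable ℝ dgG := fun s => (dgB41_hasDerivAt_G s).differentiableAt
  rw [contDiff_one_iff_deriv]
  refine ⟨hd, ?_⟩
  have : deriv dgG = fun s => (1 - dgG s ^ 2) / √2 := funext fun s => (dgB41_hasDerivAt_G s).deriv
  rw [this]
  have := hd.continuous
  fun_prop

theorem dgB4l_continuous_G : Continuous dgG := dgB4l_contDiff_G.continuous

theorem dgB4l_continuous_gp : Continuous dgB41_gp := by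
  unfold dgB41_gp
  have := dgB4l_continuous_G
  fun_prop

theorem dgB4l_integrableOn_ball {n : ℕ} {h : DgE n → ℝ} (hh : Continuous h) (y : DgE n) (ρ : ℝ) :
    IntegrableOn h (ball y ρ) :=
  (hh.continuousOn.integrableOn_compact (isCompact_closedBall y ρ)).mono_set ball_subset_closedBall

theorem dgB4l_exists_far {n : ℕ} (hn : 1 ≤ n) (y : DgE n) (R : ℝ) : ((ball y R)ᶜ : Set (DgE n)).Nonempty := by
  have : Nontrivial (DgE n) := by
    have : Nonempty (Fin n) := ⟨⟨0, hn⟩⟩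
    infer_instance
  obtain ⟨v, hv⟩ := exists_ne (0 : DgE n)
  have hv' : 0 < ‖v‖ := norm_pos_iff.2 hv
  refine ⟨y + (|R| / ‖v‖) • v, ?_⟩
  rw [mem_compl_iff, mem_ball, not_lt, dist_eq_norm, add_sub_cancel_left, norm_smul, Real.norm_eq_abs,
    abs_of_nonneg (by positivity), div_mul_cancel₀ _ hv'.ne']
  exact le_abs_self R

theorem dgB4l_level {n : ℕ} (hn : 1 ≤ n) {f : DgE n → ℝ} (hf : ContDiff ℝ 1 f) (y : DgE n) {ρ κ η₁ ε δ Λ t J : ℝ} (hρ : 0 < ρ) (hκ : 0 < κ) (hκ1 : κ ≤ 1) (hη₁ : 0 < η₁)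
    (hmv : ∀ x ∈ ball y ρ, ∀ z, dist x z < κ → |f z - f x| ≤ dist x z * (‖fderiv ℝ f x‖ + η₁)) (hε : 0 < ε) (hδ : 0 < δ) (hΛ : 0 ≤ Λ)
    (havg : ∫ x in ball y ρ, (Real.exp (4 * δ / ε) * (dgB41_gp ((t - f x) / ((‖fderiv ℝ f x‖ + η₁) * ε)) ^ 2 / ε) + Λ * √2 * dgB41_gp ((t - f x) / ((‖fderiv ℝ f x‖ + η₁) * ε))) ≤ J) :
    ∃ w : DgE n → ℝ, ContDiff ℝ 1 w ∧ (∀ x, w x ∈ Icc (-1 : ℝ) 1) ∧ dgB4_En n ε w (ball y ρ) + Λ * ∫ x in ball y ρ, |w x - (if t < f x then 1 else -1)| ≤ (volume (ball y ρ)).toReal * (Real.exp (4 * δ / ε) * (dgB41_gp (κ / ε) ^ 2 / ε) + Λ * (δ / ε + (1 - dgG (κ / ε)))) + J := by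
  set Z : Set (DgE n) := (ball y (ρ + 1))ᶜ with hZdef
  have hZ : Z.Nonempty := dgB4l_exists_far hn y (ρ + 1)
  have hfc : Continuous f := hf.continuous
  have hlip : LipschitzWith 1 (dgB41_sd f Z t) := dgB41_sd_lip hfc Z t
  have hloc : LocallyIntegrable (dgB41_sd f Z t) := hlip.continuous.locallyIntegrable
  set D : DgE n → ℝ := gmtMol δ (dgB41_sd f Z t) with hD
  have hDs : ContDiff ℝ 1 D := (gmtMol_contDiff hδ hloc).of_le (by exact_mod_cast le_top)
  have hDl : LipschitzWith 1 D := dgB41_mol_lip hδ hlip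
  set w : DgE n → ℝ := fun x => dgG (D x / ε) with hw
  have hwc1 : ContDiff ℝ 1 w := dgB4l_contDiff_G.comp (hDs.div_const ε)
  have hxZ : ∀ x ∈ ball y ρ, ∀ z ∈ Z, κ ≤ dist x z := by
    intro x hx z hz
    rw [hZdef, mem_compl_iff, mem_ball, not_lt] at hz
    rw [mem_ball] at hx
    have := dist_triangle z x y
    rw [dist_comm z x] at this
    linarith
  refine ⟨w, hwc1, fun x => ⟨(dgB41_G_mem _).1.le, (dgB41_G_mem _).2.le⟩, ?_⟩
  -- the three integrands
  set dens : DgE n → ℝ := fun x => ε / 2 * ‖fderiv ℝ w x‖ ^ 2 + dgW (w x) / ε with hdens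
  set sg : DgE n → ℝ := fun x => if t < f x then 1 else -1 with hsg
  set I : DgE n → ℝ := fun x => Real.exp (4 * δ / ε) * (dgB41_gp ((t - f x) / ((‖fderiv ℝ f x‖ + η₁) * ε)) ^ 2 / ε) +
    Λ * √2 * dgB41_gp ((t - f x) / ((‖fderiv ℝ f x‖ + η₁) * ε)) with hI
  set c : ℝ := Real.exp (4 * δ / ε) * (dgB41_gp (κ / ε) ^ 2 / ε) + Λ * (δ / ε + (1 - dgG (κ / ε))) with hc
  have hdens_c : Continuous dens := by
    have h1 : Continuous fun x => fderiv ℝ w x := hwc1.continuous_fderiv one_ne_zero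
    have h2 : Continuous w := hwc1.continuous
    rw [hdens]
    unfold dgW
    fun_prop
  have harg_c : Continuous fun x => (t - f x) / ((‖fderiv ℝ f x‖ + η₁) * ε) := by
    have h1 : Continuous fun x => fderiv ℝ f x := hf.continuous_fderiv one_ne_zero
    refine (continuous_const.sub hfc).div ((h1.norm.add continuous_const).mul continuous_const) fun x => ?_
    have : 0 < ‖fderiv ℝ f x‖ + η₁ := by positivity
    positivity
  have hI_c : Continuous I := by
    have h1 := dgB4l_continuous_gp.comp harg_c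
    have h1' : Continuous fun x => dgB41_gp ((t - f x) / ((‖fderiv ℝ f x‖ + η₁) * ε)) := h1
    rw [hI]
    fun_prop
  have hsg_m : Measurable sg := Measurable.ite (measurableSet_lt measurable_const hfc.measurable) measurable_const measurable_const
  have hfin : volume (ball y ρ) ≠ ⊤ := measure_ball_lt_top.ne
  have hL1_int : IntegrableOn (fun x => |w x - sg x|) (ball y ρ) := by
    refine Measure.integrableOn_of_bounded (M := 2) hfin
      ((hwc1.continuous.measurable.sub hsg_m).abs.aestronglyMeasurable) (Eventually.of_forall fun x => ?_)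
    rw [Real.norm_eq_abs, abs_abs, abs_le]
    have h1 := dgB41_G_mem (D x / ε)
    have h2 : sg x = 1 ∨ sg x = -1 := by
      rw [hsg]
      by_cases h : t < f x
      · left; simp [h]
      · right; simp [h]
    have h3 : w x = dgG (D x / ε) := rfl
    rcases h2 with h2 | h2 <;> rw [h2, h3] <;> constructor <;> linarith [h1.1, h1.2]
  have hdens_int : IntegrableOn dens (ball y ρ) := dgB4l_integrableOn_ball hdens_c y ρ
  have hI_int : IntegrableOn I (ball y ρ) := dgB4l_integrableOn_ball hI_c y ρ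
  have hpt : ∀ x ∈ ball y ρ, dens x + Λ * |w x - sg x| ≤ c + I x := by
    intro x hx
    have hl : 0 < ‖fderiv ℝ f x‖ + η₁ := by positivity
    have h1 := dgB41_dens_le (hDs.differentiable one_ne_zero) hDl hε x
    have h2 := dgB41_maj_en hfc hZ (t := t) hκ hl hδ hε (hxZ x hx) (hmv x hx)
    have h3 := dgB41_maj_l1 hfc hZ (t := t) hκ hl hδ hε (hxZ x hx) (hmv x hx)
    have h4 : dens x ≤ dgB41_gp (D x / ε) ^ 2 / ε := h1
    have h5 : dgB41_gp (D x / ε) ^ 2 / ε ≤
        Real.exp (4 * δ / ε) * (dgB41_gp (κ / ε) ^ 2 + dgB41_gp ((t - f x) / ((‖fderiv ℝ f x‖ + η₁) * ε)) ^ 2) / ε :=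
      div_le_div_of_nonneg_right h2 hε.le
    have h6 : Λ * |w x - sg x| ≤ Λ * (δ / ε + (1 - dgG (κ / ε)) + √2 * dgB41_gp ((t - f x) / ((‖fderiv ℝ f x‖ + η₁) * ε))) :=
      mul_le_mul_of_nonneg_left h3 hΛ
    have h7 : c + I x = Real.exp (4 * δ / ε) * (dgB41_gp (κ / ε) ^ 2 + dgB41_gp ((t - f x) / ((‖fderiv ℝ f x‖ + η₁) * ε)) ^ 2) / ε +
        Λ * (δ / ε + (1 - dgG (κ / ε)) + √2 * dgB41_gp ((t - f x) / ((‖fderiv ℝ f x‖ + η₁) * ε))) := by
      rw [hc, hI]
      ring
    rw [h7]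
    linarith
  have e1 : dgB4_En n ε w (ball y ρ) + Λ * ∫ x in ball y ρ, |w x - sg x| =
      ∫ x in ball y ρ, (dens x + Λ * |w x - sg x|) := by
    rw [integral_add hdens_int (hL1_int.const_mul Λ), integral_const_mul]
    rfl
  have hc_int : IntegrableOn (fun _ : DgE n => c) (ball y ρ) := dgB4l_integrableOn_ball continuous_const y ρ
  have e2 : ∫ x in ball y ρ, (c + I x) = (volume (ball y ρ)).toReal * c + ∫ x in ball y ρ, I x := by
    rw [integral_add hc_int hI_int, setIntegral_const, smul_eq_mul]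
    rfl
  have h8 : ∫ x in ball y ρ, (dens x + Λ * |w x - sg x|) ≤ ∫ x in ball y ρ, (c + I x) :=
    setIntegral_mono_on (hdens_int.add (hL1_int.const_mul Λ)) (hc_int.add hI_int)
      measurableSet_ball hpt
  rw [e1]
  rw [e2] at h8
  have h9 : ∫ x in ball y ρ, I x ≤ J := havg
  linarith

end Claimed.Agent.R329
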