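import Claimed.Agent.R329.MMrec
import Claimed.Agent.Lib.Gmt.BvMoll

/-!
# Row 329, post B4.1 (helper108): the recovery sequence for an arbitrary set of finite perimeter.   Prefix `dgB41_`.
Plan: header of `MMrec.lean`.
-/

set_option autoImplicit false
open MeasureTheory Metric Set Filter Topology
open Claimed.Agent.Gmt

namespace Claimed.Agent.R329

/-! ## 1. The one-dimensional profile -/

/-- `g' = (1 - g²)/√2`. -/
noncomputable def dgB41_gp (s : ℝ) : ℝ := (1 - dgG s ^ 2) / √2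

lemma dgB41_sqrt2_pos : (0 : ℝ) < √2 := by positivity

lemma dgB41_hasDerivAt_tanh (t : ℝ) : HasDerivAt Real.tanh (1 - Real.tanh t ^ 2) t := by
  have hc : Real.cosh t ≠ 0 := (Real.cosh_pos t).ne'
  have e : Real.tanh = fun t => Real.sinh t / Real.cosh t := funext Real.tanh_eq_sinh_div_cosh
  have h1 := (Real.hasDerivAt_sinh t).div (Real.hasDerivAt_cosh t) hc
  rw [e]
  refine h1.congr_deriv ?_
  field_simp

lemma dgB41_hasDerivAt_G (s : ℝ) : HasDerivAt dgG (dgB41_gp s) s := by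
  have h1 : HasDerivAt (fun t : ℝ => t / √2) (1 / √2) s := (hasDerivAt_id s).div_const _
  exact ((dgB41_hasDerivAt_tanh _).comp s h1).congr_deriv (by unfold dgB41_gp dgG; ring)

lemma dgB41_gp_eq (s : ℝ) : dgB41_gp s = 1 / (√2 * Real.cosh (s / √2) ^ 2) := by
  have hc : Real.cosh (s / √2) ≠ 0 := (Real.cosh_pos _).ne'
  have h2 := dgB41_sqrt2_pos.ne'
  unfold dgB41_gp dgG
  rw [Real.tanh_eq_sinh_div_cosh]
  have := Real.cosh_sq (s / √2)
  field_simp
  linarith

lemma dgB41_gp_pos (s : ℝ) : 0 < dgB41_gp s := by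
  rw [dgB41_gp_eq]; have := Real.cosh_pos (s / √2); have := dgB41_sqrt2_pos; positivity

lemma dgB41_G_mem (s : ℝ) : dgG s ∈ Ioo (-1 : ℝ) 1 := ⟨Real.neg_one_lt_tanh _, Real.tanh_lt_one _⟩

lemma dgB41_gp_le_one (s : ℝ) : dgB41_gp s ≤ 1 := by
  unfold dgB41_gp
  rw [div_le_one dgB41_sqrt2_pos]
  have h1 : (1 : ℝ) ≤ √2 := by
    rw [show (1 : ℝ) = √1 by simp]; exact Real.sqrt_le_sqrt (by norm_num)
  nlinarith [sq_nonneg (dgG s)]

lemma dgB41_gp_anti {a b : ℝ} (h : |a| ≤ |b|) : dgB41_gp b ≤ dgB41_gp a := by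
  rw [dgB41_gp_eq, dgB41_gp_eq]
  have h2 := dgB41_sqrt2_pos
  have h1 : Real.cosh (a / √2) ≤ Real.cosh (b / √2) := by
    rw [Real.cosh_le_cosh, abs_div, abs_div]
    exact div_le_div_of_nonneg_right h (abs_nonneg _)
  have h0 := Real.cosh_pos (a / √2)
  apply one_div_le_one_div_of_le (by positivity)
  apply mul_le_mul_of_nonneg_left _ h2.le
  exact pow_le_pow_left₀ h0.le h1 2

lemma dgB41_gp_abs (s : ℝ) : dgB41_gp |s| = dgB41_gp s :=
  le_antisymm (dgB41_gp_anti (by simp)) (dgB41_gp_anti (by simp))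

lemma dgB41_cosh_le (a b : ℝ) : Real.cosh b ≤ Real.cosh a * Real.exp |a - b| := by
  rw [Real.cosh_eq, Real.cosh_eq]
  have h1 : Real.exp b ≤ Real.exp a * Real.exp |a - b| := by
    rw [← Real.exp_add]; apply Real.exp_le_exp.2; linarith [neg_abs_le (a - b)]
  have h2 : Real.exp (-b) ≤ Real.exp (-a) * Real.exp |a - b| := by
    rw [← Real.exp_add]; apply Real.exp_le_exp.2; linarith [le_abs_self (a - b)]
  nlinarith

lemma dgB41_gp_shift (a b : ℝ) : dgB41_gp a ≤ Real.exp (2 * |a - b|) * dgB41_gp b := by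
  rw [dgB41_gp_eq, dgB41_gp_eq]
  have h2 := dgB41_sqrt2_pos
  have ha := Real.cosh_pos (a / √2)
  have hb := Real.cosh_pos (b / √2)
  have h1 := dgB41_cosh_le (a / √2) (b / √2)
  have h3 : |a / √2 - b / √2| ≤ |a - b| := by
    rw [← sub_div, abs_div, abs_of_pos h2]
    apply div_le_self (abs_nonneg _)
    rw [show (1 : ℝ) = √1 by simp]; exact Real.sqrt_le_sqrt (by norm_num)
  have h4 : Real.cosh (b / √2) ≤ Real.cosh (a / √2) * Real.exp |a - b| :=
    h1.trans (mul_le_mul_of_nonneg_left (Real.exp_le_exp.2 h3) ha.le)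
  have h5 : Real.cosh (b / √2) ^ 2 ≤ Real.cosh (a / √2) ^ 2 * Real.exp (2 * |a - b|) := by
    have := pow_le_pow_left₀ hb.le h4 2
    rwa [mul_pow, ← Real.exp_nat_mul, Nat.cast_ofNat] at this
  rw [div_le_iff₀ (by positivity)]
  have h6 : Real.exp (2 * |a - b|) * (1 / (√2 * Real.cosh (b / √2) ^ 2)) * (√2 * Real.cosh (a / √2) ^ 2) =
      (Real.cosh (a / √2) ^ 2 * Real.exp (2 * |a - b|)) / Real.cosh (b / √2) ^ 2 := by
    field_simp
  rw [h6, le_div_iff₀ (by positivity)]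
  linarith

lemma dgB41_gp_decay {s : ℝ} (hs : 0 < s) : dgB41_gp s ≤ 6 / s ^ 2 := by
  rw [dgB41_gp_eq]
  have h2 := dgB41_sqrt2_pos
  have h22 : √2 ^ 2 = 2 := Real.sq_sqrt (by norm_num)
  set x := s / √2 with hx
  have hxp : 0 < x := by positivity
  have h1 : x / 2 ≤ Real.cosh x := by
    rw [Real.cosh_eq]
    have := Real.add_one_le_exp x
    have := Real.exp_pos (-x)
    linarith
  have h3 : x ^ 2 / 4 ≤ Real.cosh x ^ 2 := by
    have := pow_le_pow_left₀ (by positivity) h1 2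
    nlinarith
  have h4 : x ^ 2 = s ^ 2 / 2 := by rw [hx, div_pow, h22]
  have h5 : (1 : ℝ) ≤ √2 := by
    rw [show (1 : ℝ) = √1 by simp]; exact Real.sqrt_le_sqrt (by norm_num)
  rw [div_le_div_iff₀ (by positivity) (by positivity)]
  have h6 : s ^ 2 / 8 ≤ Real.cosh x ^ 2 := by rw [h4] at h3; linarith
  have h7 : Real.cosh x ^ 2 ≤ √2 * Real.cosh x ^ 2 := le_mul_of_one_le_left (by positivity) h5
  nlinarith

lemma dgB41_W_G (s : ℝ) : dgW (dgG s) = dgB41_gp s ^ 2 / 2 := by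
  unfold dgW dgB41_gp
  rw [div_pow, Real.sq_sqrt (by norm_num)]
  ring

/-- the primitive of `g'²`. -/
noncomputable def dgB41_Phi (s : ℝ) : ℝ := (dgG s - dgG s ^ 3 / 3) / √2

lemma dgB41_hasDerivAt_Phi (s : ℝ) : HasDerivAt dgB41_Phi (dgB41_gp s ^ 2) s := by
  have h := dgB41_hasDerivAt_G s
  have h1 := ((h.sub ((h.pow 3).div_const 3)).div_const √2)
  refine h1.congr_deriv ?_
  unfold dgB41_gp
  field_simp
  ring

lemma dgB41_abs_Phi_le (s : ℝ) : |dgB41_Phi s| ≤ dgB4_s0 / 2 := by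
  have h2 := dgB41_sqrt2_pos
  have h22 : √2 * √2 = 2 := Real.mul_self_sqrt (by norm_num)
  obtain ⟨h1, h3⟩ := dgB41_G_mem s
  unfold dgB41_Phi dgB4_s0
  rw [abs_div, abs_of_pos h2, div_le_iff₀ h2]
  have : 2 * √2 / 3 / 2 * √2 = 2 / 3 := by
    have : 2 * √2 / 3 / 2 * √2 = (√2 * √2) / 3 := by ring
    rw [this, h22]
  rw [this, abs_le]
  constructor <;> nlinarith [sq_nonneg (dgG s - 1), sq_nonneg (dgG s + 1)]

lemma dgB41_G_neg (s : ℝ) : dgG (-s) = - dgG s := by unfold dgG; rw [neg_div, Real.tanh_neg]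

lemma dgB41_G_mono : Monotone dgG :=
  monotone_of_deriv_nonneg (fun s => (dgB41_hasDerivAt_G s).differentiableAt)
    fun s => by rw [(dgB41_hasDerivAt_G s).deriv]; exact (dgB41_gp_pos s).le

lemma dgB41_G_nonneg {s : ℝ} (hs : 0 ≤ s) : 0 ≤ dgG s := by
  have := dgB41_G_mono hs
  simpa [dgG] using this

lemma dgB41_G_lip (a b : ℝ) : |dgG a - dgG b| ≤ |a - b| := by
  have h := Convex.norm_image_sub_le_of_norm_hasDerivWithin_le (f := dgG) (f' := dgB41_gp) (C := 1)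
    (s := univ) (fun x _ => (dgB41_hasDerivAt_G x).hasDerivWithinAt)
    (fun x _ => by rw [Real.norm_eq_abs, abs_of_pos (dgB41_gp_pos x)]; exact dgB41_gp_le_one x)
    convex_univ (mem_univ b) (mem_univ a)
  simpa using h

lemma dgB41_one_sub_G_le {s : ℝ} (hs : 0 ≤ s) : 1 - dgG s ≤ √2 * dgB41_gp s := by
  have h2 := dgB41_sqrt2_pos
  unfold dgB41_gp
  rw [mul_div_cancel₀ _ h2.ne']
  have h0 := dgB41_G_nonneg hs
  have h1 := (dgB41_G_mem s).2
  nlinarith

/-! ## 2. The signed distance to a level of a continuous function -/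

section sd
variable {n : ℕ}

/-- signed distance to the level `t` of `f` (`> 0` where `f > t`), cut off by the closed set `Z`. -/
noncomputable def dgB41_sd (f : DgE n → ℝ) (Z : Set (DgE n)) (t : ℝ) (x : DgE n) : ℝ :=
  infDist x ({x | f x ≤ t} ∪ Z) - infDist x ({x | t ≤ f x} ∪ Z)

lemma dgB41_sd_cross {f : DgE n → ℝ} (hf : Continuous f) {t : ℝ} {x y : DgE n} (hx : t ≤ f x) (hy : f y ≤ t) :
    ∃ z, f z = t ∧ dist x z + dist y z = dist x y := by
  have hc : ContinuousOn (fun s : ℝ => f (AffineMap.lineMap x y s)) (Icc 0 1) :=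
    (hf.comp (AffineMap.lineMap_continuous)).continuousOn
  have h1 : t ∈ Icc (f (AffineMap.lineMap x y (1 : ℝ))) (f (AffineMap.lineMap x y (0 : ℝ))) := by
    simp only [AffineMap.lineMap_apply_one, AffineMap.lineMap_apply_zero]; exact ⟨hy, hx⟩
  obtain ⟨s, hs, hst⟩ := intermediate_value_Icc' (zero_le_one' ℝ) hc h1
  refine ⟨AffineMap.lineMap x y s, hst, ?_⟩
  rw [dist_comm x, dist_comm y, dist_lineMap_left, dist_lineMap_right, Real.norm_eq_abs, Real.norm_eq_abs,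
    abs_of_nonneg hs.1, abs_of_nonneg (sub_nonneg.2 hs.2)]
  ring

lemma dgB41_sd_sub_le {f : DgE n → ℝ} (hf : Continuous f) (Z : Set (DgE n)) (t : ℝ) (x y : DgE n) :
    dgB41_sd f Z t x - dgB41_sd f Z t y ≤ dist x y := by
  unfold dgB41_sd
  set A := {x | f x ≤ t} ∪ Z with hA
  set B := {x | t ≤ f x} ∪ Z with hB
  have hAB : ∀ z, z ∈ A ∨ z ∈ B := fun z => by
    rcases le_total (f z) t with h | h
    · exact Or.inl (Or.inl h)
    · exact Or.inr (Or.inl h)
  by_cases hxA : x ∈ A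
  · rw [infDist_zero_of_mem hxA]
    have h1 : infDist y B ≤ infDist x B + dist y x := infDist_le_infDist_add_dist
    have h2 : 0 ≤ infDist y A := infDist_nonneg
    rw [dist_comm] at h1
    linarith
  · have hxB : x ∈ B := (hAB x).resolve_left hxA
    rw [infDist_zero_of_mem hxB]
    by_cases hyB : y ∈ B
    · rw [infDist_zero_of_mem hyB]
      have h1 : infDist x A ≤ infDist y A + dist x y := infDist_le_infDist_add_dist
      linarith
    · have hyA : y ∈ A := (hAB y).resolve_right hyB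
      rw [infDist_zero_of_mem hyA]
      have hfx : t ≤ f x := by
        by_contra h
        exact hxA (Or.inl (not_le.1 h).le)
      have hfy : f y ≤ t := by
        by_contra h
        exact hyB (Or.inl (not_le.1 h).le)
      obtain ⟨z, hz, hd⟩ := dgB41_sd_cross hf hfx hfy
      have h1 : infDist x A ≤ dist x z := infDist_le_dist_of_mem (Or.inl hz.le)
      have h2 : infDist y B ≤ dist y z := infDist_le_dist_of_mem (Or.inl hz.ge)
      linarith

lemma dgB41_sd_lip {f : DgE n → ℝ} (hf : Continuous f) (Z : Set (DgE n)) (t : ℝ) :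
    LipschitzWith 1 (dgB41_sd f Z t) := by
  refine LipschitzWith.of_dist_le_mul fun x y => ?_
  rw [Real.dist_eq, NNReal.coe_one, one_mul, abs_le]
  constructor
  · have := dgB41_sd_sub_le hf Z t y x
    rw [dist_comm] at this
    linarith
  · exact dgB41_sd_sub_le hf Z t x y

lemma dgB41_sd_ge {f : DgE n → ℝ} {Z : Set (DgE n)} (hZ : Z.Nonempty) {t κ lam : ℝ} {x : DgE n} (hl : 0 < lam)
    (hxZ : ∀ z ∈ Z, κ ≤ dist x z) (hmv : ∀ z, dist x z < κ → |f z - f x| ≤ dist x z * lam) (hx : t ≤ f x) :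
    min κ ((f x - t) / lam) ≤ dgB41_sd f Z t x := by
  unfold dgB41_sd
  rw [infDist_zero_of_mem (s := {x | t ≤ f x} ∪ Z) (Or.inl hx), sub_zero,
    le_infDist (hZ.mono subset_union_right)]
  rintro z (hz | hz)
  · by_cases hd : dist x z < κ
    · refine (min_le_right _ _).trans ?_
      rw [div_le_iff₀ hl]
      have h1 := (abs_le.1 (hmv z hd)).1
      have h2 : f z ≤ t := hz
      linarith
    · exact (min_le_left _ _).trans (not_lt.1 hd)
  · exact (min_le_left _ _).trans (hxZ z hz)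

lemma dgB41_sd_le {f : DgE n → ℝ} {Z : Set (DgE n)} (hZ : Z.Nonempty) {t κ lam : ℝ} {x : DgE n} (hl : 0 < lam)
    (hxZ : ∀ z ∈ Z, κ ≤ dist x z) (hmv : ∀ z, dist x z < κ → |f z - f x| ≤ dist x z * lam) (hx : f x ≤ t) :
    dgB41_sd f Z t x ≤ - min κ ((t - f x) / lam) := by
  unfold dgB41_sd
  rw [infDist_zero_of_mem (s := {x | f x ≤ t} ∪ Z) (Or.inl hx), zero_sub, neg_le_neg_iff,
    le_infDist (hZ.mono subset_union_right)]
  rintro z (hz | hz)
  · by_cases hd : dist x z < κ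
    · refine (min_le_right _ _).trans ?_
      rw [div_le_iff₀ hl]
      have h1 := (abs_le.1 (hmv z hd)).2
      have h2 : t ≤ f z := hz
      linarith
    · exact (min_le_left _ _).trans (not_lt.1 hd)
  · exact (min_le_left _ _).trans (hxZ z hz)

end sd

/-! ## 3. Mollification of a 1-Lipschitz function -/

section mol
variable {n : ℕ}

lemma dgB41_mol_integrable {δ : ℝ} (hδ : 0 < δ) {d : DgE n → ℝ} (hd : Continuous d) (x : DgE n) :
    Integrable fun z => gmtBump n δ z * d (x - z) :=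
  ((gmtBump_continuous hδ).mul (hd.comp (continuous_const.sub continuous_id))).integrable_of_hasCompactSupport
    ((gmtBump_hasCompactSupport hδ).mul_right)

lemma dgB41_mol_lip {δ : ℝ} (hδ : 0 < δ) {d : DgE n → ℝ} (hd : LipschitzWith 1 d) :
    LipschitzWith 1 (gmtMol δ d) := by
  refine LipschitzWith.of_dist_le_mul fun x y => ?_
  rw [Real.dist_eq, NNReal.coe_one, one_mul, gmtMol_eq_integral_sub, gmtMol_eq_integral_sub,
    ← integral_sub (dgB41_mol_integrable hδ hd.continuous x) (dgB41_mol_integrable hδ hd.continuous y)]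
  have hb := gmtBump_props (m := n) hδ
  have h1 : ‖∫ z, (gmtBump n δ z * d (x - z) - gmtBump n δ z * d (y - z))‖ ≤
      ∫ z, gmtBump n δ z * dist x y := by
    refine norm_integral_le_of_norm_le ((gmtBump_integrable hδ).mul_const _) (Eventually.of_forall fun z => ?_)
    rw [← mul_sub, norm_mul, Real.norm_eq_abs, abs_of_nonneg (hb.2.1 z)]
    refine mul_le_mul_of_nonneg_left ?_ (hb.2.1 z)
    have := hd.dist_le_mul (x - z) (y - z)
    simpa [Real.dist_eq] using this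
  rw [integral_mul_const, hb.2.2.2.2, one_mul] at h1
  exact h1

lemma dgB41_mol_close {δ : ℝ} (hδ : 0 < δ) {d : DgE n → ℝ} (hd : LipschitzWith 1 d) (x : DgE n) :
    |gmtMol δ d x - d x| ≤ δ := by
  have hb := gmtBump_props (m := n) hδ
  have h0 : d x = ∫ z, gmtBump n δ z * d x := by rw [integral_mul_const, hb.2.2.2.2, one_mul]
  rw [gmtMol_eq_integral_sub]
  conv_lhs => rw [h0]
  rw [← integral_sub (dgB41_mol_integrable hδ hd.continuous x) ((gmtBump_integrable hδ).mul_const _)]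
  have h1 : ‖∫ z, (gmtBump n δ z * d (x - z) - gmtBump n δ z * d x)‖ ≤ ∫ z, gmtBump n δ z * δ := by
    refine norm_integral_le_of_norm_le ((gmtBump_integrable hδ).mul_const _) (Eventually.of_forall fun z => ?_)
    rw [← mul_sub, norm_mul, Real.norm_eq_abs, abs_of_nonneg (hb.2.1 z)]
    by_cases hz : δ ≤ ‖z‖
    · rw [gmtBump_eq_zero hδ hz]; simp
    · refine mul_le_mul_of_nonneg_left ?_ (hb.2.1 z)
      have := hd.dist_le_mul (x - z) x
      simp only [NNReal.coe_one, one_mul, dist_eq_norm, sub_sub_cancel_left, norm_neg] at this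
      exact this.trans (not_le.1 hz).le
  rw [integral_mul_const, hb.2.2.2.2, one_mul] at h1
  exact h1

end mol

/-! ## 4. The energy density of `g(D/ε)` for a smooth 1-Lipschitz `D` -/

section dens
variable {n : ℕ}

lemma dgB41_dens_le {D : DgE n → ℝ} (hD : Differentiable ℝ D) (hL : LipschitzWith 1 D) {ε : ℝ} (hε : 0 < ε)
    (x : DgE n) :
    ε / 2 * ‖fderiv ℝ (fun x => dgG (D x / ε)) x‖ ^ 2 + dgW (dgG (D x / ε)) / ε ≤ dgB41_gp (D x / ε) ^ 2 / ε := by
  have h1 : HasFDerivAt (fun x => D x / ε) (ε⁻¹ • fderiv ℝ D x) x := by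
    have := (hD x).hasFDerivAt.const_smul ε⁻¹
    refine this.congr_of_eventuallyEq (Eventually.of_forall fun z => ?_)
    simp [div_eq_inv_mul]
  have h2 := (dgB41_hasDerivAt_G (D x / ε)).comp_hasFDerivAt x h1
  have h3 : fderiv ℝ (fun x => dgG (D x / ε)) x = dgB41_gp (D x / ε) • ε⁻¹ • fderiv ℝ D x := h2.fderiv
  have h4 : ‖fderiv ℝ D x‖ ≤ 1 := by
    have := norm_fderiv_le_of_lipschitz ℝ hL (x₀ := x)
    simpa using this
  have hg := dgB41_gp_pos (D x / ε)
  rw [h3, norm_smul, norm_smul, Real.norm_eq_abs, Real.norm_eq_abs, abs_of_pos hg, abs_of_pos (inv_pos.2 hε),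
    dgB41_W_G]
  have h5 : (dgB41_gp (D x / ε) * (ε⁻¹ * ‖fderiv ℝ D x‖)) ^ 2 ≤ (dgB41_gp (D x / ε) * ε⁻¹) ^ 2 := by
    apply pow_le_pow_left₀ (by positivity)
    rw [← mul_assoc]
    exact mul_le_of_le_one_right (by positivity) h4
  have h6 : ε / 2 * (dgB41_gp (D x / ε) * ε⁻¹) ^ 2 + dgB41_gp (D x / ε) ^ 2 / 2 / ε =
      dgB41_gp (D x / ε) ^ 2 / ε := by
    field_simp
    ring
  rw [← h6]
  have : ε / 2 * (dgB41_gp (D x / ε) * (ε⁻¹ * ‖fderiv ℝ D x‖)) ^ 2 ≤ ε / 2 * (dgB41_gp (D x / ε) * ε⁻¹) ^ 2 :=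
    mul_le_mul_of_nonneg_left h5 (by positivity)
  linarith

end dens

/-! ## 5. Pointwise majorants -/

section ptw
variable {n : ℕ}

lemma dgB41_abs_sd_ge {f : DgE n → ℝ} {Z : Set (DgE n)} (hZ : Z.Nonempty) {t κ lam : ℝ} {x : DgE n} (hl : 0 < lam)
    (hxZ : ∀ z ∈ Z, κ ≤ dist x z) (hmv : ∀ z, dist x z < κ → |f z - f x| ≤ dist x z * lam) :
    min κ (|t - f x| / lam) ≤ |dgB41_sd f Z t x| := by
  rcases le_total t (f x) with h | h
  · have h1 := dgB41_sd_ge hZ hl hxZ hmv h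
    rw [abs_of_nonpos (sub_nonpos.2 h), neg_sub]
    exact h1.trans (le_abs_self _)
  · have h1 := dgB41_sd_le hZ hl hxZ hmv h
    rw [abs_of_nonneg (sub_nonneg.2 h)]
    exact (le_neg.1 h1).trans (neg_le_abs _)

lemma dgB41_gp_arg {t a lam ε : ℝ} (hl : 0 < lam) (hε : 0 < ε) :
    dgB41_gp (|t - a| / lam / ε) = dgB41_gp ((t - a) / (lam * ε)) := by
  rw [← dgB41_gp_abs ((t - a) / (lam * ε)), abs_div, abs_of_pos (mul_pos hl hε), div_div]

/-- energy majorant. -/
lemma dgB41_maj_en {f : DgE n → ℝ} (hf : Continuous f) {Z : Set (DgE n)} (hZ : Z.Nonempty) {t κ lam δ ε : ℝ}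
    {x : DgE n} (hκ : 0 < κ) (hl : 0 < lam) (hδ : 0 < δ) (hε : 0 < ε)
    (hxZ : ∀ z ∈ Z, κ ≤ dist x z) (hmv : ∀ z, dist x z < κ → |f z - f x| ≤ dist x z * lam) :
    dgB41_gp (gmtMol δ (dgB41_sd f Z t) x / ε) ^ 2 ≤
      Real.exp (4 * δ / ε) * (dgB41_gp (κ / ε) ^ 2 + dgB41_gp ((t - f x) / (lam * ε)) ^ 2) := by
  set d := dgB41_sd f Z t x with hd
  set D := gmtMol δ (dgB41_sd f Z t) x with hD
  have h1 : |D - d| ≤ δ := dgB41_mol_close hδ (dgB41_sd_lip hf Z t) x
  have h2 : dgB41_gp (D / ε) ≤ Real.exp (2 * δ / ε) * dgB41_gp (d / ε) := by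
    refine (dgB41_gp_shift (D / ε) (d / ε)).trans ?_
    refine mul_le_mul_of_nonneg_right (Real.exp_le_exp.2 ?_) (dgB41_gp_pos _).le
    rw [← sub_div, abs_div, abs_of_pos hε, mul_div_assoc]
    exact mul_le_mul_of_nonneg_left (div_le_div_of_nonneg_right h1 hε.le) (by norm_num)
  set m := min κ (|t - f x| / lam) with hm
  have hm0 : 0 ≤ m := le_min hκ.le (by positivity)
  have h3 : m ≤ |d| := dgB41_abs_sd_ge hZ hl hxZ hmv
  have h4 : dgB41_gp (d / ε) ≤ dgB41_gp (m / ε) := by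
    apply dgB41_gp_anti
    rw [abs_div, abs_div, abs_of_nonneg hm0]
    exact div_le_div_of_nonneg_right h3 (abs_nonneg _)
  have h5 : dgB41_gp (m / ε) ^ 2 ≤ dgB41_gp (κ / ε) ^ 2 + dgB41_gp ((t - f x) / (lam * ε)) ^ 2 := by
    rw [← dgB41_gp_arg hl hε]
    rcases min_choice κ (|t - f x| / lam) with h | h
    · rw [hm, h]; nlinarith [sq_nonneg (dgB41_gp (|t - f x| / lam / ε))]
    · rw [hm, h]; nlinarith [sq_nonneg (dgB41_gp (κ / ε))]
  have h6 : dgB41_gp (D / ε) ^ 2 ≤ (Real.exp (2 * δ / ε) * dgB41_gp (m / ε)) ^ 2 := by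
    apply pow_le_pow_left₀ (dgB41_gp_pos _).le
    exact h2.trans (mul_le_mul_of_nonneg_left h4 (Real.exp_pos _).le)
  have h7 : Real.exp (2 * δ / ε) ^ 2 = Real.exp (4 * δ / ε) := by
    rw [← Real.exp_nat_mul]; congr 1; push_cast; ring
  rw [mul_pow, h7] at h6
  exact h6.trans (mul_le_mul_of_nonneg_left h5 (Real.exp_pos _).le)

/-- `L¹` majorant. -/
lemma dgB41_maj_l1 {f : DgE n → ℝ} (hf : Continuous f) {Z : Set (DgE n)} (hZ : Z.Nonempty) {t κ lam δ ε : ℝ}
    {x : DgE n} (hκ : 0 < κ) (hl : 0 < lam) (hδ : 0 < δ) (hε : 0 < ε)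
    (hxZ : ∀ z ∈ Z, κ ≤ dist x z) (hmv : ∀ z, dist x z < κ → |f z - f x| ≤ dist x z * lam) :
    |dgG (gmtMol δ (dgB41_sd f Z t) x / ε) - (if t < f x then 1 else -1)| ≤
      δ / ε + (1 - dgG (κ / ε)) + √2 * dgB41_gp ((t - f x) / (lam * ε)) := by
  set d := dgB41_sd f Z t x with hd
  set D := gmtMol δ (dgB41_sd f Z t) x with hD
  have h1 : |D - d| ≤ δ := dgB41_mol_close hδ (dgB41_sd_lip hf Z t) x
  have h2 : |dgG (D / ε) - dgG (d / ε)| ≤ δ / ε := by
    refine (dgB41_G_lip _ _).trans ?_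
    rw [← sub_div, abs_div, abs_of_pos hε]
    exact div_le_div_of_nonneg_right h1 hε.le
  set m := min κ (|t - f x| / lam) with hm
  have hm0 : 0 ≤ m := le_min hκ.le (by positivity)
  have h5 : 1 - dgG (m / ε) ≤ (1 - dgG (κ / ε)) + √2 * dgB41_gp ((t - f x) / (lam * ε)) := by
    rw [← dgB41_gp_arg hl hε]
    have ha : 0 ≤ √2 * dgB41_gp (|t - f x| / lam / ε) :=
      mul_nonneg dgB41_sqrt2_pos.le (dgB41_gp_pos _).le
    have hb : 0 ≤ 1 - dgG (κ / ε) := sub_nonneg.2 (dgB41_G_mem _).2.le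
    rcases min_choice κ (|t - f x| / lam) with h | h
    · rw [hm, h]; linarith
    · rw [hm, h]
      have := dgB41_one_sub_G_le (s := |t - f x| / lam / ε) (by positivity)
      linarith
  obtain ⟨hw1, hw2⟩ := dgB41_G_mem (D / ε)
  obtain ⟨h21, h22⟩ := abs_le.1 h2
  split_ifs with ht
  · have h3 : m ≤ d := by
      have := dgB41_sd_ge hZ hl hxZ hmv ht.le
      rwa [← neg_sub, ← abs_of_nonpos (sub_nonpos.2 ht.le)] at this
    have h4 : dgG (m / ε) ≤ dgG (d / ε) := dgB41_G_mono (div_le_div_of_nonneg_right h3 hε.le)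
    rw [abs_of_nonpos (by linarith)]
    linarith
  · have ht' : f x ≤ t := not_lt.1 ht
    have h3 : d ≤ -m := by
      have := dgB41_sd_le hZ hl hxZ hmv ht'
      rwa [← abs_of_nonneg (sub_nonneg.2 ht')] at this
    have h4 : dgG (d / ε) ≤ - dgG (m / ε) := by
      rw [← dgB41_G_neg, ← neg_div]
      exact dgB41_G_mono (div_le_div_of_nonneg_right h3 hε.le)
    rw [sub_neg_eq_add, abs_of_nonneg (by linarith)]
    linarith

end ptw

end Claimed.Agent.R329
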