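import Claimed.Agent.R329.MMrecA
import Claimed.Agent.R329.MMrecF
import Claimed.Agent.R329.MMrecL

/-!
# Row 329, post B4.1 (helper108): the recovery sequence, final assembly (choice of the parameters).   Prefix `dgB41_`.
-/

set_option autoImplicit false
open MeasureTheory Metric Set Filter Topology
open Claimed.Agent.Gmt

namespace Claimed.Agent.R329

lemma dgB41_integrableOn_of_bdd {n : ℕ} {h : DgE n → ℝ} (hm : Measurable h) {M : ℝ} (hb : ∀ x, |h x| ≤ M)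
    (y : DgE n) (ρ : ℝ) : IntegrableOn h (ball y ρ) :=
  Measure.integrableOn_of_bounded (M := M) measure_ball_lt_top.ne hm.aestronglyMeasurable
    (Eventually.of_forall fun x => by rw [Real.norm_eq_abs]; exact hb x)

lemma dgB41_measurable_ph {n : ℕ} {F : Set (DgE n)} (hF : MeasurableSet F) : Measurable (dgB4_ph F) :=
  (measurable_const.indicator hF).sub_const 1

lemma dgB41_abs_ph_le {n : ℕ} (F : Set (DgE n)) (x : DgE n) : |dgB4_ph F x| ≤ 1 := by
  unfold dgB4_ph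
  by_cases hx : x ∈ F
  · rw [indicator_of_mem hx]; norm_num
  · rw [indicator_of_notMem hx]; norm_num

lemma dgB41_En_nonneg {n : ℕ} {ε : ℝ} (hε : 0 < ε) (w : DgE n → ℝ) (S : Set (DgE n)) : 0 ≤ dgB4_En n ε w S := by
  unfold dgB4_En
  refine integral_nonneg fun x => ?_
  have : 0 ≤ dgW (w x) := by unfold dgW; positivity
  positivity

/-- the numerical part of the choice of `ε₀`. -/
lemma dgB41_num {V Λ κ ε s J e gk r C q2 : ℝ} (hV : 0 ≤ V) (hΛ : 0 ≤ Λ) (hκ : 0 < κ) (hε : 0 < ε) (hε1 : ε ≤ 1 / 4)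
    (hs : 0 ≤ s) (hJ : 0 ≤ J) (he : e ≤ 1 + 8 * ε) (he0 : 0 ≤ e) (hgk0 : 0 ≤ gk) (hgk : gk ≤ 6 * ε ^ 2 / κ ^ 2)
    (hr : r ≤ q2 * gk) (hq0 : 0 ≤ q2) (hq : q2 ≤ 3 / 2)
    (hC : C = 108 * V / κ ^ 4 + V * Λ + 9 * V * Λ / κ ^ 2 + 8 * s * J + 3 * Λ * J) :
    V * (e * (gk ^ 2 / ε) + Λ * (ε + r)) + (e * s + Λ * q2 * (2 * ε)) * J ≤ s * J + ε * C := by
  have hκ2 : 0 < κ ^ 2 := by positivity
  have hκ4 : 0 < κ ^ 4 := by positivity
  have he3 : e ≤ 3 := by linarith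
  have h1 : gk ^ 2 / ε ≤ 36 * ε / κ ^ 4 := by
    have h2 : gk ^ 2 ≤ (6 * ε ^ 2 / κ ^ 2) ^ 2 := pow_le_pow_left₀ hgk0 hgk 2
    rw [div_le_iff₀ hε]
    refine h2.trans ?_
    have h3 : (6 * ε ^ 2 / κ ^ 2) ^ 2 = 36 * ε ^ 4 / κ ^ 4 := by
      rw [div_pow]; ring
    have h4 : 36 * ε / κ ^ 4 * ε = 36 * ε ^ 2 / κ ^ 4 := by ring
    rw [h3, h4]
    apply div_le_div_of_nonneg_right _ hκ4.le
    have : ε ^ 4 ≤ ε ^ 2 := by
      have h5 : ε ^ 2 ≤ 1 := by nlinarith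
      nlinarith [sq_nonneg ε, sq_nonneg (ε ^ 2)]
    linarith
  have h1' : 0 ≤ gk ^ 2 / ε := by positivity
  have h5 : r ≤ 9 * ε / κ ^ 2 := by
    refine hr.trans ?_
    have h6 : q2 * gk ≤ 3 / 2 * (6 * ε ^ 2 / κ ^ 2) := mul_le_mul hq hgk hgk0 (by norm_num)
    refine h6.trans ?_
    have h7 : 3 / 2 * (6 * ε ^ 2 / κ ^ 2) = 9 * ε ^ 2 / κ ^ 2 := by ring
    rw [h7]
    apply div_le_div_of_nonneg_right _ hκ2.le
    nlinarith
  have h8 : e * (gk ^ 2 / ε) ≤ 3 * (36 * ε / κ ^ 4) := mul_le_mul he3 h1 h1' (by norm_num)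
  have h9 : Λ * (ε + r) ≤ Λ * (ε + 9 * ε / κ ^ 2) := mul_le_mul_of_nonneg_left (by linarith) hΛ
  have h10 : V * (e * (gk ^ 2 / ε) + Λ * (ε + r)) ≤ V * (3 * (36 * ε / κ ^ 4) + Λ * (ε + 9 * ε / κ ^ 2)) :=
    mul_le_mul_of_nonneg_left (by linarith) hV
  have h11 : e * s ≤ (1 + 8 * ε) * s := mul_le_mul_of_nonneg_right he hs
  have h12 : Λ * q2 * (2 * ε) ≤ 3 * Λ * ε := by
    have : Λ * q2 ≤ Λ * (3 / 2) := mul_le_mul_of_nonneg_left hq hΛ
    nlinarith
  have h13 : (e * s + Λ * q2 * (2 * ε)) * J ≤ ((1 + 8 * ε) * s + 3 * Λ * ε) * J :=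
    mul_le_mul_of_nonneg_right (by linarith) hJ
  have h14 : V * (3 * (36 * ε / κ ^ 4) + Λ * (ε + 9 * ε / κ ^ 2)) + ((1 + 8 * ε) * s + 3 * Λ * ε) * J = s * J + ε * C := by
    rw [hC]; ring
  linarith

/-- **B4.1: the recovery sequence** (`dgB4_recovery` of `MMrec.lean`, verbatim). -/
theorem dgB41_recovery {n : ℕ} (hn : 1 ≤ n) {F : Set (DgE n)} (hF : MeasurableSet F) (y : DgE n) {ρ ρ' : ℝ} (hρ : 0 < ρ)
    (hρ' : ρ < ρ') (hfin : gmtP F (ball y ρ') ≠ ⊤) {η : ℝ} (hη : 0 < η) :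
    ∃ ε₀ > 0, ∀ ε ∈ Ioo (0 : ℝ) ε₀, ∃ w : DgE n → ℝ, ContDiff ℝ 1 w ∧ (∀ x, w x ∈ Icc (-1 : ℝ) 1) ∧
      ∫ x in ball y ρ, |w x - dgB4_ph F x| ≤ η ∧
      dgB4_En n ε w (ball y ρ) ≤ dgB4_s0 * (gmtP F (ball y ρ')).toReal + η := by
  set P := (gmtP F (ball y ρ')).toReal with hP
  have hP0 : 0 ≤ P := ENNReal.toReal_nonneg
  set V := (volume (ball y ρ)).toReal with hV
  have hV0 : 0 ≤ V := ENNReal.toReal_nonneg
  have hs0 : 0 < dgB4_s0 := by unfold dgB4_s0; positivity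
  -- the parameters
  set a := dgB4_s0 * P + η / 8 with ha
  have ha0 : 0 < a := by positivity
  set η₁ := η / (8 * dgB4_s0 * (V + 1)) with hη₁d
  have hη₁ : 0 < η₁ := by positivity
  have hη₁V : dgB4_s0 * (η₁ * V) ≤ η / 8 := by
    have h1 : dgB4_s0 * (η₁ * V) = η / 8 * (V / (V + 1)) := by
      rw [hη₁d]; field_simp
    rw [h1]
    exact mul_le_of_le_one_right (by positivity) ((div_le_one (by positivity)).2 (by linarith))
  set θ := η / (16 * (a + η / 8)) with hθd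
  have hθ : 0 < θ := by positivity
  have hθ' : θ < 1 / 2 := by
    rw [hθd, div_lt_iff₀ (by positivity)]; linarith
  have h12θ : 1 - 2 * θ = a / (a + η / 8) := by
    rw [hθd]; field_simp; ring
  set Λ := 2 * (dgB4_s0 * P + η) / η with hΛd
  have hΛ : 0 < Λ := by positivity
  set σ := min ((ρ' - ρ) / 4) (θ * η / (4 * (P + 1))) with hσd
  have hσ : 0 < σ := lt_min (by linarith) (by positivity)
  have hσ' : σ < (ρ' - ρ) / 2 := lt_of_le_of_lt (min_le_left _ _) (by linarith)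
  set f := gmtMol σ (F.indicator fun _ => (1 : ℝ)) with hf
  obtain ⟨hf1, hfI, hfL⟩ := dgB4f_moll hF y hσ hσ' hfin
  obtain ⟨κ, hκ, hκ1, hmv⟩ := dgB4f_mv hf1 y ρ hη₁
  have hdc : Continuous fun x => ‖fderiv ℝ f x‖ := (hf1.continuous_fderiv (by norm_num)).norm
  have hlamc : Continuous fun x => ‖fderiv ℝ f x‖ + η₁ := hdc.add continuous_const
  have hlamp : ∀ x, 0 < ‖fderiv ℝ f x‖ + η₁ := fun x => by positivity
  have hdi : IntegrableOn (fun x => ‖fderiv ℝ f x‖) (ball y ρ) :=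
    (hdc.continuousOn.integrableOn_compact (isCompact_closedBall y ρ)).mono_set ball_subset_closedBall
  set I := ∫ x in ball y ρ, (‖fderiv ℝ f x‖ + η₁) with hId
  have hI : I ≤ P + η₁ * V := by
    rw [hId, integral_add hdi (integrableOn_const measure_ball_lt_top.ne), setIntegral_const]
    have : (volume.real (ball y ρ)) • η₁ = η₁ * V := by
      rw [smul_eq_mul, mul_comm]; rfl
    rw [this]
    linarith
  have hI0 : 0 ≤ I := integral_nonneg fun x => (hlamp x).le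
  set J := I / (1 - 2 * θ) with hJd
  have h12 : 0 < 1 - 2 * θ := by linarith
  have hJ0 : 0 ≤ J := div_nonneg hI0 h12.le
  have hJ : dgB4_s0 * J ≤ dgB4_s0 * P + η / 4 := by
    have h1 : dgB4_s0 * I ≤ a := by
      have := mul_le_mul_of_nonneg_left hI hs0.le
      rw [mul_add] at this
      linarith
    have h2 : dgB4_s0 * J = dgB4_s0 * I / a * (a + η / 8) := by
      rw [hJd, h12θ]; field_simp
    rw [h2]
    have h3 : dgB4_s0 * I / a ≤ 1 := (div_le_one ha0).2 h1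
    have h4 : dgB4_s0 * I / a * (a + η / 8) ≤ 1 * (a + η / 8) :=
      mul_le_mul_of_nonneg_right h3 (by positivity)
    linarith
  set C := 108 * V / κ ^ 4 + V * Λ + 9 * V * Λ / κ ^ 2 + 8 * dgB4_s0 * J + 3 * Λ * J with hC
  have hC0 : 0 ≤ C := by positivity
  refine ⟨min (1 / 4) (η / (2 * (C + 1))), lt_min (by norm_num) (by positivity), fun ε hε => ?_⟩
  have hε0 : 0 < ε := hε.1
  have hε1 : ε ≤ 1 / 4 := (hε.2.trans_le (min_le_left _ _)).le
  have hεC : ε * C ≤ η / 2 := by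
    have h1 : ε ≤ η / (2 * (C + 1)) := (hε.2.trans_le (min_le_right _ _)).le
    rw [le_div_iff₀ (by positivity)] at h1
    nlinarith
  have hδ : 0 < ε ^ 2 := by positivity
  have hδε : ε ^ 2 / ε = ε := by field_simp
  have h4δ : 4 * ε ^ 2 / ε = 4 * ε := by field_simp
  obtain ⟨t, ht, havg⟩ := dgB4a_avg hf1.continuous hlamc hlamp y ρ hε0 hθ hθ'
    (c₂ := Real.exp (4 * ε ^ 2 / ε)) (c₃ := Λ * √2) (Real.exp_pos _).le (by positivity)
  obtain ⟨w, hw1, hw2, hw3⟩ := dgB4l_level hn hf1 y hρ hκ hκ1 hη₁ hmv hε0 hδ hΛ.le havg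
  -- the numerical bound
  have hq : √2 ≤ 3 / 2 := by
    rw [show (3 / 2 : ℝ) = √((3 / 2) ^ 2) by rw [Real.sqrt_sq (by norm_num)]]
    exact Real.sqrt_le_sqrt (by norm_num)
  have he : Real.exp (4 * ε) ≤ 1 + 8 * ε := by
    have h1 := Real.abs_exp_sub_one_le (x := 4 * ε) (by rw [abs_of_pos (by positivity)]; linarith)
    rw [abs_of_pos (by positivity : (0 : ℝ) < 4 * ε)] at h1
    have := le_abs_self (Real.exp (4 * ε) - 1)
    linarith
  have hgk : dgB41_gp (κ / ε) ≤ 6 * ε ^ 2 / κ ^ 2 := by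
    refine (dgB41_gp_decay (div_pos hκ hε0)).trans (le_of_eq ?_)
    field_simp
  have hR : V * (Real.exp (4 * ε ^ 2 / ε) * (dgB41_gp (κ / ε) ^ 2 / ε) + Λ * (ε ^ 2 / ε + (1 - dgG (κ / ε)))) +
      (Real.exp (4 * ε ^ 2 / ε) * dgB4_s0 + Λ * √2 * (2 * ε)) * I / (1 - 2 * θ) ≤ dgB4_s0 * P + η := by
    rw [hδε, h4δ, mul_div_assoc, ← hJd]
    have := dgB41_num hV0 hΛ.le hκ hε0 hε1 hs0.le hJ0 he (Real.exp_pos _).le (dgB41_gp_pos _).le hgk
      (dgB41_one_sub_G_le (div_pos hκ hε0).le) dgB41_sqrt2_pos.le hq hC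
    linarith
  have hEn0 := dgB41_En_nonneg hε0 w (ball y ρ)
  have hL0 : 0 ≤ ∫ x in ball y ρ, |w x - (if t < f x then 1 else -1)| := integral_nonneg fun x => abs_nonneg _
  have hsum := hw3.trans hR
  refine ⟨w, hw1, hw2, ?_, ?_⟩
  · -- the `L¹` distance
    have h1 : ∫ x in ball y ρ, |w x - (if t < f x then 1 else -1)| ≤ η / 2 := by
      have h2 : Λ * ∫ x in ball y ρ, |w x - (if t < f x then 1 else -1)| ≤ dgB4_s0 * P + η := by linarith
      have h3 : dgB4_s0 * P + η = Λ * (η / 2) := by rw [hΛd]; field_simp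
      rw [h3] at h2
      exact le_of_mul_le_mul_left h2 hΛ
    have h2 := dgB4f_cheb hF hf1.continuous y ρ hθ ht
    have h3 : 2 / θ * ∫ x in ball y ρ, |f x - F.indicator (fun _ => (1 : ℝ)) x| ≤ η / 2 := by
      have h4 : 2 / θ * ∫ x in ball y ρ, |f x - F.indicator (fun _ => (1 : ℝ)) x| ≤ 2 / θ * (σ * P) :=
        mul_le_mul_of_nonneg_left hfL (by positivity)
      refine h4.trans ?_
      have h5 : σ * P ≤ θ * η / (4 * (P + 1)) * P := mul_le_mul_of_nonneg_right (min_le_right _ _) hP0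
      have h6 : 2 / θ * (θ * η / (4 * (P + 1)) * P) = η / 2 * (P / (P + 1)) := by field_simp; ring
      have h7 : η / 2 * (P / (P + 1)) ≤ η / 2 :=
        mul_le_of_le_one_right (by positivity) ((div_le_one (by positivity)).2 (by linarith))
      have h8 : 2 / θ * (σ * P) ≤ 2 / θ * (θ * η / (4 * (P + 1)) * P) :=
        mul_le_mul_of_nonneg_left h5 (by positivity)
      linarith
    have hsm : Measurable fun x => (if t < f x then (1 : ℝ) else -1) :=
      Measurable.ite (measurableSet_lt measurable_const hf1.continuous.measurable) measurable_const measurable_const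
    have hsb : ∀ x, |(if t < f x then (1 : ℝ) else -1)| ≤ 1 := fun x => by split_ifs <;> norm_num
    have hwb : ∀ x, |w x| ≤ 1 := fun x => abs_le.2 (hw2 x)
    have hi1 : IntegrableOn (fun x => |w x - (if t < f x then 1 else -1)|) (ball y ρ) :=
      dgB41_integrableOn_of_bdd (M := 2) ((hw1.continuous.measurable.sub hsm).abs)
        (fun x => by rw [abs_abs]; exact (abs_sub _ _).trans (by linarith [hwb x, hsb x])) y ρ
    have hi2 : IntegrableOn (fun x => |(if t < f x then (1 : ℝ) else -1) - dgB4_ph F x|) (ball y ρ) :=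
      dgB41_integrableOn_of_bdd (M := 2) ((hsm.sub (dgB41_measurable_ph hF)).abs)
        (fun x => by rw [abs_abs]; exact (abs_sub _ _).trans (by linarith [dgB41_abs_ph_le F x, hsb x])) y ρ
    have h9 : ∫ x in ball y ρ, |w x - dgB4_ph F x| ≤
        ∫ x in ball y ρ, (|w x - (if t < f x then 1 else -1)| + |(if t < f x then (1 : ℝ) else -1) - dgB4_ph F x|) := by
      refine integral_mono_of_nonneg (Eventually.of_forall fun x => abs_nonneg _) (hi1.add hi2)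
        (Eventually.of_forall fun x => ?_)
      exact abs_sub_le _ _ _
    rw [integral_add hi1 hi2] at h9
    linarith
  · have : 0 ≤ Λ * ∫ x in ball y ρ, |w x - (if t < f x then 1 else -1)| := mul_nonneg hΛ.le hL0
    linarith

end Claimed.Agent.R329
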