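import Claimed.Agent.R329.MMglue
import Claimed.Agent.R329.MMrecFin
import Claimed.Agent.R329.Cone
import Claimed.Agent.R329.Growth

/-!
# Row 329: TOP of Proposition 3.3 (posts B3 B4 B5): the closed assembly, no `sorry` in the closure.   (pen: helper78)

* `dgB3t_exact` : `DgSol n u → DgMin n u → DgFinDens n u → DgB5Exact n (2√2/3) u`   (B3.G `dgB3g_exact`, B4 `dgB4F_upper`, `dgB4F_exit_min`);
* `dgB3t_K6c`   = contract K6c of the Hub, verbatim (`dgB5_K6c_hub`, K5 = `dgB8_K5_closed`).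
-/

set_option autoImplicit false
open scoped ENNReal Topology
open MeasureTheory Metric Set Filter
open Claimed.Agent.Gmt

namespace Claimed.Agent.R329

/-! ## EXITS -/

/-- **Proposition 3.3** in the form consumed by `Cone.lean`. -/
theorem dgB3t_exact {n : ℕ} (hn : 1 ≤ n) {u : DgE n → ℝ} (hu : DgSol n u) (hmin : DgMin n u)
    (hfd : DgFinDens n u) : DgB5Exact n (2 * Real.sqrt 2 / 3) u :=
  dgB3g_exact hn hu hfd
    (fun _ _ hB y _ _ hr hδ _ hF hFE hfin _ hη => dgB4F_upper hn hu hmin hfd hB y hr hδ hF hFE hfin hη)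
    (fun _ _ hB hfin hlow => dgB4F_exit_min hn hu hmin hfd hB hfin hlow)

/-- **Contract K6c of the Hub, verbatim** (`dgM`, `dgS0`, `dgE8` unfolded). -/
theorem dgB3t_K6c {u : DgE 8 → ℝ} (hu : DgSol 8 u) (hmin : DgMin 8 u)
    (hmono : ∀ x, 0 < fderiv ℝ u x (EuclideanSpace.single 7 1)) {L : ℝ}
    (hL : Tendsto (fun R : ℝ => dgEn 8 u 0 R /
      (2 * Real.sqrt 2 / 3 * (volume (ball (0 : DgE (8 - 1)) 1)).toReal * R ^ (8 - 1))) atTop (𝓝 L)) :
    ∃ S : Set (DgE 8), GmtMin univ S ∧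
      (∀ r : ℝ, 0 < r → gmtP S (ball 0 r) = ENNReal.ofReal (L * (gmtOm 7 * r ^ 7))) ∧
      ∀ t : ℝ, 0 ≤ t → ∀ᵐ x : DgE 8, x ∈ S → x + t • (EuclideanSpace.single 7 1 : DgE 8) ∈ S :=
  dgB5_K6c_hub hu hmono (by positivity)
    (dgB3t_exact (by norm_num) hu hmin (dgB8_K5_closed hu hmin)) hL

end Claimed.Agent.R329
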