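import Claimed.Agent.R329.Defs

/-!
# Row 329, K7 outer layer (pen: helper257, prefix `dgMS_`): a global minimiser is stable.

`dgMS_stable : ContDiff ℝ 1 u → DgMin n u → DgStable n u`   (no equation needed).
Pointwise: `e(u + tφ) + e(u - tφ) - 2 e(u) = t² (|∇φ|² + (3u² - 1) φ²) + t⁴ φ⁴ / 2`; integrate over a ball containing the support of `φ`,
use minimality for `± tφ`, divide by `t²` and take `t` small.
-/

set_option autoImplicit false

open MeasureTheory Metric Set Filter Topology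

namespace Claimed.Agent.R329

variable {n : ℕ}

/-- parallelogram law for the operator norm of linear forms. -/
theorem dgMS_par (a b : DgE n →L[ℝ] ℝ) : ‖a + b‖ ^ 2 + ‖a - b‖ ^ 2 = 2 * ‖a‖ ^ 2 + 2 * ‖b‖ ^ 2 := by
  have h (c : DgE n →L[ℝ] ℝ) : ‖c‖ = ‖(InnerProductSpace.toDual ℝ (DgE n)).symm c‖ :=
    ((InnerProductSpace.toDual ℝ (DgE n)).symm.norm_map c).symm
  rw [h (a + b), h (a - b), h a, h b, map_add, map_sub]
  have := parallelogram_law_with_norm ℝ ((InnerProductSpace.toDual ℝ (DgE n)).symm a)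
    ((InnerProductSpace.toDual ℝ (DgE n)).symm b)
  nlinarith

/-- the symmetric second difference of the energy density. -/
theorem dgMS_pointwise {u φ : DgE n → ℝ} {x : DgE n} (hu : DifferentiableAt ℝ u x) (hφ : DifferentiableAt ℝ φ x) (t : ℝ) :
    dgDens n (fun y => u y + t * φ y) x + dgDens n (fun y => u y + (-t) * φ y) x - 2 * dgDens n u x
      = t ^ 2 * (‖fderiv ℝ φ x‖ ^ 2 + (3 * u x ^ 2 - 1) * φ x ^ 2) + t ^ 4 * (φ x ^ 4 / 2) := by
  have h1 : fderiv ℝ (fun y => u y + t * φ y) x = fderiv ℝ u x + t • fderiv ℝ φ x := by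
    rw [fderiv_fun_add hu (hφ.const_mul t), fderiv_const_mul hφ]
  have h2 : fderiv ℝ (fun y => u y + (-t) * φ y) x = fderiv ℝ u x - t • fderiv ℝ φ x := by
    rw [fderiv_fun_add hu (hφ.const_mul (-t)), fderiv_const_mul hφ, neg_smul, sub_eq_add_neg]
  have h3 := dgMS_par (fderiv ℝ u x) (t • fderiv ℝ φ x)
  have h4 : ‖t • fderiv ℝ φ x‖ ^ 2 = t ^ 2 * ‖fderiv ℝ φ x‖ ^ 2 := by
    rw [norm_smul, mul_pow, Real.norm_eq_abs, sq_abs]
  unfold dgDens dgW
  rw [h1, h2]
  rw [h4] at h3
  have h5 : ‖fderiv ℝ u x + t • fderiv ℝ φ x‖ ^ 2 / 2 + ‖fderiv ℝ u x - t • fderiv ℝ φ x‖ ^ 2 / 2 =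
      ‖fderiv ℝ u x‖ ^ 2 + t ^ 2 * ‖fderiv ℝ φ x‖ ^ 2 := by linarith
  linear_combination h5

theorem dgMS_continuous_dens {w : DgE n → ℝ} (hw : ContDiff ℝ 1 w) : Continuous (dgDens n w) := by
  have h1 : Continuous (fderiv ℝ w) := hw.continuous_fderiv one_ne_zero
  have h2 : Continuous w := hw.continuous
  unfold dgDens dgW
  fun_prop

theorem dgMS_integrableOn {f : DgE n → ℝ} (hf : Continuous f) (R : ℝ) : IntegrableOn f (ball 0 R) :=
  (hf.continuousOn.integrableOn_compact (isCompact_closedBall 0 R)).mono_set ball_subset_closedBall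

/-! ## EXITS -/

/-- **a global minimiser is stable.** -/
theorem dgMS_stable {u : DgE n → ℝ} (hu : ContDiff ℝ 1 u) (hmin : DgMin n u) : DgStable n u := by
  intro φ hφ hc
  obtain ⟨R, -, hR⟩ := hc.isCompact.isBounded.subset_ball_lt 0 (0 : DgE n)
  set q : DgE n → ℝ := fun x => ‖fderiv ℝ φ x‖ ^ 2 + (3 * u x ^ 2 - 1) * φ x ^ 2 with hq
  set p : DgE n → ℝ := fun x => φ x ^ 4 / 2 with hp
  have hqc : Continuous q := by
    have h1 : Continuous (fderiv ℝ φ) := hφ.continuous_fderiv one_ne_zero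
    have h2 : Continuous φ := hφ.continuous
    have h3 : Continuous u := hu.continuous
    rw [hq]
    fun_prop
  have hpc : Continuous p := by
    have h2 : Continuous φ := hφ.continuous
    rw [hp]
    fun_prop
  have hq0 : ∫ x in ball (0 : DgE n) R, q x = ∫ x, q x := by
    refine setIntegral_eq_integral_of_forall_compl_eq_zero fun x hx => ?_
    have hx' : x ∉ tsupport φ := fun h => hx (hR h)
    simp only [hq, image_eq_zero_of_notMem_tsupport hx', fderiv_of_notMem_tsupport (𝕜 := ℝ) hx']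
    simp
  set Q : ℝ := ∫ x, q x with hQ
  set C : ℝ := ∫ x in ball (0 : DgE n) R, p x with hC
  -- the inequality for every `t`
  have key : ∀ t : ℝ, 0 ≤ t ^ 2 * Q + t ^ 4 * C := by
    intro t
    have hcd (s : ℝ) : ContDiff ℝ 1 (fun x => s * φ x) := contDiff_const.mul hφ
    have hcs (s : ℝ) : HasCompactSupport (fun x => s * φ x) := hc.mul_left
    have hts (s : ℝ) : tsupport (fun x => s * φ x) ⊆ ball 0 R :=
      (tsupport_mul_subset_right (f := fun _ => s) (g := φ)).trans hR
    have m1 := hmin R _ (hcd t) (hcs t) (hts t)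
    have m2 := hmin R _ (hcd (-t)) (hcs (-t)) (hts (-t))
    have i0 := dgMS_integrableOn (dgMS_continuous_dens hu) R
    have i1 := dgMS_integrableOn (dgMS_continuous_dens (hu.add (hcd t))) R
    have i2 := dgMS_integrableOn (dgMS_continuous_dens (hu.add (hcd (-t)))) R
    have e1 : ∫ x in ball (0 : DgE n) R, (t ^ 2 * q x + t ^ 4 * p x) = t ^ 2 * Q + t ^ 4 * C := by
      rw [integral_add ((dgMS_integrableOn hqc R).const_mul _) ((dgMS_integrableOn hpc R).const_mul _),
        integral_const_mul, integral_const_mul, hq0]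
    have e2 : ∫ x in ball (0 : DgE n) R, (t ^ 2 * q x + t ^ 4 * p x) =
        dgEn n (fun x => u x + t * φ x) 0 R + dgEn n (fun x => u x + (-t) * φ x) 0 R - 2 * dgEn n u 0 R := by
      unfold dgEn
      rw [← integral_const_mul, ← integral_add i1 i2]
      have i12 : IntegrableOn (fun a => dgDens n (fun x => u x + t * φ x) a + dgDens n (fun x => u x + -t * φ x) a)
          (ball 0 R) := i1.add i2
      rw [← integral_sub i12 (i0.const_mul 2)]
      refine integral_congr_ae (Eventually.of_forall fun x => ?_)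
      exact (dgMS_pointwise (hu.differentiable one_ne_zero x) (hφ.differentiable one_ne_zero x) t).symm
    rw [← e1, e2]
    linarith
  by_contra hneg
  rw [not_le] at hneg
  change Q < 0 at hneg
  set s : ℝ := -Q / (2 * (|C| + 1)) with hs
  have hC1 : 0 < 2 * (|C| + 1) := by positivity
  have hs0 : 0 < s := div_pos (by linarith) hC1
  have h1 := key (Real.sqrt s)
  have h2 : Real.sqrt s ^ 2 = s := Real.sq_sqrt hs0.le
  have h3 : Real.sqrt s ^ 4 = s ^ 2 := by
    have : Real.sqrt s ^ 4 = (Real.sqrt s ^ 2) ^ 2 := by ring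
    rw [this, h2]
  rw [h2, h3] at h1
  have h4 : s * (2 * (|C| + 1)) = -Q := div_mul_cancel₀ _ hC1.ne'
  have h5 : s * C ≤ s * |C| := mul_le_mul_of_nonneg_left (le_abs_self C) hs0.le
  have h6 : Q + s * C < 0 := by nlinarith
  nlinarith

/-- the form used by K7. -/
theorem dgMS_stable_sol {u : DgE n → ℝ} (hu : DgSol n u) (hmin : DgMin n u) : DgStable n u :=
  dgMS_stable (hu.smooth.of_le one_le_two) hmin

end Claimed.Agent.R329
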