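/-
Row 329 (De Giorgi in dimension eight), Part I of the paper, end of Lemma 3.1 and Lemma 3.2:
a solution of `Δ u = u^3 - u` that is strictly increasing in a direction `e` and whose two
limits along `e` are minimisers is itself a minimiser.

Route (no direct method, no boundary regularity, no sliding).  Competitors are `u + ψ`, `ψ`
Lipschitz with compact support.
* calibration: the wells and the planar profiles minimise;
* lattice identity for `max` and `min` (Rademacher);
* extremal field: for `w x = u (x + σ x • e)` the difference of the energy densities is, almost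
  everywhere, a divergence of a compactly supported Lipschitz field plus a square;
* clipping by the two limits removes the constraint.

EXITS: `dgm_min_of_monotone` (Lipschitz class, any finite dimensional inner product space),
`DgMin.dgmMin` / `DgmMin.dgMin` (the class of `Defs.lean` is equivalent, for `C^1` functions),
`dgm_B2_min` (= `dgB2_min` of `Slide.lean`, verbatim), `dgm_K4` (= `dgHub_K4`, verbatim).   Pen: helper28.
-/
import Claimed.Agent.R329.Defs
import Claimed.Agent.R329.LipTest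

set_option autoImplicit false
set_option linter.unusedSectionVars false

open MeasureTheory Filter Topology Set
open scoped NNReal

namespace Claimed.Agent.R329

variable {E : Type*} [NormedAddCommGroup E] [InnerProductSpace ℝ E] [FiniteDimensional ℝ E]
  [MeasurableSpace E] [BorelSpace E]

/-- The quartic double well. -/
noncomputable def dgmW (t : ℝ) : ℝ := (1 - t ^ 2) ^ 2 / 4

/-- The energy density of `w`. -/
noncomputable def dgmEn (w : E → ℝ) (x : E) : ℝ := ‖fderiv ℝ w x‖ ^ 2 / 2 + dgmW (w x)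

/-- Admissible perturbations: Lipschitz with compact support. -/
def DgmTest (ψ : E → ℝ) : Prop := (∃ K : ℝ≥0, LipschitzWith K ψ) ∧ HasCompactSupport ψ

/-- Minimiser of the energy against Lipschitz perturbations with compact support. -/
def DgmMin (u : E → ℝ) : Prop :=
  ∀ ψ : E → ℝ, DgmTest ψ → 0 ≤ ∫ x, (dgmEn (u + ψ) x - dgmEn u x)

theorem dgmW_nonneg (t : ℝ) : 0 ≤ dgmW t := by unfold dgmW; positivity

theorem dgmEn_nonneg (w : E → ℝ) (x : E) : 0 ≤ dgmEn w x := by
  unfold dgmEn; have := dgmW_nonneg (w x); positivity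

/-! ### Lipschitz functions with compact support -/

omit [InnerProductSpace ℝ E] [FiniteDimensional ℝ E] [MeasurableSpace E] [BorelSpace E] in
/-- A locally Lipschitz function with compact support is Lipschitz. -/
theorem dgm_lipschitz_of_locallyLipschitz [NormedSpace ℝ E] [FiniteDimensional ℝ E] {f : E → ℝ}
    (hf : LocallyLipschitz f) (hc : HasCompactSupport f) : ∃ K : ℝ≥0, LipschitzWith K f := by
  obtain ⟨R, hR⟩ := hc.isCompact.isBounded.subset_closedBall (0 : E)
  have hB : IsCompact (Metric.closedBall (0 : E) (R + 1)) := isCompact_closedBall _ _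
  obtain ⟨K, hK⟩ := (hf.locallyLipschitzOn (s := Metric.closedBall (0 : E) (R + 1))
    ).exists_lipschitzOnWith_of_compact hB
  obtain ⟨M, hM⟩ := hc.exists_bound_of_continuous hf.continuous
  have hM0 : 0 ≤ M := (norm_nonneg _).trans (hM 0)
  have key : ∀ x y : E, x ∈ Metric.closedBall (0 : E) (R + 1) →
      y ∉ Metric.closedBall (0 : E) (R + 1) → dist (f x) (f y) ≤ M * dist x y := by
    intro x y hx hy
    have hfy : f y = 0 := by
      by_contra h
      have : y ∈ tsupport f := subset_tsupport _ h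
      have h2 := hR this
      simp only [Metric.mem_closedBall] at h2 hy
      linarith
    by_cases hxs : x ∈ tsupport f
    · have h2 := hR hxs
      simp only [Metric.mem_closedBall, not_le] at h2 hy
      have h3 : 1 ≤ dist x y := by
        have := dist_triangle y x 0
        rw [dist_comm y x] at this
        linarith
      rw [hfy, dist_zero_right]
      calc ‖f x‖ ≤ M := hM x
        _ = M * 1 := by ring
        _ ≤ M * dist x y := by gcongr
    · have hfx : f x = 0 := image_eq_zero_of_notMem_tsupport hxs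
      rw [hfx, hfy, dist_self]
      positivity
  refine ⟨max K ⟨M, hM0⟩, LipschitzWith.of_dist_le_mul fun x y => ?_⟩
  have hK' : (K : ℝ) ≤ ((max K ⟨M, hM0⟩ : ℝ≥0) : ℝ) := by exact_mod_cast le_max_left _ _
  have hM' : M ≤ ((max K ⟨M, hM0⟩ : ℝ≥0) : ℝ) := by
    have : ((⟨M, hM0⟩ : ℝ≥0) : ℝ) ≤ ((max K ⟨M, hM0⟩ : ℝ≥0) : ℝ) := by
      exact_mod_cast le_max_right _ _
    simpa using this
  by_cases hx : x ∈ Metric.closedBall (0 : E) (R + 1)
  · by_cases hy : y ∈ Metric.closedBall (0 : E) (R + 1)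
    · exact (hK.dist_le_mul x hx y hy).trans (by gcongr)
    · exact (key x y hx hy).trans (by gcongr)
  · by_cases hy : y ∈ Metric.closedBall (0 : E) (R + 1)
    · rw [dist_comm (f x), dist_comm x]
      exact (key y x hy hx).trans (by gcongr)
    · have h0 : ∀ z : E, z ∉ Metric.closedBall (0 : E) (R + 1) → f z = 0 := by
        intro z hz
        by_contra h
        have h2 := hR (subset_tsupport _ h)
        simp only [Metric.mem_closedBall] at h2 hz
        linarith
      rw [h0 x hx, h0 y hy, dist_self]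
      positivity

omit [InnerProductSpace ℝ E] [FiniteDimensional ℝ E] [MeasurableSpace E] [BorelSpace E] in
theorem dgm_test_of_locallyLipschitz [NormedSpace ℝ E] [FiniteDimensional ℝ E] {f : E → ℝ}
    (hf : LocallyLipschitz f) (hc : HasCompactSupport f) : DgmTest f :=
  ⟨dgm_lipschitz_of_locallyLipschitz hf hc, hc⟩

theorem DgmTest.continuous {ψ : E → ℝ} (h : DgmTest ψ) : Continuous ψ := by
  obtain ⟨⟨K, hK⟩, -⟩ := h
  exact hK.continuous

theorem DgmTest.ae_differentiableAt {ψ : E → ℝ} (h : DgmTest ψ) :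
    ∀ᵐ x, DifferentiableAt ℝ ψ x := by
  obtain ⟨⟨K, hK⟩, -⟩ := h
  exact hK.ae_differentiableAt

/-- The integral of a directional derivative of an admissible function vanishes. -/
theorem DgmTest.integral_fderiv_eq_zero {ψ : E → ℝ} (h : DgmTest ψ) (v : E) :
    ∫ x, fderiv ℝ ψ x v = 0 := by
  obtain ⟨⟨K, hK⟩, hc⟩ := id h
  have h1 := LipschitzWith.integral_lineDeriv_mul_eq (μ := (volume : Measure E))
    (LipschitzWith.const (1 : ℝ) : LipschitzWith 0 (fun _ : E => (1 : ℝ))) hK hc (-v)
  have h2 : ∀ x : E, lineDeriv ℝ (fun _ : E => (1 : ℝ)) x (-v) = 0 := by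
    intro x
    simp [lineDeriv]
  simp only [h2, zero_mul, integral_zero, neg_neg, mul_one] at h1
  rw [h1]
  refine integral_congr_ae ?_
  filter_upwards [h.ae_differentiableAt] with x hx
  exact hx.lineDeriv_eq_fderiv.symm

theorem DgmTest.integrable_fderiv {ψ : E → ℝ} (h : DgmTest ψ) (v : E) :
    Integrable (fun x => fderiv ℝ ψ x v) := by
  obtain ⟨⟨K, hK⟩, hc⟩ := id h
  have hm : Measurable (fun x => fderiv ℝ ψ x v) := measurable_fderiv_apply_const ℝ ψ v
  have hsupp : ∀ x, x ∉ tsupport ψ → fderiv ℝ ψ x v = 0 := by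
    intro x hx
    have : fderiv ℝ ψ x = 0 := by
      have := (hc.fderiv (𝕜 := ℝ))
      exact image_eq_zero_of_notMem_tsupport (fun hx' => hx (tsupport_fderiv_subset ℝ hx'))
    simp [this]
  have hb : ∀ x, ‖fderiv ℝ ψ x v‖ ≤ K * ‖v‖ := fun x =>
    ((fderiv ℝ ψ x).le_opNorm v).trans (by gcongr; exact norm_fderiv_le_of_lipschitz ℝ hK)
  have : Integrable (fun x => (tsupport ψ).indicator (fun x => fderiv ℝ ψ x v) x) := by
    rw [integrable_indicator_iff hc.isCompact.measurableSet]
    refine Measure.integrableOn_of_bounded (M := K * ‖v‖) hc.isCompact.measure_lt_top.ne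
      hm.aestronglyMeasurable (Eventually.of_forall hb)
  refine this.congr (Eventually.of_forall fun x => ?_)
  by_cases hx : x ∈ tsupport ψ
  · simp [hx]
  · simp [hx, hsupp x hx]

/-! ### Integrability of energy differences -/

theorem DgmTest.smul {ψ : E → ℝ} (h : DgmTest ψ) (t : ℝ) : DgmTest (t • ψ) := by
  obtain ⟨⟨K, hK⟩, hc⟩ := h
  exact ⟨⟨_, (lipschitzWith_smul t).comp hK⟩, hc.smul_left⟩

theorem dgm_integrable_of_bdd_supp {D : E → ℝ} (hm : Measurable D) {K : Set E}
    (hK : IsCompact K) (h0 : ∀ x, x ∉ K → D x = 0) {C : ℝ} (hC : ∀ x ∈ K, |D x| ≤ C) :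
    Integrable D := by
  have : Integrable (fun x => K.indicator D x) := by
    rw [integrable_indicator_iff hK.measurableSet]
    refine Measure.integrableOn_of_bounded (M := C) hK.measure_lt_top.ne
      hm.aestronglyMeasurable ?_
    rw [ae_restrict_iff' hK.measurableSet]
    exact Eventually.of_forall fun x hx => by simpa using hC x hx
  refine this.congr (Eventually.of_forall fun x => ?_)
  by_cases hx : x ∈ K
  · simp [hx]
  · simp [hx, h0 x hx]

theorem dgm_measurable_dgmEn {w : E → ℝ} (hw : Continuous w) : Measurable (dgmEn w) := by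
  unfold dgmEn dgmW
  exact (((measurable_fderiv ℝ w).norm.pow_const 2).div_const 2).add
    (by fun_prop : Continuous fun x => (1 - w x ^ 2) ^ 2 / 4).measurable

theorem dgm_norm_fderiv_add_le {u ψ : E → ℝ} (hu : Differentiable ℝ u) {K : ℝ≥0}
    (hK : LipschitzWith K ψ) (x : E) : ‖fderiv ℝ (u + ψ) x‖ ≤ ‖fderiv ℝ u x‖ + K := by
  by_cases hψ : DifferentiableAt ℝ ψ x
  · rw [fderiv_add (hu x) hψ]
    exact (norm_add_le _ _).trans (by gcongr; exact norm_fderiv_le_of_lipschitz ℝ hK)
  · have : ¬ DifferentiableAt ℝ (u + ψ) x := by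
      intro h
      apply hψ
      have := h.sub (hu x)
      simpa using this
    rw [fderiv_zero_of_not_differentiableAt this]
    simp only [norm_zero]
    positivity

theorem dgmEn_eq_of_notMem_tsupport {u ψ : E → ℝ} {x : E} (hx : x ∉ tsupport ψ) :
    dgmEn (u + ψ) x = dgmEn u x := by
  have h1 : (u + ψ) =ᶠ[𝓝 x] u := by
    have : (tsupport ψ)ᶜ ∈ 𝓝 x := (isClosed_tsupport ψ).isOpen_compl.mem_nhds hx
    filter_upwards [this] with y hy
    simp [image_eq_zero_of_notMem_tsupport hy]
  unfold dgmEn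
  rw [h1.fderiv_eq, h1.eq_of_nhds]

theorem dgmW_le_of_abs_le {s A : ℝ} (h : |s| ≤ A) : dgmW s ≤ (1 + A ^ 2) ^ 2 / 4 := by
  unfold dgmW
  have h1 : s ^ 2 ≤ A ^ 2 := by
    rw [← sq_abs s]
    exact pow_le_pow_left₀ (abs_nonneg s) h 2
  have h2 : 0 ≤ s ^ 2 := sq_nonneg s
  nlinarith

/-- A uniform bound of the energy densities of `u + t ψ`, `0 ≤ t ≤ 1`, on the support. -/
theorem dgm_exists_bound {u ψ : E → ℝ} (hu : ContDiff ℝ 1 u) (hψ : DgmTest ψ) :
    ∃ C : ℝ, ∀ t ∈ Icc (0 : ℝ) 1, ∀ x ∈ tsupport ψ, dgmEn (u + t • ψ) x ≤ C := by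
  obtain ⟨⟨K, hK⟩, hc⟩ := id hψ
  obtain ⟨G, hG⟩ := hc.isCompact.exists_bound_of_continuousOn
    (hu.continuous_fderiv (by norm_num)).continuousOn
  obtain ⟨U, hU⟩ := hc.isCompact.exists_bound_of_continuousOn hu.continuous.continuousOn
  obtain ⟨P, hP⟩ := hc.isCompact.exists_bound_of_continuousOn hψ.continuous.continuousOn
  refine ⟨(G + K) ^ 2 / 2 + (1 + (U + P) ^ 2) ^ 2 / 4, fun t ht x hx => ?_⟩
  have h1 : ‖fderiv ℝ (u + t • ψ) x‖ ≤ G + K := by
    have hL : LipschitzWith (‖t‖₊ * K) (t • ψ) := (lipschitzWith_smul t).comp hK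
    refine (dgm_norm_fderiv_add_le (hu.differentiable (by norm_num)) hL x).trans ?_
    have h2 : ((‖t‖₊ * K : ℝ≥0) : ℝ) ≤ K := by
      push_cast
      have : ‖t‖ ≤ 1 := by rw [Real.norm_eq_abs, abs_of_nonneg ht.1]; exact ht.2
      calc ‖t‖ * (K : ℝ) ≤ 1 * K := by gcongr
        _ = K := one_mul _
    exact add_le_add (hG x hx) h2
  have h3 : |(u + t • ψ) x| ≤ U + P := by
    simp only [Pi.add_apply, Pi.smul_apply, smul_eq_mul]
    have h4 : |t * ψ x| ≤ P := by
      rw [abs_mul, abs_of_nonneg ht.1]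
      calc t * |ψ x| ≤ 1 * |ψ x| := by gcongr; exact ht.2
        _ = ‖ψ x‖ := by simp
        _ ≤ P := hP x hx
    exact (abs_add_le _ _).trans (add_le_add (hU x hx) h4)
  unfold dgmEn
  have h5 := dgmW_le_of_abs_le h3
  have h6 : ‖fderiv ℝ (u + t • ψ) x‖ ^ 2 ≤ (G + K) ^ 2 :=
    pow_le_pow_left₀ (norm_nonneg _) h1 2
  linarith

theorem dgm_integrable_diff {u ψ : E → ℝ} (hu : ContDiff ℝ 1 u) (hψ : DgmTest ψ) :
    Integrable (fun x => dgmEn (u + ψ) x - dgmEn u x) := by
  obtain ⟨C, hC⟩ := dgm_exists_bound hu hψ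
  refine dgm_integrable_of_bdd_supp (K := tsupport ψ) (C := C)
    ((dgm_measurable_dgmEn (hu.continuous.add hψ.continuous)).sub
      (dgm_measurable_dgmEn hu.continuous)) hψ.2.isCompact
    (fun x hx => by rw [dgmEn_eq_of_notMem_tsupport hx, sub_self]) (fun x hx => ?_)
  have h1 := hC 1 ⟨zero_le_one, le_rfl⟩ x hx
  have h0 := hC 0 ⟨le_rfl, zero_le_one⟩ x hx
  simp only [one_smul, zero_smul, add_zero] at h1 h0
  have := dgmEn_nonneg (u + ψ) x
  have := dgmEn_nonneg u x
  rw [abs_le]
  constructor <;> linarith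

/-- `t ↦ ∫ (e(u + t ψ) - e(u))` is left continuous at `1`; hence nonnegativity for `t < 1`
passes to `t = 1`. -/
theorem dgm_nonneg_of_forall_lt {u ψ : E → ℝ} (hu : ContDiff ℝ 1 u) (hψ : DgmTest ψ)
    (h : ∀ t ∈ Ioo (0 : ℝ) 1, 0 ≤ ∫ x, (dgmEn (u + t • ψ) x - dgmEn u x)) :
    0 ≤ ∫ x, (dgmEn (u + ψ) x - dgmEn u x) := by
  obtain ⟨C, hC⟩ := dgm_exists_bound hu hψ
  have hlim : Tendsto (fun t : ℝ => ∫ x, (dgmEn (u + t • ψ) x - dgmEn u x)) (𝓝[<] 1)
      (𝓝 (∫ x, (dgmEn (u + ψ) x - dgmEn u x))) := by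
    refine tendsto_integral_filter_of_dominated_convergence
      ((tsupport ψ).indicator fun _ => C) ?_ ?_ ?_ ?_
    · exact Eventually.of_forall fun t =>
        ((dgm_measurable_dgmEn (hu.continuous.add (hψ.smul t).continuous)).sub
          (dgm_measurable_dgmEn hu.continuous)).aestronglyMeasurable
    · have : ∀ᶠ t in 𝓝[<] (1 : ℝ), t ∈ Ioo (0 : ℝ) 1 := Ioo_mem_nhdsLT (by norm_num)
      filter_upwards [this] with t ht
      refine Eventually.of_forall fun x => ?_
      by_cases hx : x ∈ tsupport ψ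
      · have h1 := hC t ⟨ht.1.le, ht.2.le⟩ x hx
        have h0 := hC 0 ⟨le_rfl, zero_le_one⟩ x hx
        simp only [zero_smul, add_zero] at h0
        have := dgmEn_nonneg (u + t • ψ) x
        have := dgmEn_nonneg u x
        simp only [hx, indicator_of_mem, Real.norm_eq_abs]
        rw [abs_le]
        constructor <;> linarith
      · have hx' : x ∉ tsupport (t • ψ) := fun h =>
          hx (tsupport_smul_subset_right (fun _ => t) ψ h)
        rw [dgmEn_eq_of_notMem_tsupport hx']
        simp [hx]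
    · rw [integrable_indicator_iff hψ.2.isCompact.measurableSet]
      exact integrableOn_const hψ.2.isCompact.measure_lt_top.ne
    · filter_upwards [hψ.ae_differentiableAt] with x hx
      have hg : Continuous (fun t : ℝ => ‖fderiv ℝ u x + t • fderiv ℝ ψ x‖ ^ 2 / 2
          + dgmW (u x + t * ψ x) - dgmEn u x) := by
        unfold dgmW
        fun_prop
      have he : ∀ t : ℝ, dgmEn (u + t • ψ) x - dgmEn u x
          = ‖fderiv ℝ u x + t • fderiv ℝ ψ x‖ ^ 2 / 2 + dgmW (u x + t * ψ x) - dgmEn u x := by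
        intro t
        have : fderiv ℝ (u + t • ψ) x = fderiv ℝ u x + t • fderiv ℝ ψ x := by
          rw [fderiv_add (hu.differentiable (by norm_num) x) (hx.const_smul t),
            fderiv_const_smul hx]
        simp only [dgmEn, this, Pi.add_apply, Pi.smul_apply, smul_eq_mul]
      have h1 := (hg.tendsto 1).mono_left (nhdsWithin_le_nhds (s := Iio (1 : ℝ)))
      have h2 := he 1
      simp only [one_smul] at h2
      rw [h2]
      simp only [he]
      simpa using h1
  refine ge_of_tendsto hlim ?_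
  have : ∀ᶠ t in 𝓝[<] (1 : ℝ), t ∈ Ioo (0 : ℝ) 1 := Ioo_mem_nhdsLT (by norm_num)
  filter_upwards [this] with t ht using h t ht

/-! ### The divergence principle -/

/-- If the integrand dominates almost everywhere a divergence of admissible functions, its
integral is nonnegative. -/
theorem dgm_integral_nonneg_of_div_le {ι : Type*} [Fintype ι] {D : E → ℝ} (V : ι → E → ℝ)
    (b : ι → E) (hV : ∀ i, DgmTest (V i)) (h : ∀ᵐ x, ∑ i, fderiv ℝ (V i) x (b i) ≤ D x) :
    0 ≤ ∫ x, D x := by
  by_cases hD : Integrable D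
  · have h1 : ∫ x, ∑ i, fderiv ℝ (V i) x (b i) = 0 := by
      rw [integral_finsetSum _ fun i _ => (hV i).integrable_fderiv (b i)]
      exact Finset.sum_eq_zero fun i _ => (hV i).integral_fderiv_eq_zero (b i)
    rw [← h1]
    exact integral_mono_ae (integrable_finsetSum _ fun i _ => (hV i).integrable_fderiv (b i))
      hD h
  · rw [integral_undef hD]

/-- The square of the norm of a functional in an orthonormal basis. -/
theorem dgm_norm_sq_eq_sum {ι : Type*} [Fintype ι] (b : OrthonormalBasis ι ℝ E)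
    (L : E →L[ℝ] ℝ) : ‖L‖ ^ 2 = ∑ i, (L (b i)) ^ 2 := by
  set g := (InnerProductSpace.toDual ℝ E).symm L with hg
  have h1 : ‖g‖ = ‖L‖ := LinearIsometryEquiv.norm_map _ _
  have h2 : ∀ v, L v = inner ℝ g v := fun v => by
    rw [hg, InnerProductSpace.toDual_symm_apply]
  rw [← h1, ← b.sum_sq_norm_inner_right g]
  refine Finset.sum_congr rfl fun i _ => ?_
  rw [h2, Real.norm_eq_abs, sq_abs, real_inner_comm]

/-! ### Calibration: the wells and the planar profiles minimise -/

theorem dgm_min_one : DgmMin (fun _ : E => (1 : ℝ)) := by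
  intro ψ _
  refine integral_nonneg fun x => ?_
  have : dgmEn (fun _ : E => (1 : ℝ)) x = 0 := by simp [dgmEn, dgmW]
  simp only [this, sub_zero]
  exact dgmEn_nonneg _ x

theorem dgm_min_neg_one : DgmMin (fun _ : E => (-1 : ℝ)) := by
  intro ψ _
  refine integral_nonneg fun x => ?_
  have : dgmEn (fun _ : E => (-1 : ℝ)) x = 0 := by simp [dgmEn, dgmW]
  simp only [this, sub_zero]
  exact dgmEn_nonneg _ x

/-- The primitive of `(1 - t^2)/√2`. -/
noncomputable def dgmPhi (t : ℝ) : ℝ := (t - t ^ 3 / 3) / Real.sqrt 2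

theorem dgmPhi_hasDerivAt (t : ℝ) : HasDerivAt dgmPhi ((1 - t ^ 2) / Real.sqrt 2) t := by
  unfold dgmPhi
  have h := ((hasDerivAt_id t).sub (((hasDerivAt_id t).pow 3).div_const 3)).div_const
    (Real.sqrt 2)
  refine h.congr_deriv ?_
  simp only [id]
  ring

theorem dgmPhi_contDiff : ContDiff ℝ 1 dgmPhi := by
  unfold dgmPhi
  fun_prop

/-- A `C^1` function whose gradient is `(1 - p^2)/√2` times a fixed unit vector minimises. -/
theorem dgm_min_of_calibrated {p : E → ℝ} (hp : ContDiff ℝ 1 p) (a : E) (ha : ‖a‖ = 1)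
    (hgrad : ∀ x v, fderiv ℝ p x v = (1 - p x ^ 2) / Real.sqrt 2 * inner ℝ a v) : DgmMin p := by
  intro ψ hψ
  have hs2 : Real.sqrt 2 ^ 2 = 2 := Real.sq_sqrt (by norm_num)
  have hs0 : Real.sqrt 2 ≠ 0 := by positivity
  have hpd : Differentiable ℝ p := hp.differentiable (by norm_num)
  set V : E → ℝ := fun x => dgmPhi (p x + ψ x) - dgmPhi (p x) with hV
  have hVt : DgmTest V := by
    obtain ⟨⟨K, hK⟩, hc⟩ := id hψ
    refine dgm_test_of_locallyLipschitz ?_ ?_
    · exact (dgmPhi_contDiff.locallyLipschitz.comp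
        (hp.locallyLipschitz.add hK.locallyLipschitz)).sub
        (dgmPhi_contDiff.locallyLipschitz.comp hp.locallyLipschitz)
    · refine hc.mono fun x hx => ?_
      simp only [Function.mem_support] at hx ⊢
      intro h0
      apply hx
      simp [hV, h0]
  refine dgm_integral_nonneg_of_div_le (fun _ : Unit => V) (fun _ => a) (fun _ => hVt) ?_
  filter_upwards [hψ.ae_differentiableAt] with x hx
  simp only [Finset.univ_unique, Finset.sum_singleton]
  -- the energy of `p`
  set c : ℝ := (1 - p x ^ 2) / Real.sqrt 2 with hc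
  have hnp : ‖fderiv ℝ p x‖ ^ 2 = c ^ 2 := by
    have h1 : fderiv ℝ p x = c • (innerSL ℝ a) := by
      ext v
      simp [hgrad, hc, innerSL_apply_apply]
    rw [h1, norm_smul, innerSL_apply_norm, ha, mul_one, Real.norm_eq_abs, sq_abs]
  have hc2 : c ^ 2 = (1 - p x ^ 2) ^ 2 / 2 := by
    rw [hc, div_pow, hs2]
  have hep : dgmEn p x = c ^ 2 := by
    unfold dgmEn dgmW
    rw [hnp, hc2]
    ring
  have hpa : fderiv ℝ p x a = c := by
    rw [hgrad, real_inner_self_eq_norm_sq, ha]
    simp [hc]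
  -- the competitor
  set w : E → ℝ := p + ψ with hw
  have hwd : DifferentiableAt ℝ w x := (hpd x).add hx
  set cw : ℝ := (1 - w x ^ 2) / Real.sqrt 2 with hcw
  have hcw2 : cw ^ 2 = (1 - w x ^ 2) ^ 2 / 2 := by
    rw [hcw, div_pow, hs2]
  have hwa : (fderiv ℝ w x a) ^ 2 ≤ ‖fderiv ℝ w x‖ ^ 2 := by
    have h1 := (fderiv ℝ w x).le_opNorm a
    rw [ha, mul_one, Real.norm_eq_abs] at h1
    rw [← sq_abs (fderiv ℝ w x a)]
    exact pow_le_pow_left₀ (abs_nonneg _) h1 2
  have hew : cw * fderiv ℝ w x a ≤ dgmEn w x := by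
    unfold dgmEn dgmW
    have : (1 - w x ^ 2) ^ 2 / 4 = cw ^ 2 / 2 := by rw [hcw2]; ring
    rw [this]
    nlinarith [sq_nonneg (fderiv ℝ w x a - cw)]
  -- the derivative of `V`
  have hVd : fderiv ℝ V x a = cw * fderiv ℝ w x a - c * c := by
    have h1 : HasFDerivAt (fun y => dgmPhi (w y)) (cw • fderiv ℝ w x) x :=
      (dgmPhi_hasDerivAt (w x)).comp_hasFDerivAt x hwd.hasFDerivAt
    have h2 : HasFDerivAt (fun y => dgmPhi (p y)) (c • fderiv ℝ p x) x :=
      (dgmPhi_hasDerivAt (p x)).comp_hasFDerivAt x (hpd x).hasFDerivAt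
    have h3 : HasFDerivAt V (cw • fderiv ℝ w x - c • fderiv ℝ p x) x := h1.sub h2
    rw [h3.fderiv]
    simp [hpa]
  rw [hVd, hep]
  nlinarith

theorem dgm_tanh_hasDerivAt (x : ℝ) : HasDerivAt Real.tanh (1 - Real.tanh x ^ 2) x := by
  have hc : Real.cosh x ≠ 0 := (Real.cosh_pos x).ne'
  have h := (Real.hasDerivAt_sinh x).div (Real.hasDerivAt_cosh x) hc
  have e : Real.tanh = fun y => Real.sinh y / Real.cosh y := by
    funext y
    exact Real.tanh_eq_sinh_div_cosh y
  rw [e]
  refine h.congr_deriv ?_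
  field_simp

theorem dgm_tanh_contDiff : ContDiff ℝ 1 Real.tanh := by
  have e : Real.tanh = fun y => Real.sinh y / Real.cosh y := by
    funext y
    exact Real.tanh_eq_sinh_div_cosh y
  rw [e]
  exact Real.contDiff_sinh.div Real.contDiff_cosh fun x => (Real.cosh_pos x).ne'

/-- The planar profiles minimise (in every dimension). -/
theorem dgm_min_planar (a : E) (ha : ‖a‖ = 1) (b : ℝ) :
    DgmMin (fun x : E => Real.tanh ((inner ℝ a x - b) / Real.sqrt 2)) := by
  have hlin : ∀ x : E, HasFDerivAt (fun x : E => (inner ℝ a x - b) / Real.sqrt 2)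
      ((1 / Real.sqrt 2) • innerSL ℝ a) x := by
    intro x
    have h1 : HasFDerivAt (fun x : E => inner ℝ a x) (innerSL ℝ a) x :=
      (innerSL ℝ a).hasFDerivAt
    have h2 := (h1.sub_const b).const_smul (1 / Real.sqrt 2)
    refine h2.congr_of_eventuallyEq (Eventually.of_forall fun y => ?_)
    simp only [smul_eq_mul, Pi.smul_apply]
    ring
  refine dgm_min_of_calibrated ?_ a ha fun x v => ?_
  · refine dgm_tanh_contDiff.comp ?_
    have : ContDiff ℝ 1 (fun x : E => inner ℝ a x) := (innerSL ℝ a).contDiff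
    exact (this.sub contDiff_const).div_const _
  · have h := (dgm_tanh_hasDerivAt ((inner ℝ a x - b) / Real.sqrt 2)).comp_hasFDerivAt x (hlin x)
    have h' : fderiv ℝ (fun x : E => Real.tanh ((inner ℝ a x - b) / Real.sqrt 2)) x = _ :=
      h.fderiv
    rw [h']
    simp only [smul_apply, innerSL_apply_apply, smul_eq_mul]
    ring

/-! ### The lattice identity and clipping -/

/-- Pointwise lattice identity for the energy densities, at a point where `w` and `min w a` are
differentiable. -/
theorem dgm_lattice_at {w a : E → ℝ} (hw : Continuous w) (ha : Differentiable ℝ a) {x : E}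
    (hwx : DifferentiableAt ℝ w x) (hmx : DifferentiableAt ℝ (fun y => min (w y) (a y)) x) :
    dgmEn (fun y => max (w y) (a y)) x + dgmEn (fun y => min (w y) (a y)) x
      = dgmEn w x + dgmEn a x := by
  have hac : Continuous a := ha.continuous
  rcases lt_trichotomy (w x) (a x) with h | h | h
  · have hev : ∀ᶠ y in 𝓝 x, w y < a y := (hw.continuousAt.prodMk hac.continuousAt).eventually
      (isOpen_lt continuous_fst continuous_snd |>.mem_nhds h)
    have h1 : (fun y => max (w y) (a y)) =ᶠ[𝓝 x] a := by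
      filter_upwards [hev] with y hy using max_eq_right hy.le
    have h2 : (fun y => min (w y) (a y)) =ᶠ[𝓝 x] w := by
      filter_upwards [hev] with y hy using min_eq_left hy.le
    unfold dgmEn
    rw [h1.fderiv_eq, h2.fderiv_eq]
    simp only [max_eq_right h.le, min_eq_left h.le]
    ring
  · -- contact point
    set m : E → ℝ := fun y => min (w y) (a y) with hm
    have hmx0 : m x = a x := by simp [hm, h]
    have e1 : fderiv ℝ m x = fderiv ℝ a x := by
      have hloc : IsLocalMin (fun y => a y - m y) x := by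
        refine Eventually.of_forall fun y => ?_
        simp only [hmx0, sub_self, sub_nonneg]
        exact min_le_right _ _
      have h0 := hloc.fderiv_eq_zero
      have h1 : fderiv ℝ (fun y => a y - m y) x = fderiv ℝ a x - fderiv ℝ m x :=
        fderiv_fun_sub (ha x) hmx
      rw [h1, sub_eq_zero] at h0
      exact h0.symm
    have e2 : fderiv ℝ m x = fderiv ℝ w x := by
      have hloc : IsLocalMin (fun y => w y - m y) x := by
        refine Eventually.of_forall fun y => ?_
        simp only [hmx0, h, sub_self, sub_nonneg]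
        exact min_le_left _ _
      have h0 := hloc.fderiv_eq_zero
      have h1 : fderiv ℝ (fun y => w y - m y) x = fderiv ℝ w x - fderiv ℝ m x :=
        fderiv_fun_sub hwx hmx
      rw [h1, sub_eq_zero] at h0
      exact h0.symm
    have e3 : fderiv ℝ (fun y => max (w y) (a y)) x = fderiv ℝ a x := by
      have hM : (fun y => max (w y) (a y)) = fun y => w y + a y - m y := by
        funext y
        have := max_add_min (w y) (a y)
        simp only [hm]
        linarith
      rw [hM]
      have h1 : fderiv ℝ (fun y => w y + a y - m y) x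
          = fderiv ℝ w x + fderiv ℝ a x - fderiv ℝ m x :=
        ((hwx.hasFDerivAt.fun_add (ha x).hasFDerivAt).fun_sub hmx.hasFDerivAt).fderiv
      rw [h1, e2]
      abel
    unfold dgmEn
    rw [e3, e1, ← e2, e1]
    simp [hm, h]
  · have hev : ∀ᶠ y in 𝓝 x, a y < w y := (hac.continuousAt.prodMk hw.continuousAt).eventually
      (isOpen_lt continuous_fst continuous_snd |>.mem_nhds h)
    have h1 : (fun y => max (w y) (a y)) =ᶠ[𝓝 x] w := by
      filter_upwards [hev] with y hy using max_eq_left hy.le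
    have h2 : (fun y => min (w y) (a y)) =ᶠ[𝓝 x] a := by
      filter_upwards [hev] with y hy using min_eq_right hy.le
    unfold dgmEn
    rw [h1.fderiv_eq, h2.fderiv_eq]
    simp only [max_eq_left h.le, min_eq_right h.le]

/-- Abstract clipping step. -/
theorem dgm_clip_le {u a ψ ψ' ψ'' : E → ℝ} (hu : ContDiff ℝ 1 u) (ha : ContDiff ℝ 1 a)
    (hmin : DgmMin a) (hψ : DgmTest ψ) (hψ' : DgmTest ψ') (hψ'' : DgmTest ψ'')
    (hid : ∀ᵐ x, dgmEn (u + ψ') x + dgmEn (a + ψ'') x = dgmEn (u + ψ) x + dgmEn a x) :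
    ∫ x, (dgmEn (u + ψ') x - dgmEn u x) ≤ ∫ x, (dgmEn (u + ψ) x - dgmEn u x) := by
  have h1 := dgm_integrable_diff hu hψ
  have h2 := dgm_integrable_diff hu hψ'
  have h3 := dgm_integrable_diff ha hψ''
  have h4 : (∫ x, (dgmEn (u + ψ) x - dgmEn u x)) - (∫ x, (dgmEn (u + ψ') x - dgmEn u x))
      = ∫ x, (dgmEn (a + ψ'') x - dgmEn a x) := by
    rw [← integral_sub h1 h2]
    refine integral_congr_ae ?_
    filter_upwards [hid] with x hx
    linarith
  have := hmin ψ'' hψ''
  linarith

/-- Clipping from below by a minimiser that lies below `u`. -/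
theorem dgm_clip_below {u a ψ : E → ℝ} (hu : ContDiff ℝ 1 u) (ha : ContDiff ℝ 1 a)
    (hmin : DgmMin a) (hlt : ∀ x, a x < u x) (hψ : DgmTest ψ) :
    DgmTest (fun x => max (ψ x) (a x - u x)) ∧
      ∫ x, (dgmEn (u + fun x => max (ψ x) (a x - u x)) x - dgmEn u x)
        ≤ ∫ x, (dgmEn (u + ψ) x - dgmEn u x) := by
  obtain ⟨⟨K, hK⟩, hc⟩ := id hψ
  have hψ' : DgmTest (fun x => max (ψ x) (a x - u x)) := by
    refine dgm_test_of_locallyLipschitz
      (hK.locallyLipschitz.max (ha.locallyLipschitz.sub hu.locallyLipschitz)) ?_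
    refine hc.mono fun x hx => ?_
    simp only [Function.mem_support] at hx ⊢
    intro h0
    apply hx
    rw [h0]
    exact max_eq_left (by linarith [hlt x])
  have hψ'' : DgmTest (fun x => min (u x - a x + ψ x) 0) := by
    refine dgm_test_of_locallyLipschitz
      (((hu.locallyLipschitz.sub ha.locallyLipschitz).add hK.locallyLipschitz).min
        (LipschitzWith.const (0 : ℝ) : LipschitzWith 0 fun _ : E => (0 : ℝ)).locallyLipschitz) ?_
    refine hc.mono fun x hx => ?_
    simp only [Function.mem_support] at hx ⊢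
    intro h0
    apply hx
    rw [h0]
    exact min_eq_right (by linarith [hlt x])
  refine ⟨hψ', dgm_clip_le hu ha hmin hψ hψ' hψ'' ?_⟩
  have e1 : (u + fun x => max (ψ x) (a x - u x)) = fun y => max ((u + ψ) y) (a y) := by
    funext y
    simp only [Pi.add_apply]
    rw [← max_add_add_left]
    congr 1
    ring
  have e2 : (a + fun x => min (u x - a x + ψ x) 0) = fun y => min ((u + ψ) y) (a y) := by
    funext y
    simp only [Pi.add_apply]
    rw [← min_add_add_left]
    congr 1 <;> ring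
  filter_upwards [hψ.ae_differentiableAt, hψ''.ae_differentiableAt] with x hx hx''
  rw [e1, e2]
  refine dgm_lattice_at (hu.continuous.add hψ.continuous) (ha.differentiable (by norm_num))
    ((hu.differentiable (by norm_num) x).add hx) ?_
  rw [← e2]
  exact (ha.differentiable (by norm_num) x).add hx''

/-- Clipping from above by a minimiser that lies above `u`. -/
theorem dgm_clip_above {u a ψ : E → ℝ} (hu : ContDiff ℝ 1 u) (ha : ContDiff ℝ 1 a)
    (hmin : DgmMin a) (hlt : ∀ x, u x < a x) (hψ : DgmTest ψ) :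
    DgmTest (fun x => min (ψ x) (a x - u x)) ∧
      ∫ x, (dgmEn (u + fun x => min (ψ x) (a x - u x)) x - dgmEn u x)
        ≤ ∫ x, (dgmEn (u + ψ) x - dgmEn u x) := by
  obtain ⟨⟨K, hK⟩, hc⟩ := id hψ
  have hψ' : DgmTest (fun x => min (ψ x) (a x - u x)) := by
    refine dgm_test_of_locallyLipschitz
      (hK.locallyLipschitz.min (ha.locallyLipschitz.sub hu.locallyLipschitz)) ?_
    refine hc.mono fun x hx => ?_
    simp only [Function.mem_support] at hx ⊢
    intro h0
    apply hx
    rw [h0]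
    exact min_eq_left (by linarith [hlt x])
  have hψ'' : DgmTest (fun x => max (u x - a x + ψ x) 0) := by
    refine dgm_test_of_locallyLipschitz
      (((hu.locallyLipschitz.sub ha.locallyLipschitz).add hK.locallyLipschitz).max
        (LipschitzWith.const (0 : ℝ) : LipschitzWith 0 fun _ : E => (0 : ℝ)).locallyLipschitz) ?_
    refine hc.mono fun x hx => ?_
    simp only [Function.mem_support] at hx ⊢
    intro h0
    apply hx
    rw [h0]
    exact max_eq_right (by linarith [hlt x])
  refine ⟨hψ', dgm_clip_le hu ha hmin hψ hψ' hψ'' ?_⟩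
  have e1 : (u + fun x => min (ψ x) (a x - u x)) = fun y => min ((u + ψ) y) (a y) := by
    funext y
    simp only [Pi.add_apply]
    rw [← min_add_add_left]
    congr 1
    ring
  have e2 : (a + fun x => max (u x - a x + ψ x) 0) = fun y => max ((u + ψ) y) (a y) := by
    funext y
    simp only [Pi.add_apply]
    rw [← max_add_add_left]
    congr 1 <;> ring
  filter_upwards [hψ.ae_differentiableAt, hψ'.ae_differentiableAt] with x hx hx'
  rw [e1, e2, add_comm]
  refine dgm_lattice_at (hu.continuous.add hψ.continuous) (ha.differentiable (by norm_num))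
    ((hu.differentiable (by norm_num) x).add hx) ?_
  rw [← e1]
  exact (hu.differentiable (by norm_num) x).add hx'

/-! ### Primitives along a direction -/

/-- The primitive of `k` along `e`, from `x`. -/
noncomputable def dgmP (k : E → ℝ) (e : E) (x : E) (s : ℝ) : ℝ := ∫ r in (0 : ℝ)..s, k (x + r • e)

theorem dgmP_hasFDerivAt_fst {k : E → ℝ} (hk : ContDiff ℝ 1 k) (e x : E) (s : ℝ) :
    HasFDerivAt (fun y => dgmP k e y s) (∫ r in (0 : ℝ)..s, fderiv ℝ k (x + r • e)) x := by
  have hkc : Continuous k := hk.continuous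
  have hkd : Differentiable ℝ k := hk.differentiable (by norm_num)
  have hk' : Continuous (fderiv ℝ k) := hk.continuous_fderiv (by norm_num)
  have hcomp : IsCompact ((fun p : E × ℝ => p.1 + p.2 • e) ''
      (Metric.closedBall x 1 ×ˢ uIcc (0 : ℝ) s)) :=
    ((isCompact_closedBall x 1).prod isCompact_uIcc).image (by fun_prop)
  obtain ⟨M, hM⟩ := hcomp.exists_bound_of_continuousOn hk'.continuousOn
  unfold dgmP
  refine intervalIntegral.hasFDerivAt_integral_of_dominated_of_fderiv_le
    (s := Metric.ball x 1) (bound := fun _ => M) (F := fun y r => k (y + r • e))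
    (F' := fun y r => fderiv ℝ k (y + r • e)) (Metric.ball_mem_nhds x one_pos) ?_ ?_ ?_ ?_ ?_ ?_
  · exact Eventually.of_forall fun y =>
      (by fun_prop : Continuous fun r : ℝ => k (y + r • e)).aestronglyMeasurable
  · exact (by fun_prop : Continuous fun r : ℝ => k (x + r • e)).intervalIntegrable _ _
  · exact (hk'.comp (by fun_prop : Continuous fun r : ℝ => x + r • e)).aestronglyMeasurable
  · refine Eventually.of_forall fun r hr y hy => hM _ ⟨(y, r), ⟨?_, ?_⟩, rfl⟩
    · exact Metric.ball_subset_closedBall hy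
    · exact uIoc_subset_uIcc hr
  · exact intervalIntegrable_const
  · refine Eventually.of_forall fun r _ y _ => ?_
    have h := (hkd (y + r • e)).hasFDerivAt.comp y ((hasFDerivAt_id y).add_const (r • e))
    simp only [ContinuousLinearMap.comp_id] at h
    exact h

theorem dgmP_hasFDerivAt_snd {k : E → ℝ} (hk : Continuous k) (e x : E) (s : ℝ) :
    HasFDerivAt (fun t => dgmP k e x t) (k (x + s • e) • ContinuousLinearMap.id ℝ ℝ) s := by
  have h := ((by fun_prop : Continuous fun r : ℝ => k (x + r • e)).integral_hasStrictDerivAt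
    0 s).hasDerivAt.hasFDerivAt
  unfold dgmP
  refine h.congr_fderiv ?_
  ext
  simp

theorem dgmP_hasStrictFDerivAt {k : E → ℝ} (hk : ContDiff ℝ 1 k) (e x : E) (s : ℝ) :
    HasStrictFDerivAt (fun p : E × ℝ => dgmP k e p.1 p.2)
      ((∫ r in (0 : ℝ)..s, fderiv ℝ k (x + r • e)).coprod
        (k (x + s • e) • ContinuousLinearMap.id ℝ ℝ)) (x, s) := by
  have hkc : Continuous k := hk.continuous
  have hk' : Continuous (fderiv ℝ k) := hk.continuous_fderiv (by norm_num)
  have h := hasStrictFDerivAt_uncurry_coprod (𝕜 := ℝ) (u := (x, s)) (f := dgmP k e)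
    (f₁ := fun y t => ∫ r in (0 : ℝ)..t, fderiv ℝ k (y + r • e))
    (f₂ := fun y t => k (y + t • e) • ContinuousLinearMap.id ℝ ℝ)
    (Eventually.of_forall fun v => dgmP_hasFDerivAt_fst hk e v.1 v.2)
    (Eventually.of_forall fun v => dgmP_hasFDerivAt_snd hkc e v.1 v.2) ?_ ?_
  · exact h
  · have hc : Continuous (fun p : E × ℝ => ∫ r in (0 : ℝ)..p.2, fderiv ℝ k (p.1 + r • e)) :=
      intervalIntegral.continuous_parametric_intervalIntegral_of_continuous
        (f := fun (p : E × ℝ) (r : ℝ) => fderiv ℝ k (p.1 + r • e))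
        (hk'.comp (by fun_prop)) continuous_snd
    exact hc.continuousAt
  · have hc : Continuous (fun p : E × ℝ => k (p.1 + p.2 • e) • ContinuousLinearMap.id ℝ ℝ) := by
      fun_prop
    exact hc.continuousAt

theorem dgmP_zero (k : E → ℝ) (e x : E) : dgmP k e x 0 = 0 := by simp [dgmP]

/-- The primitive evaluated at an admissible height is admissible, with the expected derivative
at the points of differentiability of the height. -/
theorem dgm_prim_comp {k : E → ℝ} (hk : ContDiff ℝ 1 k) (e : E) {σ : E → ℝ} (hσ : DgmTest σ) :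
    DgmTest (fun x => dgmP k e x (σ x)) ∧
      ∀ x, DifferentiableAt ℝ σ x → ∀ v, fderiv ℝ (fun x => dgmP k e x (σ x)) x v
        = k (x + σ x • e) * fderiv ℝ σ x v + ∫ r in (0 : ℝ)..σ x, fderiv ℝ k (x + r • e) v := by
  obtain ⟨⟨K, hK⟩, hc⟩ := id hσ
  have hk' : Continuous (fderiv ℝ k) := hk.continuous_fderiv (by norm_num)
  constructor
  · refine dgm_test_of_locallyLipschitz ?_ ?_
    · have h1 : LocallyLipschitz (fun p : E × ℝ => dgmP k e p.1 p.2) := by
        intro p
        obtain ⟨K', t, ht, hL⟩ := (dgmP_hasStrictFDerivAt hk e p.1 p.2).exists_lipschitzOnWith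
        exact ⟨K', t, ht, hL⟩
      exact h1.comp (LipschitzWith.id.locallyLipschitz.prodMk hK.locallyLipschitz)
    · refine hc.mono fun x hx => ?_
      simp only [Function.mem_support] at hx ⊢
      intro h0
      apply hx
      rw [h0, dgmP_zero]
  · intro x hx v
    have h := (dgmP_hasStrictFDerivAt hk e x (σ x)).hasFDerivAt.comp x
      ((hasFDerivAt_id x).prodMk hx.hasFDerivAt)
    have h' : fderiv ℝ (fun x => dgmP k e x (σ x)) x = _ := h.fderiv
    rw [h']
    have hint : IntervalIntegrable (fun r : ℝ => fderiv ℝ k (x + r • e)) volume 0 (σ x) :=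
      (hk'.comp (by fun_prop : Continuous fun r : ℝ => x + r • e)).intervalIntegrable _ _
    simp only [ContinuousLinearMap.comp_apply, ContinuousLinearMap.prod_apply,
      ContinuousLinearMap.coprod_apply, ContinuousLinearMap.id_apply, smul_apply, smul_eq_mul]
    rw [ContinuousLinearMap.intervalIntegral_apply hint]
    ring

/-! ### The extremal field of the translates -/

theorem dgm_laplacian_eq_sum {ι : Type*} [Fintype ι] (b : OrthonormalBasis ι ℝ E) (u : E → ℝ)
    (x : E) : Laplacian.laplacian u x = ∑ i, fderiv ℝ (fderiv ℝ u) x (b i) (b i) := by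
  rw [InnerProductSpace.laplacian_eq_iteratedFDeriv_orthonormalBasis u b]
  simp [iteratedFDeriv_two_apply]

theorem dgmW_hasDerivAt (t : ℝ) : HasDerivAt dgmW (t ^ 3 - t) t := by
  unfold dgmW
  have h := ((((hasDerivAt_id t).pow 2).const_sub 1).pow 2).div_const 4
  refine h.congr_deriv ?_
  simp only [id, Pi.pow_apply]
  ring

/-- derivative of `x ↦ fderiv u x w`. -/
theorem dgm_hasFDerivAt_fderiv_apply {u : E → ℝ} (hu : ContDiff ℝ 2 u) (w x : E) :
    HasFDerivAt (fun y => fderiv ℝ u y w) ((fderiv ℝ (fderiv ℝ u) x).flip w) x := by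
  have hd : ContDiff ℝ 1 (fderiv ℝ u) := hu.fderiv_right (by norm_num)
  have h := ((hd.differentiable (by norm_num) x).hasFDerivAt).clm_apply (hasFDerivAt_const w x)
  simpa using h

/-- The energy density in coordinates. -/
theorem dgmEn_eq_sum {ι : Type*} [Fintype ι] (b : OrthonormalBasis ι ℝ E) (w : E → ℝ) (x : E) :
    dgmEn w x = (∑ i, (fderiv ℝ w x (b i)) ^ 2) / 2 + dgmW (w x) := by
  unfold dgmEn
  rw [dgm_norm_sq_eq_sum b]

theorem dgmEn_hasFDerivAt {ι : Type*} [Fintype ι] (b : OrthonormalBasis ι ℝ E) {u : E → ℝ}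
    (hu : ContDiff ℝ 2 u) (x : E) :
    HasFDerivAt (dgmEn u)
      ((∑ i, (fderiv ℝ u x (b i)) • (fderiv ℝ (fderiv ℝ u) x).flip (b i))
        + (u x ^ 3 - u x) • fderiv ℝ u x) x := by
  have hud : Differentiable ℝ u := hu.differentiable (by norm_num)
  have h1 : ∀ i, HasFDerivAt (fun y => (fderiv ℝ u y (b i)) ^ 2)
      ((2 * fderiv ℝ u x (b i)) • (fderiv ℝ (fderiv ℝ u) x).flip (b i)) x := by
    intro i
    have := (dgm_hasFDerivAt_fderiv_apply hu (b i) x).pow 2
    simpa using this
  have h2 : HasFDerivAt (fun y => ∑ i, (fderiv ℝ u y (b i)) ^ 2)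
      (∑ i, (2 * fderiv ℝ u x (b i)) • (fderiv ℝ (fderiv ℝ u) x).flip (b i)) x :=
    HasFDerivAt.fun_sum fun i _ => h1 i
  have h3 : HasFDerivAt (fun y => dgmW (u y)) ((u x ^ 3 - u x) • fderiv ℝ u x) x :=
    (dgmW_hasDerivAt (u x)).comp_hasFDerivAt x (hud x).hasFDerivAt
  have h4 := (h2.const_smul (1 / 2 : ℝ)).add h3
  have e : dgmEn u = (fun y => (1 / 2 : ℝ) • (∑ i, (fderiv ℝ u y (b i)) ^ 2)) + fun y => dgmW (u y) := by
    funext y
    rw [dgmEn_eq_sum b]
    simp only [Pi.add_apply, smul_eq_mul]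
    ring
  rw [e]
  refine h4.congr_fderiv ?_
  rw [Finset.smul_sum]
  congr 1
  refine Finset.sum_congr rfl fun i _ => ?_
  rw [smul_smul]
  congr 1
  ring

theorem dgmEn_contDiff {u : E → ℝ} (hu : ContDiff ℝ 2 u) : ContDiff ℝ 1 (dgmEn u) := by
  have hd : ContDiff ℝ 1 (fderiv ℝ u) := hu.fderiv_right (by norm_num)
  have e : dgmEn u = fun y => (∑ i, (fderiv ℝ u y (stdOrthonormalBasis ℝ E i)) ^ 2) / 2
      + (1 - u y ^ 2) ^ 2 / 4 := by
    funext y
    rw [dgmEn_eq_sum (stdOrthonormalBasis ℝ E)]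
    rfl
  rw [e]
  have hu1 : ContDiff ℝ 1 u := hu.of_le (by norm_num)
  refine ContDiff.add (ContDiff.div_const (ContDiff.sum fun i _ => ?_) _) (by fun_prop)
  exact (hd.clm_apply contDiff_const).pow 2

/-- The field `h_i = (∂_e u) (∂_i u)`: its divergence is the derivative of the energy density
along `e`.  This is where the equation is used. -/
theorem dgm_div_field {ι : Type*} [Fintype ι] (b : OrthonormalBasis ι ℝ E) {u : E → ℝ}
    (hu : ContDiff ℝ 2 u) (hpde : ∀ x, Laplacian.laplacian u x = u x ^ 3 - u x) (e x : E) :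
    ∑ i, fderiv ℝ (fun y => fderiv ℝ u y e * fderiv ℝ u y (b i)) x (b i)
      = fderiv ℝ (dgmEn u) x e := by
  have hsymm : ∀ v w, fderiv ℝ (fderiv ℝ u) x v w = fderiv ℝ (fderiv ℝ u) x w v :=
    (hu.contDiffAt.isSymmSndFDerivAt (by simp)).eq
  have h1 : ∀ i, fderiv ℝ (fun y => fderiv ℝ u y e * fderiv ℝ u y (b i)) x (b i)
      = fderiv ℝ u x e * fderiv ℝ (fderiv ℝ u) x (b i) (b i)
        + fderiv ℝ u x (b i) * fderiv ℝ (fderiv ℝ u) x (b i) e := by
    intro i
    have h := (dgm_hasFDerivAt_fderiv_apply hu e x).mul (dgm_hasFDerivAt_fderiv_apply hu (b i) x)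
    have h' : fderiv ℝ (fun y => fderiv ℝ u y e * fderiv ℝ u y (b i)) x = _ := h.fderiv
    rw [h']
    simp
  simp only [h1]
  rw [(dgmEn_hasFDerivAt b hu x).fderiv, Finset.sum_add_distrib, ← Finset.mul_sum,
    ← dgm_laplacian_eq_sum b u x, hpde]
  simp only [add_apply, sum_apply, smul_apply,
    ContinuousLinearMap.flip_apply, smul_eq_mul]
  have : ∀ i, fderiv ℝ u x (b i) * fderiv ℝ (fderiv ℝ u) x (b i) e
      = fderiv ℝ u x (b i) * fderiv ℝ (fderiv ℝ u) x e (b i) := fun i => by rw [hsymm]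
  simp only [this]
  ring

theorem dgm_ftc {f : E → ℝ} (hf : ContDiff ℝ 1 f) (x e : E) (s : ℝ) :
    ∫ r in (0 : ℝ)..s, fderiv ℝ f (x + r • e) e = f (x + s • e) - f x := by
  have hfd : Differentiable ℝ f := hf.differentiable (by norm_num)
  have hf' : Continuous (fderiv ℝ f) := hf.continuous_fderiv (by norm_num)
  have hline : ∀ r : ℝ, HasDerivAt (fun r : ℝ => x + r • e) e r := by
    intro r
    have := ((hasDerivAt_id r).smul_const e).const_add x
    simpa using this
  have h := intervalIntegral.integral_eq_sub_of_hasDerivAt (a := 0) (b := s)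
    (f := fun r : ℝ => f (x + r • e)) (f' := fun r : ℝ => fderiv ℝ f (x + r • e) e)
    (fun r _ => (hfd (x + r • e)).hasFDerivAt.comp_hasDerivAt r (hline r))
    ((by fun_prop : Continuous fun r : ℝ => fderiv ℝ f (x + r • e) e).intervalIntegrable _ _)
  simpa using h

/-- **Extremal field inequality.**  Sliding `u` along `e` by an admissible height does not
decrease the energy. -/
theorem dgm_field_ineq {u : E → ℝ} (hu : ContDiff ℝ 2 u)
    (hpde : ∀ x, Laplacian.laplacian u x = u x ^ 3 - u x) (e : E) {σ : E → ℝ} (hσ : DgmTest σ) :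
    0 ≤ ∫ x, (dgmEn (fun x => u (x + σ x • e)) x - dgmEn u x) := by
  set b := stdOrthonormalBasis ℝ E with hb
  have hd : ContDiff ℝ 1 (fderiv ℝ u) := hu.fderiv_right (by norm_num)
  have hud : Differentiable ℝ u := hu.differentiable (by norm_num)
  have hh : ∀ i, ContDiff ℝ 1 (fun y => fderiv ℝ u y e * fderiv ℝ u y (b i)) := fun i =>
    (hd.clm_apply contDiff_const).mul (hd.clm_apply contDiff_const)
  refine dgm_integral_nonneg_of_div_le
    (fun i x => dgmP (fun y => fderiv ℝ u y e * fderiv ℝ u y (b i)) e x (σ x)) (fun i => b i)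
    (fun i => (dgm_prim_comp (hh i) e hσ).1) ?_
  filter_upwards [hσ.ae_differentiableAt] with x hx
  have h1 : ∀ i, fderiv ℝ (fun x => dgmP (fun y => fderiv ℝ u y e * fderiv ℝ u y (b i)) e x (σ x))
      x (b i) = _ := fun i => (dgm_prim_comp (hh i) e hσ).2 x hx (b i)
  simp only [h1]
  rw [Finset.sum_add_distrib, ← intervalIntegral.integral_finsetSum]
  swap
  · intro i _
    have hc : Continuous (fderiv ℝ (fun y => fderiv ℝ u y e * fderiv ℝ u y (b i))) :=
      (hh i).continuous_fderiv (by norm_num)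
    exact (by fun_prop : Continuous fun r : ℝ =>
      fderiv ℝ (fun y => fderiv ℝ u y e * fderiv ℝ u y (b i)) (x + r • e) (b i)
      ).intervalIntegrable _ _
  simp only [dgm_div_field b hu hpde e]
  rw [dgm_ftc (dgmEn_contDiff hu)]
  -- the competitor
  set y := x + σ x • e with hy
  have hw : HasFDerivAt (fun x => u (x + σ x • e))
      ((fderiv ℝ u y).comp (ContinuousLinearMap.id ℝ E + (fderiv ℝ σ x).smulRight e)) x :=
    (hud y).hasFDerivAt.comp x ((hasFDerivAt_id x).add (hx.hasFDerivAt.smul_const e))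
  have hwv : ∀ v, fderiv ℝ (fun x => u (x + σ x • e)) x v
      = fderiv ℝ u y v + fderiv ℝ σ x v * fderiv ℝ u y e := by
    intro v
    rw [hw.fderiv]
    simp
  rw [dgmEn_eq_sum b (fun x => u (x + σ x • e)) x, dgmEn_eq_sum b u y]
  simp only [hwv]
  have key : ∑ i, fderiv ℝ u y e * fderiv ℝ u y (b i) * fderiv ℝ σ x (b i)
      + (∑ i, (fderiv ℝ u y (b i)) ^ 2) / 2
      ≤ (∑ i, (fderiv ℝ u y (b i) + fderiv ℝ σ x (b i) * fderiv ℝ u y e) ^ 2) / 2 := by
    rw [Finset.sum_div, Finset.sum_div, ← Finset.sum_add_distrib]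
    refine Finset.sum_le_sum fun i _ => ?_
    nlinarith [sq_nonneg (fderiv ℝ σ x (b i) * fderiv ℝ u y e)]
  linarith

/-! ### The height function of a competitor between the two limits -/

theorem dgm_line_hasDerivAt {u : E → ℝ} (hu : Differentiable ℝ u) (x e : E) (r : ℝ) :
    HasDerivAt (fun r : ℝ => u (x + r • e)) (fderiv ℝ u (x + r • e) e) r := by
  have hline : HasDerivAt (fun r : ℝ => x + r • e) e r := by
    have := ((hasDerivAt_id r).smul_const e).const_add x
    simpa using this
  exact (hu (x + r • e)).hasFDerivAt.comp_hasDerivAt r hline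

theorem dgm_line_strictMono {u : E → ℝ} (hu : Differentiable ℝ u) (e : E)
    (hmono : ∀ x, 0 < fderiv ℝ u x e) (x : E) : StrictMono (fun r : ℝ => u (x + r • e)) := by
  refine strictMono_of_deriv_pos fun r => ?_
  rw [(dgm_line_hasDerivAt hu x e r).deriv]
  exact hmono _

/-- Every admissible competitor strictly between the two limits is a slide of `u` by an
admissible height. -/
theorem dgm_exists_height {u : E → ℝ} (hu : ContDiff ℝ 1 u) (e : E)
    (hmono : ∀ x, 0 < fderiv ℝ u x e) {am ap : E → ℝ}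
    (hlm : ∀ x, Tendsto (fun s : ℝ => u (x + s • e)) atBot (𝓝 (am x)))
    (hlp : ∀ x, Tendsto (fun s : ℝ => u (x + s • e)) atTop (𝓝 (ap x)))
    {ψ : E → ℝ} (hψ : DgmTest ψ) (h1 : ∀ x, am x < u x + ψ x) (h2 : ∀ x, u x + ψ x < ap x) :
    ∃ σ : E → ℝ, DgmTest σ ∧ ∀ x, u (x + σ x • e) = u x + ψ x := by
  obtain ⟨⟨Kψ, hKψ⟩, hc⟩ := id hψ
  have hud : Differentiable ℝ u := hu.differentiable (by norm_num)
  have huc : Continuous u := hu.continuous
  have hψc : Continuous ψ := hψ.continuous
  have hsm := dgm_line_strictMono hud e hmono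
  -- existence
  have hex : ∀ x, ∃ s : ℝ, u (x + s • e) = u x + ψ x := by
    intro x
    have hcont : Continuous (fun r : ℝ => u (x + r • e)) := by fun_prop
    obtain ⟨s1, hs1⟩ := ((hlm x).eventually (gt_mem_nhds (h1 x))).exists
    obtain ⟨s2, hs2⟩ := ((hlp x).eventually (lt_mem_nhds (h2 x))).exists
    exact mem_range_of_exists_le_of_exists_ge hcont ⟨s1, hs1.le⟩ ⟨s2, hs2.le⟩
  choose σ hσ using hex
  have hσ0 : ∀ x, ψ x = 0 → σ x = 0 := by
    intro x hx
    apply (hsm x).injective
    simp only [hσ, hx, zero_smul, add_zero]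
  have hσc : HasCompactSupport σ := by
    refine hc.mono fun x hx => ?_
    simp only [Function.mem_support] at hx ⊢
    exact fun h0 => hx (hσ0 x h0)
  -- a uniform bound
  obtain ⟨N, hN⟩ : ∃ N : ℕ, ∀ x, |σ x| ≤ N := by
    have hcov := hc.isCompact.elim_directed_cover
      (fun n : ℕ => {x : E | u (x + (-(n : ℝ)) • e) < u x + ψ x ∧ u x + ψ x < u (x + (n : ℝ) • e)})
      (fun n => by
        have o1 : IsOpen {x : E | u (x + (-(n : ℝ)) • e) < u x + ψ x} :=
          isOpen_lt (by fun_prop) (by fun_prop)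
        have o2 : IsOpen {x : E | u x + ψ x < u (x + (n : ℝ) • e)} :=
          isOpen_lt (by fun_prop) (by fun_prop)
        exact o1.inter o2)
      (fun x _ => by
        obtain ⟨n, hn⟩ := exists_nat_gt |σ x|
        refine mem_iUnion.2 ⟨n, ?_, ?_⟩
        · rw [← hσ x]
          exact hsm x (by linarith [neg_abs_le (σ x)])
        · rw [← hσ x]
          exact hsm x (by linarith [le_abs_self (σ x)]))
      (by
        refine Monotone.directed_le fun n m hnm x hx => ⟨?_, ?_⟩
        · refine lt_of_le_of_lt ((hsm x).monotone ?_) hx.1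
          have : (n : ℝ) ≤ m := by exact_mod_cast hnm
          linarith
        · refine lt_of_lt_of_le hx.2 ((hsm x).monotone ?_)
          exact_mod_cast hnm)
    obtain ⟨N, hN⟩ := hcov
    refine ⟨N, fun x => ?_⟩
    by_cases hx : x ∈ tsupport ψ
    · obtain ⟨ha, hb⟩ := hN hx
      rw [← hσ x] at ha hb
      have ha' := (hsm x).lt_iff_lt.1 ha
      have hb' := (hsm x).lt_iff_lt.1 hb
      rw [abs_le]
      constructor <;> linarith
    · rw [hσ0 x (image_eq_zero_of_notMem_tsupport hx)]
      simp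
  -- the compact set where everything happens
  obtain ⟨R, hR0, hR⟩ := hc.isCompact.isBounded.subset_closedBall_lt 0 (0 : E)
  set ρ : ℝ := R + 1 + N * ‖e‖ with hρ
  have hρ0 : 0 ≤ ρ := by positivity
  have hB : IsCompact (Metric.closedBall (0 : E) ρ) := isCompact_closedBall _ _
  have hBne : (Metric.closedBall (0 : E) ρ).Nonempty := ⟨0, by simp [hρ0]⟩
  obtain ⟨L, hL⟩ := (hu.locallyLipschitz.locallyLipschitzOn
    (s := Metric.closedBall (0 : E) ρ)).exists_lipschitzOnWith_of_compact hB
  obtain ⟨z, -, hz⟩ := hB.exists_isMinOn hBne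
    (f := fun y => fderiv ℝ u y e)
    ((hu.continuous_fderiv (by norm_num)).clm_apply continuous_const).continuousOn
  set c : ℝ := fderiv ℝ u z e with hcdef
  have hc0 : 0 < c := hmono z
  have hcle : ∀ y ∈ Metric.closedBall (0 : E) ρ, c ≤ fderiv ℝ u y e := fun y hy => hz hy
  have hmemB : ∀ (y : E) (s : ℝ), ‖y‖ ≤ R + 1 → |s| ≤ N → y + s • e ∈ Metric.closedBall (0 : E) ρ := by
    intro y s hy hs
    rw [mem_closedBall_zero_iff]
    calc ‖y + s • e‖ ≤ ‖y‖ + ‖s • e‖ := norm_add_le _ _
      _ = ‖y‖ + |s| * ‖e‖ := by rw [norm_smul, Real.norm_eq_abs]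
      _ ≤ R + 1 + N * ‖e‖ := by gcongr
  -- lower bound along the lines
  have hlow : ∀ y : E, ‖y‖ ≤ R + 1 → ∀ s s' : ℝ, |s| ≤ N → |s'| ≤ N →
      c * |s' - s| ≤ |u (y + s' • e) - u (y + s • e)| := by
    intro y hy
    have hmv := Convex.mul_sub_le_image_sub_of_le_deriv (convex_Icc (-(N : ℝ)) N)
      (f := fun r : ℝ => u (y + r • e)) (C := c)
      (by fun_prop : Continuous fun r : ℝ => u (y + r • e)).continuousOn
      (fun r _ => (dgm_line_hasDerivAt hud y e r).differentiableAt.differentiableWithinAt)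
      (fun r hr => by
        rw [(dgm_line_hasDerivAt hud y e r).deriv]
        have hr' := interior_subset hr
        exact hcle _ (hmemB y r hy (abs_le.2 ⟨hr'.1, hr'.2⟩)))
    intro s s' hs hs'
    have hsI : s ∈ Icc (-(N : ℝ)) N := ⟨(abs_le.1 hs).1, (abs_le.1 hs).2⟩
    have hsI' : s' ∈ Icc (-(N : ℝ)) N := ⟨(abs_le.1 hs').1, (abs_le.1 hs').2⟩
    rcases le_total s s' with h | h
    · have := hmv s hsI s' hsI' h
      rw [abs_of_nonneg (sub_nonneg.2 h)]
      exact this.trans (le_abs_self _)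
    · have := hmv s' hsI' s hsI h
      rw [abs_sub_comm s' s, abs_of_nonneg (sub_nonneg.2 h), abs_sub_comm]
      exact this.trans (le_abs_self _)
  -- the main estimate
  set C : ℝ := max (2 * N) ((2 * L + Kψ) / c) with hC
  have hC0 : 0 ≤ C := le_max_of_le_left (by positivity)
  have key : ∀ x ∈ tsupport ψ, ∀ x' : E, |σ x - σ x'| ≤ C * dist x x' := by
    intro x hx x'
    have hxR : ‖x‖ ≤ R := by simpa using hR hx
    by_cases hd : dist x x' ≤ 1
    · have hx'R : ‖x'‖ ≤ R + 1 := by
        have := norm_le_norm_add_norm_sub' x' x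
        rw [← dist_eq_norm, dist_comm] at this
        linarith
      have hxR1 : ‖x‖ ≤ R + 1 := by linarith
      have e1 := hlow x hxR1 (σ x) (σ x') (hN x) (hN x')
      have m0 : ∀ y : E, ‖y‖ ≤ R + 1 → y ∈ Metric.closedBall (0 : E) ρ := by
        intro y hy
        have := hmemB y 0 hy (by simp)
        simpa using this
      have e2 : |u (x + σ x' • e) - u (x' + σ x' • e)| ≤ L * dist x x' := by
        have := hL.dist_le_mul _ (hmemB x (σ x') hxR1 (hN x')) _ (hmemB x' (σ x') hx'R (hN x'))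
        rw [Real.dist_eq] at this
        simpa using this
      have e3 : |u x' - u x| ≤ L * dist x x' := by
        have := hL.dist_le_mul _ (m0 x' hx'R) _ (m0 x hxR1)
        rw [Real.dist_eq, dist_comm x' x] at this
        exact this
      have e4 : |ψ x' - ψ x| ≤ Kψ * dist x x' := by
        have := hKψ.dist_le_mul x' x
        rw [Real.dist_eq, dist_comm x' x] at this
        exact this
      have e5 : u (x + σ x' • e) - u (x + σ x • e)
          = (u (x + σ x' • e) - u (x' + σ x' • e)) + (u x' - u x) + (ψ x' - ψ x) := by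
        rw [hσ x, hσ x']
        ring
      have e6 : c * |σ x' - σ x| ≤ (2 * L + Kψ) * dist x x' := by
        refine e1.trans ?_
        rw [e5]
        refine (abs_add_three _ _ _).trans ?_
        linarith
      have e7 : |σ x - σ x'| ≤ (2 * L + Kψ) / c * dist x x' := by
        rw [abs_sub_comm, div_mul_eq_mul_div, le_div_iff₀ hc0]
        linarith
      exact e7.trans (by gcongr; exact le_max_right _ _)
    · have hd' : 1 ≤ dist x x' := (not_le.1 hd).le
      have : |σ x - σ x'| ≤ 2 * N := by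
        have := abs_sub (σ x) (σ x')
        linarith [hN x, hN x']
      calc |σ x - σ x'| ≤ 2 * N := this
        _ = 2 * N * 1 := by ring
        _ ≤ C * dist x x' := by
          gcongr
          exact le_max_left _ _
  refine ⟨σ, ⟨⟨C.toNNReal, LipschitzWith.of_dist_le_mul fun x x' => ?_⟩, hσc⟩, hσ⟩
  rw [Real.dist_eq, Real.coe_toNNReal C hC0]
  by_cases hx : x ∈ tsupport ψ
  · exact key x hx x'
  · by_cases hx' : x' ∈ tsupport ψ
    · rw [abs_sub_comm, dist_comm]
      exact key x' hx' x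
    · rw [hσ0 x (image_eq_zero_of_notMem_tsupport hx),
        hσ0 x' (image_eq_zero_of_notMem_tsupport hx')]
      simp only [sub_self, abs_zero]
      positivity

/-! ### Monotone solutions with minimising limits are minimisers -/

/-- Minimality among the competitors strictly between the two limits
(Alberti--Ambrosio--Cabré, Theorem 4.4). -/
theorem dgm_min_between {u : E → ℝ} (hu : ContDiff ℝ 2 u)
    (hpde : ∀ x, Laplacian.laplacian u x = u x ^ 3 - u x) (e : E)
    (hmono : ∀ x, 0 < fderiv ℝ u x e) {am ap : E → ℝ}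
    (hlm : ∀ x, Tendsto (fun s : ℝ => u (x + s • e)) atBot (𝓝 (am x)))
    (hlp : ∀ x, Tendsto (fun s : ℝ => u (x + s • e)) atTop (𝓝 (ap x)))
    {ψ : E → ℝ} (hψ : DgmTest ψ) (h1 : ∀ x, am x < u x + ψ x) (h2 : ∀ x, u x + ψ x < ap x) :
    0 ≤ ∫ x, (dgmEn (u + ψ) x - dgmEn u x) := by
  obtain ⟨σ, hσ, hσe⟩ := dgm_exists_height (hu.of_le (by norm_num)) e hmono hlm hlp hψ h1 h2
  have : u + ψ = fun x => u (x + σ x • e) := by
    funext x
    simp [hσe]
  rw [this]
  exact dgm_field_ineq hu hpde e hσ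

theorem dgm_lt_limits {u : E → ℝ} (hu : Differentiable ℝ u) (e : E)
    (hmono : ∀ x, 0 < fderiv ℝ u x e) {am ap : E → ℝ}
    (hlm : ∀ x, Tendsto (fun s : ℝ => u (x + s • e)) atBot (𝓝 (am x)))
    (hlp : ∀ x, Tendsto (fun s : ℝ => u (x + s • e)) atTop (𝓝 (ap x))) (x : E) :
    am x < u x ∧ u x < ap x := by
  have hsm := dgm_line_strictMono hu e hmono x
  have h0 : u x = (fun r : ℝ => u (x + r • e)) 0 := by simp
  constructor
  · have h1 := hsm.monotone.le_of_tendsto (hlm x) (-1)
    have h2 := hsm (by norm_num : (-1 : ℝ) < 0)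
    rw [← h0] at h2
    exact lt_of_le_of_lt h1 h2
  · have h1 := hsm.monotone.ge_of_tendsto (hlp x) 1
    have h2 := hsm (by norm_num : (0 : ℝ) < 1)
    rw [← h0] at h2
    exact lt_of_lt_of_le h2 h1

/-- **Lemma 3.2 of the paper (minimising barriers).**  A solution that is strictly increasing
along `e` and whose two limits along `e` are `C^1` minimisers is a minimiser. -/
theorem dgm_min_of_monotone {u : E → ℝ} (hu : ContDiff ℝ 2 u)
    (hpde : ∀ x, Laplacian.laplacian u x = u x ^ 3 - u x) (e : E)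
    (hmono : ∀ x, 0 < fderiv ℝ u x e) {am ap : E → ℝ}
    (hlm : ∀ x, Tendsto (fun s : ℝ => u (x + s • e)) atBot (𝓝 (am x)))
    (hlp : ∀ x, Tendsto (fun s : ℝ => u (x + s • e)) atTop (𝓝 (ap x)))
    (ham : ContDiff ℝ 1 am) (hap : ContDiff ℝ 1 ap) (hminm : DgmMin am) (hminp : DgmMin ap) :
    DgmMin u := by
  intro ψ hψ
  have hu1 : ContDiff ℝ 1 u := hu.of_le (by norm_num)
  have hlt := dgm_lt_limits (hu.differentiable (by norm_num)) e hmono hlm hlp
  obtain ⟨hψ1, hle1⟩ := dgm_clip_below hu1 ham hminm (fun x => (hlt x).1) hψ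
  set ψ1 : E → ℝ := fun x => max (ψ x) (am x - u x) with hψ1def
  obtain ⟨hψ2, hle2⟩ := dgm_clip_above hu1 hap hminp (fun x => (hlt x).2) hψ1
  set ψ2 : E → ℝ := fun x => min (ψ1 x) (ap x - u x) with hψ2def
  have hlow : ∀ x, am x - u x ≤ ψ2 x := by
    intro x
    refine le_min (le_max_right _ _) ?_
    linarith [(hlt x).1, (hlt x).2]
  have hupp : ∀ x, ψ2 x ≤ ap x - u x := fun x => min_le_right _ _
  have h0 : 0 ≤ ∫ x, (dgmEn (u + ψ2) x - dgmEn u x) := by
    refine dgm_nonneg_of_forall_lt hu1 hψ2 fun t ht => ?_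
    refine dgm_min_between hu hpde e hmono hlm hlp (hψ2.smul t) (fun x => ?_) (fun x => ?_)
    · simp only [Pi.smul_apply, smul_eq_mul]
      have h3 : t * (am x - u x) ≤ t * ψ2 x := mul_le_mul_of_nonneg_left (hlow x) ht.1.le
      have h4 : 0 < (1 - t) * (u x - am x) :=
        mul_pos (by linarith [ht.2]) (by linarith [(hlt x).1])
      nlinarith
    · simp only [Pi.smul_apply, smul_eq_mul]
      have h3 : t * ψ2 x ≤ t * (ap x - u x) := mul_le_mul_of_nonneg_left (hupp x) ht.1.le
      have h4 : 0 < (1 - t) * (ap x - u x) :=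
        mul_pos (by linarith [ht.2]) (by linarith [(hlt x).2])
      nlinarith
  linarith

/-! ### From `C^1` perturbations to Lipschitz perturbations -/

open scoped Convolution

theorem dgm_test_of_contDiff {φ : E → ℝ} (hφ : ContDiff ℝ 1 φ) (hc : HasCompactSupport φ) :
    DgmTest φ :=
  ⟨hφ.lipschitzWith_of_hasCompactSupport hc one_ne_zero, hc⟩

/-- Minimality against `C^1` perturbations implies minimality against Lipschitz ones
(mollification; the mollifier calculus is `dg88_*` of `LipTest.lean`). -/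
theorem dgm_min_of_contDiff_class {a : E → ℝ} (ha : ContDiff ℝ 1 a)
    (h : ∀ φ : E → ℝ, ContDiff ℝ 1 φ → HasCompactSupport φ →
      0 ≤ ∫ x, (dgmEn (a + φ) x - dgmEn a x)) : DgmMin a := by
  classical
  intro φ hφt
  obtain ⟨⟨K, hφ⟩, hc⟩ := id hφt
  have had : Differentiable ℝ a := ha.differentiable (by norm_num)
  set μ : Measure E := volume with hμ
  set ρ : ℕ → ContDiffBump (0 : E) := fun k => dg88_bump k with hρ
  set ψ : ℕ → E → ℝ := fun k x => ∫ t, (ρ k).normed μ t • φ (x - t) ∂μ with hψ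
  set D : ℕ → E → (E →L[ℝ] ℝ) := fun k x => ∫ t, (ρ k).normed μ t • fderiv ℝ φ (x - t) ∂μ with hD
  have hconv : ∀ k, ψ k = ((ρ k).normed μ ⋆[ContinuousLinearMap.lsmul ℝ ℝ, μ] φ) := by
    intro k; funext x; simp [hψ, convolution_def]
  have hconvD : ∀ k, D k = ((ρ k).normed μ ⋆[ContinuousLinearMap.lsmul ℝ ℝ, μ] (fderiv ℝ φ)) := by
    intro k; funext x; simp [hD, convolution_def]
  have hder : ∀ k x, HasFDerivAt (ψ k) (D k x) x := fun k x => dg88_hasFDerivAt_moll μ (ρ k) hφ x
  have hfd : ∀ k x, fderiv ℝ (ψ k) x = D k x := fun k x => (hder k x).fderiv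
  have hsmooth : ∀ k, ContDiff ℝ 1 (ψ k) := by
    intro k
    rw [hconv k]
    exact (ρ k).hasCompactSupport_normed.contDiff_convolution_left _
      ((ρ k).contDiff_normed) hφ.continuous.locallyIntegrable
  have hsupp : ∀ k, HasCompactSupport (ψ k) := by
    intro k
    rw [hconv k]
    exact (ρ k).hasCompactSupport_normed.convolution _ hc
  obtain ⟨M, hM⟩ : ∃ M : ℝ, ∀ x, |φ x| ≤ M := by
    obtain ⟨C, hC⟩ := hφ.continuous.bounded_above_of_compact_support hc
    exact ⟨C, fun x => by simpa using hC x⟩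
  set S : Set E := Metric.cthickening 1 (tsupport φ) with hS
  have hScomp : IsCompact S := hc.isCompact.cthickening
  have hψ0 : ∀ k x, x ∉ S → ψ k x = 0 := by
    intro k x hx
    have : ∀ t, (ρ k).normed μ t • φ (x - t) = 0 := fun t =>
      dg88_moll_integrand_eq_zero μ (ρ k) (dg88_bump_rOut_le_one k)
        (fun y hy => image_eq_zero_of_notMem_tsupport hy) hx t
    simp only [hψ, this, integral_zero]
  have hD0 : ∀ k x, x ∉ S → D k x = 0 := by
    intro k x hx
    have : ∀ t, (ρ k).normed μ t • fderiv ℝ φ (x - t) = 0 := fun t =>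
      dg88_moll_integrand_eq_zero μ (ρ k) (dg88_bump_rOut_le_one k)
        (fun y hy => fderiv_of_notMem_tsupport ℝ hy) hx t
    simp only [hD, this, integral_zero]
  have hlim1 : ∀ x, Tendsto (fun k => ψ k x) atTop (𝓝 (φ x)) := by
    intro x
    have := ContDiffBump.convolution_tendsto_right_of_continuous (μ := μ) (φ := ρ)
      (l := atTop) dg88_bump_tendsto hφ.continuous x
    simpa [hconv] using this
  have hlocint : LocallyIntegrable (fderiv ℝ φ) μ := by
    refine (locallyIntegrable_const (K : ℝ)).mono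
      (measurable_fderiv ℝ φ).aestronglyMeasurable (Eventually.of_forall fun x => ?_)
    simpa using norm_fderiv_le_of_lipschitz ℝ hφ
  have hlim2 : ∀ᵐ x ∂μ, Tendsto (fun k => D k x) atTop (𝓝 (fderiv ℝ φ x)) := by
    have := ContDiffBump.ae_convolution_tendsto_right_of_locallyIntegrable (μ := μ) (φ := ρ)
      (l := atTop) (K := 2) dg88_bump_tendsto (Eventually.of_forall dg88_bump_ratio) hlocint
    filter_upwards [this] with x hx
    simpa [hconvD] using hx
  -- bounds on `S`
  obtain ⟨G, hG⟩ := hScomp.exists_bound_of_continuousOn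
    (ha.continuous_fderiv (by norm_num)).continuousOn
  obtain ⟨U, hU⟩ := hScomp.exists_bound_of_continuousOn ha.continuous.continuousOn
  set C : ℝ := (G + K) ^ 2 / 2 + (1 + (U + M) ^ 2) ^ 2 / 4 with hC
  have hen : ∀ k x, dgmEn (a + ψ k) x = ‖fderiv ℝ a x + D k x‖ ^ 2 / 2 + dgmW (a x + ψ k x) := by
    intro k x
    unfold dgmEn
    rw [fderiv_add (had x) (hder k x).differentiableAt, hfd]
    rfl
  have hbk : ∀ k, ∀ x ∈ S, dgmEn (a + ψ k) x ≤ C := by
    intro k x hx
    rw [hen]
    have h1 : ‖fderiv ℝ a x + D k x‖ ≤ G + K :=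
      (norm_add_le _ _).trans (add_le_add (hG x hx) (dg88_norm_moll_fderiv_le μ (ρ k) hφ x))
    have h2 : |a x + ψ k x| ≤ U + M :=
      (abs_add_le _ _).trans (add_le_add (hU x hx) (dg88_abs_moll_le μ (ρ k) hM x))
    have h3 := dgmW_le_of_abs_le h2
    have h4 : ‖fderiv ℝ a x + D k x‖ ^ 2 ≤ (G + K) ^ 2 := pow_le_pow_left₀ (norm_nonneg _) h1 2
    linarith
  have hb0 : ∀ x ∈ S, dgmEn a x ≤ C := by
    intro x hx
    unfold dgmEn
    have hM0 : 0 ≤ M := (abs_nonneg _).trans (hM 0)
    have h1 : ‖fderiv ℝ a x‖ ≤ G + K := (hG x hx).trans (by simp)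
    have h2 : |a x| ≤ U + M := (hU x hx).trans (by linarith)
    have h3 := dgmW_le_of_abs_le h2
    have h4 : ‖fderiv ℝ a x‖ ^ 2 ≤ (G + K) ^ 2 := pow_le_pow_left₀ (norm_nonneg _) h1 2
    linarith
  have hkey : Tendsto (fun k => ∫ x, (dgmEn (a + ψ k) x - dgmEn a x) ∂μ) atTop
      (𝓝 (∫ x, (dgmEn (a + φ) x - dgmEn a x) ∂μ)) := by
    refine tendsto_integral_of_dominated_convergence (S.indicator fun _ => C) ?_ ?_ ?_ ?_
    · intro k
      exact ((dgm_measurable_dgmEn (ha.continuous.add (hsmooth k).continuous)).sub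
        (dgm_measurable_dgmEn ha.continuous)).aestronglyMeasurable
    · exact (integrableOn_const (μ := μ) (s := S) (C := C)
        hScomp.measure_lt_top.ne).integrable_indicator hScomp.measurableSet
    · intro k
      refine Eventually.of_forall fun x => ?_
      by_cases hx : x ∈ S
      · rw [indicator_of_mem hx, Real.norm_eq_abs, abs_le]
        have := hbk k x hx
        have := hb0 x hx
        have := dgmEn_nonneg (a + ψ k) x
        have := dgmEn_nonneg a x
        constructor <;> linarith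
      · rw [indicator_of_notMem hx, hen, hD0 k x hx, hψ0 k x hx]
        simp [dgmEn]
    · filter_upwards [hlim2, hφt.ae_differentiableAt] with x hx hdx
      have e : dgmEn (a + φ) x = ‖fderiv ℝ a x + fderiv ℝ φ x‖ ^ 2 / 2 + dgmW (a x + φ x) := by
        unfold dgmEn
        rw [fderiv_add (had x) hdx]
        rfl
      rw [e]
      simp only [hen]
      have hWc : Continuous dgmW := by unfold dgmW; fun_prop
      have h1 : Tendsto (fun k => ‖fderiv ℝ a x + D k x‖ ^ 2 / 2) atTop
          (𝓝 (‖fderiv ℝ a x + fderiv ℝ φ x‖ ^ 2 / 2)) :=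
        (((tendsto_const_nhds.add hx).norm).pow 2).div_const 2
      have h2 : Tendsto (fun k => dgmW (a x + ψ k x)) atTop (𝓝 (dgmW (a x + φ x))) :=
        (hWc.tendsto _).comp (tendsto_const_nhds.add (hlim1 x))
      exact (h1.add h2).sub_const _
  exact ge_of_tendsto' hkey fun k => h (ψ k) (hsmooth k) (hsupp k)

/-! ### The bridge to the words of `Defs.lean` and of the Hub -/

theorem dgm_dens_eq {n : ℕ} (u : DgE n → ℝ) (x : DgE n) : dgDens n u x = dgmEn u x := rfl

theorem dgm_continuous_dgmEn {u : E → ℝ} (hu : ContDiff ℝ 1 u) : Continuous (dgmEn u) := by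
  have h1 : Continuous (fderiv ℝ u) := hu.continuous_fderiv (by norm_num)
  have h2 : Continuous u := hu.continuous
  unfold dgmEn dgmW
  fun_prop

/-- The global energy difference is the difference of the energies in any ball that contains the
support of the perturbation. -/
theorem dgm_integral_eq_sub {n : ℕ} {u φ : DgE n → ℝ} (hu : ContDiff ℝ 1 u) (hφ : DgmTest φ)
    {x₀ : DgE n} {R : ℝ} (hs : tsupport φ ⊆ Metric.ball x₀ R) :
    ∫ x, (dgmEn (u + φ) x - dgmEn u x) = dgEn n (fun x => u x + φ x) x₀ R - dgEn n u x₀ R := by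
  have hD := dgm_integrable_diff hu hφ
  have h1 : ∫ x, (dgmEn (u + φ) x - dgmEn u x)
      = ∫ x in Metric.ball x₀ R, (dgmEn (u + φ) x - dgmEn u x) := by
    refine (setIntegral_eq_integral_of_forall_compl_eq_zero fun x hx => ?_).symm
    rw [dgmEn_eq_of_notMem_tsupport (fun h => hx (hs h)), sub_self]
  have h2 : IntegrableOn (dgmEn u) (Metric.ball x₀ R) :=
    ((dgm_continuous_dgmEn hu).continuousOn.integrableOn_compact
      (isCompact_closedBall x₀ R)).mono_set Metric.ball_subset_closedBall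
  have h3 : IntegrableOn (dgmEn (u + φ)) (Metric.ball x₀ R) := by
    have := hD.integrableOn.add h2
    refine this.congr (Eventually.of_forall fun x => ?_)
    simp
  rw [h1, integral_sub h3 h2]
  rfl

theorem DgmMin.dgMin {n : ℕ} {u : DgE n → ℝ} (hu : ContDiff ℝ 1 u) (h : DgmMin u) : DgMin n u := by
  intro R φ hφ hc hs
  have h1 := h φ (dgm_test_of_contDiff hφ hc)
  rw [dgm_integral_eq_sub hu (dgm_test_of_contDiff hφ hc) hs] at h1
  linarith

theorem DgMin.dgmMin {n : ℕ} {u : DgE n → ℝ} (hu : ContDiff ℝ 1 u) (h : DgMin n u) : DgmMin u := by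
  refine dgm_min_of_contDiff_class hu fun φ hφ hc => ?_
  obtain ⟨R, hR⟩ := hc.isCompact.isBounded.subset_ball (0 : DgE n)
  rw [dgm_integral_eq_sub hu (dgm_test_of_contDiff hφ hc) hR]
  have := h R φ hφ hc hR
  linarith

/-- minimality in every ball against Lipschitz perturbations (the class of `Calib.lean`). -/
theorem DgmMin.ball_le {n : ℕ} {u : DgE n → ℝ} (hu : ContDiff ℝ 1 u) (h : DgmMin u) (x₀ : DgE n)
    (R : ℝ) (φ : DgE n → ℝ) (C : ℝ≥0) (hφ : LipschitzWith C φ) (hc : HasCompactSupport φ)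
    (hs : tsupport φ ⊆ Metric.ball x₀ R) : dgEn n u x₀ R ≤ dgEn n (fun x => u x + φ x) x₀ R := by
  have h1 := h φ ⟨⟨C, hφ⟩, hc⟩
  rw [dgm_integral_eq_sub hu ⟨⟨C, hφ⟩, hc⟩ hs] at h1
  linarith

/-- **Lemma 3.2 in the words of `Slide.lean` (`dgB2_min`).** -/
theorem dgm_B2_min {N : ℕ} {u am ap : DgE N → ℝ} (hu : DgSol N u) (e : DgE N)
    (hmono : ∀ x, 0 < fderiv ℝ u x e)
    (ham : ContDiff ℝ 1 am) (hap : ContDiff ℝ 1 ap) (hminm : DgMin N am) (hminp : DgMin N ap)
    (hlimm : ∀ x, Tendsto (fun t : ℝ => u (x + t • e)) atBot (𝓝 (am x)))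
    (hlimp : ∀ x, Tendsto (fun t : ℝ => u (x + t • e)) atTop (𝓝 (ap x))) :
    DgMin N u :=
  (dgm_min_of_monotone hu.smooth hu.pde e hmono hlimm hlimp ham hap (hminm.dgmMin ham)
    (hminp.dgmMin hap)).dgMin (hu.smooth.of_le (by norm_num))

theorem dgm_contDiff_init {n : ℕ} {v : DgE n → ℝ} (hv : ContDiff ℝ 1 v) :
    ContDiff ℝ 1 fun x : DgE (n + 1) => v (WithLp.toLp 2 fun i : Fin n => x i.castSucc) := by
  refine hv.comp ?_
  rw [contDiff_euclidean]
  intro i
  exact (EuclideanSpace.proj (i.castSucc) : DgE (n + 1) →L[ℝ] ℝ).contDiff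

/-- **Contract K4 of the Hub, verbatim** (`dgInit x` and `dgE8` written out). -/
theorem dgm_K4 {u : DgE 8 → ℝ} (hu : DgSol 8 u)
    (hmono : ∀ x, 0 < fderiv ℝ u x (EuclideanSpace.single 7 1)) {vm vp : DgE 7 → ℝ}
    (hvm : DgSol 7 vm) (hvp : DgSol 7 vp)
    (_hord : ∀ x : DgE 8, vm (WithLp.toLp 2 fun i : Fin 7 => x i.castSucc) < u x ∧
      u x < vp (WithLp.toLp 2 fun i : Fin 7 => x i.castSucc))
    (hp : ∀ K : Set (DgE 8), IsCompact K →
      TendstoUniformlyOn (fun (s : ℝ) x => u (x + s • (EuclideanSpace.single 7 1 : DgE 8)))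
        (fun x => vp (WithLp.toLp 2 fun i : Fin 7 => x i.castSucc)) atTop K)
    (hm : ∀ K : Set (DgE 8), IsCompact K →
      TendstoUniformlyOn (fun (s : ℝ) x => u (x + s • (EuclideanSpace.single 7 1 : DgE 8)))
        (fun x => vm (WithLp.toLp 2 fun i : Fin 7 => x i.castSucc)) atBot K)
    (hminm : DgMin 8 fun x : DgE 8 => vm (WithLp.toLp 2 fun i : Fin 7 => x i.castSucc))
    (hminp : DgMin 8 fun x : DgE 8 => vp (WithLp.toLp 2 fun i : Fin 7 => x i.castSucc)) :
    DgMin 8 u :=
  dgm_B2_min hu _ hmono (dgm_contDiff_init (hvm.smooth.of_le (by norm_num)))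
    (dgm_contDiff_init (hvp.smooth.of_le (by norm_num))) hminm hminp
    (fun x => (hm {x} isCompact_singleton).tendsto_at (mem_singleton x))
    (fun x => (hp {x} isCompact_singleton).tendsto_at (mem_singleton x))

end Claimed.Agent.R329
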