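import Claimed.Agent.R329.WeakForm
import Claimed.Agent.R329.Smp

/-!
# Row 329, post A5 (second pen helper98, prefix `dg98p_`): the `P`-function of Modica, pointwise part
-/

set_option autoImplicit false
set_option linter.unusedSectionVars false

open MeasureTheory InnerProductSpace Filter Topology

namespace Claimed.Agent.R329

variable {E : Type*} [NormedAddCommGroup E] [InnerProductSpace ℝ E] [FiniteDimensional ℝ E]

/-- the derivative of a directional derivative -/
theorem dg98p_fderiv_dir {w : E → ℝ} (hw : ContDiff ℝ 2 w) (a c x : E) :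
    fderiv ℝ (fun y => fderiv ℝ w y a) x c = fderiv ℝ (fderiv ℝ w) x c a := by
  have hd : DifferentiableAt ℝ (fderiv ℝ w) x :=
    ((hw.fderiv_right (m := 1) (by norm_num)).differentiable (by norm_num)) x
  have h := (hd.hasFDerivAt.clm_apply (hasFDerivAt_const a x)).fderiv
  rw [h]
  simp

/-- second directional derivatives commute -/
theorem dg98p_comm {w : E → ℝ} (hw : ContDiff ℝ 2 w) (a c x : E) :
    fderiv ℝ (fun y => fderiv ℝ w y a) x c = fderiv ℝ (fun y => fderiv ℝ w y c) x a := by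
  rw [dg98p_fderiv_dir hw, dg98p_fderiv_dir hw]
  exact (hw.contDiffAt.isSymmSndFDerivAt (by simp)) c a

theorem dg98p_contDiff_dir {w : E → ℝ} {k : ℕ} (hw : ContDiff ℝ (k + 1 : ℕ) w) (a : E) :
    ContDiff ℝ k (fun y => fderiv ℝ w y a) :=
  (hw.fderiv_right (m := k) (by norm_cast)).clm_apply contDiff_const

/-- the Laplacian commutes with directional derivatives on `C³` functions -/
theorem dg98p_laplacian_dir {v : E → ℝ} (hv : ContDiff ℝ 3 v) (a x : E) :
    Laplacian.laplacian (fun y => fderiv ℝ v y a) x = fderiv ℝ (Laplacian.laplacian v) x a := by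
  have hv2 : ContDiff ℝ 2 v := hv.of_le (by norm_num)
  have ha : ContDiff ℝ 2 (fun y => fderiv ℝ v y a) := dg98p_contDiff_dir (k := 2) hv a
  set b := stdOrthonormalBasis ℝ E
  have hL : Laplacian.laplacian v = fun y => ∑ i, fderiv ℝ (fun z => fderiv ℝ v z (b i)) y (b i) := by
    funext y
    exact dg98_laplacian_eq b hv2 y
  have hb : ∀ i, ContDiff ℝ 2 (fun z => fderiv ℝ v z (b i)) := fun i => dg98p_contDiff_dir (k := 2) hv (b i)
  have hbb : ∀ i, ContDiff ℝ 1 (fun y => fderiv ℝ (fun z => fderiv ℝ v z (b i)) y (b i)) := fun i =>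
    dg98p_contDiff_dir (k := 1) (hb i) (b i)
  rw [dg98_laplacian_eq b ha, hL, fderiv_fun_sum (fun i _ => ((hbb i).differentiable (by norm_num)) x)]
  simp only [_root_.sum_apply]
  refine Finset.sum_congr rfl fun i _ => ?_
  have e1 : (fun y => fderiv ℝ (fun z => fderiv ℝ v z a) y (b i)) =
      fun y => fderiv ℝ (fun z => fderiv ℝ v z (b i)) y a := by
    funext y
    exact dg98p_comm hv2 a (b i) y
  rw [e1]
  exact dg98p_comm (hb i) a (b i) x

/-- **The linearised equation**: each directional derivative of a `C³` solution solves `Δ w = (3 v² - 1) w`. -/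
theorem dg98p_linearised {v : E → ℝ} (hv : ContDiff ℝ 3 v)
    (hpde : ∀ x, Laplacian.laplacian v x = v x ^ 3 - v x) (a x : E) :
    Laplacian.laplacian (fun y => fderiv ℝ v y a) x = (3 * v x ^ 2 - 1) * fderiv ℝ v x a := by
  have hd : DifferentiableAt ℝ v x := (hv.differentiable (by norm_num)) x
  have hL : Laplacian.laplacian v = fun y => v y ^ 3 - v y := funext hpde
  rw [dg98p_laplacian_dir hv, hL]
  have h1 : HasFDerivAt (fun y => v y ^ 3 - v y) _ x := (hd.hasFDerivAt.pow 3).sub hd.hasFDerivAt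
  rw [h1.fderiv]
  simp
  ring

/-! ## The `P`-function -/

/-- Modica's `P`-function `|∇v|²/2 - W(v)`. -/
noncomputable def dg98pP (v : E → ℝ) (x : E) : ℝ := ‖fderiv ℝ v x‖ ^ 2 / 2 - dgW (v x)

theorem dg98pP_eq {ι : Type*} [Fintype ι] (b : OrthonormalBasis ι ℝ E) (v : E → ℝ) :
    dg98pP v = fun x => (1 / 2 : ℝ) * (∑ i, (fderiv ℝ v x (b i)) ^ 2) - (1 / 4 : ℝ) * (1 - v x ^ 2) ^ 2 := by
  funext x
  rw [dg98pP, dg98_norm_sq_clm b, dgW]
  ring

theorem dg98pP_contDiff {v : E → ℝ} {k : ℕ} (hv : ContDiff ℝ (k + 1 : ℕ) v) :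
    ContDiff ℝ k (dg98pP v) := by
  rw [dg98pP_eq (stdOrthonormalBasis ℝ E)]
  have hv' : ContDiff ℝ k v := hv.of_le (by norm_cast; omega)
  exact (contDiff_const.mul (ContDiff.sum fun i _ => (dg98p_contDiff_dir hv _).pow 2)).sub
    (contDiff_const.mul ((contDiff_const.sub (hv'.pow 2)).pow 2))

/-- the first derivative of `P` -/
theorem dg98pP_fderiv {ι : Type*} [Fintype ι] (b : OrthonormalBasis ι ℝ E) {v : E → ℝ}
    (hv : ContDiff ℝ 2 v) (x c : E) :
    fderiv ℝ (dg98pP v) x c =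
      ∑ i, fderiv ℝ v x (b i) * fderiv ℝ (fun y => fderiv ℝ v y (b i)) x c -
        (v x ^ 3 - v x) * fderiv ℝ v x c := by
  have hd : DifferentiableAt ℝ v x := (hv.differentiable (by norm_num)) x
  have hi : ∀ i, HasFDerivAt (fun y => fderiv ℝ v y (b i))
      (fderiv ℝ (fun y => fderiv ℝ v y (b i)) x) x := fun i =>
    (((dg98_contDiff_fderiv_apply hv (b i)).differentiable (by norm_num)) x).hasFDerivAt
  have h : HasFDerivAt (fun x => (1 / 2 : ℝ) * (∑ i, (fderiv ℝ v x (b i)) ^ 2) -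
      (1 / 4 : ℝ) * (1 - v x ^ 2) ^ 2) _ x :=
    ((HasFDerivAt.fun_sum fun i _ => (hi i).pow 2).const_mul (1 / 2 : ℝ)).sub
      ((((hd.hasFDerivAt.pow 2).const_sub 1).pow 2).const_mul (1 / 4 : ℝ))
  rw [dg98pP_eq b, h.fderiv]
  simp [Finset.mul_sum]
  rw [sub_eq_add_neg]
  congr 1
  · exact Finset.sum_congr rfl fun i _ => by ring
  · ring

/-- the second derivative of `P` in a direction -/
theorem dg98pP_fderiv2 {ι : Type*} [Fintype ι] (b : OrthonormalBasis ι ℝ E) {v : E → ℝ}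
    (hv : ContDiff ℝ 3 v) (x c : E) :
    fderiv ℝ (fun y => fderiv ℝ (dg98pP v) y c) x c =
      ∑ i, ((fderiv ℝ (fun y => fderiv ℝ v y (b i)) x c) ^ 2 +
        fderiv ℝ v x (b i) *
          fderiv ℝ (fun z => fderiv ℝ (fun y => fderiv ℝ v y (b i)) z c) x c) -
        ((3 * v x ^ 2 - 1) * (fderiv ℝ v x c) ^ 2 +
          (v x ^ 3 - v x) * fderiv ℝ (fun y => fderiv ℝ v y c) x c) := by
  have hv2 : ContDiff ℝ 2 v := hv.of_le (by norm_num)
  have hd : HasFDerivAt v (fderiv ℝ v x) x := ((hv.differentiable (by norm_num)) x).hasFDerivAt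
  have hdir : ∀ a : E, HasFDerivAt (fun y => fderiv ℝ v y a)
      (fderiv ℝ (fun y => fderiv ℝ v y a) x) x := fun a =>
    (((dg98_contDiff_fderiv_apply hv2 a).differentiable (by norm_num)) x).hasFDerivAt
  have hdir2 : ∀ a : E, HasFDerivAt (fun z => fderiv ℝ (fun y => fderiv ℝ v y a) z c)
      (fderiv ℝ (fun z => fderiv ℝ (fun y => fderiv ℝ v y a) z c) x) x := fun a =>
    (((dg98_contDiff_fderiv_apply (dg98p_contDiff_dir (k := 2) hv a) c).differentiable
      (by norm_num)) x).hasFDerivAt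
  have e1 : (fun y => fderiv ℝ (dg98pP v) y c) = fun y =>
      ∑ i, fderiv ℝ v y (b i) * fderiv ℝ (fun z => fderiv ℝ v z (b i)) y c -
        (v y ^ 3 - v y) * fderiv ℝ v y c := by
    funext y
    exact dg98pP_fderiv b hv2 y c
  have h : HasFDerivAt (fun y =>
      ∑ i, fderiv ℝ v y (b i) * fderiv ℝ (fun z => fderiv ℝ v z (b i)) y c -
        (v y ^ 3 - v y) * fderiv ℝ v y c) _ x :=
    (HasFDerivAt.fun_sum fun i _ => (hdir (b i)).mul (hdir2 (b i))).sub
      (((hd.pow 3).sub hd).mul (hdir c))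
  rw [e1, h.fderiv]
  simp
  congr 1
  · exact Finset.sum_congr rfl fun i _ => by ring
  · ring

/-- **Bochner's identity for `P`**: `Δ P = |D²v|² - (v³ - v)²`. -/
theorem dg98pP_laplacian {ι : Type*} [Fintype ι] (b : OrthonormalBasis ι ℝ E) {v : E → ℝ}
    (hv : ContDiff ℝ 3 v) (hpde : ∀ x, Laplacian.laplacian v x = v x ^ 3 - v x) (x : E) :
    Laplacian.laplacian (dg98pP v) x =
      ∑ k, ∑ i, (fderiv ℝ (fun y => fderiv ℝ v y (b i)) x (b k)) ^ 2 - (v x ^ 3 - v x) ^ 2 := by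
  have hv2 : ContDiff ℝ 2 v := hv.of_le (by norm_num)
  rw [dg98_laplacian_eq b (dg98pP_contDiff (k := 2) hv) x]
  simp only [dg98pP_fderiv2 b hv]
  rw [Finset.sum_sub_distrib]
  simp only [Finset.sum_add_distrib]
  have h1 : ∑ k, ∑ i, fderiv ℝ v x (b i) *
      fderiv ℝ (fun z => fderiv ℝ (fun y => fderiv ℝ v y (b i)) z (b k)) x (b k) =
      ∑ k, (3 * v x ^ 2 - 1) * (fderiv ℝ v x (b k)) ^ 2 := by
    rw [Finset.sum_comm]
    refine Finset.sum_congr rfl fun i _ => ?_
    rw [← Finset.mul_sum, ← dg98_laplacian_eq b (dg98p_contDiff_dir (k := 2) hv (b i)) x,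
      dg98p_linearised hv hpde]
    ring
  have h2 : ∑ k, (v x ^ 3 - v x) * fderiv ℝ (fun y => fderiv ℝ v y (b k)) x (b k) =
      (v x ^ 3 - v x) ^ 2 := by
    rw [← Finset.mul_sum, ← dg98_laplacian_eq b hv2 x, hpde]
    ring
  rw [h1, h2]
  ring

/-- the value of a linear form on the gradient -/
theorem dg98p_apply_gradient {ι : Type*} [Fintype ι] (b : OrthonormalBasis ι ℝ E) (L : E →L[ℝ] ℝ)
    (v : E → ℝ) (x : E) :
    L (gradient v x) = ∑ k, L (b k) * fderiv ℝ v x (b k) := by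
  have h1 : gradient v x = ∑ k, (fderiv ℝ v x (b k)) • b k := by
    conv_lhs => rw [← b.sum_repr' (gradient v x)]
    refine Finset.sum_congr rfl fun k _ => ?_
    congr 1
    rw [gradient, real_inner_comm, InnerProductSpace.toDual_symm_apply]
  rw [h1, map_sum]
  refine Finset.sum_congr rfl fun k _ => ?_
  rw [map_smul, smul_eq_mul, mul_comm]

/-- **Modica's differential inequality**: `|∇v|² Δ P ≥ |∇P|² + 2 (v³ - v) ⟨∇v, ∇P⟩`. -/
theorem dg98pP_ineq {v : E → ℝ} (hv : ContDiff ℝ 3 v)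
    (hpde : ∀ x, Laplacian.laplacian v x = v x ^ 3 - v x) (x : E) :
    ‖fderiv ℝ (dg98pP v) x‖ ^ 2 + 2 * (v x ^ 3 - v x) * fderiv ℝ (dg98pP v) x (gradient v x) ≤
      ‖fderiv ℝ v x‖ ^ 2 * Laplacian.laplacian (dg98pP v) x := by
  have hv2 : ContDiff ℝ 2 v := hv.of_le (by norm_num)
  set b := stdOrthonormalBasis ℝ E
  rw [dg98pP_laplacian b hv hpde, dg98p_apply_gradient b, dg98_norm_sq_clm b, dg98_norm_sq_clm b]
  have hcs : ∀ k, (∑ i, fderiv ℝ v x (b i) * fderiv ℝ (fun y => fderiv ℝ v y (b i)) x (b k)) ^ 2 ≤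
      (∑ i, (fderiv ℝ v x (b i)) ^ 2) *
        ∑ i, (fderiv ℝ (fun y => fderiv ℝ v y (b i)) x (b k)) ^ 2 := fun k =>
    Finset.sum_mul_sq_le_sq_mul_sq _ _ _
  have hsum := Finset.sum_le_sum fun k (_ : k ∈ Finset.univ) => hcs k
  rw [← Finset.mul_sum] at hsum
  have e1 : ∀ k, ∑ i, fderiv ℝ v x (b i) * fderiv ℝ (fun y => fderiv ℝ v y (b i)) x (b k) =
      fderiv ℝ (dg98pP v) x (b k) + (v x ^ 3 - v x) * fderiv ℝ v x (b k) := fun k => by
    rw [dg98pP_fderiv b hv2]
    ring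
  simp only [e1] at hsum
  have e2 : ∑ k, (fderiv ℝ (dg98pP v) x (b k) + (v x ^ 3 - v x) * fderiv ℝ v x (b k)) ^ 2 =
      ∑ k, (fderiv ℝ (dg98pP v) x (b k)) ^ 2 +
        2 * (v x ^ 3 - v x) * ∑ k, fderiv ℝ (dg98pP v) x (b k) * fderiv ℝ v x (b k) +
        (v x ^ 3 - v x) ^ 2 * ∑ k, (fderiv ℝ v x (b k)) ^ 2 := by
    rw [Finset.mul_sum, Finset.mul_sum, ← Finset.sum_add_distrib, ← Finset.sum_add_distrib]
    exact Finset.sum_congr rfl fun k _ => by ring
  rw [e2] at hsum
  nlinarith [hsum]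

theorem dg98p_dgW_nonneg (s : ℝ) : 0 ≤ dgW s := by
  unfold dgW
  positivity

theorem dg98p_continuous_gradient {v : E → ℝ} (hv : ContDiff ℝ 1 v) : Continuous (gradient v) := by
  unfold gradient
  exact (LinearIsometryEquiv.continuous _).comp (hv.continuous_fderiv (by norm_num))

/-- **`P` has no positive global maximum** (strong maximum principle on balls inside `{∇v ≠ 0}`, the set `{P = max}` is open and
closed; then `|∇v|² ≥ 2 max P` everywhere, which a function with arbitrarily small gradients cannot satisfy). -/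
theorem dg98p_no_pos_max {v : E → ℝ} (hv : ContDiff ℝ 3 v)
    (hpde : ∀ x, Laplacian.laplacian v x = v x ^ 3 - v x)
    (hsmall : ∀ ε > 0, ∃ x, ‖fderiv ℝ v x‖ ≤ ε) {x₀ : E}
    (hmax : ∀ x, dg98pP v x ≤ dg98pP v x₀) : dg98pP v x₀ ≤ 0 := by
  by_contra hcon
  rw [not_le] at hcon
  have hv1 : ContDiff ℝ 1 v := hv.of_le (by norm_num)
  have hP2 : ContDiff ℝ 2 (dg98pP v) := dg98pP_contDiff (k := 2) hv
  have hcf : Continuous (fderiv ℝ v) := hv1.continuous_fderiv (by norm_num)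
  have hne : ∀ x, dg98pP v x = dg98pP v x₀ → fderiv ℝ v x ≠ 0 := by
    intro x hx h0
    have h1 : dg98pP v x = - dgW (v x) := by
      rw [dg98pP, h0]
      simp
    have h2 := dg98p_dgW_nonneg (v x)
    linarith
  have hclosed : IsClosed {x | dg98pP v x = dg98pP v x₀} :=
    isClosed_eq hP2.continuous continuous_const
  have hopen : IsOpen {x | dg98pP v x = dg98pP v x₀} := by
    rw [Metric.isOpen_iff]
    intro x hx
    have hU : IsOpen {y | fderiv ℝ v y ≠ 0} := isOpen_ne_fun hcf continuous_const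
    obtain ⟨r, hr, hball⟩ := Metric.isOpen_iff.1 hU x (hne x hx)
    refine ⟨r, hr, fun y hy => ?_⟩
    have hN : ∀ z ∈ Metric.ball x r, 0 < ‖fderiv ℝ v z‖ ^ 2 := fun z hz => by
      have := norm_pos_iff.2 (hball hz)
      positivity
    have hbc : ContinuousOn
        (fun z => (2 * (v z ^ 3 - v z) / ‖fderiv ℝ v z‖ ^ 2) • gradient v z) (Metric.ball x r) := by
      refine ContinuousOn.smul (ContinuousOn.div ?_ ?_ fun z hz => (hN z hz).ne') ?_
      · have : Continuous v := hv.continuous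
        fun_prop
      · exact (hcf.norm.pow 2).continuousOn
      · exact (dg98p_continuous_gradient hv1).continuousOn
    have key := dgA2_strong_max_drift_on (P := dg98pP v) Metric.isOpen_ball
      (convex_ball x r).isPreconnected
      (dgA2_locBdd_of_continuousOn_vec Metric.isOpen_ball hbc) hP2.contDiffOn
      (fun z hz => by
        have h1 := dg98pP_ineq hv hpde z
        have h2 := hN z hz
        rw [map_smul, smul_eq_mul, div_mul_eq_mul_div, div_le_iff₀ h2]
        nlinarith [sq_nonneg ‖fderiv ℝ (dg98pP v) z‖])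
      (Metric.mem_ball_self hr) (fun z _ => by
        have : dg98pP v x = dg98pP v x₀ := hx
        rw [this]
        exact hmax z)
    exact (key y hy).trans hx
  have huniv : {x | dg98pP v x = dg98pP v x₀} = Set.univ :=
    IsClopen.eq_univ ⟨hclosed, hopen⟩ ⟨x₀, rfl⟩
  obtain ⟨x, hx⟩ := hsmall (Real.sqrt (dg98pP v x₀)) (Real.sqrt_pos.2 hcon)
  have h1 : dg98pP v x = dg98pP v x₀ := by
    have : x ∈ {x | dg98pP v x = dg98pP v x₀} := by
      rw [huniv]
      trivial
    exact this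
  have h2 : ‖fderiv ℝ v x‖ ^ 2 ≤ dg98pP v x₀ := by
    calc ‖fderiv ℝ v x‖ ^ 2 ≤ (Real.sqrt (dg98pP v x₀)) ^ 2 :=
          pow_le_pow_left₀ (norm_nonneg _) hx 2
      _ = dg98pP v x₀ := Real.sq_sqrt hcon.le
  have h3 := dg98p_dgW_nonneg (v x)
  rw [dg98pP] at h1
  linarith

end Claimed.Agent.R329
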