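import Claimed.Agent.R329.Defs
import Claimed.Agent.R329.Reg

/-!
# Row 329, post A12 (helper248): the Sternberg-Zumbrun inequality.   Prefix `dgsz_` / `Dgsz`.

For a stable solution `u` of `Δ u = u³ - u` on `ℝⁿ` and every `η ∈ C¹_c`:
`∫ (|D²u|² - |∇|∇u||²) η² ≤ ∫ |∇u|² |∇η|²`.
Test function `√(|∇u|² + e) η` (which is `C¹`), then `e → 0` by monotonicity (no convergence theorem is needed).
The only input beyond `C²` is the weak form `DgszWeakLin` of the linearised equation `Δ u_k = (3u² - 1) u_k`;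
it is proved here for `u ∈ C³` (contract of A3 / A11).

Coordinates: `dgsz_p u k = ∂_k u`, `dgsz_pp u k j = ∂_j ∂_k u`, `dgsz_G = |∇u|²`, `dgsz_H = |D²u|²`,
`dgsz_B u j = (D²u ∇u)_j`, `dgsz_BB = |D²u ∇u|²`, `dgsz_curv = H - BB / G`.

Rigidity (`dgsz_oneD_of_curv_zero`): if the curvature density vanishes on `{∇u ≠ 0}` then `u` is one-dimensional.
Elementary proof: there `|∇u|² D²u = ∇u ⊗ D²u∇u`, so `∇u` is constant along every line orthogonal to it (clopen argument);
two non-parallel hyperplanes meet, hence all gradients are parallel.  No unique continuation.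
-/

set_option autoImplicit false
open MeasureTheory Metric Set Filter

namespace Claimed.Agent.R329

variable {n : ℕ}

/-- the `k`-th vector of the standard basis -/
noncomputable abbrev dgsz_e (k : Fin n) : DgE n := EuclideanSpace.single k (1 : ℝ)

/-- squared operator norm of a linear form = sum of the squares of its coordinates -/
theorem dgsz_norm_sq (L : DgE n →L[ℝ] ℝ) : ‖L‖ ^ 2 = ∑ k, (L (dgsz_e k)) ^ 2 := by
  have h1 : ‖L‖ = ‖(InnerProductSpace.toDual ℝ (DgE n)).symm L‖ := by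
    simp
  have h2 : ∀ k, L (dgsz_e k) = ((InnerProductSpace.toDual ℝ (DgE n)).symm L) k := by
    intro k
    have h := InnerProductSpace.toDual_symm_apply (𝕜 := ℝ) (E := DgE n) (x := dgsz_e k) (y := L)
    rw [EuclideanSpace.inner_single_right] at h
    simpa using h.symm
  rw [h1, EuclideanSpace.real_norm_sq_eq]
  simp [h2]

/-- first partial derivative -/
noncomputable def dgsz_p (u : DgE n → ℝ) (k : Fin n) (x : DgE n) : ℝ := fderiv ℝ u x (dgsz_e k)

/-- second partial derivative `∂_j ∂_k u` -/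
noncomputable def dgsz_pp (u : DgE n → ℝ) (k j : Fin n) (x : DgE n) : ℝ :=
  fderiv ℝ (dgsz_p u k) x (dgsz_e j)

theorem dgsz_p_contDiff {u : DgE n → ℝ} {m : ℕ} (hu : ContDiff ℝ (m + 1) u) (k : Fin n) :
    ContDiff ℝ m (dgsz_p u k) := by
  unfold dgsz_p
  have h : ContDiff ℝ m (fderiv ℝ u) := hu.fderiv_right (by norm_cast)
  exact h.clm_apply contDiff_const

theorem dgsz_pp_continuous {u : DgE n → ℝ} (hu : ContDiff ℝ 2 u) (k j : Fin n) :
    Continuous (dgsz_pp u k j) := by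
  unfold dgsz_pp
  have h : ContDiff ℝ 1 (dgsz_p u k) := dgsz_p_contDiff (m := 1) (by exact_mod_cast hu) k
  exact (h.continuous_fderiv (by norm_num)).clm_apply continuous_const

theorem dgsz_pp_eq {u : DgE n → ℝ} (hu : ContDiff ℝ 2 u) (k j : Fin n) (x : DgE n) :
    dgsz_pp u k j x = fderiv ℝ (fderiv ℝ u) x (dgsz_e j) (dgsz_e k) := by
  unfold dgsz_pp dgsz_p
  have h : DifferentiableAt ℝ (fderiv ℝ u) x :=
    ((hu.fderiv_right (m := 1) (by norm_num)).differentiable (by norm_num)) x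
  rw [fderiv_clm_apply h (differentiableAt_const _)]
  simp

theorem dgsz_pp_symm {u : DgE n → ℝ} (hu : ContDiff ℝ 2 u) (k j : Fin n) (x : DgE n) :
    dgsz_pp u k j x = dgsz_pp u j k x := by
  rw [dgsz_pp_eq hu, dgsz_pp_eq hu]
  exact (hu.contDiffAt.isSymmSndFDerivAt (by simp)) _ _

theorem dgsz_laplacian {u : DgE n → ℝ} (hu : ContDiff ℝ 2 u) (x : DgE n) :
    Laplacian.laplacian u x = ∑ j, dgsz_pp u j j x := by
  rw [InnerProductSpace.laplacian_eq_iteratedFDeriv_orthonormalBasis u (EuclideanSpace.basisFun (Fin n) ℝ)]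
  simp only [iteratedFDeriv_two_apply]
  refine Finset.sum_congr rfl fun j _ => ?_
  rw [dgsz_pp_eq hu]
  simp


/-- weak form of the linearised equation `Δ u_k = (3u² - 1) u_k` (tests `C¹` with compact support) -/
def DgszWeakLin (n : ℕ) (u : DgE n → ℝ) : Prop :=
  ∀ (k : Fin n) (ψ : DgE n → ℝ), ContDiff ℝ 1 ψ → HasCompactSupport ψ →
    ∫ x, ∑ j, dgsz_pp u k j x * dgsz_p ψ j x = - ∫ x, (3 * u x ^ 2 - 1) * dgsz_p u k x * ψ x

theorem dgsz_third_comm {u : DgE n → ℝ} (hu : ContDiff ℝ 3 u) (k j : Fin n) (x : DgE n) :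
    fderiv ℝ (dgsz_pp u k j) x (dgsz_e j) = fderiv ℝ (dgsz_pp u j j) x (dgsz_e k) := by
  have hu2 : ContDiff ℝ 2 u := hu.of_le (by norm_num)
  have hv : ContDiff ℝ 2 (dgsz_p u j) := dgsz_p_contDiff (m := 2) (by exact_mod_cast hu) j
  have h1 : dgsz_pp u k j = dgsz_p (dgsz_p u j) k := by
    funext y
    rw [dgsz_pp_symm hu2]
    rfl
  have h2 : dgsz_pp u j j = dgsz_p (dgsz_p u j) j := rfl
  rw [h1, h2]
  exact dgsz_pp_symm hv k j x

theorem dgsz_linearised {u : DgE n → ℝ} (hu : ContDiff ℝ 3 u)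
    (hpde : ∀ x, Laplacian.laplacian u x = u x ^ 3 - u x) (k : Fin n) (x : DgE n) :
    ∑ j, fderiv ℝ (dgsz_pp u k j) x (dgsz_e j) = (3 * u x ^ 2 - 1) * dgsz_p u k x := by
  have hu2 : ContDiff ℝ 2 u := hu.of_le (by norm_num)
  have hpp : ∀ j, ContDiff ℝ 1 (dgsz_pp u j j) := fun j =>
    dgsz_p_contDiff (m := 1) (dgsz_p_contDiff (m := 2) (by exact_mod_cast hu) j) j
  have h1 : (fun y => ∑ j, dgsz_pp u j j y) = fun y => u y ^ 3 - u y := by
    funext y
    rw [← dgsz_laplacian hu2, hpde]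
  have h2 : fderiv ℝ (fun y => ∑ j, dgsz_pp u j j y) x = ∑ j, fderiv ℝ (dgsz_pp u j j) x := by
    exact fderiv_fun_sum fun j _ => ((hpp j).differentiable (by norm_num)) x
  have hd : DifferentiableAt ℝ u x := (hu.differentiable (by norm_num)) x
  have h3 : fderiv ℝ (fun y => u y ^ 3 - u y) x = (3 * u x ^ 2) • fderiv ℝ u x - fderiv ℝ u x := by
    have := ((hd.hasFDerivAt.pow 3).fun_sub hd.hasFDerivAt).fderiv
    simpa using this
  calc ∑ j, fderiv ℝ (dgsz_pp u k j) x (dgsz_e j)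
      = ∑ j, fderiv ℝ (dgsz_pp u j j) x (dgsz_e k) :=
        Finset.sum_congr rfl fun j _ => dgsz_third_comm hu k j x
    _ = (fderiv ℝ (fun y => ∑ j, dgsz_pp u j j y) x) (dgsz_e k) := by
        rw [h2]; simp
    _ = (3 * u x ^ 2 - 1) * dgsz_p u k x := by
        rw [h1, h3]
        simp [dgsz_p]
        ring

theorem dgsz_weakLin_of_contDiff {u : DgE n → ℝ} (hu : ContDiff ℝ 3 u)
    (hpde : ∀ x, Laplacian.laplacian u x = u x ^ 3 - u x) : DgszWeakLin n u := by
  intro k ψ hψ hψc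
  have hu2 : ContDiff ℝ 2 u := hu.of_le (by norm_num)
  have hpp : ∀ j, ContDiff ℝ 1 (dgsz_pp u k j) := fun j =>
    dgsz_p_contDiff (m := 1) (dgsz_p_contDiff (m := 2) (by exact_mod_cast hu) k) j
  have hψ' : ∀ j, Continuous (dgsz_p ψ j) := fun j =>
    (dgsz_p_contDiff (m := 0) (by exact_mod_cast hψ) j).continuous
  have hψ'c : ∀ j, HasCompactSupport (dgsz_p ψ j) := fun j => by
    unfold dgsz_p
    exact (hψc.fderiv (𝕜 := ℝ)).comp_left (g := fun L : DgE n →L[ℝ] ℝ => L (dgsz_e j)) (by simp)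
  have hint1 : ∀ j, Integrable (fun x => dgsz_pp u k j x * dgsz_p ψ j x) := fun j =>
    (((hpp j).continuous).mul (hψ' j)).integrable_of_hasCompactSupport ((hψ'c j).mul_left)
  have hpp' : ∀ j, Continuous (fun x => fderiv ℝ (dgsz_pp u k j) x (dgsz_e j)) := fun j =>
    ((hpp j).continuous_fderiv (by norm_num)).clm_apply continuous_const
  have hint2 : ∀ j, Integrable (fun x => fderiv ℝ (dgsz_pp u k j) x (dgsz_e j) * ψ x) := fun j =>
    ((hpp' j).mul hψ.continuous).integrable_of_hasCompactSupport hψc.mul_left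
  have hint3 : ∀ j, Integrable (fun x => dgsz_pp u k j x * ψ x) := fun j =>
    (((hpp j).continuous).mul hψ.continuous).integrable_of_hasCompactSupport hψc.mul_left
  have hibp : ∀ j, ∫ x, dgsz_pp u k j x * dgsz_p ψ j x
      = - ∫ x, fderiv ℝ (dgsz_pp u k j) x (dgsz_e j) * ψ x := fun j =>
    integral_mul_fderiv_eq_neg_fderiv_mul_of_integrable (hint2 j) (hint1 j) (hint3 j)
      (fun x _ => ((hpp j).differentiable (by norm_num)) x)
      (fun x _ => (hψ.differentiable (by norm_num)) x)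
  rw [integral_finsetSum _ fun j _ => hint1 j]
  simp only [hibp]
  rw [Finset.sum_neg_distrib, ← integral_finsetSum _ fun j _ => hint2 j]
  congr 1
  refine integral_congr_ae (Eventually.of_forall fun x => ?_)
  simp only
  rw [← Finset.sum_mul, dgsz_linearised hu hpde]


/-! ### calculus of first partials -/

theorem dgsz_p_mul {f g : DgE n → ℝ} {x : DgE n} (hf : DifferentiableAt ℝ f x)
    (hg : DifferentiableAt ℝ g x) (j : Fin n) :
    dgsz_p (fun y => f y * g y) j x = dgsz_p f j x * g x + f x * dgsz_p g j x := by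
  unfold dgsz_p
  rw [fderiv_fun_mul hf hg]
  simp
  ring

theorem dgsz_p_sq {f : DgE n → ℝ} {x : DgE n} (hf : DifferentiableAt ℝ f x) (j : Fin n) :
    dgsz_p (fun y => f y ^ 2) j x = 2 * f x * dgsz_p f j x := by
  have : (fun y => f y ^ 2) = fun y => f y * f y := by funext y; ring
  rw [this, dgsz_p_mul hf hf]
  ring

theorem dgsz_p_sum {ι : Type*} (s : Finset ι) {f : ι → DgE n → ℝ} {x : DgE n}
    (hf : ∀ i ∈ s, DifferentiableAt ℝ (f i) x) (j : Fin n) :
    dgsz_p (fun y => ∑ i ∈ s, f i y) j x = ∑ i ∈ s, dgsz_p (f i) j x := by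
  unfold dgsz_p
  rw [fderiv_fun_sum hf]
  simp

theorem dgsz_p_add_const {f : DgE n → ℝ} {x : DgE n} (c : ℝ) (j : Fin n) :
    dgsz_p (fun y => f y + c) j x = dgsz_p f j x := by
  unfold dgsz_p
  rw [fderiv_add_const]

theorem dgsz_p_sqrt {f : DgE n → ℝ} {x : DgE n} (hf : DifferentiableAt ℝ f x) (h0 : f x ≠ 0)
    (j : Fin n) : dgsz_p (fun y => √(f y)) j x = dgsz_p f j x / (2 * √(f x)) := by
  unfold dgsz_p
  rw [(hf.hasFDerivAt.sqrt h0).fderiv]
  simp
  ring

/-! ### the quantities of the inequality -/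

/-- `|∇u|²` in coordinates -/
noncomputable def dgsz_G (u : DgE n → ℝ) (x : DgE n) : ℝ := ∑ k, (dgsz_p u k x) ^ 2

/-- `|D²u|²` (Hilbert-Schmidt) -/
noncomputable def dgsz_H (u : DgE n → ℝ) (x : DgE n) : ℝ := ∑ k, ∑ j, (dgsz_pp u k j x) ^ 2

/-- the `j`-th coordinate of `D²u ∇u = ∇(|∇u|²/2)` -/
noncomputable def dgsz_B (u : DgE n → ℝ) (j : Fin n) (x : DgE n) : ℝ :=
  ∑ k, dgsz_p u k x * dgsz_pp u k j x

/-- `|D²u ∇u|²` -/
noncomputable def dgsz_BB (u : DgE n → ℝ) (x : DgE n) : ℝ := ∑ j, (dgsz_B u j x) ^ 2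

/-- the curvature density `𝒜²|∇u|² = |D²u|² - |∇|∇u||²`; at critical points of `u` it is `|D²u|²`
(division by zero). -/
noncomputable def dgsz_curv (u : DgE n → ℝ) (x : DgE n) : ℝ :=
  dgsz_H u x - dgsz_BB u x / dgsz_G u x

theorem dgsz_G_eq (u : DgE n → ℝ) (x : DgE n) : dgsz_G u x = ‖fderiv ℝ u x‖ ^ 2 := by
  rw [dgsz_norm_sq]; rfl

theorem dgsz_G_nonneg (u : DgE n → ℝ) (x : DgE n) : 0 ≤ dgsz_G u x :=
  Finset.sum_nonneg fun _ _ => sq_nonneg _

theorem dgsz_H_nonneg (u : DgE n → ℝ) (x : DgE n) : 0 ≤ dgsz_H u x :=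
  Finset.sum_nonneg fun _ _ => Finset.sum_nonneg fun _ _ => sq_nonneg _

theorem dgsz_BB_nonneg (u : DgE n → ℝ) (x : DgE n) : 0 ≤ dgsz_BB u x :=
  Finset.sum_nonneg fun _ _ => sq_nonneg _

/-- Cauchy-Schwarz: `|D²u ∇u|² ≤ |∇u|² |D²u|²` -/
theorem dgsz_BB_le (u : DgE n → ℝ) (x : DgE n) : dgsz_BB u x ≤ dgsz_G u x * dgsz_H u x := by
  unfold dgsz_BB dgsz_B dgsz_G dgsz_H
  calc ∑ j, (∑ k, dgsz_p u k x * dgsz_pp u k j x) ^ 2
      ≤ ∑ j, (∑ k, (dgsz_p u k x) ^ 2) * (∑ k, (dgsz_pp u k j x) ^ 2) :=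
        Finset.sum_le_sum fun j _ => Finset.sum_mul_sq_le_sq_mul_sq _ _ _
    _ = (∑ k, (dgsz_p u k x) ^ 2) * ∑ k, ∑ j, (dgsz_pp u k j x) ^ 2 := by
        rw [← Finset.mul_sum, Finset.sum_comm]

theorem dgsz_BB_div_le (u : DgE n → ℝ) (x : DgE n) {e : ℝ} (he : 0 ≤ e) :
    dgsz_BB u x / (dgsz_G u x + e) ≤ dgsz_H u x := by
  rcases eq_or_lt_of_le (add_nonneg (dgsz_G_nonneg u x) he) with h | h
  · rw [← h]; simpa using dgsz_H_nonneg u x
  · rw [div_le_iff₀ h]
    calc dgsz_BB u x ≤ dgsz_G u x * dgsz_H u x := dgsz_BB_le u x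
      _ ≤ dgsz_H u x * (dgsz_G u x + e) := by nlinarith [dgsz_H_nonneg u x]

theorem dgsz_curv_nonneg (u : DgE n → ℝ) (x : DgE n) : 0 ≤ dgsz_curv u x := by
  have := dgsz_BB_div_le u x (le_refl 0)
  unfold dgsz_curv
  simp only [add_zero] at this
  linarith

theorem dgsz_curv_le (u : DgE n → ℝ) (x : DgE n) : dgsz_curv u x ≤ dgsz_H u x := by
  unfold dgsz_curv
  have := div_nonneg (dgsz_BB_nonneg u x) (dgsz_G_nonneg u x)
  linarith

/-- the regularised curvature density dominates the true one -/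
theorem dgsz_curv_le_reg (u : DgE n → ℝ) (x : DgE n) {e : ℝ} (he : 0 < e) :
    dgsz_curv u x ≤ dgsz_H u x - dgsz_BB u x / (dgsz_G u x + e) := by
  unfold dgsz_curv
  have hG := dgsz_G_nonneg u x
  have hB := dgsz_BB_nonneg u x
  rcases eq_or_lt_of_le hG with h | h
  · have hBB : dgsz_BB u x = 0 := by
      have := dgsz_BB_le u x
      rw [← h] at this
      linarith
    simp [hBB]
  · have : dgsz_BB u x / (dgsz_G u x + e) ≤ dgsz_BB u x / dgsz_G u x :=
      div_le_div_of_nonneg_left hB h (by linarith)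
    linarith


/-! ### regularity of the quantities -/

theorem dgsz_p_continuous {u : DgE n → ℝ} (hu : ContDiff ℝ 1 u) (k : Fin n) :
    Continuous (dgsz_p u k) :=
  (dgsz_p_contDiff (m := 0) (by exact_mod_cast hu) k).continuous

theorem dgsz_G_continuous {u : DgE n → ℝ} (hu : ContDiff ℝ 1 u) : Continuous (dgsz_G u) := by
  unfold dgsz_G
  exact continuous_finsetSum _ fun k _ => (dgsz_p_continuous hu k).pow 2

theorem dgsz_G_contDiff {u : DgE n → ℝ} (hu : ContDiff ℝ 2 u) : ContDiff ℝ 1 (dgsz_G u) := by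
  unfold dgsz_G
  exact ContDiff.sum fun k _ => (dgsz_p_contDiff (m := 1) (by exact_mod_cast hu) k).pow 2

theorem dgsz_H_continuous {u : DgE n → ℝ} (hu : ContDiff ℝ 2 u) : Continuous (dgsz_H u) := by
  unfold dgsz_H
  exact continuous_finsetSum _ fun k _ => continuous_finsetSum _ fun j _ =>
    (dgsz_pp_continuous hu k j).pow 2

theorem dgsz_B_continuous {u : DgE n → ℝ} (hu : ContDiff ℝ 2 u) (j : Fin n) :
    Continuous (dgsz_B u j) := by
  unfold dgsz_B
  exact continuous_finsetSum _ fun k _ =>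
    (dgsz_p_continuous (hu.of_le (by norm_num)) k).mul (dgsz_pp_continuous hu k j)

theorem dgsz_BB_continuous {u : DgE n → ℝ} (hu : ContDiff ℝ 2 u) : Continuous (dgsz_BB u) := by
  unfold dgsz_BB
  exact continuous_finsetSum _ fun j _ => (dgsz_B_continuous hu j).pow 2

theorem dgsz_p_G {u : DgE n → ℝ} (hu : ContDiff ℝ 2 u) (j : Fin n) (x : DgE n) :
    dgsz_p (dgsz_G u) j x = 2 * dgsz_B u j x := by
  have hd : ∀ k, DifferentiableAt ℝ (dgsz_p u k) x := fun k =>
    ((dgsz_p_contDiff (m := 1) (by exact_mod_cast hu) k).differentiable (by norm_num)) x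
  unfold dgsz_G
  rw [dgsz_p_sum (f := fun k y => dgsz_p u k y ^ 2) _ fun k _ => (hd k).fun_pow 2]
  unfold dgsz_B
  rw [Finset.mul_sum]
  refine Finset.sum_congr rfl fun k _ => ?_
  rw [dgsz_p_sq (hd k)]
  have : dgsz_p (dgsz_p u k) j x = dgsz_pp u k j x := rfl
  rw [this]
  ring

theorem dgsz_integrable_of {f : DgE n → ℝ} (hf : Continuous f) {K : Set (DgE n)}
    (hK : IsCompact K) (h0 : ∀ x, x ∉ K → f x = 0) : Integrable f :=
  hf.integrable_of_hasCompactSupport (HasCompactSupport.intro hK h0)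

theorem dgsz_p_zero_of_notMem {η : DgE n → ℝ} {x : DgE n} (hx : x ∉ tsupport η) (j : Fin n) :
    dgsz_p η j x = 0 := by
  unfold dgsz_p
  rw [fderiv_of_notMem_tsupport (𝕜 := ℝ) hx]
  simp


/-! ### the two integral identities -/

/-- the linearised equation tested with `u_k η²`, summed over `k` -/
theorem dgsz_I1 {u : DgE n → ℝ} (hu : ContDiff ℝ 2 u) (hw : DgszWeakLin n u)
    {η : DgE n → ℝ} (hη : ContDiff ℝ 1 η) (hηc : HasCompactSupport η) :
    ∫ x, (dgsz_H u x * η x ^ 2 + ∑ j, 2 * η x * (dgsz_B u j x * dgsz_p η j x))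
      = - ∫ x, (3 * u x ^ 2 - 1) * dgsz_G u x * η x ^ 2 := by
  have hu1 : ContDiff ℝ 1 u := hu.of_le (by norm_num)
  have hp : ∀ k, ContDiff ℝ 1 (dgsz_p u k) := fun k =>
    dgsz_p_contDiff (m := 1) (by exact_mod_cast hu) k
  have hψ : ∀ k, ContDiff ℝ 1 (fun x => dgsz_p u k x * η x ^ 2) := fun k => (hp k).mul (hη.pow 2)
  have hψc : ∀ k, HasCompactSupport (fun x => dgsz_p u k x * η x ^ 2) := fun k =>
    HasCompactSupport.intro hηc (fun x hx => by simp [image_eq_zero_of_notMem_tsupport hx])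
  have hpψ : ∀ k j x, dgsz_p (fun x => dgsz_p u k x * η x ^ 2) j x
      = dgsz_pp u k j x * η x ^ 2 + dgsz_p u k x * (2 * η x * dgsz_p η j x) := by
    intro k j x
    have hdη : DifferentiableAt ℝ η x := (hη.differentiable (by norm_num)) x
    rw [dgsz_p_mul (((hp k).differentiable (by norm_num)) x) (hdη.fun_pow 2), dgsz_p_sq hdη]
    rfl
  have hint1 : ∀ k, Integrable (fun x => ∑ j, dgsz_pp u k j x
      * dgsz_p (fun x => dgsz_p u k x * η x ^ 2) j x) := fun k =>
    dgsz_integrable_of (continuous_finsetSum _ fun j _ =>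
      (dgsz_pp_continuous hu k j).mul (dgsz_p_continuous (hψ k) j)) (hψc k)
      (fun x hx => by simp [dgsz_p_zero_of_notMem hx])
  have hint2 : ∀ k, Integrable (fun x => (3 * u x ^ 2 - 1) * dgsz_p u k x
      * (dgsz_p u k x * η x ^ 2)) := fun k =>
    dgsz_integrable_of (by
      have := hu1.continuous
      have := (hp k).continuous
      have := hη.continuous
      fun_prop) hηc
      (fun x hx => by simp [image_eq_zero_of_notMem_tsupport hx])
  have hsum : ∑ k, ∫ x, ∑ j, dgsz_pp u k j x * dgsz_p (fun x => dgsz_p u k x * η x ^ 2) j x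
      = ∑ k, - ∫ x, (3 * u x ^ 2 - 1) * dgsz_p u k x * (dgsz_p u k x * η x ^ 2) :=
    Finset.sum_congr rfl fun k _ => hw k _ (hψ k) (hψc k)
  rw [← integral_finsetSum _ fun k _ => hint1 k, Finset.sum_neg_distrib,
    ← integral_finsetSum _ fun k _ => hint2 k] at hsum
  have e1 : ∀ x, (dgsz_H u x * η x ^ 2 + ∑ j, 2 * η x * (dgsz_B u j x * dgsz_p η j x))
      = ∑ k, ∑ j, dgsz_pp u k j x * dgsz_p (fun x => dgsz_p u k x * η x ^ 2) j x := by
    intro x
    simp only [hpψ, mul_add, Finset.sum_add_distrib]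
    congr 1
    · unfold dgsz_H
      rw [Finset.sum_mul]
      refine Finset.sum_congr rfl fun k _ => ?_
      rw [Finset.sum_mul]
      refine Finset.sum_congr rfl fun j _ => ?_
      ring
    · unfold dgsz_B
      rw [Finset.sum_comm]
      refine Finset.sum_congr rfl fun j _ => ?_
      rw [Finset.sum_mul, Finset.mul_sum]
      refine Finset.sum_congr rfl fun k _ => ?_
      ring
  have e2 : ∀ x, (3 * u x ^ 2 - 1) * dgsz_G u x * η x ^ 2
      = ∑ k, (3 * u x ^ 2 - 1) * dgsz_p u k x * (dgsz_p u k x * η x ^ 2) := by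
    intro x
    unfold dgsz_G
    rw [Finset.mul_sum, Finset.sum_mul]
    refine Finset.sum_congr rfl fun k _ => ?_
    ring
  simp only [e1, e2]
  exact hsum


theorem dgsz_alg (B s η q T : ℝ) (hs : s ≠ 0) (hT : s ^ 2 = T) :
    (B / s * η + s * q) ^ 2 = B ^ 2 / T * η ^ 2 + 2 * η * (B * q) + T * q ^ 2 := by
  subst hT
  field_simp
  ring

/-- stability tested with `√(|∇u|² + e) η` -/
theorem dgsz_I2 {u : DgE n → ℝ} (hu : ContDiff ℝ 2 u) (hst : DgStable n u)
    {η : DgE n → ℝ} (hη : ContDiff ℝ 1 η) (hηc : HasCompactSupport η) {e : ℝ} (he : 0 < e) :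
    0 ≤ ∫ x, (dgsz_BB u x / (dgsz_G u x + e) * η x ^ 2
      + (∑ j, 2 * η x * (dgsz_B u j x * dgsz_p η j x))
      + (dgsz_G u x + e) * dgsz_G η x + (3 * u x ^ 2 - 1) * (dgsz_G u x + e) * η x ^ 2) := by
  have hG : ContDiff ℝ 1 (dgsz_G u) := dgsz_G_contDiff hu
  have hpos : ∀ x, 0 < dgsz_G u x + e := fun x => by have := dgsz_G_nonneg u x; linarith
  have hw : ContDiff ℝ 1 (fun x => √(dgsz_G u x + e)) :=
    (hG.add contDiff_const).sqrt fun x => (hpos x).ne'
  have hφ : ContDiff ℝ 1 (fun x => √(dgsz_G u x + e) * η x) := hw.mul hη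
  have hφc : HasCompactSupport (fun x => √(dgsz_G u x + e) * η x) := hηc.mul_left
  have h := hst _ hφ hφc
  have hpt : ∀ x, ‖fderiv ℝ (fun x => √(dgsz_G u x + e) * η x) x‖ ^ 2
      + (3 * u x ^ 2 - 1) * (√(dgsz_G u x + e) * η x) ^ 2
      = dgsz_BB u x / (dgsz_G u x + e) * η x ^ 2
      + (∑ j, 2 * η x * (dgsz_B u j x * dgsz_p η j x))
      + (dgsz_G u x + e) * dgsz_G η x + (3 * u x ^ 2 - 1) * (dgsz_G u x + e) * η x ^ 2 := by
    intro x
    have hs2 : √(dgsz_G u x + e) ^ 2 = dgsz_G u x + e := Real.sq_sqrt (hpos x).le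
    have hs0 : √(dgsz_G u x + e) ≠ 0 := (Real.sqrt_pos.2 (hpos x)).ne'
    have hdη : DifferentiableAt ℝ η x := (hη.differentiable (by norm_num)) x
    have hdG : DifferentiableAt ℝ (fun y => dgsz_G u y + e) x :=
      ((hG.add contDiff_const).differentiable (by norm_num)) x
    have hpφ : ∀ j, dgsz_p (fun x => √(dgsz_G u x + e) * η x) j x
        = dgsz_B u j x / √(dgsz_G u x + e) * η x + √(dgsz_G u x + e) * dgsz_p η j x := by
      intro j
      rw [dgsz_p_mul ((hw.differentiable (by norm_num)) x) hdη,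
        dgsz_p_sqrt hdG (hpos x).ne', dgsz_p_add_const, dgsz_p_G hu]
      congr 2
      field_simp
    have hsq : ∀ j, (dgsz_B u j x / √(dgsz_G u x + e) * η x
        + √(dgsz_G u x + e) * dgsz_p η j x) ^ 2
        = (dgsz_B u j x) ^ 2 / (dgsz_G u x + e) * η x ^ 2
          + 2 * η x * (dgsz_B u j x * dgsz_p η j x)
          + (dgsz_G u x + e) * (dgsz_p η j x) ^ 2 := by
      intro j
      exact dgsz_alg _ _ _ _ _ hs0 hs2
    rw [dgsz_norm_sq]
    have : ∀ j, (fderiv ℝ (fun x => √(dgsz_G u x + e) * η x) x) (dgsz_e j)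
        = dgsz_p (fun x => √(dgsz_G u x + e) * η x) j x := fun j => rfl
    simp only [this, hpφ, hsq, Finset.sum_add_distrib]
    rw [mul_pow, hs2]
    unfold dgsz_BB dgsz_G
    rw [Finset.sum_div, Finset.sum_mul, Finset.mul_sum]
    ring
  simp only [hpt] at h
  exact h


/-- **regularised Sternberg-Zumbrun inequality** -/
theorem dgsz_reg {u : DgE n → ℝ} (hu : ContDiff ℝ 2 u) (hst : DgStable n u)
    (hw : DgszWeakLin n u) {η : DgE n → ℝ} (hη : ContDiff ℝ 1 η) (hηc : HasCompactSupport η)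
    {e : ℝ} (he : 0 < e) :
    ∫ x, (dgsz_H u x - dgsz_BB u x / (dgsz_G u x + e)) * η x ^ 2
      ≤ (∫ x, dgsz_G u x * dgsz_G η x)
        + e * ∫ x, (dgsz_G η x + (3 * u x ^ 2 - 1) * η x ^ 2) := by
  have hu1 : ContDiff ℝ 1 u := hu.of_le (by norm_num)
  have hpos : ∀ x, 0 < dgsz_G u x + e := fun x => by have := dgsz_G_nonneg u x; linarith
  have cu := hu1.continuous
  have cη := hη.continuous
  have cG := dgsz_G_continuous hu1
  have cGη := dgsz_G_continuous hη
  have cH := dgsz_H_continuous hu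
  have cBB := dgsz_BB_continuous hu
  have cB := fun j => dgsz_B_continuous hu j
  have cq := fun j => dgsz_p_continuous hη j
  have z1 : ∀ x, x ∉ tsupport η → η x = 0 := fun x hx => image_eq_zero_of_notMem_tsupport hx
  have z2 : ∀ x, x ∉ tsupport η → ∀ j, dgsz_p η j x = 0 := fun x hx j =>
    dgsz_p_zero_of_notMem hx j
  have z3 : ∀ x, x ∉ tsupport η → dgsz_G η x = 0 := fun x hx => by
    unfold dgsz_G; simp [z2 x hx]
  have i1 : Integrable (fun x => dgsz_BB u x / (dgsz_G u x + e) * η x ^ 2) :=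
    dgsz_integrable_of ((cBB.div (cG.add continuous_const) fun x => (hpos x).ne').mul (cη.pow 2))
      hηc (fun x hx => by simp [z1 x hx])
  have i2 : Integrable (fun x => ∑ j, 2 * η x * (dgsz_B u j x * dgsz_p η j x)) :=
    dgsz_integrable_of (continuous_finsetSum _ fun j _ =>
      (continuous_const.mul cη).mul ((cB j).mul (cq j))) hηc (fun x hx => by simp [z1 x hx])
  have i3 : Integrable (fun x => dgsz_G u x * dgsz_G η x) :=
    dgsz_integrable_of (cG.mul cGη) hηc (fun x hx => by simp [z3 x hx])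
  have i4 : Integrable (fun x => dgsz_G η x) :=
    dgsz_integrable_of cGη hηc (fun x hx => z3 x hx)
  have i5 : Integrable (fun x => (3 * u x ^ 2 - 1) * dgsz_G u x * η x ^ 2) :=
    dgsz_integrable_of (by fun_prop) hηc (fun x hx => by simp [z1 x hx])
  have i6 : Integrable (fun x => (3 * u x ^ 2 - 1) * η x ^ 2) :=
    dgsz_integrable_of (by fun_prop) hηc (fun x hx => by simp [z1 x hx])
  have i7 : Integrable (fun x => dgsz_H u x * η x ^ 2) :=
    dgsz_integrable_of (cH.mul (cη.pow 2)) hηc (fun x hx => by simp [z1 x hx])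
  have h1 := dgsz_I1 hu hw hη hηc
  have h2 := dgsz_I2 hu hst hη hηc he
  rw [integral_add i7 i2] at h1
  have e2 : ∀ x, dgsz_BB u x / (dgsz_G u x + e) * η x ^ 2
      + (∑ j, 2 * η x * (dgsz_B u j x * dgsz_p η j x))
      + (dgsz_G u x + e) * dgsz_G η x + (3 * u x ^ 2 - 1) * (dgsz_G u x + e) * η x ^ 2
      = dgsz_BB u x / (dgsz_G u x + e) * η x ^ 2
      + (∑ j, 2 * η x * (dgsz_B u j x * dgsz_p η j x))
      + dgsz_G u x * dgsz_G η x + (3 * u x ^ 2 - 1) * dgsz_G u x * η x ^ 2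
      + e * (dgsz_G η x + (3 * u x ^ 2 - 1) * η x ^ 2) := fun x => by ring
  simp only [e2] at h2
  have j12 : Integrable (fun x => dgsz_BB u x / (dgsz_G u x + e) * η x ^ 2
      + (∑ j, 2 * η x * (dgsz_B u j x * dgsz_p η j x))) := i1.add i2
  have j123 : Integrable (fun x => dgsz_BB u x / (dgsz_G u x + e) * η x ^ 2
      + (∑ j, 2 * η x * (dgsz_B u j x * dgsz_p η j x)) + dgsz_G u x * dgsz_G η x) := j12.add i3
  have j1235 : Integrable (fun x => dgsz_BB u x / (dgsz_G u x + e) * η x ^ 2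
      + (∑ j, 2 * η x * (dgsz_B u j x * dgsz_p η j x)) + dgsz_G u x * dgsz_G η x
      + (3 * u x ^ 2 - 1) * dgsz_G u x * η x ^ 2) := j123.add i5
  have j46 : Integrable (fun x => dgsz_G η x + (3 * u x ^ 2 - 1) * η x ^ 2) := i4.add i6
  have j46e : Integrable (fun x => e * (dgsz_G η x + (3 * u x ^ 2 - 1) * η x ^ 2)) :=
    j46.const_mul e
  rw [integral_add j1235 j46e, integral_add j123 i5, integral_add j12 i3, integral_add i1 i2,
    integral_const_mul] at h2
  have e3 : ∀ x, (dgsz_H u x - dgsz_BB u x / (dgsz_G u x + e)) * η x ^ 2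
      = dgsz_H u x * η x ^ 2 - dgsz_BB u x / (dgsz_G u x + e) * η x ^ 2 := fun x => by ring
  simp only [e3]
  rw [integral_sub i7 i1]
  linarith

/-- integrability of the curvature density against `η²` -/
theorem dgsz_curv_integrable {u : DgE n → ℝ} (hu : ContDiff ℝ 2 u)
    {η : DgE n → ℝ} (hη : Continuous η) (hηc : HasCompactSupport η) :
    Integrable (fun x => dgsz_curv u x * η x ^ 2) := by
  have hu1 : ContDiff ℝ 1 u := hu.of_le (by norm_num)
  have i7 : Integrable (fun x => dgsz_H u x * η x ^ 2) :=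
    dgsz_integrable_of ((dgsz_H_continuous hu).mul (hη.pow 2)) hηc
      (fun x hx => by simp [image_eq_zero_of_notMem_tsupport hx])
  refine i7.mono' ?_ (Eventually.of_forall fun x => ?_)
  · have m1 : Measurable (dgsz_curv u) := by
      unfold dgsz_curv
      exact (dgsz_H_continuous hu).measurable.sub
        ((dgsz_BB_continuous hu).measurable.div (dgsz_G_continuous hu1).measurable)
    exact (m1.mul (hη.measurable.pow_const 2)).aestronglyMeasurable
  · rw [Real.norm_eq_abs, abs_of_nonneg (mul_nonneg (dgsz_curv_nonneg u x) (sq_nonneg _))]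
    exact mul_le_mul_of_nonneg_right (dgsz_curv_le u x) (sq_nonneg _)

/-- **Sternberg-Zumbrun inequality**, from the weak linearised equation -/
theorem dgsz_sz_of_weakLin {u : DgE n → ℝ} (hu : ContDiff ℝ 2 u) (hst : DgStable n u)
    (hw : DgszWeakLin n u) {η : DgE n → ℝ} (hη : ContDiff ℝ 1 η) (hηc : HasCompactSupport η) :
    ∫ x, dgsz_curv u x * η x ^ 2 ≤ ∫ x, ‖fderiv ℝ u x‖ ^ 2 * ‖fderiv ℝ η x‖ ^ 2 := by
  have hu1 : ContDiff ℝ 1 u := hu.of_le (by norm_num)
  simp only [← dgsz_G_eq]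
  set K : ℝ := ∫ x, (dgsz_G η x + (3 * u x ^ 2 - 1) * η x ^ 2) with hK
  set b : ℝ := ∫ x, dgsz_G u x * dgsz_G η x with hb
  have key : ∀ e : ℝ, 0 < e → ∫ x, dgsz_curv u x * η x ^ 2 ≤ b + e * K := by
    intro e he
    have hpos : ∀ x, 0 < dgsz_G u x + e := fun x => by have := dgsz_G_nonneg u x; linarith
    refine le_trans (integral_mono (dgsz_curv_integrable hu hη.continuous hηc) ?_ fun x => ?_)
      (dgsz_reg hu hst hw hη hηc he)
    · exact dgsz_integrable_of (((dgsz_H_continuous hu).sub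
        ((dgsz_BB_continuous hu).div ((dgsz_G_continuous hu1).add continuous_const)
          fun x => (hpos x).ne')).mul (hη.continuous.pow 2)) hηc
        (fun x hx => by simp [image_eq_zero_of_notMem_tsupport hx])
    · exact mul_le_mul_of_nonneg_right (dgsz_curv_le_reg u x he) (sq_nonneg _)
  by_contra hcon
  rw [not_le] at hcon
  rcases le_or_gt K 0 with hK0 | hK0
  · have := key 1 one_pos
    nlinarith
  · have h := key (((∫ x, dgsz_curv u x * η x ^ 2) - b) / (2 * K))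
      (div_pos (by linarith) (by linarith))
    have h' : ((∫ x, dgsz_curv u x * η x ^ 2) - b) / (2 * K) * K
        = ((∫ x, dgsz_curv u x * η x ^ 2) - b) / 2 := by
      field_simp
    rw [h'] at h
    linarith


/-! ### rigidity: vanishing curvature density forces one-dimensional symmetry -/

theorem dgsz_clm_apply (L : DgE n →L[ℝ] ℝ) (b : DgE n) : L b = ∑ k, b k * L (dgsz_e k) := by
  have h := (EuclideanSpace.basisFun (Fin n) ℝ).sum_repr b
  conv_lhs => rw [← h]
  simp [map_sum]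

/-- pointwise rigidity: where `∇u ≠ 0` and the curvature density vanishes, `|∇u|² D²u = ∇u ⊗ D²u∇u` -/
theorem dgsz_rank_one {u : DgE n → ℝ} {x : DgE n} (hG : 0 < dgsz_G u x)
    (hc : dgsz_curv u x = 0) (k j : Fin n) :
    dgsz_G u x * dgsz_pp u k j x = dgsz_p u k x * dgsz_B u j x := by
  have h1 : dgsz_G u x * dgsz_H u x = dgsz_BB u x := by
    unfold dgsz_curv at hc
    have : dgsz_H u x = dgsz_BB u x / dgsz_G u x := by linarith
    rw [this]
    field_simp
  have h2 : ∑ k, ∑ j, (dgsz_G u x * dgsz_pp u k j x - dgsz_p u k x * dgsz_B u j x) ^ 2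
      = dgsz_G u x * (dgsz_G u x * dgsz_H u x - dgsz_BB u x) := by
    have e : ∀ k j, (dgsz_G u x * dgsz_pp u k j x - dgsz_p u k x * dgsz_B u j x) ^ 2
        = dgsz_G u x ^ 2 * (dgsz_pp u k j x) ^ 2
          - 2 * dgsz_G u x * (dgsz_B u j x * (dgsz_p u k x * dgsz_pp u k j x))
          + (dgsz_p u k x) ^ 2 * (dgsz_B u j x) ^ 2 := fun k j => by ring
    have e1 : ∑ k, ∑ j, dgsz_B u j x * (dgsz_p u k x * dgsz_pp u k j x) = dgsz_BB u x := by
      rw [Finset.sum_comm]
      unfold dgsz_BB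
      refine Finset.sum_congr rfl fun j _ => ?_
      rw [← Finset.mul_sum, sq]
      rfl
    have e2 : ∑ k, ∑ j, (dgsz_p u k x) ^ 2 * (dgsz_B u j x) ^ 2 = dgsz_G u x * dgsz_BB u x := by
      unfold dgsz_G dgsz_BB
      rw [Finset.sum_mul_sum]
    have e3 : ∑ k, ∑ j, dgsz_G u x ^ 2 * (dgsz_pp u k j x) ^ 2 = dgsz_G u x ^ 2 * dgsz_H u x := by
      unfold dgsz_H
      simp only [Finset.mul_sum]
    have e4 : ∑ k, ∑ j, 2 * dgsz_G u x * (dgsz_B u j x * (dgsz_p u k x * dgsz_pp u k j x))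
        = 2 * dgsz_G u x * dgsz_BB u x := by
      rw [← e1]
      simp only [Finset.mul_sum]
    simp only [e, Finset.sum_add_distrib, Finset.sum_sub_distrib, e2, e3, e4]
    ring
  rw [h1, sub_self, mul_zero] at h2
  have h3 := (Finset.sum_eq_zero_iff_of_nonneg
    (fun k _ => Finset.sum_nonneg fun j _ => sq_nonneg _)).1 h2 k (Finset.mem_univ k)
  have h4 := (Finset.sum_eq_zero_iff_of_nonneg (fun j _ => sq_nonneg _)).1 h3 j (Finset.mem_univ j)
  have h5 := pow_eq_zero_iff (two_ne_zero) |>.1 h4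
  linarith

theorem dgsz_hasDerivAt_line {f : DgE n → ℝ} (hf : Differentiable ℝ f) (x₀ b : DgE n) (t : ℝ) :
    HasDerivAt (fun t : ℝ => f (x₀ + t • b)) (∑ j, b j * dgsz_p f j (x₀ + t • b)) t := by
  have h1 : HasDerivAt (fun t : ℝ => x₀ + t • b) b t := by
    simpa using ((hasDerivAt_id t).smul_const b).const_add x₀
  have h2 := (hf (x₀ + t • b)).hasFDerivAt.comp_hasDerivAt t h1
  rw [dgsz_clm_apply] at h2
  exact h2


/-- along a line orthogonal to `∇u(x₀) ≠ 0` the gradient is constant -/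
theorem dgsz_const_on_line {u : DgE n → ℝ} (hu : ContDiff ℝ 2 u)
    (hc : ∀ x, 0 < dgsz_G u x → dgsz_curv u x = 0) (x₀ b : DgE n) (h0 : 0 < dgsz_G u x₀)
    (hb : ∑ k, b k * dgsz_p u k x₀ = 0) (t : ℝ) (k : Fin n) :
    dgsz_p u k (x₀ + t • b) = dgsz_p u k x₀ := by
  have hu1 : ContDiff ℝ 1 u := hu.of_le (by norm_num)
  have hp : ∀ k, ContDiff ℝ 1 (dgsz_p u k) := fun k =>
    dgsz_p_contDiff (m := 1) (by exact_mod_cast hu) k
  have hline : Continuous (fun t : ℝ => x₀ + t • b) := by fun_prop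
  -- derivatives along the line
  have hφ : ∀ k t, HasDerivAt (fun t : ℝ => dgsz_p u k (x₀ + t • b))
      (∑ j, b j * dgsz_pp u k j (x₀ + t • b)) t := fun k t =>
    dgsz_hasDerivAt_line ((hp k).differentiable (by norm_num)) x₀ b t
  have hs : ∀ t, HasDerivAt (fun t : ℝ => ∑ k, b k * dgsz_p u k (x₀ + t • b))
      (∑ k, b k * ∑ j, b j * dgsz_pp u k j (x₀ + t • b)) t := fun t =>
    HasDerivAt.fun_sum fun k _ => (hφ k t).const_mul (b k)
  have hΓ : ∀ t, HasDerivAt (fun t : ℝ => dgsz_G u (x₀ + t • b))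
      (∑ k, 2 * dgsz_p u k (x₀ + t • b) * ∑ j, b j * dgsz_pp u k j (x₀ + t • b)) t := fun t => by
    unfold dgsz_G
    refine HasDerivAt.fun_sum fun k _ => ?_
    simpa using (hφ k t).fun_pow 2
  -- algebra on the regular set
  have a1 : ∀ t : ℝ, 0 < dgsz_G u (x₀ + t • b) → ∀ k,
      dgsz_G u (x₀ + t • b) * ∑ j, b j * dgsz_pp u k j (x₀ + t • b)
        = dgsz_p u k (x₀ + t • b) * ∑ j, b j * dgsz_B u j (x₀ + t • b) := by
    intro t ht k
    rw [Finset.mul_sum, Finset.mul_sum]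
    refine Finset.sum_congr rfl fun j _ => ?_
    have := dgsz_rank_one ht (hc _ ht) k j
    linear_combination b j * this
  have a2 : ∀ t : ℝ, 0 < dgsz_G u (x₀ + t • b) → ∀ k,
      dgsz_G u (x₀ + t • b) * ∑ j, b j * dgsz_pp u k j (x₀ + t • b)
        = dgsz_B u k (x₀ + t • b) * ∑ j, b j * dgsz_p u j (x₀ + t • b) := by
    intro t ht k
    rw [Finset.mul_sum, Finset.mul_sum]
    refine Finset.sum_congr rfl fun j _ => ?_
    have := dgsz_rank_one ht (hc _ ht) j k
    rw [dgsz_pp_symm hu]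
    linear_combination b j * this
  -- the open sets
  set S : Set ℝ := {t : ℝ | 0 < dgsz_G u (x₀ + t • b)} with hS
  have hSo : IsOpen S := isOpen_lt continuous_const ((dgsz_G_continuous hu1).comp hline)
  set f : ℝ → ℝ := fun t => (∑ k, b k * dgsz_p u k (x₀ + t • b)) ^ 2 / dgsz_G u (x₀ + t • b) with hf
  have hf' : ∀ t ∈ S, HasDerivAt f 0 t := by
    intro t ht
    have hne : dgsz_G u (x₀ + t • b) ≠ 0 := ne_of_gt ht
    have h := ((hs t).fun_pow 2).fun_div (hΓ t) hne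
    refine h.congr_deriv ?_
    rw [div_eq_zero_iff]
    left
    have e1 : dgsz_G u (x₀ + t • b) * (∑ k, b k * ∑ j, b j * dgsz_pp u k j (x₀ + t • b))
        = (∑ k, b k * dgsz_p u k (x₀ + t • b)) * ∑ j, b j * dgsz_B u j (x₀ + t • b) := by
      rw [Finset.mul_sum, Finset.sum_mul]
      refine Finset.sum_congr rfl fun k _ => ?_
      linear_combination b k * a1 t ht k
    have e2 : dgsz_G u (x₀ + t • b)
        * (∑ k, 2 * dgsz_p u k (x₀ + t • b) * ∑ j, b j * dgsz_pp u k j (x₀ + t • b))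
        = dgsz_G u (x₀ + t • b) * (2 * ∑ j, b j * dgsz_B u j (x₀ + t • b)) := by
      rw [Finset.mul_sum]
      have : ∀ k, dgsz_G u (x₀ + t • b)
          * (2 * dgsz_p u k (x₀ + t • b) * ∑ j, b j * dgsz_pp u k j (x₀ + t • b))
          = (dgsz_p u k (x₀ + t • b)) ^ 2 * (2 * ∑ j, b j * dgsz_B u j (x₀ + t • b)) := fun k => by
        linear_combination 2 * dgsz_p u k (x₀ + t • b) * a1 t ht k
      simp only [this]
      rw [← Finset.sum_mul]
      rfl
    have e3 := mul_left_cancel₀ hne e2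
    rw [e3]
    simp only [Nat.cast_ofNat, Nat.add_one_sub_one, pow_one]
    linear_combination 2 * (∑ k, b k * dgsz_p u k (x₀ + t • b)) * e1
  have hS0o : IsOpen (S ∩ f ⁻¹' {0}) :=
    hSo.isOpen_inter_preimage_of_deriv_eq_zero
      (fun t ht => (hf' t ht).differentiableAt.differentiableWithinAt)
      (fun t ht => (hf' t ht).deriv) {0}
  have hφ0 : ∀ k, ∀ t ∈ S ∩ f ⁻¹' {0}, HasDerivAt (fun t : ℝ => dgsz_p u k (x₀ + t • b)) 0 t := by
    intro k t ht
    have htS : 0 < dgsz_G u (x₀ + t • b) := ht.1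
    have hs0 : ∑ k, b k * dgsz_p u k (x₀ + t • b) = 0 := by
      have h : f t = 0 := ht.2
      rw [hf] at h
      simp only [div_eq_zero_iff] at h
      rcases h with h | h
      · exact pow_eq_zero_iff (two_ne_zero) |>.1 h
      · exact absurd h htS.ne'
    have h := a2 t htS k
    rw [hs0, mul_zero] at h
    have h' : ∑ j, b j * dgsz_pp u k j (x₀ + t • b) = 0 := by
      rcases mul_eq_zero.1 h with h | h
      · exact absurd h htS.ne'
      · exact h
    have := hφ k t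
    rwa [h'] at this
  have hTk : ∀ k, IsOpen ((S ∩ f ⁻¹' {0}) ∩ (fun t : ℝ => dgsz_p u k (x₀ + t • b)) ⁻¹'
      {dgsz_p u k x₀}) := fun k =>
    hS0o.isOpen_inter_preimage_of_deriv_eq_zero
      (fun t ht => (hφ0 k t ht).differentiableAt.differentiableWithinAt)
      (fun t ht => (hφ0 k t ht).deriv) _
  set T : Set ℝ := {t : ℝ | ∀ k, dgsz_p u k (x₀ + t • b) = dgsz_p u k x₀} with hT
  have hTS : T ⊆ S ∩ f ⁻¹' {0} := by
    intro t ht
    have hG : dgsz_G u (x₀ + t • b) = dgsz_G u x₀ := by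
      unfold dgsz_G
      exact Finset.sum_congr rfl fun k _ => by rw [ht k]
    refine ⟨by show 0 < dgsz_G u (x₀ + t • b); rw [hG]; exact h0, ?_⟩
    show f t = 0
    rw [hf]
    have : ∑ k, b k * dgsz_p u k (x₀ + t • b) = 0 := by
      rw [← hb]
      exact Finset.sum_congr rfl fun k _ => by rw [ht k]
    simp [this]
  have hTeq : T = (S ∩ f ⁻¹' {0}) ∩ ⋂ k, ((S ∩ f ⁻¹' {0}) ∩
      (fun t : ℝ => dgsz_p u k (x₀ + t • b)) ⁻¹' {dgsz_p u k x₀}) := by
    ext t
    constructor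
    · intro ht
      exact ⟨hTS ht, mem_iInter.2 fun k => ⟨hTS ht, ht k⟩⟩
    · intro ht k
      exact (mem_iInter.1 ht.2 k).2
  have hTo : IsOpen T := by
    rw [hTeq]
    exact hS0o.inter (isOpen_iInter_of_finite hTk)
  have hTc : IsClosed T := by
    have : T = ⋂ k, {t : ℝ | dgsz_p u k (x₀ + t • b) = dgsz_p u k x₀} := by
      ext t; simp [hT]
    rw [this]
    exact isClosed_iInter fun k => isClosed_eq (((hp k).continuous).comp hline) continuous_const
  have hTu : T = univ := IsClopen.eq_univ ⟨hTc, hTo⟩ ⟨0, fun k => by simp⟩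
  have : t ∈ T := by rw [hTu]; exact mem_univ t
  exact this k


theorem dgsz_p_eq_zero_of_G {u : DgE n → ℝ} {x : DgE n} (h : dgsz_G u x = 0) (k : Fin n) :
    dgsz_p u k x = 0 := by
  have := (Finset.sum_eq_zero_iff_of_nonneg (fun k _ => sq_nonneg (dgsz_p u k x))).1 h k
    (Finset.mem_univ k)
  exact pow_eq_zero_iff (two_ne_zero) |>.1 this

/-- all gradients are parallel to one of them -/
theorem dgsz_parallel {u : DgE n → ℝ} (hu : ContDiff ℝ 2 u)
    (hc : ∀ x, 0 < dgsz_G u x → dgsz_curv u x = 0) (x₀ : DgE n) (h0 : 0 < dgsz_G u x₀)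
    (y₀ : DgE n) : ∃ c : ℝ, ∀ k, dgsz_p u k y₀ = c * dgsz_p u k x₀ := by
  rcases eq_or_lt_of_le (dgsz_G_nonneg u y₀) with hy | hy
  · exact ⟨0, fun k => by rw [dgsz_p_eq_zero_of_G hy.symm k, zero_mul]⟩
  set κ : ℝ := (∑ k, dgsz_p u k y₀ * dgsz_p u k x₀) / dgsz_G u x₀ with hκ
  set w : Fin n → ℝ := fun k => dgsz_p u k y₀ - κ * dgsz_p u k x₀ with hw
  by_cases hw0 : ∀ k, w k = 0
  · exact ⟨κ, fun k => by have := hw0 k; simp only [hw] at this; linarith⟩
  have hN : 0 < ∑ k, (w k) ^ 2 := by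
    rcases eq_or_lt_of_le (Finset.sum_nonneg fun k (_ : k ∈ Finset.univ) => sq_nonneg (w k))
      with h | h
    · exfalso
      apply hw0
      intro k
      have := (Finset.sum_eq_zero_iff_of_nonneg (fun k _ => sq_nonneg (w k))).1 h.symm k
        (Finset.mem_univ k)
      exact pow_eq_zero_iff (two_ne_zero) |>.1 this
    · exact h
  have hwπ : ∑ k, w k * dgsz_p u k x₀ = 0 := by
    have e : ∀ k, w k * dgsz_p u k x₀
        = dgsz_p u k y₀ * dgsz_p u k x₀ - κ * (dgsz_p u k x₀) ^ 2 := fun k => by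
      simp only [hw]; ring
    simp only [e, Finset.sum_sub_distrib, ← Finset.mul_sum]
    have : ∑ k, (dgsz_p u k x₀) ^ 2 = dgsz_G u x₀ := rfl
    rw [this, hκ]
    field_simp
    ring
  have hwρ : ∑ k, w k * dgsz_p u k y₀ = ∑ k, (w k) ^ 2 := by
    have e : ∀ k, w k * dgsz_p u k y₀ = (w k) ^ 2 + κ * (w k * dgsz_p u k x₀) := fun k => by
      simp only [hw]; ring
    simp only [e, Finset.sum_add_distrib, ← Finset.mul_sum, hwπ]
    ring
  set s : ℝ := (∑ k, (y₀ k - x₀ k) * dgsz_p u k y₀) / ∑ k, (w k) ^ 2 with hs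
  set W : DgE n := WithLp.toLp 2 w with hW
  have h1 := dgsz_const_on_line hu hc x₀ W h0 (by simpa [hW] using hwπ) s
  have hb' : ∑ k, (x₀ + s • W - y₀) k * dgsz_p u k y₀ = 0 := by
    have e : ∀ k, (x₀ + s • W - y₀) k * dgsz_p u k y₀
        = s * (w k * dgsz_p u k y₀) - (y₀ k - x₀ k) * dgsz_p u k y₀ := fun k => by
      simp [hW]; ring
    simp only [e, Finset.sum_sub_distrib, ← Finset.mul_sum, hwρ]
    rw [hs]
    field_simp
    ring
  have h2 := dgsz_const_on_line hu hc y₀ (x₀ + s • W - y₀) hy hb' 1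
  have hz : y₀ + (1 : ℝ) • (x₀ + s • W - y₀) = x₀ + s • W := by
    rw [one_smul]; abel
  rw [hz] at h2
  exact ⟨1, fun k => by rw [one_mul, ← h2 k, h1 k]⟩

/-! ## EXITS -/

/-- **EXIT (A12).** Sternberg-Zumbrun for a stable solution; `C³` is the contract of A3 (`Reg.lean`). -/
theorem dgsz_sternberg_zumbrun {u : DgE n → ℝ} (hu : DgSol n u) (hst : DgStable n u)
    (h3 : ContDiff ℝ 3 u) {η : DgE n → ℝ} (hη : ContDiff ℝ 1 η) (hηc : HasCompactSupport η) :
    ∫ x, dgsz_curv u x * η x ^ 2 ≤ ∫ x, ‖fderiv ℝ u x‖ ^ 2 * ‖fderiv ℝ η x‖ ^ 2 :=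
  dgsz_sz_of_weakLin hu.smooth hst (dgsz_weakLin_of_contDiff h3 hu.pde) hη hηc

/-- the weak linearised equation holds for every solution (regularity = A3, `dgA3_smooth`) -/
theorem dgsz_weakLin {u : DgE n → ℝ} (hu : DgSol n u) : DgszWeakLin n u :=
  dgsz_weakLin_of_contDiff ((dgA3_smooth hu.smooth hu.range hu.pde).of_le (by norm_cast)) hu.pde

/-- **EXIT (A12), unconditional.** Sternberg-Zumbrun: for a stable solution and every `η ∈ C¹_c`,
`∫ (|D²u|² - |∇|∇u||²) η² ≤ ∫ |∇u|² |∇η|²`. -/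
theorem dgsz_sz {u : DgE n → ℝ} (hu : DgSol n u) (hst : DgStable n u)
    {η : DgE n → ℝ} (hη : ContDiff ℝ 1 η) (hηc : HasCompactSupport η) :
    ∫ x, dgsz_curv u x * η x ^ 2 ≤ ∫ x, ‖fderiv ℝ u x‖ ^ 2 * ‖fderiv ℝ η x‖ ^ 2 :=
  dgsz_sz_of_weakLin hu.smooth hst (dgsz_weakLin hu) hη hηc

/-- **EXIT (rigidity).** If the curvature density vanishes wherever `∇u ≠ 0`, then `u` is a function of one
linear coordinate. -/
theorem dgsz_oneD_of_curv_zero (hn : 0 < n) {u : DgE n → ℝ} (hu : ContDiff ℝ 2 u)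
    (hc : ∀ x, fderiv ℝ u x ≠ 0 → dgsz_curv u x = 0) : DgOneD n u := by
  have hu1 : Differentiable ℝ u := hu.differentiable (by norm_num)
  have hc' : ∀ x, 0 < dgsz_G u x → dgsz_curv u x = 0 := by
    intro x hx
    apply hc
    intro h
    rw [dgsz_G_eq, h] at hx
    simp at hx
  by_cases hall : ∀ x, dgsz_G u x = 0
  · -- constant function
    have hd : ∀ x, fderiv ℝ u x = 0 := by
      intro x
      have := hall x
      rw [dgsz_G_eq] at this
      exact norm_eq_zero.1 (pow_eq_zero_iff (two_ne_zero) |>.1 this)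
    refine ⟨dgsz_e ⟨0, hn⟩, fun _ => u 0, by simp [dgsz_e], fun x => ?_⟩
    exact is_const_of_fderiv_eq_zero hu1 hd x 0
  · rw [not_forall] at hall
    obtain ⟨x₀, hx₀⟩ := hall
    have h0 : 0 < dgsz_G u x₀ := lt_of_le_of_ne (dgsz_G_nonneg u x₀) (Ne.symm hx₀)
    set r : ℝ := √(dgsz_G u x₀) with hr
    have hr0 : 0 < r := Real.sqrt_pos.2 h0
    have hr2 : r ^ 2 = dgsz_G u x₀ := Real.sq_sqrt h0.le
    set a : DgE n := WithLp.toLp 2 (fun k => dgsz_p u k x₀ / r) with ha
    have hak : ∀ k, a k = dgsz_p u k x₀ / r := fun k => rfl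
    have hnorm : ‖a‖ = 1 := by
      have : ‖a‖ ^ 2 = 1 := by
        rw [EuclideanSpace.real_norm_sq_eq]
        simp only [hak, div_pow, ← Finset.sum_div]
        have : ∑ k, (dgsz_p u k x₀) ^ 2 = dgsz_G u x₀ := rfl
        rw [this, hr2]
        exact div_self h0.ne'
      exact (pow_eq_one_iff_of_nonneg (norm_nonneg a) two_ne_zero).1 this
    refine ⟨a, fun t => u (t • a), hnorm, fun x => ?_⟩
    set τ : ℝ := inner ℝ a x with hτ
    have hτ' : τ * r = ∑ k, x k * dgsz_p u k x₀ := by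
      rw [hτ, PiLp.inner_apply, Finset.sum_mul]
      refine Finset.sum_congr rfl fun k _ => ?_
      simp only [hak, RCLike.inner_apply, conj_trivial]
      field_simp
    set b : DgE n := x - τ • a with hb
    have hbπ : ∑ j, b j * dgsz_p u j x₀ = 0 := by
      have e : ∀ j, b j * dgsz_p u j x₀
          = x j * dgsz_p u j x₀ - τ / r * (dgsz_p u j x₀) ^ 2 := fun j => by
        simp [hb, hak]; ring
      simp only [e, Finset.sum_sub_distrib, ← Finset.mul_sum]
      have : ∑ k, (dgsz_p u k x₀) ^ 2 = dgsz_G u x₀ := rfl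
      rw [this, ← hr2, ← hτ']
      field_simp
      ring
    have hψ : ∀ t : ℝ, HasDerivAt (fun t : ℝ => u (τ • a + t • b)) 0 t := by
      intro t
      obtain ⟨c, hcp⟩ := dgsz_parallel hu hc' x₀ h0 (τ • a + t • b)
      refine (dgsz_hasDerivAt_line hu1 (τ • a) b t).congr_deriv ?_
      have e : ∀ j, b j * dgsz_p u j (τ • a + t • b) = c * (b j * dgsz_p u j x₀) := fun j => by
        rw [hcp j]; ring
      simp only [e, ← Finset.mul_sum, hbπ, mul_zero]
    have h := is_const_of_deriv_eq_zero (fun t => (hψ t).differentiableAt)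
      (fun t => (hψ t).deriv) 1 0
    simp only [one_smul, zero_smul, add_zero] at h
    show u x = u (τ • a)
    rw [← h, hb]
    congr 1
    abel

end Claimed.Agent.R329
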