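import Claimed.Agent.R329.Defs
import Claimed.Agent.R329.LapApi
import Claimed.Agent.R329.Base258
import Claimed.Agent.R329.ExpDecay

/-!
# Row 329, cell C6, post P2 = B7.T (pen: helper169): `Tails.lean`, prefix `dgTa_`.   TAILS OFF THE INTERFACE.

Maximum principle only (second derivative test at an interior extremum of an explicit comparison): no compactness, no strong maximum
principle, no Harnack inequality, every dimension.   The exponential barrier itself is `ExpDecay.lean` (helper178, `dgX_`).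

* `dgTa_bump`  (T1): `u > 0` on `closedBall y R`  ⟹  `R² (1 - u(y)²) ≤ (n+2)²/2`   (`dgTa_bump'`: `1 - (n+2)²/(2R²) ≤ u(y)²`).
  Touch `u` from below by `ε (1 - |x-y|²/R²)²` (`1/ε` = the maximum of bump/`u` on the closed ball); at the contact point the
  second derivative test contradicts the equation unless `u` is already close to `1` there.
* `dgTa_three_quarters`, `dgTa_neg_three_quarters`: a sign on a ball of radius `2(n+2)` gives `±u ≥ 3/4` at the centre.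
* `dgTa_pos_tail` (T3): `u > 0` on `ball y R`  ⟹  `1 - u(y) ≤ C exp (-R)`.
* `dgTa_flat`: tails in a flat configuration (`3/4 ≤ u` below the slab `|⟪x-x₀,e⟫| ≤ h`, `u ≤ -3/4` above it, in `ball x₀ r`):
  at depth `s` off the slab and at distance `≥ s` from the sphere: `1 ∓ u`, `1-|u|`, `1-u²`, `|∇u| ≲ exp (-s)`,
  `W(u)`, `dgDens ≲ exp (-2s)`, ONE constant `C(n)`.
* `dgTa_dist`: the same with `s = infDist x {|u| ≤ 3/4}`.
-/

set_option autoImplicit false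
set_option linter.unusedSectionVars false
open scoped RealInnerProductSpace Gradient
open MeasureTheory Metric Set Filter Topology

namespace Claimed.Agent.R329

open Claimed.Agent.Lib.Ell

section General

variable {W : Type} [NormedAddCommGroup W] [InnerProductSpace ℝ W] [FiniteDimensional ℝ W]

/-- second derivative test for the Laplacian, minimum. -/
theorem dgTa_lap_nonneg {w : W → ℝ} {x : W} (hw : ContDiffAt ℝ 2 w x) (hmin : IsLocalMin w x) :
    0 ≤ Laplacian.laplacian w x := by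
  rw [dgL_lap_eq_sum (stdOrthonormalBasis ℝ W)]
  exact Finset.sum_nonneg fun i _ => ell_d2_nonneg_of_isLocalMin hw hmin _

/-- second derivative test for the Laplacian, maximum. -/
theorem dgTa_lap_nonpos {w : W → ℝ} {x : W} (hw : ContDiffAt ℝ 2 w x) (hmax : IsLocalMax w x) :
    Laplacian.laplacian w x ≤ 0 := by
  rw [dgL_lap_eq_sum (stdOrthonormalBasis ℝ W)]
  exact Finset.sum_nonpos fun i _ => ell_d2_nonpos_of_isLocalMax hw hmax _

theorem dgTa_hasFDerivAt_normSq (y x : W) :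
    HasFDerivAt (fun z : W => ‖z - y‖ ^ 2) ((2 : ℝ) • innerSL ℝ (x - y)) x := by
  have h1 : HasFDerivAt (fun z : W => ‖z - y‖ ^ 2)
      (2 • (innerSL ℝ (x - y)).comp (ContinuousLinearMap.id ℝ W)) x :=
    ((hasFDerivAt_id x).sub_const y).norm_sq
  convert h1 using 1
  ext h
  simp

theorem dgTa_contDiff_normSq (y : W) : ContDiff ℝ 2 (fun z : W => ‖z - y‖ ^ 2) :=
  (contDiff_id.sub contDiff_const).norm_sq ℝ

theorem dgTa_lap_normSq (y x : W) :
    Laplacian.laplacian (fun z : W => ‖z - y‖ ^ 2) x = 2 * (Module.finrank ℝ W : ℝ) := by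
  rw [dgL_lap_eq_sum (stdOrthonormalBasis ℝ W)]
  have h1 : fderiv ℝ (fun z : W => ‖z - y‖ ^ 2) = fun z => (2 : ℝ) • innerSL ℝ (z - y) := by
    funext z; exact (dgTa_hasFDerivAt_normSq y z).fderiv
  rw [h1]
  have h2 : HasFDerivAt (fun z : W => (2 : ℝ) • innerSL ℝ (z - y))
      ((2 : ℝ) • ((innerSL ℝ : W →L[ℝ] W →L[ℝ] ℝ))) x := by
    have h3 : HasFDerivAt (fun z : W => innerSL ℝ (z - y)) (innerSL ℝ : W →L[ℝ] W →L[ℝ] ℝ) x := by
      have h4 := ((innerSL ℝ : W →L[ℝ] W →L[ℝ] ℝ)).hasFDerivAt.comp x ((hasFDerivAt_id x).sub_const y)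
      have h5 : ((innerSL ℝ : W →L[ℝ] W →L[ℝ] ℝ)).comp (ContinuousLinearMap.id ℝ W) = innerSL ℝ := by
        ext; simp
      rw [h5] at h4
      exact h4
    exact h3.const_smul (2 : ℝ)
  rw [h2.fderiv]
  have h6 : ∀ i, ((2 : ℝ) • (innerSL ℝ : W →L[ℝ] W →L[ℝ] ℝ)) (stdOrthonormalBasis ℝ W i)
      (stdOrthonormalBasis ℝ W i) = 2 := fun i => by
    simp
  rw [Finset.sum_congr rfl fun i _ => h6 i]
  simp
  ring

theorem dgTa_normSq_fderiv_normSq (y x : W) :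
    ‖fderiv ℝ (fun z : W => ‖z - y‖ ^ 2) x‖ ^ 2 = 4 * ‖x - y‖ ^ 2 := by
  rw [(dgTa_hasFDerivAt_normSq y x).fderiv, norm_smul, innerSL_apply_norm]
  norm_num
  ring

/-- the bump `(1 - |x-y|²/R²)²`. -/
noncomputable def dgTa_phi (y : W) (R : ℝ) (z : W) : ℝ := (1 - ‖z - y‖ ^ 2 / R ^ 2) ^ 2

/-- the Laplacian of the bump `(1 - |x-y|²/R²)²`. -/
theorem dgTa_lap_bump (y x : W) (R : ℝ) :
    Laplacian.laplacian (dgTa_phi y R) x =
      8 * ‖x - y‖ ^ 2 / R ^ 4 - 4 * (Module.finrank ℝ W : ℝ) * (1 - ‖x - y‖ ^ 2 / R ^ 2) / R ^ 2 := by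
  have h0 : ∀ s : ℝ, HasDerivAt (fun s : ℝ => 1 - s / R ^ 2) (-(1 / R ^ 2)) s := fun s =>
    ((hasDerivAt_id s).div_const (R ^ 2)).const_sub 1
  have hf : ∀ s : ℝ, HasDerivAt (fun s : ℝ => (1 - s / R ^ 2) ^ 2) (-(2 * (1 - s / R ^ 2) / R ^ 2)) s := by
    intro s
    have h2 : HasDerivAt (fun s : ℝ => (1 - s / R ^ 2) * (1 - s / R ^ 2))
      (-(1 / R ^ 2) * (1 - s / R ^ 2) + (1 - s / R ^ 2) * -(1 / R ^ 2)) s := (h0 s).mul (h0 s)
    have e : (fun s : ℝ => (1 - s / R ^ 2) ^ 2) = fun s : ℝ => (1 - s / R ^ 2) * (1 - s / R ^ 2) := by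
      funext s; ring
    rw [e]
    exact h2.congr_deriv (by ring)
  have hf' : deriv (fun s : ℝ => (1 - s / R ^ 2) ^ 2) = fun s => -(2 * (1 - s / R ^ 2) / R ^ 2) := by
    funext s; exact (hf s).deriv
  have hf2 : ∀ s : ℝ, HasDerivAt (fun s : ℝ => -(2 * (1 - s / R ^ 2) / R ^ 2)) (2 / R ^ 4) s := by
    intro s
    have h2 : HasDerivAt (fun s : ℝ => (-(2 / R ^ 2)) * (1 - s / R ^ 2)) ((-(2 / R ^ 2)) * -(1 / R ^ 2)) s :=
      (h0 s).const_mul _
    have e : (fun s : ℝ => -(2 * (1 - s / R ^ 2) / R ^ 2)) = fun s : ℝ => (-(2 / R ^ 2)) * (1 - s / R ^ 2) := by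
      funext s; ring
    rw [e]
    exact h2.congr_deriv (by ring)
  have hc : ContDiff ℝ 2 (fun s : ℝ => (1 - s / R ^ 2) ^ 2) := by fun_prop
  have h := dgL_lap_comp (f := fun s : ℝ => (1 - s / R ^ 2) ^ 2) (u := fun z : W => ‖z - y‖ ^ 2) (x := x)
    hc.contDiffAt (dgTa_contDiff_normSq y).contDiffAt
  have e : dgTa_phi y R = fun z : W => (fun s : ℝ => (1 - s / R ^ 2) ^ 2) (‖z - y‖ ^ 2) := rfl
  rw [e, h, hf', (hf2 _).deriv, dgTa_normSq_fderiv_normSq, dgTa_lap_normSq]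
  ring

theorem dgTa_contDiff_bump (y : W) (R : ℝ) : ContDiff ℝ 2 (dgTa_phi y R) :=
  ((contDiff_const.sub ((dgTa_contDiff_normSq y).div_const _)).pow 2)

/-- the algebra of the contact point. -/
theorem dgTa_bump_alg {N R a ε t : ℝ} (hR : 0 < R) (ha : 0 < a) (hε : 0 < ε) (ht : t = ε * a ^ 2)
    (h : 0 ≤ t ^ 3 - t - ε * (8 * (R ^ 2 * (1 - a)) / R ^ 4 - 4 * N * a / R ^ 2)) :
    R ^ 2 * (1 - t ^ 2) ≤ (N + 2) ^ 2 / 2 := by
  have hR2 : 0 < R ^ 2 := by positivity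
  have e1 : 8 * (R ^ 2 * (1 - a)) / R ^ 4 - 4 * N * a / R ^ 2 = (8 * (1 - a) - 4 * N * a) / R ^ 2 := by
    field_simp
  rw [e1] at h
  have h1 : ε * (8 * (1 - a) - 4 * N * a) ≤ R ^ 2 * (t ^ 3 - t) := by
    have h2 : ε * ((8 * (1 - a) - 4 * N * a) / R ^ 2) ≤ t ^ 3 - t := by linarith
    have h3 : ε * ((8 * (1 - a) - 4 * N * a) / R ^ 2) * R ^ 2 ≤ (t ^ 3 - t) * R ^ 2 :=
      mul_le_mul_of_nonneg_right h2 hR2.le
    have h4 : ε * ((8 * (1 - a) - 4 * N * a) / R ^ 2) * R ^ 2 = ε * (8 * (1 - a) - 4 * N * a) := by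
      field_simp
    linarith
  -- divide by `ε`
  have h5 : 8 * (1 - a) - 4 * N * a ≤ - (R ^ 2 * (1 - t ^ 2)) * a ^ 2 := by
    have h6 : R ^ 2 * (t ^ 3 - t) = ε * (- (R ^ 2 * (1 - t ^ 2)) * a ^ 2) := by
      have : t ^ 3 - t = - (1 - t ^ 2) * t := by ring
      rw [this]
      conv_lhs => rw [show -(1 - t ^ 2) * t = -(1 - t ^ 2) * (ε * a ^ 2) by rw [← ht]]
      ring
    rw [h6] at h1
    exact le_of_mul_le_mul_left h1 hε
  set X := R ^ 2 * (1 - t ^ 2) with hX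
  -- `X a² ≤ c a - 8`, `c = 4N+8`;  `(c a - 16)² ≥ 0`
  have h7 : 32 * X * a ^ 2 ≤ (4 * N + 8) ^ 2 * a ^ 2 := by
    nlinarith [sq_nonneg ((4 * N + 8) * a - 16)]
  have h8 : 32 * X ≤ (4 * N + 8) ^ 2 := le_of_mul_le_mul_right h7 (by positivity)
  nlinarith

end General

section Sol

variable {n : ℕ}

/-- **T1 (bump).**  A solution which is positive on `closedBall y R` is close to `1` at the centre:
`R² (1 - u(y)²) ≤ (n+2)²/2`. -/
theorem dgTa_bump {u : DgE n → ℝ} (hu : DgSol n u) {y : DgE n} {R : ℝ} (hR : 0 < R)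
    (hpos : ∀ x ∈ closedBall y R, 0 < u x) : R ^ 2 * (1 - u y ^ 2) ≤ ((n : ℝ) + 2) ^ 2 / 2 := by
  set φ : DgE n → ℝ := dgTa_phi y R with hφ
  have hφc : ContDiff ℝ 2 φ := dgTa_contDiff_bump y R
  have huc : Continuous u := hu.smooth.continuous
  have hK : IsCompact (closedBall y R) := isCompact_closedBall y R
  have hyK : y ∈ closedBall y R := mem_closedBall_self hR.le
  have hR2 : 0 < R ^ 2 := by positivity
  have hg : ContinuousOn (fun x => φ x / u x) (closedBall y R) :=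
    hφc.continuous.continuousOn.div huc.continuousOn fun x hx => (hpos x hx).ne'
  obtain ⟨x₀, hx₀, hmax⟩ := hK.exists_isMaxOn ⟨y, hyK⟩ hg
  have hφy : φ y = 1 := by simp [hφ, dgTa_phi]
  have hu0 := hpos x₀ hx₀
  have hg0 : 0 < φ x₀ / u x₀ := by
    have h1 : φ y / u y ≤ φ x₀ / u x₀ := hmax hyK
    have h2 : 0 < φ y / u y := by rw [hφy]; exact one_div_pos.2 (hpos y hyK)
    linarith
  have hφ0 : 0 < φ x₀ := by
    have h1 : φ x₀ = φ x₀ / u x₀ * u x₀ := by field_simp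
    rw [h1]; positivity
  set a : ℝ := 1 - ‖x₀ - y‖ ^ 2 / R ^ 2 with ha
  have hφa : φ x₀ = a ^ 2 := rfl
  have hnorm : ‖x₀ - y‖ ≤ R := by simpa [dist_eq_norm] using hx₀
  have hN : ‖x₀ - y‖ ^ 2 = R ^ 2 * (1 - a) := by rw [ha]; field_simp; ring
  have ha0 : 0 ≤ a := by
    have h1 : ‖x₀ - y‖ ^ 2 ≤ R ^ 2 := pow_le_pow_left₀ (norm_nonneg _) hnorm 2
    rw [ha, sub_nonneg, div_le_one hR2]; exact h1
  have ha1 : a ≤ 1 := by
    have : 0 ≤ ‖x₀ - y‖ ^ 2 / R ^ 2 := by positivity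
    rw [ha]; linarith
  have hapos : 0 < a := by
    rcases ha0.lt_or_eq with h | h
    · exact h
    · rw [hφa, ← h] at hφ0; norm_num at hφ0
  have hball : x₀ ∈ ball y R := by
    rw [mem_ball, dist_eq_norm]
    have h1 : ‖x₀ - y‖ ^ 2 < R ^ 2 := by rw [hN]; nlinarith
    exact lt_of_pow_lt_pow_left₀ 2 hR.le h1
  set ε : ℝ := u x₀ / φ x₀ with hε
  have hεpos : 0 < ε := div_pos hu0 hφ0
  have hεφ : ε * φ x₀ = u x₀ := by rw [hε]; field_simp
  have hle : ∀ x ∈ closedBall y R, ε * φ x ≤ u x := by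
    intro x hx
    have h1 : φ x / u x ≤ φ x₀ / u x₀ := hmax hx
    rw [div_le_div_iff₀ (hpos x hx) hu0] at h1
    have h2 : ε * φ x = φ x * u x₀ / φ x₀ := by rw [hε]; ring
    rw [h2, div_le_iff₀ hφ0]
    linarith
  have hmin : IsLocalMin (fun x => u x - ε * φ x) x₀ := by
    have h0 : ∀ᶠ x in 𝓝 x₀, x ∈ ball y R := isOpen_ball.mem_nhds hball
    filter_upwards [h0] with x hx
    have h1 := hle x (ball_subset_closedBall hx)
    show u x₀ - ε * φ x₀ ≤ u x - ε * φ x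
    linarith
  have hεc : ContDiff ℝ 2 (fun x => ε * φ x) := contDiff_const.mul hφc
  have hlap := dgTa_lap_nonneg (hu.smooth.sub hεc).contDiffAt hmin
  rw [dgL_lap_sub hu.smooth.contDiffAt hεc.contDiffAt, dgL_lap_const_mul ε hφc.contDiffAt, hu.pde,
    hφ, dgTa_lap_bump, finrank_euclideanSpace_fin, ← ha, hN] at hlap
  have key := dgTa_bump_alg (N := (n : ℝ)) (t := u x₀) hR hapos hεpos (by rw [← hεφ, hφa]) hlap
  -- `u y ≥ ε ≥ u x₀ > 0`
  have h1 : ε ≤ u y := by have := hle y hyK; rwa [hφy, mul_one] at this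
  have h2 : u x₀ ≤ ε := by
    rw [← hεφ, hφa]
    have : a ^ 2 ≤ 1 := pow_le_one₀ ha0 ha1
    nlinarith
  have h3 : u x₀ ^ 2 ≤ u y ^ 2 := pow_le_pow_left₀ hu0.le (h2.trans h1) 2
  nlinarith

/-- T1 in the form of a lower bound. -/
theorem dgTa_bump' {u : DgE n → ℝ} (hu : DgSol n u) {y : DgE n} {R : ℝ} (hR : 0 < R)
    (hpos : ∀ x ∈ closedBall y R, 0 < u x) : 1 - ((n : ℝ) + 2) ^ 2 / (2 * R ^ 2) ≤ u y ^ 2 := by
  have h := dgTa_bump hu hR hpos
  have hR2 : 0 < R ^ 2 := by positivity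
  have h1 : ((n : ℝ) + 2) ^ 2 / (2 * R ^ 2) = ((n : ℝ) + 2) ^ 2 / 2 / R ^ 2 := by field_simp
  rw [h1, sub_le_comm, le_div_iff₀ hR2]
  linarith

/-- T1, explicit: positive on a ball of radius `2(n+2)` gives `u ≥ 3/4` at the centre. -/
theorem dgTa_three_quarters {u : DgE n → ℝ} (hu : DgSol n u) {y : DgE n} {R : ℝ} (hR : 2 * ((n : ℝ) + 2) ≤ R)
    (hpos : ∀ x ∈ closedBall y R, 0 < u x) : 3 / 4 ≤ u y := by
  have hn : (0 : ℝ) ≤ n := Nat.cast_nonneg n
  have hR0 : 0 < R := by linarith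
  have h := dgTa_bump hu hR0 hpos
  have hy : 0 < u y := hpos y (mem_closedBall_self hR0.le)
  have h1 : (2 * ((n : ℝ) + 2)) ^ 2 ≤ R ^ 2 := pow_le_pow_left₀ (by linarith) hR 2
  have h2 : 0 ≤ 1 - u y ^ 2 := by have := hu.dgL_sq_le y; linarith
  have h3 : (2 * ((n : ℝ) + 2)) ^ 2 * (1 - u y ^ 2) ≤ ((n : ℝ) + 2) ^ 2 / 2 :=
    (mul_le_mul_of_nonneg_right h1 h2).trans h
  have h4 : 0 < ((n : ℝ) + 2) ^ 2 := by positivity
  have h5 : 1 - u y ^ 2 ≤ 1 / 8 := by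
    have h6 : ((n : ℝ) + 2) ^ 2 * (4 * (1 - u y ^ 2)) ≤ ((n : ℝ) + 2) ^ 2 * (1 / 2) := by nlinarith
    have := le_of_mul_le_mul_left h6 h4
    linarith
  nlinarith

/-- mirror of `dgTa_three_quarters`. -/
theorem dgTa_neg_three_quarters {u : DgE n → ℝ} (hu : DgSol n u) {y : DgE n} {R : ℝ}
    (hR : 2 * ((n : ℝ) + 2) ≤ R) (hneg : ∀ x ∈ closedBall y R, u x < 0) : u y ≤ -(3 / 4) := by
  have := dgTa_three_quarters hu.dgL_neg hR (fun x hx => by have := hneg x hx; linarith)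
  linarith

/-- **T3.**  Positivity on a ball gives exponential closeness to `1` at the centre (rate `1`). -/
theorem dgTa_pos_tail (n : ℕ) : ∃ C : ℝ, 0 < C ∧ ∀ (u : DgE n → ℝ), DgSol n u → ∀ (y : DgE n) (R : ℝ),
    (∀ x ∈ ball y R, 0 < u x) → 1 - u y ≤ C * Real.exp (-R) := by
  obtain ⟨C, hC, h⟩ := dgX_one_sub_le n (θ := 3 / 4) (lam := 1) (by norm_num) one_pos (by norm_num)
  set R₀ : ℝ := 2 * ((n : ℝ) + 2) with hR₀
  have hn : (0 : ℝ) ≤ n := Nat.cast_nonneg n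
  refine ⟨(C + 2) * Real.exp (R₀ + 1), by positivity, fun u hu y R hpos => ?_⟩
  have hE : (C + 2) * Real.exp (R₀ + 1) * Real.exp (-R) = (C + 2) * Real.exp (-(R - (R₀ + 1))) := by
    rw [mul_assoc, ← Real.exp_add]; congr 2; ring
  rw [hE]
  rcases le_or_gt R (R₀ + 1) with hR | hR
  · have h1 : 1 ≤ Real.exp (-(R - (R₀ + 1))) := Real.one_le_exp (by linarith)
    have h2 := (hu.range y).1
    nlinarith
  · have hr : 0 < R - (R₀ + 1) := by linarith
    have h1 := h u hu y (R - (R₀ + 1)) hr (fun x hx => by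
      refine dgTa_three_quarters hu (R := R₀) le_rfl fun z hz => hpos z ?_
      rw [mem_ball] at hx ⊢
      rw [mem_closedBall] at hz
      have := dist_triangle z x y
      linarith)
    rw [one_mul] at h1
    have h2 : 0 < Real.exp (-(R - (R₀ + 1))) := Real.exp_pos _
    nlinarith

/-- **Tails in a flat configuration** (unscaled; `h` = half height of the slab, in the convention `u > 0` BELOW).
One constant `C = C(n)`; rate `1`.   `x` at depth `s` below (above) the slab and at distance `≥ s` from the sphere. -/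
theorem dgTa_flat (n : ℕ) : ∃ C : ℝ, 0 < C ∧ ∀ (u : DgE n → ℝ), DgSol n u → ∀ (x₀ e : DgE n) (r h : ℝ), ‖e‖ = 1 →
    (∀ x ∈ ball x₀ r, ⟪x - x₀, e⟫ < -h → 3 / 4 ≤ u x) → (∀ x ∈ ball x₀ r, h < ⟪x - x₀, e⟫ → u x ≤ -(3 / 4)) →
    ∀ (x : DgE n) (s : ℝ), 0 < s → ‖x - x₀‖ + s ≤ r → h + s ≤ |⟪x - x₀, e⟫| →
      (⟪x - x₀, e⟫ < 0 → 1 - u x ≤ C * Real.exp (-s)) ∧ (0 < ⟪x - x₀, e⟫ → 1 + u x ≤ C * Real.exp (-s)) ∧
      1 - |u x| ≤ C * Real.exp (-s) ∧
      1 - u x ^ 2 ≤ 2 * C * Real.exp (-s) ∧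
      ‖fderiv ℝ u x‖ ≤ Real.sqrt 2 * C * Real.exp (-s) ∧
      dgW (u x) ≤ C ^ 2 * Real.exp (-(2 * s)) ∧
      dgDens n u x ≤ 2 * C ^ 2 * Real.exp (-(2 * s)) := by
  obtain ⟨C₁, hC₁, h1⟩ := dgX_one_sub_le n (θ := 3 / 4) (lam := 1) (by norm_num) one_pos (by norm_num)
  obtain ⟨C₂, hC₂, h2⟩ := dgX_one_add_le n (θ := 3 / 4) (lam := 1) (by norm_num) one_pos (by norm_num)
  obtain ⟨C₃, hC₃, h3⟩ := dgX_all_le n (θ := 3 / 4) (lam := 1) (by norm_num) one_pos (by norm_num)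
  refine ⟨C₁ + C₂ + C₃, by positivity, fun u hu x₀ e r h he hbelow habove x s hs hxr hdepth => ?_⟩
  set a : ℝ := ⟪x - x₀, e⟫ with ha
  set C : ℝ := C₁ + C₂ + C₃ with hC
  have hE : 0 < Real.exp (-s) := Real.exp_pos _
  have hE2 : 0 < Real.exp (-(2 * s)) := Real.exp_pos _
  have hCC : C₃ ^ 2 ≤ C ^ 2 := pow_le_pow_left₀ hC₃.le (by rw [hC]; linarith) 2
  have hgeo : ∀ y ∈ ball x s, y ∈ ball x₀ r ∧ |⟪y - x₀, e⟫ - a| < s := by
    intro y hy
    rw [mem_ball, dist_eq_norm] at hy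
    refine ⟨?_, ?_⟩
    · rw [mem_ball, dist_eq_norm]
      have h4 : y - x₀ = (y - x) + (x - x₀) := by abel
      have h5 := norm_add_le (y - x) (x - x₀)
      rw [← h4] at h5
      linarith
    · have h4 : ⟪y - x₀, e⟫ - a = ⟪y - x, e⟫ := by
        rw [ha, ← inner_sub_left]; congr 1; abel
      rw [h4]
      have h5 := abs_real_inner_le_norm (y - x) e
      rw [he, mul_one] at h5
      linarith
  -- the common part, from a lower bound of `|u|` on `ball x s`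
  have hcommon : (∀ y ∈ ball x s, 3 / 4 ≤ |u y|) →
      1 - |u x| ≤ C * Real.exp (-s) ∧ 1 - u x ^ 2 ≤ 2 * C * Real.exp (-s) ∧
      ‖fderiv ℝ u x‖ ≤ Real.sqrt 2 * C * Real.exp (-s) ∧ dgW (u x) ≤ C ^ 2 * Real.exp (-(2 * s)) ∧
      dgDens n u x ≤ 2 * C ^ 2 * Real.exp (-(2 * s)) := by
    intro hθ
    obtain ⟨g1, g2, g3, g4, g5⟩ := h3 u hu x s hs hθ
    rw [one_mul] at g1 g2 g3
    rw [mul_one] at g4 g5
    have hle : C₃ ≤ C := by rw [hC]; linarith
    have hs2 : 0 < Real.sqrt 2 := dgL_sqrt2_pos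
    refine ⟨g1.trans (mul_le_mul_of_nonneg_right hle hE.le), g2.trans ?_, g3.trans ?_, g4.trans ?_, g5.trans ?_⟩
    · exact mul_le_mul_of_nonneg_right (by linarith) hE.le
    · exact mul_le_mul_of_nonneg_right (mul_le_mul_of_nonneg_left hle hs2.le) hE.le
    · exact mul_le_mul_of_nonneg_right hCC hE2.le
    · exact mul_le_mul_of_nonneg_right (by linarith) hE2.le
  rcases lt_trichotomy a 0 with h0 | h0 | h0
  · have hd : h + s ≤ -a := by rwa [abs_of_neg h0] at hdepth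
    have hθ : ∀ y ∈ ball x s, 3 / 4 ≤ u y := fun y hy => by
      obtain ⟨g1, g2⟩ := hgeo y hy
      exact hbelow y g1 (by have := (abs_lt.1 g2).2; linarith)
    refine ⟨fun _ => ?_, fun h' => absurd h' (not_lt.2 h0.le),
      hcommon fun y hy => (hθ y hy).trans (le_abs_self _)⟩
    have g := h1 u hu x s hs hθ
    rw [one_mul] at g
    exact g.trans (mul_le_mul_of_nonneg_right (by rw [hC]; linarith) hE.le)
  · exfalso
    have hd : h + s ≤ 0 := by rwa [h0, abs_zero] at hdepth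
    have hx : x ∈ ball x₀ r := (hgeo x (mem_ball_self hs)).1
    have g1 := hbelow x hx (by rw [← ha, h0]; linarith)
    have g2 := habove x hx (by rw [← ha, h0]; linarith)
    linarith
  · have hd : h + s ≤ a := by rwa [abs_of_pos h0] at hdepth
    have hθ : ∀ y ∈ ball x s, u y ≤ -(3 / 4) := fun y hy => by
      obtain ⟨g1, g2⟩ := hgeo y hy
      exact habove y g1 (by have := (abs_lt.1 g2).1; linarith)
    refine ⟨fun h' => absurd h' (not_lt.2 h0.le), fun _ => ?_,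
      hcommon fun y hy => by have := hθ y hy; have := neg_le_abs (u y); linarith⟩
    have g := h2 u hu x s hs hθ
    rw [one_mul] at g
    exact g.trans (mul_le_mul_of_nonneg_right (by rw [hC]; linarith) hE.le)

/-- **Tails, distance form.**  `I = {|u| ≤ 3/4}` the interface; everything decays like `exp (- dist (x, I))`. -/
theorem dgTa_dist (n : ℕ) : ∃ C : ℝ, 0 < C ∧ ∀ (u : DgE n → ℝ), DgSol n u → ∀ x : DgE n,
      1 - |u x| ≤ C * Real.exp (-(infDist x {y | |u y| ≤ 3 / 4})) ∧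
      1 - u x ^ 2 ≤ 2 * C * Real.exp (-(infDist x {y | |u y| ≤ 3 / 4})) ∧
      ‖fderiv ℝ u x‖ ≤ Real.sqrt 2 * C * Real.exp (-(infDist x {y | |u y| ≤ 3 / 4})) ∧
      dgW (u x) ≤ C ^ 2 * Real.exp (-(2 * infDist x {y | |u y| ≤ 3 / 4})) ∧
      dgDens n u x ≤ 2 * C ^ 2 * Real.exp (-(2 * infDist x {y | |u y| ≤ 3 / 4})) := by
  obtain ⟨C₃, hC₃, h3⟩ := dgX_all_le n (θ := 3 / 4) (lam := 1) (by norm_num) one_pos (by norm_num)
  refine ⟨C₃ + 1, by positivity, fun u hu x => ?_⟩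
  set d : ℝ := infDist x {y | |u y| ≤ 3 / 4} with hd
  set C : ℝ := C₃ + 1 with hC
  have hC1 : 1 ≤ C := by rw [hC]; linarith
  have hs2 : 0 < Real.sqrt 2 := dgL_sqrt2_pos
  have hE : 0 < Real.exp (-d) := Real.exp_pos _
  have hE2 : 0 < Real.exp (-(2 * d)) := Real.exp_pos _
  have hCC : C₃ ^ 2 ≤ C ^ 2 := pow_le_pow_left₀ hC₃.le (by rw [hC]; linarith) 2
  have hd0 : 0 ≤ d := infDist_nonneg
  rcases hd0.eq_or_lt with h0 | h0
  · rw [← h0]
    simp only [neg_zero, mul_zero, Real.exp_zero, mul_one]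
    have ha0 : 0 ≤ |u x| := abs_nonneg _
    have hq0 : 0 ≤ 1 - u x ^ 2 := by have := hu.dgL_sq_le x; linarith
    have hq1 : 1 - u x ^ 2 ≤ 1 := by nlinarith [sq_nonneg (u x)]
    have hW : dgW (u x) ≤ 1 / 4 := by unfold dgW; nlinarith
    have hC2 : 1 ≤ C ^ 2 := one_le_pow₀ hC1
    refine ⟨by linarith, by linarith, ?_, by linarith, ?_⟩
    · refine (dg258_exit_modica_norm hu x).trans ?_
      rw [div_le_iff₀ hs2]
      have := dgL_sqrt2_sq
      nlinarith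
    · have := dg258_exit_modica hu x
      unfold dgDens
      linarith
  · have hθ : ∀ y ∈ ball x d, 3 / 4 ≤ |u y| := by
      intro y hy
      by_contra hcon
      have hyI : y ∈ {y | |u y| ≤ 3 / 4} := le_of_lt (not_le.1 hcon)
      have h1 : d ≤ dist x y := infDist_le_dist_of_mem hyI
      rw [mem_ball, dist_comm] at hy
      linarith
    obtain ⟨g1, g2, g3, g4, g5⟩ := h3 u hu x d h0 hθ
    rw [one_mul] at g1 g2 g3
    rw [mul_one] at g4 g5
    have hle : C₃ ≤ C := by rw [hC]; linarith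
    refine ⟨g1.trans (mul_le_mul_of_nonneg_right hle hE.le), g2.trans ?_, g3.trans ?_, g4.trans ?_, g5.trans ?_⟩
    · exact mul_le_mul_of_nonneg_right (by linarith) hE.le
    · exact mul_le_mul_of_nonneg_right (mul_le_mul_of_nonneg_left hle hs2.le) hE.le
    · exact mul_le_mul_of_nonneg_right hCC hE2.le
    · exact mul_le_mul_of_nonneg_right (by linarith) hE2.le

end Sol

end Claimed.Agent.R329
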